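import Crest.Agent.R083.TreeDefs

/-!
Row 83 (S0111): the piecewise linear chart (definitions only).

`lev` is the level function on all of space; `modQ = {3/5 < lev < 1}`, `cellB = {lev < 1}`, the closed
children are `{lev ≤ 3/5, ± p 0 ≥ 0}`.
`phi b` is the chart with values in the closed box `bx b` (total, globally Lipschitz thanks to the
clamps, even in `p 2`), `theta b` its inverse (total, globally Lipschitz) with values in `{p 2 ≥ 0}`.
-/

set_option autoImplicit false

namespace Crest.Agent.R083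

open MeasureTheory Set Filter
open scoped Gradient ENNReal NNReal Topology

/-- Clamp of `lam * x` to `[x - t, x + t]`. For `0 ≤ t` and `0 < lam` the function `clp t lam` is
increasing with inverse `clp t lam⁻¹`. -/
noncomputable def clp (t lam x : ℝ) : ℝ := max (x - t) (min (x + t) (lam * x))

/-- Clamp to `[a, b]`. -/
noncomputable def clm (a b x : ℝ) : ℝ := max a (min b x)

noncomputable def d0 (x y : ℝ) : ℝ := max 0 (max (|x| - 1) (|y| - 3/5))

noncomputable def v0 (x y : ℝ) : ℝ := max 0 ((7/25 - |x|) - max 0 (|y| - 3/5))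

noncomputable def lv0 (p : E3) : ℝ := |p 2| + 5/2 * d0 (p 0) (p 1)

/-- The level function on all of space. -/
noncomputable def lev (p : E3) : ℝ :=
  lv0 p + min (5/2 * v0 (p 0) (p 1)) (max 0 (7/10 - 4/5 * lv0 p))

/-- Height (`p 2 ≥ 0`) from the horizontal coordinates and the level. -/
noncomputable def zlev (x y l : ℝ) : ℝ :=
  max (l - 5/2 * v0 x y) (min l (5 * l - 7/2)) - 5/2 * d0 x y

/-- The chart. -/
noncomputable def phi : Box → E3 → E3
  | Box.O => fun p =>
      pt (clm (-(32/25)) (32/25) (clp (2/5 * (clm (7/10) 1 (lev p) - 7/10)) (32/35) (p 0)))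
        (clm (-(22/25)) (22/25) (clp (2/5 * (clm (7/10) 1 (lev p) - 7/10)) (22/25) (p 1)))
        (clm (7/10) 1 (lev p))
  | Box.P => fun p =>
      pt (clm 0 (32/25)
          (16/25 + clp (2/5 * (7/10 - clm (3/5) (7/10) (lev p))) (16/15) (p 0 - 16/25)))
        (clm (-(22/25)) (22/25)
          (clp (2/5 * (7/10 - clm (3/5) (7/10) (lev p))) (22/21) (p 1)))
        (clm (3/5) (7/10) (lev p))
  | Box.N => fun p =>
      pt (clm (-(32/25)) 0
          (-(16/25) + clp (2/5 * (7/10 - clm (3/5) (7/10) (lev p))) (16/15) (p 0 + 16/25)))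
        (clm (-(22/25)) (22/25)
          (clp (2/5 * (7/10 - clm (3/5) (7/10) (lev p))) (22/21) (p 1)))
        (clm (3/5) (7/10) (lev p))

/-- First coordinate of the inverse chart. -/
noncomputable def thx : Box → E3 → ℝ
  | Box.O => fun P => clp (2/5 * (P 2 - 7/10)) (35/32) (P 0)
  | Box.P => fun P => 16/25 + clp (2/5 * (7/10 - P 2)) (15/16) (P 0 - 16/25)
  | Box.N => fun P => -(16/25) + clp (2/5 * (7/10 - P 2)) (15/16) (P 0 + 16/25)

/-- Second coordinate of the inverse chart. -/
noncomputable def thy : Box → E3 → ℝ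
  | Box.O => fun P => clp (2/5 * (P 2 - 7/10)) (25/22) (P 1)
  | Box.P => fun P => clp (2/5 * (7/10 - P 2)) (21/22) (P 1)
  | Box.N => fun P => clp (2/5 * (7/10 - P 2)) (21/22) (P 1)

/-- The inverse chart. -/
noncomputable def theta (b : Box) (P : E3) : E3 :=
  pt (thx b P) (thy b P) (zlev (thx b P) (thy b P) (P 2))

/-- Reflection in the plane `p 2 = 0`. -/
noncomputable def rfl2 (p : E3) : E3 := pt (p 0) (p 1) (-(p 2))

/-- Closed regions covering all of space. -/
def reg : Box → Set E3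
  | Box.O => {p | 7/10 ≤ lev p}
  | Box.P => {p | lev p ≤ 7/10 ∧ 0 ≤ p 0}
  | Box.N => {p | lev p ≤ 7/10 ∧ p 0 ≤ 0}

/-- Open physical pieces (upper half of the module). -/
def om : Box → Set E3
  | Box.O => {p | 0 < p 2 ∧ 7/10 < lev p ∧ lev p < 1}
  | Box.P => {p | 0 < p 2 ∧ 0 < p 0 ∧ 3/5 < lev p ∧ lev p < 7/10}
  | Box.N => {p | 0 < p 2 ∧ p 0 < 0 ∧ 3/5 < lev p ∧ lev p < 7/10}

/-- The metric transported to the boxes: `|det DΘ| (DΘ)⁻¹ (DΘ)⁻ᵀ`. -/
noncomputable def Mf (b : Box) (P : E3) : E3 →L[ℝ] E3 :=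
  |(fderiv ℝ (theta b) P).det| •
    ((fderiv ℝ (theta b) P).inverse.comp
      (ContinuousLinearMap.adjoint (fderiv ℝ (theta b) P).inverse))

end Crest.Agent.R083
private theorem rz_d6c1ec9185 : type_of% @_root_.Crest.Agent.R083.phi.eq_1 := @_root_.Crest.Agent.R083.phi.eq_1 -- L41
private theorem rz_339df3090a : type_of% @_root_.Crest.Agent.R083.thx.eq_1 := @_root_.Crest.Agent.R083.thx.eq_1 -- L60
private theorem rz_777decb1a0 : type_of% @_root_.Crest.Agent.R083.thy.eq_1 := @_root_.Crest.Agent.R083.thy.eq_1 -- L66
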