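import Crest.Agent.R083.TreeGeom
import Crest.Agent.R083.Medium

/-!
Row 83 (S0111): pairing identities for the level functions `P n`, `Psi n`.
-/

set_option autoImplicit false

namespace Crest.Agent.R083

open MeasureTheory Set Filter
open scoped Gradient ENNReal NNReal Topology

/-! ### Gradients -/

theorem pr_grad_measurable (f : E3 → ℝ) : Measurable (∇ f) := by
  have h : Measurable (fderiv ℝ f) := measurable_fderiv ℝ f
  exact (InnerProductSpace.toDual ℝ E3).symm.continuous.measurable.comp h

theorem pr_grad_norm (f : E3 → ℝ) (K : ℝ≥0) (hf : LipschitzWith K f) (x : E3) :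
    ‖∇ f x‖ ≤ K := by
  have h : ‖∇ f x‖ = ‖fderiv ℝ f x‖ := by
    unfold gradient; exact LinearIsometryEquiv.norm_map _ _
  rw [h]; exact norm_fderiv_le_of_lipschitz ℝ hf

theorem pr_grad_zero (f : E3 → ℝ) (x : E3) (c : ℝ) (h : ∀ᶠ y in 𝓝 x, f y = c) :
    ∇ f x = 0 := by
  have h' : f =ᶠ[𝓝 x] fun _ => c := h
  rw [h'.gradient_eq]; exact gradient_fun_const x c

theorem pr_grad_const_mul (c : ℝ) (f : E3 → ℝ) (x : E3) :
    ∇ (fun y => c * f y) x = c • ∇ f x := by
  by_cases hf : DifferentiableAt ℝ f x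
  · unfold gradient
    rw [fderiv_const_mul hf c]
    simp
  · by_cases hc : c = 0
    · subst hc; simp
    · have h2 : ¬ DifferentiableAt ℝ (fun y => c * f y) x := by
        intro h
        apply hf
        have := h.const_mul c⁻¹
        refine this.congr_of_eventuallyEq (Eventually.of_forall fun y => ?_)
        field_simp
      rw [gradient_eq_zero_of_not_differentiableAt hf,
        gradient_eq_zero_of_not_differentiableAt h2, smul_zero]

theorem pr_grad_add (f g : E3 → ℝ) (x : E3) (hf : DifferentiableAt ℝ f x)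
    (hg : DifferentiableAt ℝ g x) : ∇ (fun y => f y + g y) x = ∇ f x + ∇ g x := by
  unfold gradient
  rw [fderiv_fun_add hf hg]
  simp


/-! ### Elementary facts on the cells -/

theorem pr_Kc_subset (n : ℕ) : Kc n ⊆ cellBc := by
  induction n with
  | zero => exact subset_rfl
  | succ n ih => exact (Kc_anti n).trans ih

theorem pr_off (b : Bool) (x : E3) (hx : x ∉ sim b '' cellBc) : simInv b x ∉ cellBc :=
  fun h => hx ⟨_, h, sim_simInv b x⟩

theorem pr_off' (b : Bool) (x : E3) (hx : x ∉ cellB) : simInv b x ∉ cellB :=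
  fun h => hx (sim_cell_subset b ⟨_, cellB_subset h, sim_simInv b x⟩)

theorem pr_child_other (b : Bool) (x : E3) (hx : x ∈ sim b '' cellBc) :
    simInv (!b) x ∉ cellBc := by
  apply pr_off
  intro h
  cases b with
  | true => exact children_disjoint.le_bot ⟨hx, h⟩
  | false => exact children_disjoint.le_bot ⟨h, hx⟩

theorem pr_simInv_cont (b : Bool) : Continuous (simInv b) := (simInv_lipschitz b).continuous

theorem pr_image (b : Bool) (S : Set E3) : sim b '' S = simInv b ⁻¹' S := by
  ext x
  constructor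
  · rintro ⟨y, hy, rfl⟩
    simpa [simInv_sim] using hy
  · intro h
    exact ⟨_, h, sim_simInv b x⟩

theorem pr_child_open (b : Bool) : IsOpen (sim b '' cellB) := by
  rw [pr_image]; exact cellB_open.preimage (pr_simInv_cont b)

theorem pr_child_closed (b : Bool) : IsClosed (sim b '' cellBc) := by
  rw [pr_image]; exact cellBc_compact.isClosed.preimage (pr_simInv_cont b)

theorem pr_modQ_open : IsOpen modQ :=
  cellB_open.sdiff ((pr_child_closed true).union (pr_child_closed false))

theorem pr_vol_cellBc : volume cellBc ≠ ∞ := cellBc_compact.measure_lt_top.ne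

theorem pr_image_null (b : Bool) (S : Set E3) (hS : MeasurableSet S) (hb : S ⊆ cellBc)
    (h0 : volume S = 0) : volume (sim b '' S) = 0 := by
  have h1 := integral_sim b S hS (fun _ => (1 : ℝ))
  have h2 : volume (sim b '' S) ≠ ∞ := by
    refine ne_top_of_le_ne_top pr_vol_cellBc (measure_mono ?_)
    exact (image_mono hb).trans ((sim_cell_subset b).trans cellB_subset)
  simp only [integral_const, smul_eq_mul, mul_one, measureReal_def,
    Measure.restrict_apply_univ] at h1
  rw [h0] at h1
  simp only [ENNReal.toReal_zero, mul_zero] at h1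
  rcases (ENNReal.toReal_eq_zero_iff _).1 h1 with h | h
  · exact h
  · exact absurd h h2

theorem pr_bdry_null (b : Bool) : volume (sim b '' cellBc \ sim b '' cellB) = 0 := by
  have h : sim b '' cellBc \ sim b '' cellB = sim b '' (cellBc \ cellB) := by
    rw [pr_image, pr_image, pr_image]; rfl
  rw [h]
  exact pr_image_null b _ (cellBc_compact.isClosed.measurableSet.diff cellB_open.measurableSet)
    sdiff_subset volume_bdry

/-! ### Splitting the integral over the module and the two children -/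

theorem pr_split (g : E3 → ℝ) (hg : Integrable g volume)
    (h0 : ∀ᵐ x, x ∉ cellBc → g x = 0) :
    ∫ x, g x = (∫ x in modQ, g x) + ((∫ x in sim true '' cellB, g x) +
      ∫ x in sim false '' cellB, g x) := by
  have e1 : ∫ x, g x = ∫ x in cellBc, g x := by
    rw [← integral_indicator cellBc_compact.isClosed.measurableSet]
    refine integral_congr_ae ?_
    filter_upwards [h0] with x hx
    by_cases h : x ∈ cellBc
    · rw [indicator_of_mem h]
    · rw [indicator_of_notMem h, hx h]
  have e2 : ∫ x in cellBc, g x = ∫ x in cellB, g x := by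
    refine setIntegral_congr_set ?_
    refine (ae_eq_set.2 ⟨volume_bdry, ?_⟩)
    rw [sdiff_eq_empty.2 cellB_subset, measure_empty]
  have hun : cellB = modQ ∪ ((sim true '' cellBc) ∪ (sim false '' cellBc)) := by
    unfold modQ
    rw [sdiff_union_of_subset]
    exact union_subset (sim_cell_subset true) (sim_cell_subset false)
  have e3 : ∫ x in cellB, g x = (∫ x in modQ, g x) +
      ∫ x in (sim true '' cellBc) ∪ (sim false '' cellBc), g x := by
    conv_lhs => rw [hun]
    refine setIntegral_union ?_ ?_ hg.integrableOn hg.integrableOn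
    · exact disjoint_sdiff_left
    · exact ((pr_child_closed true).union (pr_child_closed false)).measurableSet
  have e4 : ∫ x in (sim true '' cellBc) ∪ (sim false '' cellBc), g x =
      (∫ x in sim true '' cellBc, g x) + ∫ x in sim false '' cellBc, g x :=
    setIntegral_union children_disjoint (pr_child_closed false).measurableSet
      hg.integrableOn hg.integrableOn
  have e5 : ∀ b, ∫ x in sim b '' cellBc, g x = ∫ x in sim b '' cellB, g x := by
    intro b
    refine setIntegral_congr_set ?_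
    refine (ae_eq_set.2 ⟨pr_bdry_null b, ?_⟩)
    rw [sdiff_eq_empty.2 (image_mono cellB_subset), measure_empty]
  rw [e1, e2, e3, e4, e5, e5]

/-! ### Integrability -/

theorem pr_int_of_L2 (H : E3 → E3) (h2 : MemLp H 2 volume)
    (h0 : ∀ᵐ x, x ∉ cellBc → H x = 0) : Integrable H volume := by
  have h1 : MemLp H 2 (volume.restrict cellBc) := h2.restrict _
  have : IsFiniteMeasure (volume.restrict cellBc) :=
    ⟨by rw [Measure.restrict_apply_univ]; exact cellBc_compact.measure_lt_top⟩
  have h3 : IntegrableOn H cellBc volume := h1.integrable (by norm_num)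
  have h4 : Integrable (cellBc.indicator H) volume :=
    (integrable_indicator_iff cellBc_compact.isClosed.measurableSet).2 h3
  refine h4.congr ?_
  filter_upwards [h0] with x hx
  by_cases h : x ∈ cellBc
  · rw [indicator_of_mem h]
  · rw [indicator_of_notMem h, hx h]

theorem pr_int_pair (D : ModData) (H : E3 → E3) (hH : Integrable H volume) (ψ : E3 → ℝ)
    (K : ℝ≥0) (hψ : LipschitzWith K ψ) :
    Integrable (fun x => D.gam0 x * inner ℝ (H x) (∇ ψ x)) volume := by
  obtain ⟨c, C, hc, hb⟩ := gam0_bounds D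
  have hm : AEStronglyMeasurable (fun x => D.gam0 x * inner ℝ (H x) (∇ ψ x)) volume :=
    (gam0_measurable D).aestronglyMeasurable.mul
      (hH.aestronglyMeasurable.inner (pr_grad_measurable ψ).aestronglyMeasurable)
  refine (hH.norm.const_mul (C * K)).mono' hm (Eventually.of_forall fun x => ?_)
  have h1 := pr_grad_norm ψ K hψ x
  have h2 := hb x
  have h3 : |inner ℝ (H x) (∇ ψ x)| ≤ ‖H x‖ * ‖∇ ψ x‖ := abs_real_inner_le_norm _ _
  rw [Real.norm_eq_abs, abs_mul, abs_of_pos (lt_of_lt_of_le hc h2.1)]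
  calc D.gam0 x * |inner ℝ (H x) (∇ ψ x)| ≤ C * (‖H x‖ * K) := by
        refine mul_le_mul h2.2 (h3.trans ?_) (abs_nonneg _) (hc.le.trans (h2.1.trans h2.2))
        exact mul_le_mul_of_nonneg_left h1 (norm_nonneg _)
    _ = C * K * ‖H x‖ := by ring

theorem pr_grad_off (f : E3 → ℝ) (h0 : ∀ x, x ∉ cellB → f x = 0) (x : E3)
    (hx : x ∉ cellBc) : ∇ f x = 0 := by
  refine pr_grad_zero f x 0 ?_
  filter_upwards [cellBc_compact.isClosed.isOpen_compl.mem_nhds hx] with y hy
  exact h0 y fun h => hy (cellB_subset h)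

theorem pr_grad_memLp (f : E3 → ℝ) (K : ℝ≥0) (hf : LipschitzWith K f)
    (h0 : ∀ x, x ∉ cellB → f x = 0) : MemLp (∇ f) 2 volume := by
  have h1 : ∇ f = cellBc.indicator (∇ f) := by
    ext1 x
    by_cases h : x ∈ cellBc
    · rw [indicator_of_mem h]
    · rw [indicator_of_notMem h, pr_grad_off f h0 x h]
  rw [h1, memLp_indicator_iff_restrict cellBc_compact.isClosed.measurableSet]
  have : IsFiniteMeasure (volume.restrict cellBc) :=
    ⟨by rw [Measure.restrict_apply_univ]; exact cellBc_compact.measure_lt_top⟩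
  exact MemLp.of_bound (pr_grad_measurable f).aestronglyMeasurable K
    (Eventually.of_forall fun x => pr_grad_norm f K hf x)

/-! ### The `L²` limit vanishes where the approximants are locally constant -/

theorem pr_limit_zero (f : ℕ → E3 → ℝ) (G : E3 → E3) (hG : MemLp G 2 volume)
    (hlim : Tendsto (fun j => eLpNorm (fun x => ∇ (f j) x - G x) 2 volume) atTop (𝓝 0))
    (U : Set E3) (hU : MeasurableSet U) (h0 : ∀ j, ∀ x ∈ U, ∇ (f j) x = 0) :
    ∀ᵐ x, x ∈ U → G x = 0 := by
  have h1 : ∀ j, eLpNorm G 2 (volume.restrict U) ≤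
      eLpNorm (fun x => ∇ (f j) x - G x) 2 volume := by
    intro j
    calc eLpNorm G 2 (volume.restrict U)
        = eLpNorm (fun x => ∇ (f j) x - G x) 2 (volume.restrict U) := by
          refine eLpNorm_congr_norm_ae ?_
          refine (ae_restrict_iff' hU).2 (Eventually.of_forall fun x hx => ?_)
          rw [h0 j x hx, zero_sub, norm_neg]
      _ ≤ _ := eLpNorm_mono_measure _ Measure.restrict_le_self
  have h2 : eLpNorm G 2 (volume.restrict U) = 0 := by
    refine le_antisymm ?_ zero_le
    exact ge_of_tendsto' hlim h1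
  have h3 := (eLpNorm_eq_zero_iff (hG.aestronglyMeasurable.restrict) (by norm_num)).1 h2
  rw [EventuallyEq, ae_restrict_iff' hU] at h3
  exact h3

/-! ### The swap -/

theorem pr_swp_swp (x : E3) : swp (swp x) = x := by
  ext i
  fin_cases i <;> simp [swp, pt]

theorem pr_inner_swp' (x y : E3) : inner ℝ (swp x) y = inner ℝ x (swp y) := by
  conv_lhs => rw [← pr_swp_swp y]
  exact inner_swp x (swp y)


theorem pr_grad_sim (b : Bool) (ψ : E3 → ℝ) (x : E3) :
    swp (∇ ψ (sim b x)) = (5/3 : ℝ) • ∇ (ψ ∘ sim b) x := by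
  rw [grad_comp_sim, smul_smul]; norm_num

/-! ### The general pairing -/

theorem pr_general (D : ModData) (n : ℕ) (s : Bool → ℝ) (H : E3 → E3)
    (hH : Integrable H volume) (h0 : ∀ᵐ x, x ∉ cellBc → H x = 0)
    (hs : ∀ b, ∀ᵐ x, x ∈ sim b '' cellB →
      H x = (s b * (25/18)) • swp (∇ (D.P n) (simInv b x)))
    (hP0 : ∀ x, x ∉ cellB → D.P n x = 0)
    (ψ : E3 → ℝ) (K : ℝ≥0) (hψ : LipschitzWith K ψ) :
    ∫ x, D.gam0 x * inner ℝ (H x) (∇ ψ x) =
      (∫ x in modQ, D.γ x * inner ℝ (H x) (∇ ψ x)) +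
      (s true / 2 * (∫ x, D.gam0 x * inner ℝ (∇ (D.P n) x) (∇ (ψ ∘ sim true) x)) +
       s false / 2 * ∫ x, D.gam0 x * inner ℝ (∇ (D.P n) x) (∇ (ψ ∘ sim false) x)) := by
  have hint := pr_int_pair D H hH ψ K hψ
  rw [pr_split _ hint (by filter_upwards [h0] with x hx h; rw [hx h, inner_zero_left, mul_zero])]
  have hQ : ∫ x in modQ, D.gam0 x * inner ℝ (H x) (∇ ψ x) =
      ∫ x in modQ, D.γ x * inner ℝ (H x) (∇ ψ x) := by
    refine setIntegral_congr_fun pr_modQ_open.measurableSet fun x hx => ?_
    simp only [gam0_mod D x hx]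
  have hB : ∀ b, ∫ x in sim b '' cellB, D.gam0 x * inner ℝ (H x) (∇ ψ x) =
      s b / 2 * ∫ x, D.gam0 x * inner ℝ (∇ (D.P n) x) (∇ (ψ ∘ sim b) x) := by
    intro b
    have e1 : ∫ x in sim b '' cellB, D.gam0 x * inner ℝ (H x) (∇ ψ x) =
        ∫ x in sim b '' cellB, (s b * (25/18)) *
          (D.gam0 x * inner ℝ (∇ (D.P n) (simInv b x)) (swp (∇ ψ x))) := by
      refine setIntegral_congr_ae (pr_child_open b).measurableSet ?_
      filter_upwards [hs b] with x hx h
      rw [hx h, inner_smul_left, pr_inner_swp']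
      simp only [conj_trivial]
      ring
    have e2 := integral_sim b cellB cellB_open.measurableSet
      (fun x => (s b * (25/18)) *
          (D.gam0 x * inner ℝ (∇ (D.P n) (simInv b x)) (swp (∇ ψ x))))
    rw [e1, e2]
    have e3 : ∫ x in cellB, (s b * (25/18)) *
          (D.gam0 (sim b x) * inner ℝ (∇ (D.P n) (simInv b (sim b x))) (swp (∇ ψ (sim b x)))) =
        ∫ x in cellB, (s b * (125/54)) *
          (D.gam0 x * inner ℝ (∇ (D.P n) x) (∇ (ψ ∘ sim b) x)) := by
      refine setIntegral_congr_fun cellB_open.measurableSet fun x hx => ?_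
      simp only [gam0_sim D b x hx, simInv_sim, pr_grad_sim, inner_smul_right]
      ring
    rw [e3, integral_const_mul]
    have e4 : ∫ x in cellB, D.gam0 x * inner ℝ (∇ (D.P n) x) (∇ (ψ ∘ sim b) x) =
        ∫ x, D.gam0 x * inner ℝ (∇ (D.P n) x) (∇ (ψ ∘ sim b) x) := by
      have e5 : ∫ x in cellB, D.gam0 x * inner ℝ (∇ (D.P n) x) (∇ (ψ ∘ sim b) x) =
          ∫ x in cellBc, D.gam0 x * inner ℝ (∇ (D.P n) x) (∇ (ψ ∘ sim b) x) := by
        refine setIntegral_congr_set ?_
        refine (ae_eq_set.2 ⟨?_, volume_bdry⟩)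
        rw [sdiff_eq_empty.2 cellB_subset, measure_empty]
      rw [e5]
      refine setIntegral_eq_integral_of_forall_compl_eq_zero fun x hx => ?_
      rw [pr_grad_off _ hP0 x hx, inner_zero_left, mul_zero]
    rw [e4]
    ring
  rw [hQ, hB, hB]

/-! ### The level functions `P n` -/

theorem P_lipschitz (D : ModData) (n : ℕ) : ∃ K : ℝ≥0, LipschitzWith K (D.P n) := by
  induction n with
  | zero => exact ⟨0, LipschitzWith.const 0⟩
  | succ n ih =>
    obtain ⟨K, hK⟩ := ih
    obtain ⟨K', hK'⟩ := D.FL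
    have h1 := (hK.comp (simInv_lipschitz true)).add (hK.comp (simInv_lipschitz false))
    have h2 := (lipschitzWith_smul (5/6 : ℝ)).comp h1
    have h3 := hK'.add h2
    exact ⟨_, h3⟩

theorem P_off (D : ModData) (n : ℕ) (x : E3) (hx : x ∉ cellB) : D.P n x = 0 := by
  induction n generalizing x with
  | zero => rfl
  | succ n ih =>
    simp only [ModData.P]
    rw [D.F0 x hx, ih _ (pr_off' true x hx), ih _ (pr_off' false x hx)]
    norm_num

theorem pr_P_off_c (D : ModData) (n : ℕ) (x : E3) (hx : x ∉ cellBc) : D.P n x = 0 :=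
  P_off D n x fun h => hx (cellB_subset h)

theorem P_Kc (D : ModData) (n : ℕ) (x : E3) (hx : x ∈ Kc n) : D.P n x = D.pv n := by
  induction n generalizing x with
  | zero => rfl
  | succ n ih =>
    simp only [ModData.P, ModData.pv]
    rcases hx with hx | hx
    · have h1 : x ∈ sim true '' cellBc := image_mono (pr_Kc_subset n) hx
      have h2 := pr_child_other true x h1
      obtain ⟨y, hy, rfl⟩ := hx
      rw [D.Fd true _ h1, simInv_sim, ih y hy]
      have h3 := pr_P_off_c D n _ h2
      simp only [Bool.not_true] at h3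
      rw [h3, add_zero]
    · have h1 : x ∈ sim false '' cellBc := image_mono (pr_Kc_subset n) hx
      have h2 := pr_child_other false x h1
      obtain ⟨y, hy, rfl⟩ := hx
      rw [D.Fd false _ h1, simInv_sim, ih y hy]
      have h3 := pr_P_off_c D n _ h2
      simp only [Bool.not_false] at h3
      rw [h3, zero_add]

theorem pr_lip_diff (f : E3 → ℝ) (hf : ∃ K : ℝ≥0, LipschitzWith K f) :
    ∀ᵐ x, DifferentiableAt ℝ f x := by
  obtain ⟨K, hK⟩ := hf
  exact hK.ae_differentiableAt

/-- On a child the gradient of a combination of the two transported functions. -/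
theorem pr_child_grad (D : ModData) (n : ℕ) (s : Bool → ℝ) (b : Bool) (x : E3)
    (hx : x ∈ sim b '' cellB) :
    ∇ (fun y => 5/6 * (s true * D.P n (simInv true y) + s false * D.P n (simInv false y))) x =
      (s b * (25/18)) • swp (∇ (D.P n) (simInv b x)) := by
  have h1 : (fun y => 5/6 * (s true * D.P n (simInv true y) + s false * D.P n (simInv false y)))
      =ᶠ[𝓝 x] fun y => (5/6 * s b) * D.P n (simInv b y) := by
    filter_upwards [(pr_child_open b).mem_nhds hx] with y hy
    have h2 := pr_P_off_c D n _ (pr_child_other b y (image_mono cellB_subset hy))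
    cases b with
    | true =>
      simp only [Bool.not_true] at h2
      rw [h2]; ring
    | false =>
      simp only [Bool.not_false] at h2
      rw [h2]; ring
  rw [h1.gradient_eq, pr_grad_const_mul, grad_comp_simInv, smul_smul]
  congr 1
  ring

/-- On the module the two transported functions vanish. -/
theorem pr_mod_grad (D : ModData) (n : ℕ) (s : Bool → ℝ) (x : E3) (hx : x ∈ modQ) :
    ∇ (fun y => 5/6 * (s true * D.P n (simInv true y) + s false * D.P n (simInv false y))) x
      = 0 := by
  refine pr_grad_zero _ x 0 ?_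
  filter_upwards [pr_modQ_open.mem_nhds hx] with y hy
  have h1 := pr_P_off_c D n _ (pr_off true y fun h => hy.2 (Or.inl h))
  have h2 := pr_P_off_c D n _ (pr_off false y fun h => hy.2 (Or.inr h))
  rw [h1, h2]; ring

theorem pr_off_ae (f : E3 → ℝ) (h0 : ∀ x, x ∉ cellB → f x = 0) :
    ∀ᵐ x, x ∉ cellBc → ∇ f x = 0 :=
  Eventually.of_forall fun x hx => pr_grad_off f h0 x hx

theorem pr_avgn_succ (n : ℕ) (ψ : E3 → ℝ) :
    avgn (n + 1) ψ = (avgn n (ψ ∘ sim true) + avgn n (ψ ∘ sim false)) / 2 := rfl

theorem P_pair (D : ModData) (n : ℕ) (ψ : E3 → ℝ) (K : ℝ≥0) (hψ : LipschitzWith K ψ) :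
    ∫ x, D.gam0 x * inner ℝ (∇ (D.P n) x) (∇ ψ x) = avgn n ψ - pavg ψ := by
  induction n generalizing ψ K with
  | zero =>
    have h : D.P 0 = fun _ => 0 := rfl
    simp only [h, gradient_fun_const', inner_zero_left, mul_zero, integral_zero]
    simp only [avgn, sub_self]
  | succ n ih =>
    obtain ⟨KP, hKP⟩ := P_lipschitz D (n + 1)
    obtain ⟨KF, hKF⟩ := D.FL
    have hL2 := pr_grad_memLp _ KP hKP (P_off D (n + 1))
    have hz := pr_off_ae _ (P_off D (n + 1))
    have hI := pr_int_of_L2 _ hL2 hz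
    have hform : D.P (n + 1) = fun y => D.F y +
        5/6 * ((fun _ : Bool => (1:ℝ)) true * D.P n (simInv true y) +
          (fun _ : Bool => (1:ℝ)) false * D.P n (simInv false y)) := by
      funext y; simp only [ModData.P, one_mul]
    have key := pr_general D n (fun _ => 1) (∇ (D.P (n + 1))) hI hz ?_ (P_off D n) ψ K hψ
    · have h1 : ∫ x in modQ, D.γ x * inner ℝ (∇ (D.P (n + 1)) x) (∇ ψ x) =
          ∫ x in modQ, D.γ x * inner ℝ (∇ D.F x) (∇ ψ x) := by
        refine setIntegral_congr_fun pr_modQ_open.measurableSet fun x hx => ?_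
        have h2 : D.P (n + 1) =ᶠ[𝓝 x] D.F := by
          filter_upwards [pr_modQ_open.mem_nhds hx] with y hy
          have h1 := pr_P_off_c D n _ (pr_off true y fun h => hy.2 (Or.inl h))
          have h2 := pr_P_off_c D n _ (pr_off false y fun h => hy.2 (Or.inr h))
          simp only [ModData.P]
          rw [h1, h2]; ring
        simp only [h2.gradient_eq]
      rw [key, h1, D.FE ψ K hψ, ih _ _ (hψ.comp (sim_lipschitz true)),
        ih _ _ (hψ.comp (sim_lipschitz false)), pr_avgn_succ]
      ring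
    · intro b
      refine Eventually.of_forall fun x hx => ?_
      have h2 : D.P (n + 1) =ᶠ[𝓝 x] fun y => D.d + 5/6 *
          ((fun _ : Bool => (1:ℝ)) true * D.P n (simInv true y) +
          (fun _ : Bool => (1:ℝ)) false * D.P n (simInv false y)) := by
        filter_upwards [(pr_child_open b).mem_nhds hx] with y hy
        rw [hform]
        simp only [D.Fd b y (image_mono cellB_subset hy)]
      rw [h2.gradient_eq]
      have h3 := pr_child_grad D n (fun _ => 1) b x hx
      rw [← h3]
      unfold gradient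
      rw [fderiv_const_add]

/-! ### The neutral potentials -/

theorem PsiJ_lipschitz (D : ModData) (n j : ℕ) : ∃ K : ℝ≥0, LipschitzWith K (D.PsiJ n j) := by
  obtain ⟨K, hK⟩ := P_lipschitz D n
  obtain ⟨K', hK'⟩ := D.WjL j
  have h1 := (hK.comp (simInv_lipschitz true)).sub (hK.comp (simInv_lipschitz false))
  have h2 := (lipschitzWith_smul (5/6 : ℝ)).comp h1
  exact ⟨_, hK'.add h2⟩

theorem PsiJ_off (D : ModData) (n j : ℕ) (x : E3) (hx : x ∉ cellB) : D.PsiJ n j x = 0 := by
  simp only [ModData.PsiJ]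
  rw [D.Wj0 j x hx, P_off D n _ (pr_off' true x hx), P_off D n _ (pr_off' false x hx)]
  norm_num

theorem PsiJ_unif (D : ModData) (n : ℕ) :
    TendstoUniformly (fun j => D.PsiJ n j) (D.Psi n) atTop := by
  have h := D.Wju
  rw [Metric.tendstoUniformly_iff] at h ⊢
  intro ε hε
  filter_upwards [h ε hε] with j hj x
  have h1 := hj x
  simp only [ModData.PsiJ, ModData.Psi, dist_add_right]
  exact h1

theorem pr_Psi_lim (D : ModData) (n : ℕ) (x : E3) (v : ℝ) (h : ∀ j, D.PsiJ n j x = v) :
    D.Psi n x = v := by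
  have h1 := (PsiJ_unif D n).tendsto_at x
  simp only [h] at h1
  exact tendsto_nhds_unique h1 tendsto_const_nhds |>.symm ▸ rfl

theorem Psi_off (D : ModData) (n : ℕ) (x : E3) (hx : x ∉ cellB) : D.Psi n x = 0 :=
  pr_Psi_lim D n x 0 fun j => PsiJ_off D n j x hx

theorem PsiJ_Kc (D : ModData) (n j : ℕ) (b : Bool) (x : E3) (hx : x ∈ sim b '' Kc n) :
    D.PsiJ n j x = sg b * D.tv n := by
  have h1 : x ∈ sim b '' cellBc := image_mono (pr_Kc_subset n) hx
  have h2 := pr_P_off_c D n _ (pr_child_other b x h1)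
  obtain ⟨y, hy, rfl⟩ := hx
  simp only [ModData.PsiJ, ModData.tv]
  rw [D.Wje j b _ h1]
  cases b with
  | true =>
    simp only [Bool.not_true] at h2
    rw [h2, simInv_sim, P_Kc D n y hy]
    simp only [sg, if_true]
    ring
  | false =>
    simp only [Bool.not_false] at h2
    rw [h2, simInv_sim, P_Kc D n y hy]
    simp only [sg]
    norm_num
    ring

theorem Psi_Kc (D : ModData) (n : ℕ) (b : Bool) (x : E3) (hx : x ∈ sim b '' Kc n) :
    D.Psi n x = sg b * D.tv n :=
  pr_Psi_lim D n x _ fun j => PsiJ_Kc D n j b x hx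

/-- The transported part of `Psi n`. -/
noncomputable def prT (D : ModData) (n : ℕ) (y : E3) : ℝ :=
  5/6 * (D.P n (simInv true y) - D.P n (simInv false y))

theorem pr_T_lip (D : ModData) (n : ℕ) : ∃ K : ℝ≥0, LipschitzWith K (prT D n) := by
  obtain ⟨K, hK⟩ := P_lipschitz D n
  have h1 := (hK.comp (simInv_lipschitz true)).sub (hK.comp (simInv_lipschitz false))
  exact ⟨_, (lipschitzWith_smul (5/6 : ℝ)).comp h1⟩

theorem pr_T_off (D : ModData) (n : ℕ) (x : E3) (hx : x ∉ cellB) : prT D n x = 0 := by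
  simp only [prT]
  rw [P_off D n _ (pr_off' true x hx), P_off D n _ (pr_off' false x hx)]
  norm_num

theorem pr_T_form (D : ModData) (n : ℕ) : prT D n = fun y =>
    5/6 * (sg true * D.P n (simInv true y) + sg false * D.P n (simInv false y)) := by
  funext y
  simp only [prT, sg]
  norm_num
  ring

theorem PsiG_mem (D : ModData) (n : ℕ) : MemLp (D.PsiG n) 2 volume := by
  obtain ⟨K, hK⟩ := pr_T_lip D n
  exact D.Gmem.add (pr_grad_memLp _ K hK (pr_T_off D n))

theorem PsiJ_grad (D : ModData) (n : ℕ) :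
    Tendsto (fun j => eLpNorm (fun x => ∇ (D.PsiJ n j) x - D.PsiG n x) 2 volume) atTop (𝓝 0) := by
  refine (tendsto_congr fun j => ?_).2 D.WjG
  refine eLpNorm_congr_ae ?_
  filter_upwards [pr_lip_diff _ (D.WjL j), pr_lip_diff _ (pr_T_lip D n)] with x h1 h2
  have h3 : ∇ (D.PsiJ n j) x = ∇ (D.Wj j) x + ∇ (prT D n) x := pr_grad_add _ _ x h1 h2
  rw [h3]
  simp only [ModData.PsiG]
  change ∇ (D.Wj j) x + ∇ (prT D n) x - (D.G x + ∇ (prT D n) x) = _
  abel

theorem pr_G_off (D : ModData) : ∀ᵐ x, x ∉ cellBc → D.G x = 0 := by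
  have h := pr_limit_zero D.Wj D.G D.Gmem D.WjG cellBcᶜ
    cellBc_compact.isClosed.measurableSet.compl
    (fun j x hx => pr_grad_off _ (D.Wj0 j) x hx)
  exact h

theorem pr_G_child (D : ModData) (b : Bool) : ∀ᵐ x, x ∈ sim b '' cellB → D.G x = 0 := by
  refine pr_limit_zero D.Wj D.G D.Gmem D.WjG (sim b '' cellB) (pr_child_open b).measurableSet
    fun j x hx => ?_
  refine pr_grad_zero _ x (sg b * D.e) ?_
  filter_upwards [(pr_child_open b).mem_nhds hx] with y hy
  exact D.Wje j b y (image_mono cellB_subset hy)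

theorem Psi_pair (D : ModData) (n : ℕ) (ψ : E3 → ℝ) (K : ℝ≥0) (hψ : LipschitzWith K ψ) :
    ∫ x, D.gam0 x * inner ℝ (D.PsiG n x) (∇ ψ x) =
      (avgn n (ψ ∘ sim true) - avgn n (ψ ∘ sim false)) / 2 := by
  have hz : ∀ᵐ x, x ∉ cellBc → D.PsiG n x = 0 := by
    filter_upwards [pr_G_off D] with x h1 h2
    simp only [ModData.PsiG]
    rw [h1 h2, zero_add]
    exact pr_grad_off _ (pr_T_off D n) x h2
  have hI := pr_int_of_L2 _ (PsiG_mem D n) hz
  have key := pr_general D n sg (D.PsiG n) hI hz ?_ (P_off D n) ψ K hψ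
  · have h1 : ∫ x in modQ, D.γ x * inner ℝ (D.PsiG n x) (∇ ψ x) =
        ∫ x in modQ, D.γ x * inner ℝ (D.G x) (∇ ψ x) := by
      refine setIntegral_congr_fun pr_modQ_open.measurableSet fun x hx => ?_
      have h2 : D.PsiG n x = D.G x := by
        change D.G x + ∇ (prT D n) x = D.G x
        rw [pr_T_form, pr_mod_grad D n sg x hx, add_zero]
      simp only [h2]
    rw [key, h1, D.WE ψ K hψ, P_pair D n _ _ (hψ.comp (sim_lipschitz true)),
      P_pair D n _ _ (hψ.comp (sim_lipschitz false))]
    simp only [sg]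
    norm_num
    ring
  · intro b
    filter_upwards [pr_G_child D b] with x h1 h2
    change D.G x + ∇ (prT D n) x = _
    rw [h1 h2, zero_add, pr_T_form]
    exact pr_child_grad D n sg b x h2

/-! ### Uniform convergence -/

theorem pr_F_bdd (D : ModData) : ∃ B : ℝ, 0 ≤ B ∧ ∀ x, |D.F x| ≤ B := by
  obtain ⟨K, hK⟩ := D.FL
  obtain ⟨B, hB⟩ := cellBc_compact.exists_bound_of_continuousOn hK.continuous.continuousOn
  refine ⟨max B 0, le_max_right _ _, fun x => ?_⟩
  by_cases h : x ∈ cellBc
  · exact (hB x h).trans (le_max_left _ _)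
  · rw [D.F0 x fun h' => h (cellB_subset h'), abs_zero]
    exact le_max_right _ _

theorem pr_step (D : ModData) (B : ℝ) (hF : ∀ x, |D.F x| ≤ B) (n : ℕ) (x : E3) :
    |D.P (n + 1) x - D.P n x| ≤ (5/6 : ℝ) ^ n * B := by
  induction n generalizing x with
  | zero =>
    simp only [ModData.P]
    simpa using hF x
  | succ n ih =>
    have h1 : D.P (n + 1 + 1) x - D.P (n + 1) x =
        5/6 * ((D.P (n + 1) (simInv true x) - D.P n (simInv true x)) +
          (D.P (n + 1) (simInv false x) - D.P n (simInv false x))) := by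
      have e1 : D.P (n + 1 + 1) x = D.F x + 5/6 * (D.P (n + 1) (simInv true x) +
          D.P (n + 1) (simInv false x)) := rfl
      have e2 : D.P (n + 1) x = D.F x + 5/6 * (D.P n (simInv true x) +
          D.P n (simInv false x)) := rfl
      rw [e1, e2]; ring
    have h2 : D.P (n + 1) (simInv true x) - D.P n (simInv true x) = 0 ∨
        D.P (n + 1) (simInv false x) - D.P n (simInv false x) = 0 := by
      by_cases h : simInv true x ∈ cellBc
      · right
        have hx : x ∈ sim true '' cellBc := ⟨_, h, sim_simInv true x⟩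
        have h3 := pr_child_other true x hx
        simp only [Bool.not_true] at h3
        rw [pr_P_off_c D _ _ h3, pr_P_off_c D _ _ h3, sub_zero]
      · left
        rw [pr_P_off_c D _ _ h, pr_P_off_c D _ _ h, sub_zero]
    rw [h1, abs_mul, pow_succ]
    have h4 : |(5/6 : ℝ)| = 5/6 := by norm_num
    rw [h4]
    rcases h2 with h | h
    · rw [h, zero_add]
      have := ih (simInv false x)
      nlinarith [this]
    · rw [h, add_zero]
      have := ih (simInv true x)
      nlinarith [this]

theorem pr_P_cauchy (D : ModData) (B : ℝ) (_hB : 0 ≤ B) (hF : ∀ x, |D.F x| ≤ B) (n k : ℕ)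
    (x : E3) : |D.P (n + k) x - D.P n x| ≤ 6 * B * ((5/6 : ℝ) ^ n - (5/6 : ℝ) ^ (n + k)) := by
  induction k with
  | zero => simp
  | succ k ih =>
    have h1 := pr_step D B hF (n + k) x
    have h2 : D.P (n + (k + 1)) x - D.P n x =
        (D.P (n + k + 1) x - D.P (n + k) x) + (D.P (n + k) x - D.P n x) := by
      rw [← add_assoc]; ring
    rw [h2]
    refine (abs_add_le _ _).trans ?_
    have h3 : (5/6 : ℝ) ^ (n + (k + 1)) = (5/6 : ℝ) ^ (n + k) * (5/6) := by
      rw [← add_assoc, pow_succ]
    rw [h3]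
    nlinarith [h1, ih]

/-- The potentials `Psi n` converge uniformly. -/
theorem Psi_cauchy (D : ModData) :
    ∃ B : ℝ, ∀ n m x, n ≤ m → |D.Psi m x - D.Psi n x| ≤ B * (5/6 : ℝ) ^ n := by
  obtain ⟨B, hB, hF⟩ := pr_F_bdd D
  refine ⟨10 * B, fun n m x hnm => ?_⟩
  obtain ⟨k, rfl⟩ := Nat.exists_eq_add_of_le hnm
  have h1 := pr_P_cauchy D B hB hF n k (simInv true x)
  have h2 := pr_P_cauchy D B hB hF n k (simInv false x)
  have h3 : D.Psi (n + k) x - D.Psi n x =
      5/6 * ((D.P (n + k) (simInv true x) - D.P n (simInv true x)) -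
        (D.P (n + k) (simInv false x) - D.P n (simInv false x))) := by
    simp only [ModData.Psi]; ring
  rw [h3, abs_mul]
  have h4 : |(5/6 : ℝ)| = 5/6 := by norm_num
  rw [h4]
  have h5 := abs_sub (D.P (n + k) (simInv true x) - D.P n (simInv true x))
    (D.P (n + k) (simInv false x) - D.P n (simInv false x))
  have h6 : 0 ≤ B * (5/6 : ℝ) ^ (n + k) := by positivity
  nlinarith [h1, h2, h5, h6]

end Crest.Agent.R083
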