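import Crest.Agent.R083.NearMin
import Crest.Agent.R083.FinDefs
import Crest.Agent.R083.Pairing
import Crest.Agent.R083.TreeGeom
import Crest.Agent.R083.Poincare
import Crest.Agent.R083.FlatMinCore
import Crest.Agent.R083.Medium
import Crest.Agent.R083.BoxFubini
import Crest.Prelude.Def_Conductivity
import Crest.Agent.R083.PsiLim

-- ▼ part R083/FinEnergy
section

/-!
Row 83 (S0111): elementary facts on energies of Lipschitz functions.
-/

set_option autoImplicit false

namespace Crest.Agent.R083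

open MeasureTheory Set Filter
open scoped Gradient ENNReal NNReal Topology ContDiff
open Crest.AnalysisR.PDE.Calderon

/-- Bounded measurable vector fields. -/
def Bd (X : E3 → E3) : Prop := Measurable X ∧ ∃ K : ℝ, ∀ x, ‖X x‖ ≤ K

theorem bd_grad {f : E3 → ℝ} {K : ℝ≥0} (hf : LipschitzWith K f) : Bd (∇ f) :=
  ⟨NearMin.measurable_grad f, K, fun x => NearMin.norm_grad_le hf x⟩

theorem bd_int {γ : E3 → ℝ} {C : ℝ} (hγ : Measurable γ) (hb : ∀ x, |γ x| ≤ C) {X Z : E3 → E3}
    (hX : Bd X) (hZ : Bd Z) :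
    IntegrableOn (fun x => γ x * inner ℝ (X x) (Z x)) (Metric.ball (0 : E3) 3) := by
  obtain ⟨hXm, KX, hKX⟩ := hX
  obtain ⟨hZm, KZ, hKZ⟩ := hZ
  refine Measure.integrableOn_of_bounded (M := C * (KX * KZ)) measure_ball_lt_top.ne
    (hγ.mul (hXm.inner hZm)).aestronglyMeasurable (Eventually.of_forall fun x => ?_)
  rw [norm_mul, Real.norm_eq_abs, Real.norm_eq_abs]
  have h1 : |inner ℝ (X x) (Z x)| ≤ KX * KZ := by
    refine (abs_real_inner_le_norm _ _).trans ?_
    exact mul_le_mul (hKX x) (hKZ x) (norm_nonneg _) ((norm_nonneg _).trans (hKX x))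
  exact mul_le_mul (hb x) h1 (abs_nonneg _) ((abs_nonneg _).trans (hb x))

theorem bd_int_sq {γ : E3 → ℝ} {C : ℝ} (hγ : Measurable γ) (hb : ∀ x, |γ x| ≤ C) {X : E3 → E3}
    (hX : Bd X) :
    IntegrableOn (fun x => γ x * ‖X x‖ ^ 2) (Metric.ball (0 : E3) 3) := by
  have := bd_int hγ hb hX hX
  simpa only [real_inner_self_eq_norm_sq] using this

/-- Expansion of the energy. -/
theorem energy_expand {γ : E3 → ℝ} {C : ℝ} (hγ : Measurable γ) (hb : ∀ x, |γ x| ≤ C)
    {X Z : E3 → E3} (hX : Bd X) (hZ : Bd Z) (t : ℝ) :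
    ∫ x in Metric.ball (0 : E3) 3, γ x * ‖X x + t • Z x‖ ^ 2 =
      (∫ x in Metric.ball (0 : E3) 3, γ x * ‖X x‖ ^ 2) +
      2 * t * (∫ x in Metric.ball (0 : E3) 3, γ x * inner ℝ (X x) (Z x)) +
      t ^ 2 * (∫ x in Metric.ball (0 : E3) 3, γ x * ‖Z x‖ ^ 2) := by
  rw [← integral_const_mul, ← integral_const_mul, ← integral_add, ← integral_add]
  · refine integral_congr_ae (Eventually.of_forall fun x => ?_)
    change γ x * ‖X x + t • Z x‖ ^ 2 = γ x * ‖X x‖ ^ 2 + 2 * t * (γ x * inner ℝ (X x) (Z x)) +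
      t ^ 2 * (γ x * ‖Z x‖ ^ 2)
    rw [norm_add_sq_real, norm_smul, real_inner_smul_right, mul_pow, Real.norm_eq_abs, sq_abs]
    ring
  · exact (bd_int_sq hγ hb hX).add ((bd_int hγ hb hX hZ).const_mul _)
  · exact (bd_int_sq hγ hb hZ).const_mul _
  · exact bd_int_sq hγ hb hX
  · exact (bd_int hγ hb hX hZ).const_mul _

/-- Quadratic lower bound at a near-minimiser. -/
theorem energy_lower {γ : E3 → ℝ} {C : ℝ} (hγ : Measurable γ) (hb : ∀ x, |γ x| ≤ C)
    (hpos : ∀ x, 0 ≤ γ x)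
    {X Z : E3 → E3} (hX : Bd X) (hZ : Bd Z) (m η : ℝ)
    (hm : ∀ t : ℝ, m ≤ ∫ x in Metric.ball (0 : E3) 3, γ x * ‖X x + t • Z x‖ ^ 2)
    (hη : ∫ x in Metric.ball (0 : E3) 3, γ x * ‖X x‖ ^ 2 ≤ m + η) (θ : ℝ) (hθ : 0 < θ) :
    m - η / θ + (1 - θ) * (∫ x in Metric.ball (0 : E3) 3, γ x * ‖Z x‖ ^ 2) ≤
      ∫ x in Metric.ball (0 : E3) 3, γ x * ‖X x + Z x‖ ^ 2 := by
  set E := ∫ x in Metric.ball (0 : E3) 3, γ x * ‖X x‖ ^ 2 with hE
  set A := ∫ x in Metric.ball (0 : E3) 3, γ x * inner ℝ (X x) (Z x) with hA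
  set B := ∫ x in Metric.ball (0 : E3) 3, γ x * ‖Z x‖ ^ 2 with hB
  have h1 := energy_expand hγ hb hX hZ 1
  simp only [one_smul] at h1
  rw [h1, ← hE, ← hA, ← hB]
  have h0 : m ≤ E := by
    have := hm 0
    simpa using this
  have hB0 : 0 ≤ B := integral_nonneg fun x => mul_nonneg (hpos x) (sq_nonneg _)
  have hq : ∀ t : ℝ, 0 ≤ B * (t * t) + (2 * A) * t + η := fun t => by
    have := hm t
    rw [energy_expand hγ hb hX hZ t, ← hE, ← hA, ← hB] at this
    nlinarith
  have hd := discrim_le_zero hq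
  rw [discrim] at hd
  have hη0 : 0 ≤ η := by linarith
  -- A ^ 2 ≤ η B, so 2 |A| ≤ η / θ + θ B
  have h2 : -(η / θ + θ * B) ≤ 2 * A := by
    have h3 : (2 * A) ^ 2 ≤ (η / θ + θ * B) ^ 2 := by
      have h4 : (η / θ + θ * B) ^ 2 = (η / θ - θ * B) ^ 2 + 4 * (η * B) := by
        field_simp; ring
      nlinarith [sq_nonneg (η / θ - θ * B)]
    have h5 : 0 ≤ η / θ + θ * B := by positivity
    exact (abs_le.1 (abs_le_of_sq_le_sq h3 h5)).1
  nlinarith


/-- A competitor may be multiplied by a cutoff function. -/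
theorem compact_competitor (φ u : E3 → ℝ) (hu : IsCompetitor φ u) :
    ∃ u' : E3 → ℝ, IsCompetitor φ u' ∧ HasCompactSupport u' ∧ (∃ K : ℝ≥0, LipschitzWith K u') ∧
      ∀ γ : E3 → ℝ, ballEnergy γ u' = ballEnergy γ u := by
  let g : ContDiffBump (0 : E3) := ⟨4, 5, by norm_num, by norm_num⟩
  have hg1 : ContDiff ℝ 1 (fun x => g x * u x) := g.contDiff.mul hu.1
  have hgs : HasCompactSupport (fun x => g x * u x) := g.hasCompactSupport.mul_right
  have hgball : ∀ x ∈ Metric.ball (0 : E3) 4, g x * u x = u x := fun x hx => by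
    rw [g.one_of_mem_closedBall (Metric.ball_subset_closedBall hx), one_mul]
  refine ⟨fun x => g x * u x, ⟨hg1, fun x hx => ?_⟩, hgs, ?_, fun γ => ?_⟩
  · exact (hgball x (by rw [mem_ball_zero_iff, hx]; norm_num)).trans (hu.2 x hx)
  · obtain ⟨K, hK⟩ := hg1.lipschitzWith_of_hasCompactSupport hgs (by norm_num)
    exact ⟨K, hK⟩
  · unfold ballEnergy
    refine setIntegral_congr_fun measurableSet_ball fun x hx => ?_
    change γ x * ‖∇ (fun x => g x * u x) x‖ ^ 2 = γ x * ‖∇ u x‖ ^ 2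
    have h4 : x ∈ Metric.ball (0 : E3) 4 :=
      Metric.ball_subset_ball (by norm_num) hx
    have he : (fun x => g x * u x) =ᶠ[𝓝 x] u := by
      filter_upwards [Metric.isOpen_ball.mem_nhds h4] with y hy using hgball y hy
    have : ∇ (fun x => g x * u x) x = ∇ u x := by
      unfold gradient; rw [he.fderiv_eq]
    rw [this]

/-- A Lipschitz perturbation of a competitor supported in a smaller ball. -/
theorem lip_competitor (γ : E3 → ℝ) (c C : ℝ) (hc : 0 < c) (hγ : Measurable γ)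
    (hb : ∀ x, c ≤ γ x ∧ γ x ≤ C) (φ v : E3 → ℝ) (hv : IsCompetitor φ v)
    (z : E3 → ℝ) (K : ℝ≥0) (hz : LipschitzWith K z) (h0 : ∀ x, 2 < ‖x‖ → z x = 0)
    (ε : ℝ) (hε : 0 < ε) :
    ∃ u, IsCompetitor φ u ∧
      ballEnergy γ u < (∫ x in Metric.ball (0 : E3) 3, γ x * ‖∇ v x + ∇ z x‖ ^ 2) + ε := by
  refine approx_competitor γ c C hc hγ hb φ v hv 2 (by norm_num) (∇ z) ⟨?_, fun _ => z,
    fun _ => ⟨K, hz⟩, fun _ x hx => h0 x hx, ?_⟩ ε hε
  · have h1 : MemLp (∇ z) 2 (volume.restrict (Metric.closedBall (0 : E3) 2)) := by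
      have : IsFiniteMeasure (volume.restrict (Metric.closedBall (0 : E3) 2)) := ⟨by
        rw [Measure.restrict_apply_univ]; exact measure_closedBall_lt_top⟩
      exact MemLp.of_bound (NearMin.measurable_grad z).aestronglyMeasurable K
        (Eventually.of_forall fun x => NearMin.norm_grad_le hz x)
    have h2 : (Metric.closedBall (0 : E3) 2).indicator (∇ z) = ∇ z := by
      funext x
      by_cases hx : x ∈ Metric.closedBall (0 : E3) 2
      · rw [indicator_of_mem hx]
      · rw [indicator_of_notMem hx]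
        rw [mem_closedBall_zero_iff, not_le] at hx
        exact (NearMin.grad_zero_off h0 x hx).symm
    rw [← h2]
    exact (memLp_indicator_iff_restrict Metric.isClosed_closedBall.measurableSet).2 h1
  · simp

end Crest.Agent.R083
end

-- ▼ part R083/CellCharge
section

/-!
Row 83 (S0111): for every cell there is a potential whose pairing with `ψ` is the difference of
the averages over the boundary of this cell and over the boundary of `cellB`.
-/

set_option autoImplicit false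

namespace Crest.Agent.R083

open MeasureTheory Set Filter
open scoped Gradient ENNReal NNReal Topology

theorem cc_map (b : Bool) :
    Measure.map (simInv b) (volume : Measure E3) = ENNReal.ofReal (27/125) • volume := by
  ext S hS
  rw [Measure.map_apply (simInv_continuous b).measurable hS, ← pr_image, volume_sim]
  rfl

theorem cc_eLp (b : Bool) (f : E3 → E3) (hf : AEStronglyMeasurable f volume) :
    eLpNorm (fun x => f (simInv b x)) 2 volume ≤ eLpNorm f 2 volume := by
  have h1 : AEStronglyMeasurable f (Measure.map (simInv b) volume) := by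
    rw [cc_map]; exact hf.smul_measure _
  have h2 := eLpNorm_map_measure h1 (simInv_continuous b).measurable.aemeasurable (p := 2)
  have h3 : (fun x => f (simInv b x)) = f ∘ simInv b := rfl
  rw [h3, ← h2, cc_map]
  refine eLpNorm_mono_measure f ?_
  have h4 : ENNReal.ofReal (27/125) ≤ 1 := by
    rw [ENNReal.ofReal_le_one]; norm_num
  intro S
  rw [Measure.smul_apply, smul_eq_mul]
  calc ENNReal.ofReal (27/125) * volume S ≤ 1 * volume S := by gcongr
    _ = volume S := one_mul _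

theorem cc_aes (b : Bool) (f : E3 → E3) (hf : AEStronglyMeasurable f volume) :
    AEStronglyMeasurable (fun x => f (simInv b x)) volume := by
  have h1 : AEStronglyMeasurable f (Measure.map (simInv b) volume) := by
    rw [cc_map]; exact hf.smul_measure _
  exact h1.comp_aemeasurable (simInv_continuous b).measurable.aemeasurable

theorem cc_swp_cont : Continuous swp := by
  have h : swp = fun x => swpL x := by funext x; exact (swpL_apply x).symm
  rw [h]; exact swpL.continuous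

/-- The transported field. -/
noncomputable def ccT (b : Bool) (G' : E3 → E3) (x : E3) : E3 :=
  (25/9 : ℝ) • swp (G' (simInv b x))

theorem cc_T_aes (b : Bool) (f : E3 → E3) (hf : AEStronglyMeasurable f volume) :
    AEStronglyMeasurable (ccT b f) volume := by
  have h := (cc_swp_cont.comp_aestronglyMeasurable (cc_aes b f hf)).const_smul (25/9 : ℝ)
  exact h

theorem cc_T_norm (b : Bool) (f : E3 → E3) (hf : AEStronglyMeasurable f volume) :
    eLpNorm (ccT b f) 2 volume ≤ ENNReal.ofReal (25/9) * eLpNorm f 2 volume := by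
  have h1 : eLpNorm (ccT b f) 2 volume =
      eLpNorm ((25/9 : ℝ) • fun x => f (simInv b x)) 2 volume := by
    refine eLpNorm_congr_norm_ae (Eventually.of_forall fun x => ?_)
    simp only [ccT, Pi.smul_apply, norm_smul, norm_swp]
  rw [h1, eLpNorm_const_smul]
  have h2 : ‖(25/9 : ℝ)‖ₑ = ENNReal.ofReal (25/9) := by
    rw [Real.enorm_eq_ofReal (by norm_num)]
  rw [h2]
  gcongr
  exact cc_eLp b f hf

theorem cc_T_mem (b : Bool) (f : E3 → E3) (hf : MemLp f 2 volume) :
    MemLp (ccT b f) 2 volume :=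
  ⟨cc_T_aes b f hf.1, (cc_T_norm b f hf.1).trans_lt
    (ENNReal.mul_lt_top ENNReal.ofReal_lt_top hf.2)⟩

theorem cc_general (D : ModData) (a : Bool) (H G' : E3 → E3)
    (hH : Integrable H volume) (h0 : ∀ᵐ x, x ∉ cellBc → H x = 0)
    (hs : ∀ᵐ x, x ∈ sim a '' cellB → H x = ccT a G' x)
    (hn : ∀ᵐ x, x ∈ sim (!a) '' cellB → H x = 0)
    (hG0 : ∀ x, x ∉ cellB → G' x = 0)
    (ψ : E3 → ℝ) (K : ℝ≥0) (hψ : LipschitzWith K ψ) :
    ∫ x, D.gam0 x * inner ℝ (H x) (∇ ψ x) =
      (∫ x in modQ, D.γ x * inner ℝ (H x) (∇ ψ x)) +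
      ∫ x, D.gam0 x * inner ℝ (G' x) (∇ (ψ ∘ sim a) x) := by
  have hint := pr_int_pair D H hH ψ K hψ
  rw [pr_split _ hint (by filter_upwards [h0] with x hx h; rw [hx h, inner_zero_left, mul_zero])]
  have hQ : ∫ x in modQ, D.gam0 x * inner ℝ (H x) (∇ ψ x) =
      ∫ x in modQ, D.γ x * inner ℝ (H x) (∇ ψ x) := by
    refine setIntegral_congr_fun pr_modQ_open.measurableSet fun x hx => ?_
    simp only [gam0_mod D x hx]
  have hA : ∫ x in sim a '' cellB, D.gam0 x * inner ℝ (H x) (∇ ψ x) =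
      ∫ x, D.gam0 x * inner ℝ (G' x) (∇ (ψ ∘ sim a) x) := by
    have e1 : ∫ x in sim a '' cellB, D.gam0 x * inner ℝ (H x) (∇ ψ x) =
        ∫ x in sim a '' cellB, (25/9 : ℝ) *
          (D.gam0 x * inner ℝ (G' (simInv a x)) (swp (∇ ψ x))) := by
      refine setIntegral_congr_ae (pr_child_open a).measurableSet ?_
      filter_upwards [hs] with x hx h
      rw [hx h, ccT, inner_smul_left, pr_inner_swp']
      simp only [conj_trivial]
      ring
    have e2 := integral_sim a cellB cellB_open.measurableSet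
      (fun x => (25/9 : ℝ) *
          (D.gam0 x * inner ℝ (G' (simInv a x)) (swp (∇ ψ x))))
    rw [e1, e2]
    have e3 : ∫ x in cellB, (25/9 : ℝ) *
          (D.gam0 (sim a x) * inner ℝ (G' (simInv a (sim a x))) (swp (∇ ψ (sim a x)))) =
        ∫ x in cellB, (125/27 : ℝ) *
          (D.gam0 x * inner ℝ (G' x) (∇ (ψ ∘ sim a) x)) := by
      refine setIntegral_congr_fun cellB_open.measurableSet fun x hx => ?_
      simp only [gam0_sim D a x hx, simInv_sim, pr_grad_sim, inner_smul_right]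
      ring
    rw [e3, integral_const_mul]
    have e4 : ∫ x in cellB, D.gam0 x * inner ℝ (G' x) (∇ (ψ ∘ sim a) x) =
        ∫ x, D.gam0 x * inner ℝ (G' x) (∇ (ψ ∘ sim a) x) := by
      refine setIntegral_eq_integral_of_forall_compl_eq_zero fun x hx => ?_
      rw [hG0 x hx, inner_zero_left, mul_zero]
    rw [e4]
    ring
  have hN : ∫ x in sim (!a) '' cellB, D.gam0 x * inner ℝ (H x) (∇ ψ x) = 0 := by
    have e1 : ∫ x in sim (!a) '' cellB, D.gam0 x * inner ℝ (H x) (∇ ψ x) =
        ∫ x in sim (!a) '' cellB, (0 : ℝ) := by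
      refine setIntegral_congr_ae (pr_child_open (!a)).measurableSet ?_
      filter_upwards [hn] with x hx h
      rw [hx h, inner_zero_left, mul_zero]
    rw [e1, integral_zero]
  rw [hQ]
  cases a with
  | true =>
    simp only [Bool.not_true] at hN
    rw [hA, hN, add_zero]
  | false =>
    simp only [Bool.not_false] at hN
    rw [hA, hN, zero_add]

/-- The module part of the charge potential. -/
noncomputable def ccM (D : ModData) (a : Bool) (x : E3) : E3 := ∇ D.F x + sg a • D.G x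

theorem cc_M_mem (D : ModData) (a : Bool) : MemLp (ccM D a) 2 volume := by
  obtain ⟨K, hK⟩ := D.FL
  exact (pr_grad_memLp _ K hK D.F0).add (D.Gmem.const_smul (sg a))

theorem cc_M_off (D : ModData) (a : Bool) : ∀ᵐ x, x ∉ cellBc → ccM D a x = 0 := by
  filter_upwards [pr_G_off D] with x h1 h2
  rw [ccM, h1 h2, pr_grad_off _ D.F0 x h2, smul_zero, add_zero]

theorem cc_M_child (D : ModData) (a b : Bool) :
    ∀ᵐ x, x ∈ sim b '' cellB → ccM D a x = 0 := by
  filter_upwards [pr_G_child D b] with x h1 h2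
  have h3 : ∇ D.F x = 0 := by
    refine pr_grad_zero _ x D.d ?_
    filter_upwards [(pr_child_open b).mem_nhds h2] with y hy
    exact D.Fd b y (image_mono cellB_subset hy)
  rw [ccM, h1 h2, h3, smul_zero, add_zero]

theorem cc_M_pair (D : ModData) (a : Bool) (ψ : E3 → ℝ) (K : ℝ≥0) (hψ : LipschitzWith K ψ) :
    ∫ x in modQ, D.γ x * inner ℝ (ccM D a x) (∇ ψ x) = pavg (ψ ∘ sim a) - pavg ψ := by
  obtain ⟨KF, hKF⟩ := D.FL
  have i1 : Integrable (∇ D.F) volume :=
    pr_int_of_L2 _ (pr_grad_memLp _ KF hKF D.F0) (pr_off_ae _ D.F0)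
  have i2 : Integrable D.G volume := pr_int_of_L2 _ D.Gmem (pr_G_off D)
  have j : ∀ H : E3 → E3, Integrable H volume →
      IntegrableOn (fun x => D.γ x * inner ℝ (H x) (∇ ψ x)) modQ volume := by
    intro H hH
    have h1 := (pr_int_pair D H hH ψ K hψ).integrableOn (s := modQ)
    refine h1.congr_fun ?_ pr_modQ_open.measurableSet
    intro x hx
    simp only [gam0_mod D x hx]
  have e1 : ∫ x in modQ, D.γ x * inner ℝ (ccM D a x) (∇ ψ x) =
      ∫ x in modQ, ((D.γ x * inner ℝ (∇ D.F x) (∇ ψ x)) +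
        sg a * (D.γ x * inner ℝ (D.G x) (∇ ψ x))) := by
    refine setIntegral_congr_fun pr_modQ_open.measurableSet fun x _ => ?_
    simp only [ccM, inner_add_left, inner_smul_left, conj_trivial]
    ring
  rw [e1, integral_add (j _ i1) ((j _ i2).const_mul _), integral_const_mul, D.FE ψ K hψ,
    D.WE ψ K hψ]
  cases a with
  | true => simp only [sg, if_true]; ring
  | false => simp [sg]; ring

/-- The inductive statement. -/
theorem cc_induct (D : ModData) (w : List Bool) :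
    ∃ (G : E3 → E3) (zj : ℕ → E3 → ℝ), MemLp G 2 volume ∧
      (∀ j, ∃ K : ℝ≥0, LipschitzWith K (zj j)) ∧ (∀ j x, x ∉ cellB → zj j x = 0) ∧
      Tendsto (fun j => eLpNorm (fun x => ∇ (zj j) x - G x) 2 volume) atTop (𝓝 0) ∧
      (∀ x, x ∉ cellB → G x = 0) ∧
      ∀ (ψ : E3 → ℝ) (K : ℝ≥0), LipschitzWith K ψ →
        ∫ x, D.gam0 x * inner ℝ (G x) (∇ ψ x) = pavg (ψ ∘ simw w) - pavg ψ := by
  induction w with
  | nil =>
    refine ⟨fun _ => 0, fun _ _ => 0, MemLp.zero', fun _ => ⟨0, LipschitzWith.const 0⟩,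
      fun _ _ _ => rfl, ?_, fun _ _ => rfl, ?_⟩
    · refine tendsto_const_nhds.congr fun j => ?_
      symm
      have : (fun x : E3 => ∇ (fun _ : E3 => (0:ℝ)) x - (0 : E3)) = 0 := by
        funext x; simp
      rw [this, eLpNorm_zero]
    · intro ψ K _
      simp only [inner_zero_left, mul_zero, integral_zero, simw, Function.comp_id, sub_self]
  | cons a w ih =>
    obtain ⟨G', z', hG'm, hz'L, hz'0, hz't, hG'0, hG'p⟩ := ih
    -- the unrestricted field
    set H : E3 → E3 := fun x => ccM D a x + ccT a G' x with hHdef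
    have hT0 : ∀ x, simInv a x ∉ cellB → ccT a G' x = 0 := by
      intro x hx
      rw [ccT, hG'0 _ hx]
      have : swp (0 : E3) = 0 := by rw [← swpL_apply, map_zero]
      rw [this, smul_zero]
    have hHm : MemLp H 2 volume := (cc_M_mem D a).add (cc_T_mem a G' hG'm)
    have hH0 : ∀ᵐ x, x ∉ cellBc → H x = 0 := by
      filter_upwards [cc_M_off D a] with x h1 h2
      have h3 : simInv a x ∉ cellB := pr_off' a x fun h => h2 (cellB_subset h)
      simp only [hHdef]
      rw [h1 h2, hT0 x h3, add_zero]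
    have hHI : Integrable H volume := pr_int_of_L2 _ hHm hH0
    -- restriction to the cell
    set G : E3 → E3 := cellB.indicator H with hGdef
    have hGH : G =ᵐ[volume] H := by
      have hb : ∀ᵐ x, x ∉ cellBc \ cellB := by
        exact measure_eq_zero_iff_ae_notMem.1 volume_bdry
      filter_upwards [hH0, hb] with x h1 h2
      by_cases h : x ∈ cellB
      · rw [hGdef, indicator_of_mem h]
      · rw [hGdef, indicator_of_notMem h]
        exact (h1 fun h3 => h2 ⟨h3, h⟩).symm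
    refine ⟨G, fun j x => (D.F x + sg a * D.Wj j x) + 5/3 * z' j (simInv a x),
      hHm.ae_eq hGH.symm, ?_, ?_, ?_, ?_, ?_⟩
    · intro j
      obtain ⟨K1, h1⟩ := D.FL
      obtain ⟨K2, h2⟩ := D.WjL j
      obtain ⟨K3, h3⟩ := hz'L j
      exact ⟨_, (h1.add ((lipschitzWith_smul (sg a)).comp h2)).add
        ((lipschitzWith_smul (5/3 : ℝ)).comp (h3.comp (simInv_lipschitz a)))⟩
    · intro j x hx
      simp only
      rw [D.F0 x hx, D.Wj0 j x hx, hz'0 j _ (pr_off' a x hx)]
      norm_num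
    · -- convergence
      have hbound : ∀ j, eLpNorm (fun x => ∇ (fun x => (D.F x + sg a * D.Wj j x) +
          5/3 * z' j (simInv a x)) x - G x) 2 volume ≤
          eLpNorm (fun x => ∇ (D.Wj j) x - D.G x) 2 volume +
          ENNReal.ofReal (25/9) * eLpNorm (fun x => ∇ (z' j) x - G' x) 2 volume := by
        intro j
        have hzd : ∀ᵐ x, DifferentiableAt ℝ (fun x => z' j (simInv a x)) x := by
          obtain ⟨K3, h3⟩ := hz'L j
          exact (h3.comp (simInv_lipschitz a)).ae_differentiableAt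
        have hm1 : AEStronglyMeasurable (fun x => ∇ (D.Wj j) x - D.G x) volume :=
          (pr_grad_measurable _).aestronglyMeasurable.sub D.Gmem.1
        have hm2 : AEStronglyMeasurable (fun x => ∇ (z' j) x - G' x) volume :=
          (pr_grad_measurable _).aestronglyMeasurable.sub hG'm.1
        have e1 : eLpNorm (fun x => ∇ (fun x => (D.F x + sg a * D.Wj j x) +
            5/3 * z' j (simInv a x)) x - G x) 2 volume =
            eLpNorm (fun x => (sg a • fun x => (∇ (D.Wj j) x - D.G x)) x +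
              ccT a (fun x => ∇ (z' j) x - G' x) x) 2 volume := by
          refine eLpNorm_congr_ae ?_
          filter_upwards [hzd, pr_lip_diff _ (D.WjL j), pr_lip_diff _ D.FL, hGH]
            with x d3 d2 d1 hx
          have d2' : DifferentiableAt ℝ (fun x => sg a * D.Wj j x) x := d2.const_mul _
          have d3' : DifferentiableAt ℝ (fun x => 5/3 * z' j (simInv a x)) x := d3.const_mul _
          have g1 : ∇ (fun x => (D.F x + sg a * D.Wj j x) + 5/3 * z' j (simInv a x)) x =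
              (∇ D.F x + sg a • ∇ (D.Wj j) x) + (5/3 : ℝ) • ((5/3 : ℝ) •
                swp (∇ (z' j) (simInv a x))) := by
            have d12 : DifferentiableAt ℝ (fun x => D.F x + sg a * D.Wj j x) x := d1.add d2'
            rw [pr_grad_add _ _ x d12 d3', pr_grad_add _ _ x d1 d2',
              pr_grad_const_mul, pr_grad_const_mul, grad_comp_simInv]
          rw [g1, hx]
          simp only [hHdef, ccM, ccT, swp_sub, smul_sub, Pi.smul_apply, smul_smul]
          norm_num
          abel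
        rw [e1]
        refine (eLpNorm_add_le (hm1.const_smul _) (cc_T_aes a _ hm2) (by norm_num)).trans ?_
        refine add_le_add ?_ (cc_T_norm a _ hm2)
        rw [eLpNorm_const_smul]
        have : ‖sg a‖ₑ = 1 := by
          rw [← ofReal_norm, Real.norm_eq_abs, abs_sg, ENNReal.ofReal_one]
        rw [this, one_mul]
      refine tendsto_of_tendsto_of_tendsto_of_le_of_le tendsto_const_nhds ?_
        (fun _ => zero_le) hbound
      have h1 := ENNReal.Tendsto.const_mul hz't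
        (Or.inr (ENNReal.ofReal_ne_top (r := 25/9)))
      have h2 := D.WjG.add h1
      simpa using h2
    · intro x hx
      rw [hGdef, indicator_of_notMem hx]
    · intro ψ K hψ
      have e0 : ∫ x, D.gam0 x * inner ℝ (G x) (∇ ψ x) =
          ∫ x, D.gam0 x * inner ℝ (H x) (∇ ψ x) := by
        refine integral_congr_ae ?_
        filter_upwards [hGH] with x hx
        rw [hx]
      have hs : ∀ᵐ x, x ∈ sim a '' cellB → H x = ccT a G' x := by
        filter_upwards [cc_M_child D a a] with x h1 h2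
        simp only [hHdef]
        rw [h1 h2, zero_add]
      have hn : ∀ᵐ x, x ∈ sim (!a) '' cellB → H x = 0 := by
        filter_upwards [cc_M_child D a (!a)] with x h1 h2
        have h3 := pr_child_other (!a) x (image_mono cellB_subset h2)
        rw [Bool.not_not] at h3
        simp only [hHdef]
        rw [h1 h2, hT0 x fun h => h3 (cellB_subset h), zero_add]
      have hQ : ∫ x in modQ, D.γ x * inner ℝ (H x) (∇ ψ x) =
          ∫ x in modQ, D.γ x * inner ℝ (ccM D a x) (∇ ψ x) := by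
        refine setIntegral_congr_fun pr_modQ_open.measurableSet fun x hx => ?_
        have h1 : simInv a x ∉ cellBc := by
          refine pr_off a x fun h => hx.2 ?_
          cases a with
          | true => exact Or.inl h
          | false => exact Or.inr h
        simp only [hHdef]
        rw [hT0 x fun h => h1 (cellB_subset h), add_zero]
      rw [e0, cc_general D a H G' hHI hH0 hs hn hG'0 ψ K hψ, hQ, cc_M_pair D a ψ K hψ,
        hG'p _ _ (hψ.comp (sim_lipschitz a))]
      have : (ψ ∘ sim a) ∘ simw w = ψ ∘ simw (a :: w) := rfl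
      rw [this]
      ring

/-- For every cell there is a potential whose pairing with `ψ` is the difference of the averages
over the boundary of this cell and over the boundary of `cellB`. -/
theorem cell_charge (D : ModData) (w : List Bool) :
    ∃ G : E3 → E3, SobZ 2 G ∧ (∀ x, 2 < ‖x‖ → G x = 0) ∧
      ∀ (ψ : E3 → ℝ) (K : ℝ≥0), LipschitzWith K ψ →
        ∫ x, D.gam0 x * inner ℝ (G x) (∇ ψ x) = pavg (ψ ∘ simw w) - pavg ψ := by
  obtain ⟨G, zj, h1, h2, h3, h4, h5, h6⟩ := cc_induct D w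
  have h0 : ∀ x : E3, 2 < ‖x‖ → x ∉ cellB := fun x hx h =>
    absurd (cellBc_norm x (cellB_subset h)) (not_le.2 hx)
  exact ⟨G, ⟨h1, zj, h2, fun j x hx => h3 j x (h0 x hx), h4⟩, fun x hx => h5 x (h0 x hx), h6⟩

end Crest.Agent.R083
end

-- ▼ part R083/CutLevel
section

/-!
Row 83 (S0111), FIN-b: cutting a function down to a constant on all cells of one level.
-/

set_option autoImplicit false

namespace Crest.Agent.R083

open MeasureTheory Set Filter
open scoped Gradient ENNReal NNReal Topology ContDiff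

theorem cl_Dbox_open : IsOpen Dbox := by
  have h0 := tg_continuous_coord 0
  have h1 := tg_continuous_coord 1
  have h2 := tg_continuous_coord 2
  exact (isOpen_lt h0.abs continuous_const).inter
    ((isOpen_lt h1.abs continuous_const).inter (isOpen_lt h2.abs continuous_const))

theorem cl_Dbox_norm {x : E3} (hx : x ∈ Dbox) : ‖x‖ ≤ 3 := by
  rw [mem_Dbox] at hx
  obtain ⟨h0, h1, h2⟩ := hx
  have h := tg_norm_sq x
  have e0 : x 0 ^ 2 ≤ (71/50) ^ 2 := by
    rw [← sq_abs (x 0)]; exact pow_le_pow_left₀ (abs_nonneg _) h0.le 2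
  have e1 : x 1 ^ 2 ≤ (51/50) ^ 2 := by
    rw [← sq_abs (x 1)]; exact pow_le_pow_left₀ (abs_nonneg _) h1.le 2
  have e2 : x 2 ^ 2 ≤ (51/50) ^ 2 := by
    rw [← sq_abs (x 2)]; exact pow_le_pow_left₀ (abs_nonneg _) h2.le 2
  have h9 : ‖x‖ ^ 2 ≤ 3 ^ 2 := by rw [h]; norm_num at *; linarith
  exact le_of_sq_le_sq h9 (by norm_num)

theorem Ln_subset (n : ℕ) : Ln n ⊆ Dbox := by
  induction n with
  | zero => exact subset_rfl
  | succ n ih =>
    exact union_subset ((image_mono ih).trans (sim_Dbox true))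
      ((image_mono ih).trans (sim_Dbox false))

theorem Ln_measurable (n : ℕ) : MeasurableSet (Ln n) := by
  induction n with
  | zero => exact cl_Dbox_open.measurableSet
  | succ n ih => exact (measurableSet_sim_image true ih).union (measurableSet_sim_image false ih)

theorem volume_Ln (n : ℕ) :
    volume (Ln n) ≤ ENNReal.ofReal ((54/125 : ℝ) ^ n) * volume Dbox := by
  induction n with
  | zero => simp [Ln]
  | succ n ih =>
    calc volume (Ln (n + 1)) ≤ volume (sim true '' Ln n) + volume (sim false '' Ln n) :=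
          measure_union_le _ _
      _ = ENNReal.ofReal (54/125) * volume (Ln n) := by
          rw [volume_sim, volume_sim, ← add_mul, ← ENNReal.ofReal_add (by norm_num) (by norm_num)]
          norm_num
      _ ≤ ENNReal.ofReal (54/125) * (ENNReal.ofReal ((54/125 : ℝ) ^ n) * volume Dbox) := by
          gcongr
      _ = ENNReal.ofReal ((54/125 : ℝ) ^ (n + 1)) * volume Dbox := by
          rw [← mul_assoc, ← ENNReal.ofReal_mul (by norm_num), pow_succ, mul_comm (54/125 : ℝ)]

theorem cl_integrableOn {f : E3 → ℝ} (hf : Continuous f) {S : Set E3} (hS : S ⊆ Dbox) :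
    IntegrableOn f S volume := by
  have h1 : IntegrableOn f (Metric.closedBall (0:E3) 3) volume :=
    hf.continuousOn.integrableOn_compact (isCompact_closedBall _ _)
  refine h1.mono_set (hS.trans fun x hx => ?_)
  rw [mem_closedBall_zero_iff]
  exact cl_Dbox_norm hx

theorem cl_grad_continuous {v : E3 → ℝ} (hv : ContDiff ℝ 1 v) : Continuous (fun x => ∇ v x) := by
  unfold gradient
  exact (LinearIsometryEquiv.continuous _).comp (hv.continuous_fderiv (by norm_num))

theorem cl_grad_cut {χ v : E3 → ℝ} (hχ : Differentiable ℝ χ) (hv : Differentiable ℝ v)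
    (κ : ℝ) (x : E3) :
    ∇ (fun y => κ + χ y * (v y - κ)) x = χ x • ∇ v x + (v x - κ) • ∇ χ x := by
  have h : fderiv ℝ (fun y => κ + χ y * (v y - κ)) x
      = χ x • fderiv ℝ v x + (v x - κ) • fderiv ℝ χ x := by
    have h1 : HasFDerivAt (fun y => χ y * (v y - κ)) (χ x • fderiv ℝ v x + (v x - κ) • fderiv ℝ χ x) x :=
      (hχ x).hasFDerivAt.mul ((hv x).hasFDerivAt.sub_const κ)
    exact (h1.const_add κ).fderiv
  unfold gradient
  rw [h, map_add, map_smulₛₗ, map_smulₛₗ]
  simp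

/-- The base case. -/
theorem cut_base : ∃ C₁ C₂ : ℝ, 0 ≤ C₁ ∧ 0 ≤ C₂ ∧ ∀ (v : E3 → ℝ) (κ η : ℝ),
    ContDiff ℝ 1 v → |pavg v - κ| ≤ η →
    ∃ v' : E3 → ℝ, ContDiff ℝ 1 v' ∧ (∀ x ∉ Dbox, v' x = v x) ∧ (∀ x ∉ Dbox, ∇ v' x = ∇ v x) ∧
      (∀ x ∈ cellBc, v' x = κ) ∧
      ∫ x in Dbox, ‖∇ v' x‖ ^ 2 ≤ C₁ * (∫ x in Dbox, ‖∇ v x‖ ^ 2) + C₂ * η ^ 2 := by
  obtain ⟨Cp, hCp⟩ := poincare_cell
  obtain ⟨χ, K, hχs, hχ01, hχK, hχ0, hχ1, hχg⟩ := cutoff_cell
  have hvol : volume Dbox ≠ (⊤ : ℝ≥0∞) := by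
    refine ne_of_lt (lt_of_le_of_lt (measure_mono (t := Metric.closedBall (0:E3) 3) ?_)
      measure_closedBall_lt_top)
    intro x hx
    rw [mem_closedBall_zero_iff]
    exact cl_Dbox_norm hx
  refine ⟨2 + 4 * K ^ 2 * max Cp 0, 4 * K ^ 2 * (volume Dbox).toReal, by positivity,
    by positivity, ?_⟩
  intro v κ η hv hη
  have hχ1' : ContDiff ℝ 1 χ := hχs.of_le (by exact_mod_cast le_top)
  have hχd : Differentiable ℝ χ := hχ1'.differentiable (by norm_num)
  have hvd : Differentiable ℝ v := hv.differentiable (by norm_num)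
  have hg := cl_grad_cut hχd hvd κ
  have hv' : ContDiff ℝ 1 (fun y => κ + χ y * (v y - κ)) :=
    contDiff_const.add (hχ1'.mul (hv.sub contDiff_const))
  refine ⟨fun y => κ + χ y * (v y - κ), hv', ?_, ?_, ?_, ?_⟩
  · intro x hx
    simp only [hχ1 x hx]; ring
  · intro x hx
    rw [hg x, hχ1 x hx, hχg x hx]; simp
  · intro x hx
    simp only [hχ0 x hx]; ring
  · have hpt : ∀ x, ‖∇ (fun y => κ + χ y * (v y - κ)) x‖ ^ 2 ≤
        2 * ‖∇ v x‖ ^ 2 + 4 * K ^ 2 * (v x - pavg v) ^ 2 + 4 * K ^ 2 * η ^ 2 := by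
      intro x
      rw [hg x]
      have h1 : ‖χ x • ∇ v x + (v x - κ) • ∇ χ x‖ ≤ ‖∇ v x‖ + |v x - κ| * K := by
        refine (norm_add_le _ _).trans ?_
        rw [norm_smul, norm_smul, Real.norm_eq_abs, Real.norm_eq_abs,
          abs_of_nonneg (hχ01 x).1]
        refine add_le_add ?_ (mul_le_mul_of_nonneg_left (hχK x) (abs_nonneg _))
        have := mul_le_mul_of_nonneg_right (hχ01 x).2 (norm_nonneg (∇ v x))
        linarith
      have h2 : ‖χ x • ∇ v x + (v x - κ) • ∇ χ x‖ ^ 2 ≤ (‖∇ v x‖ + |v x - κ| * K) ^ 2 :=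
        pow_le_pow_left₀ (norm_nonneg _) h1 2
      have h3 : (v x - κ) ^ 2 ≤ 2 * (v x - pavg v) ^ 2 + 2 * η ^ 2 := by
        have h4 : (pavg v - κ) ^ 2 ≤ η ^ 2 := by
          rw [← sq_abs (pavg v - κ)]
          exact pow_le_pow_left₀ (abs_nonneg _) hη 2
        have h5 : v x - κ = (v x - pavg v) + (pavg v - κ) := by ring
        rw [h5]
        nlinarith [sq_nonneg ((v x - pavg v) - (pavg v - κ))]
      have h6 : |v x - κ| ^ 2 = (v x - κ) ^ 2 := sq_abs _
      have h7 : (‖∇ v x‖ + |v x - κ| * K) ^ 2 ≤ 2 * ‖∇ v x‖ ^ 2 + 2 * (K ^ 2 * (v x - κ) ^ 2) := by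
        rw [← h6]
        nlinarith [sq_nonneg (‖∇ v x‖ - |v x - κ| * K)]
      have h8 : K ^ 2 * (v x - κ) ^ 2 ≤ K ^ 2 * (2 * (v x - pavg v) ^ 2 + 2 * η ^ 2) :=
        mul_le_mul_of_nonneg_left h3 (sq_nonneg K)
      linarith
    have hgc := cl_grad_continuous hv
    have hgc' := cl_grad_continuous hv'
    have i1 : IntegrableOn (fun x => ‖∇ v x‖ ^ 2) Dbox volume :=
      cl_integrableOn (hgc.norm.pow 2) subset_rfl
    have i2 : IntegrableOn (fun x => (v x - pavg v) ^ 2) Dbox volume :=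
      cl_integrableOn ((hv.continuous.sub continuous_const).pow 2) subset_rfl
    have i3 : IntegrableOn (fun x => ‖∇ (fun y => κ + χ y * (v y - κ)) x‖ ^ 2) Dbox volume :=
      cl_integrableOn (hgc'.norm.pow 2) subset_rfl
    have i4 : IntegrableOn (fun _ : E3 => 4 * K ^ 2 * η ^ 2) Dbox volume :=
      cl_integrableOn continuous_const subset_rfl
    have i5 : IntegrableOn (fun x => 2 * ‖∇ v x‖ ^ 2 + 4 * K ^ 2 * (v x - pavg v) ^ 2) Dbox
        volume := (i1.const_mul 2).add (i2.const_mul (4 * K ^ 2))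
    have hint : ∫ x in Dbox, ‖∇ (fun y => κ + χ y * (v y - κ)) x‖ ^ 2 ≤
        ∫ x in Dbox, (2 * ‖∇ v x‖ ^ 2 + 4 * K ^ 2 * (v x - pavg v) ^ 2 + 4 * K ^ 2 * η ^ 2) :=
      integral_mono i3 (i5.add i4) hpt
    have heq : ∫ x in Dbox, (2 * ‖∇ v x‖ ^ 2 + 4 * K ^ 2 * (v x - pavg v) ^ 2 + 4 * K ^ 2 * η ^ 2)
        = 2 * (∫ x in Dbox, ‖∇ v x‖ ^ 2) + 4 * K ^ 2 * (∫ x in Dbox, (v x - pavg v) ^ 2) +
          (volume Dbox).toReal * (4 * K ^ 2 * η ^ 2) := by
      rw [integral_add i5 i4,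
        integral_add (i1.const_mul 2) (i2.const_mul (4 * K ^ 2)), integral_const_mul,
        integral_const_mul, setIntegral_const, smul_eq_mul]
      rfl
    rw [heq] at hint
    have hp := hCp v hv
    have h0 : 0 ≤ ∫ x in Dbox, ‖∇ v x‖ ^ 2 := integral_nonneg fun x => sq_nonneg _
    have hp' : ∫ x in Dbox, (v x - pavg v) ^ 2 ≤ max Cp 0 * ∫ x in Dbox, ‖∇ v x‖ ^ 2 :=
      hp.trans (mul_le_mul_of_nonneg_right (le_max_left _ _) h0)
    have hp'' := mul_le_mul_of_nonneg_left hp' (show 0 ≤ 4 * K ^ 2 by positivity)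
    linarith

/-- Make a `C¹` function equal to `κ` on all closed cells of level `n`. -/
theorem cut_level : ∃ C₁ C₂ : ℝ, 0 ≤ C₁ ∧ 0 ≤ C₂ ∧ ∀ (n : ℕ) (v : E3 → ℝ) (κ η : ℝ),
    ContDiff ℝ 1 v → (∀ w : List Bool, w.length = n → |pavg (v ∘ simw w) - κ| ≤ η) →
    ∃ v' : E3 → ℝ, ContDiff ℝ 1 v' ∧ (∀ x ∉ Ln n, v' x = v x) ∧ (∀ x ∉ Ln n, ∇ v' x = ∇ v x) ∧
      (∀ x ∈ Kc n, v' x = κ) ∧
      ∫ x in Ln n, ‖∇ v' x‖ ^ 2 ≤ C₁ * (∫ x in Ln n, ‖∇ v x‖ ^ 2) + C₂ * (6/5 : ℝ) ^ n * η ^ 2 := by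
  obtain ⟨C₁, C₂, h1, h2, hbase⟩ := cut_base
  refine ⟨C₁, C₂, h1, h2, fun n => ?_⟩
  induction n with
  | zero =>
    intro v κ η hv hw
    obtain ⟨v', a1, a2, a3, a4, a5⟩ := hbase v κ η hv (by simpa [simw] using hw [] rfl)
    refine ⟨v', a1, a2, a3, a4, ?_⟩
    simpa [Ln] using a5
  | succ n ih =>
    intro v κ η hv hw
    have hsmooth : ∀ b, ContDiff ℝ 1 (sim b) := by
      intro b
      have : sim b = fun x => ctr b + (simLin : E3 →L[ℝ] E3) x := by
        funext x
        rw [sim_eq]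
        congr 1
        exact (simLin_apply x).symm
      rw [this]
      exact contDiff_const.add (ContinuousLinearMap.contDiff _)
    have hsmoothI : ∀ b, ContDiff ℝ 1 (simInv b) := by
      intro b
      have : simInv b = fun x => (simLin.symm : E3 →L[ℝ] E3) (x - ctr b) := by
        funext x
        have e : simLin ((5/3 : ℝ) • swp (x - ctr b)) = x - ctr b := by
          rw [simLin_apply, swp_smul, swp_swp, smul_smul]; norm_num
        rw [simInv_eq]
        show _ = simLin.symm (x - ctr b)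
        rw [← e, ContinuousLinearEquiv.symm_apply_apply, e]
      rw [this]
      exact (ContinuousLinearMap.contDiff _).comp (contDiff_id.sub contDiff_const)
    have hstep : ∀ b, ∃ v' : E3 → ℝ, ContDiff ℝ 1 v' ∧ (∀ x ∉ Ln n, v' x = (v ∘ sim b) x) ∧
      (∀ x ∉ Ln n, ∇ v' x = ∇ (v ∘ sim b) x) ∧ (∀ x ∈ Kc n, v' x = κ) ∧
      ∫ x in Ln n, ‖∇ v' x‖ ^ 2 ≤ C₁ * (∫ x in Ln n, ‖∇ (v ∘ sim b) x‖ ^ 2) +
        C₂ * (6/5 : ℝ) ^ n * η ^ 2 := by
      intro b
      refine ih (v ∘ sim b) κ η (hv.comp (hsmooth b)) (fun w hwl => ?_)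
      have := hw (b :: w) (by simp [hwl])
      simpa [simw, Function.comp_assoc] using this
    choose u u1 u2 u3 u4 u5 using hstep
    -- the new function
    set v' : E3 → ℝ := fun x => v x + ((u true (simInv true x) - v x) +
      (u false (simInv false x) - v x)) with hv'def
    have hv's : ContDiff ℝ 1 v' := by
      refine hv.add (ContDiff.add ?_ ?_)
      · exact ((u1 true).comp (hsmoothI true)).sub hv
      · exact ((u1 false).comp (hsmoothI false)).sub hv
    have hvd : Differentiable ℝ v := hv.differentiable (by norm_num)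
    have hd : ∀ b, Differentiable ℝ (fun x => u b (simInv b x)) := fun b =>
      ((u1 b).comp (hsmoothI b)).differentiable (by norm_num)
    have hgrad : ∀ x, ∇ v' x = ∇ v x +
        ((((5/3 : ℝ) • swp (∇ (u true) (simInv true x))) - ∇ v x) +
        (((5/3 : ℝ) • swp (∇ (u false) (simInv false x))) - ∇ v x)) := by
      intro x
      rw [← grad_comp_simInv true (u true) x, ← grad_comp_simInv false (u false) x]
      have hf : fderiv ℝ v' x = fderiv ℝ v x +
          ((fderiv ℝ (fun y => u true (simInv true y)) x - fderiv ℝ v x) +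
          (fderiv ℝ (fun y => u false (simInv false y)) x - fderiv ℝ v x)) := by
        have h1 := (hd true x).hasFDerivAt
        have h2 := (hd false x).hasFDerivAt
        have h3 := (hvd x).hasFDerivAt
        exact (h3.add ((h1.sub h3).add (h2.sub h3))).fderiv
      unfold gradient
      rw [hf, map_add, map_add, map_sub, map_sub]
    have hoff : ∀ b x, x ∉ sim b '' Ln n → u b (simInv b x) = v x := by
      intro b x hx
      rw [mem_sim_image] at hx
      rw [u2 b _ hx]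
      simp only [Function.comp, sim_simInv]
    have hoffg : ∀ b x, x ∉ sim b '' Ln n →
        (5/3 : ℝ) • swp (∇ (u b) (simInv b x)) = ∇ v x := by
      intro b x hx
      rw [mem_sim_image] at hx
      rw [u3 b _ hx, grad_comp_sim, sim_simInv, swp_smul, swp_swp, smul_smul]
      norm_num
    have hdisj : Disjoint (sim true '' Ln n) (sim false '' Ln n) :=
      Dbox_disjoint.mono (image_mono (Ln_subset n)) (image_mono (Ln_subset n))
    have hT : ∀ x ∈ sim true '' Ln n, x ∉ sim false '' Ln n := fun x hx hx' =>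
      (Set.disjoint_left.1 hdisj hx) hx'
    have hF : ∀ x ∈ sim false '' Ln n, x ∉ sim true '' Ln n := fun x hx hx' =>
      (Set.disjoint_left.1 hdisj hx') hx
    have hKD : ∀ m, Kc m ⊆ Dbox := by
      intro m
      induction m with
      | zero =>
        intro x hx
        have hx' : x ∈ cellBc := hx
        rw [mem_cellBc] at hx'
        rw [mem_Dbox]
        obtain ⟨h1, h2, h3⟩ := hx'
        have := abs_nonneg (x 2)
        have := abs_nonneg (x 1)
        have := abs_nonneg (x 0)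
        refine ⟨by linarith, by linarith, by linarith⟩
      | succ m ihm =>
        exact union_subset ((image_mono ihm).trans (sim_Dbox true))
          ((image_mono ihm).trans (sim_Dbox false))
    have hKT : ∀ x ∈ sim true '' Kc n, x ∉ sim false '' Ln n := by
      intro x hx hx'
      exact (Set.disjoint_left.1 Dbox_disjoint (image_mono (hKD n) hx))
        (image_mono (Ln_subset n) hx')
    have hKF : ∀ x ∈ sim false '' Kc n, x ∉ sim true '' Ln n := by
      intro x hx hx'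
      exact (Set.disjoint_left.1 Dbox_disjoint (image_mono (Ln_subset n) hx'))
        (image_mono (hKD n) hx)
    refine ⟨v', hv's, ?_, ?_, ?_, ?_⟩
    · intro x hx
      have hx1 : x ∉ sim true '' Ln n := fun h => hx (Or.inl h)
      have hx2 : x ∉ sim false '' Ln n := fun h => hx (Or.inr h)
      simp only [hv'def, hoff true x hx1, hoff false x hx2]
      ring
    · intro x hx
      have hx1 : x ∉ sim true '' Ln n := fun h => hx (Or.inl h)
      have hx2 : x ∉ sim false '' Ln n := fun h => hx (Or.inr h)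
      rw [hgrad, hoffg true x hx1, hoffg false x hx2]
      simp
    · rintro x (hx | hx)
      · have e1 := hoff false x (hKT x hx)
        have e2 : u true (simInv true x) = κ := u4 true _ ((mem_sim_image true _ x).1 hx)
        simp only [hv'def, e1, e2]; ring
      · have e1 := hoff true x (hKF x hx)
        have e2 : u false (simInv false x) = κ := u4 false _ ((mem_sim_image false _ x).1 hx)
        simp only [hv'def, e1, e2]; ring
    · -- energy
      have hLm := Ln_measurable n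
      have hmT := measurableSet_sim_image true hLm
      have hmF := measurableSet_sim_image false hLm
      have hsub : ∀ b, sim b '' Ln n ⊆ Dbox := fun b =>
        (image_mono (Ln_subset n)).trans (sim_Dbox b)
      have hgc := cl_grad_continuous hv
      have hgc' := cl_grad_continuous hv's
      have split : ∀ f : E3 → ℝ, Continuous f → ∫ x in Ln (n + 1), f x =
          27/125 * (∫ x in Ln n, f (sim true x)) + 27/125 * (∫ x in Ln n, f (sim false x)) := by
        intro f hf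
        have hU : Ln (n + 1) = sim true '' Ln n ∪ sim false '' Ln n := rfl
        rw [hU, setIntegral_union hdisj hmF (cl_integrableOn hf (hsub true))
          (cl_integrableOn hf (hsub false)), integral_sim true _ hLm, integral_sim false _ hLm]
      rw [split (fun x => ‖∇ v' x‖ ^ 2) (hgc'.norm.pow 2),
        split (fun x => ‖∇ v x‖ ^ 2) (hgc.norm.pow 2)]
      have e1 : ∀ b, ∫ x in Ln n, ‖∇ v' (sim b x)‖ ^ 2 = 25/9 * ∫ x in Ln n, ‖∇ (u b) x‖ ^ 2 := by
        intro b
        rw [← integral_const_mul]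
        refine setIntegral_congr_fun hLm (fun x hx => ?_)
        have hxb : sim b x ∈ sim b '' Ln n := mem_image_of_mem _ hx
        have hval : ∇ v' (sim b x) = (5/3 : ℝ) • swp (∇ (u b) x) := by
          rw [hgrad]
          cases b
          · rw [hoffg true _ (hF _ hxb), simInv_sim]; abel
          · rw [hoffg false _ (hT _ hxb), simInv_sim]; abel
        show ‖∇ v' (sim b x)‖ ^ 2 = 25/9 * ‖∇ (u b) x‖ ^ 2
        rw [hval, norm_smul, norm_swp, mul_pow]
        norm_num
      have e2 : ∀ b, ∫ x in Ln n, ‖∇ (v ∘ sim b) x‖ ^ 2 =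
          9/25 * ∫ x in Ln n, ‖∇ v (sim b x)‖ ^ 2 := by
        intro b
        rw [← integral_const_mul]
        refine setIntegral_congr_fun hLm (fun x hx => ?_)
        show ‖∇ (v ∘ sim b) x‖ ^ 2 = 9/25 * ‖∇ v (sim b x)‖ ^ 2
        rw [grad_comp_sim, norm_smul, norm_swp, mul_pow]
        norm_num
      rw [e1, e1]
      have hT5 := u5 true
      have hF5 := u5 false
      rw [e2] at hT5 hF5
      have hpow : (6/5 : ℝ) ^ (n + 1) = 6/5 * (6/5) ^ n := by rw [pow_succ]; ring
      rw [hpow]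
      nlinarith [hT5, hF5]

end Crest.Agent.R083
end

-- ▼ part R083/FlatMin
section

/-!
Row 83 (S0111), FIN-c: near-minimisers which are constant on all cells of a deep level.
-/

set_option autoImplicit false

namespace Crest.Agent.R083

open MeasureTheory Set Filter
open scoped Gradient ENNReal NNReal Topology ContDiff
open Crest.AnalysisR.PDE.Calderon

/-- Near-minimisers which are constant on all closed cells of some deep level. -/
theorem flat_near_min (D : ModData) (φ : E3 → ℝ) (m : ℝ)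
    (hm : ∀ u, IsCompetitor φ u → m ≤ ballEnergy D.gam0 u)
    (hm' : ∀ δ : ℝ, 0 < δ → ∃ u, IsCompetitor φ u ∧ ballEnergy D.gam0 u ≤ m + δ)
    (η : ℝ) (hη : 0 < η) (n0 : ℕ) :
    ∃ n, n0 ≤ n ∧ ∃ (κ : ℝ) (v : E3 → ℝ), IsCompetitor φ v ∧ HasCompactSupport v ∧
      (∀ x ∈ Kc n, v x = κ) ∧ ballEnergy D.gam0 v ≤ m + η :=
  FlatMin.core D (cell_charge D) Ln_measurable Ln_subset volume_Ln cut_level φ m hm hm' η hη n0

end Crest.Agent.R083
end

-- ▼ part R083/Trace
section

/-!
Row 83 (S0111), FIN-d (task 952, helper286): Friedrichs inequality for the average over the boundary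
of the cell, and the uniform trace inequality.
-/

set_option autoImplicit false

namespace Crest.Agent.R083

open MeasureTheory Set Filter
open scoped Gradient ENNReal NNReal Topology ContDiff

/-! ### one dimension -/

/-- `(u b - u a)² ≤ (b - a) ∫ u'²`. -/
theorem trc_cs {u u' : ℝ → ℝ} {a b : ℝ} (hab : a ≤ b) (hu : ∀ t, HasDerivAt u (u' t) t)
    (hc : Continuous u') : (u b - u a) ^ 2 ≤ (b - a) * ∫ t in a..b, u' t ^ 2 := by
  have hI : ∫ t in a..b, u' t = u b - u a :=
    intervalIntegral.integral_eq_sub_of_hasDerivAt (fun t _ => hu t) (hc.intervalIntegrable _ _)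
  rcases eq_or_lt_of_le hab with h | h
  · subst h; simp
  · have hpos : 0 < b - a := by linarith
    set lam := (u b - u a) / (b - a) with hlam
    have h1 : 0 ≤ ∫ t in a..b, (u' t - lam) ^ 2 :=
      intervalIntegral.integral_nonneg hab fun t _ => sq_nonneg _
    have h2 : ∫ t in a..b, (u' t - lam) ^ 2 =
        (∫ t in a..b, u' t ^ 2) - 2 * lam * (∫ t in a..b, u' t) + lam ^ 2 * (b - a) := by
      have e : ∀ t, (u' t - lam) ^ 2 = (u' t ^ 2 - 2 * lam * u' t) + lam ^ 2 := fun t => by ring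
      simp only [e]
      rw [intervalIntegral.integral_add, intervalIntegral.integral_sub,
        intervalIntegral.integral_const_mul, intervalIntegral.integral_const]
      · simp only [smul_eq_mul]; ring
      · exact (hc.pow 2).intervalIntegrable _ _
      · exact (hc.const_mul _).intervalIntegrable _ _
      · exact ((hc.pow 2).sub (hc.const_mul _)).intervalIntegrable _ _
      · exact intervalIntegrable_const
    rw [h2, hI] at h1
    have h3 : lam * (b - a) = u b - u a := by rw [hlam]; field_simp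
    have h4 : 0 ≤ (b - a) * ((∫ t in a..b, u' t ^ 2) - 2 * lam * (u b - u a)
        + lam ^ 2 * (b - a)) := mul_nonneg hpos.le h1
    have h5 : (b - a) * ((∫ t in a..b, u' t ^ 2) - 2 * lam * (u b - u a) + lam ^ 2 * (b - a))
        = (b - a) * (∫ t in a..b, u' t ^ 2) - 2 * (lam * (b - a)) * (u b - u a)
          + (lam * (b - a)) ^ 2 := by ring
    rw [h5, h3] at h4
    nlinarith

/-! ### slices of bounded measurable functions -/

section slices

variable {g : E3 → ℝ} {B : ℝ}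

theorem trc_meas_pt : Measurable (fun q : ℝ × ℝ × ℝ => pt q.1 q.2.1 q.2.2) := by
  have := ptE.measurable
  have e : (fun q : ℝ × ℝ × ℝ => pt q.1 q.2.1 q.2.2) = ptE := by
    funext q; rw [ptE_apply]
  rw [e]; exact this

theorem trc_slice_meas (hg : Measurable g) (c d : ℝ) (hcd : c ≤ d) :
    Measurable (fun q : ℝ × ℝ => ∫ t in c..d, g (pt q.1 q.2 t)) := by
  have h1 : Measurable (fun q : (ℝ × ℝ) × ℝ => g (pt q.1.1 q.1.2 q.2)) :=
    hg.comp (trc_meas_pt.comp (measurable_fst.fst.prodMk (measurable_fst.snd.prodMk measurable_snd)))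
  have h2 : StronglyMeasurable (fun q : ℝ × ℝ => ∫ t, g (pt q.1 q.2 t) ∂(volume.restrict (Ioc c d))) :=
    h1.stronglyMeasurable.integral_prod_right'
  have e : (fun q : ℝ × ℝ => ∫ t in c..d, g (pt q.1 q.2 t)) =
      fun q : ℝ × ℝ => ∫ t, g (pt q.1 q.2 t) ∂(volume.restrict (Ioc c d)) := by
    funext q; rw [intervalIntegral.integral_of_le hcd]
  rw [e]; exact h2.measurable

theorem trc_slice_bound (hB : ∀ x, |g x| ≤ B) (c d : ℝ) (hcd : c ≤ d) (x y : ℝ) :
    |∫ t in c..d, g (pt x y t)| ≤ B * (d - c) := by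
  have := intervalIntegral.norm_integral_le_of_norm_le_const (a := c) (b := d)
    (f := fun t => g (pt x y t)) (C := B) (fun t _ => by
      rw [Real.norm_eq_abs]; exact hB _)
  rw [Real.norm_eq_abs, abs_of_nonneg (by linarith : 0 ≤ d - c)] at this
  exact this

theorem trc_slice_int (hg : Measurable g) (hB : ∀ x, |g x| ≤ B) (c d : ℝ) (hcd : c ≤ d)
    (x a b : ℝ) : IntervalIntegrable (fun y => ∫ t in c..d, g (pt x y t)) volume a b := by
  have h1 : Measurable (fun y => ∫ t in c..d, g (pt x y t)) :=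
    (trc_slice_meas hg c d hcd).comp (measurable_const.prodMk measurable_id)
  refine (intervalIntegrable_const (c := B * (d - c))).mono_fun h1.aestronglyMeasurable ?_
  refine Eventually.of_forall fun y => ?_
  simp only [Real.norm_eq_abs]
  exact (trc_slice_bound hB c d hcd x y).trans (le_abs_self _)

theorem trc_slice_int2 (hg : Measurable g) (hB : ∀ x, |g x| ≤ B) (c d : ℝ) (hcd : c ≤ d)
    (c' d' : ℝ) (hcd' : c' ≤ d') (a b : ℝ) :
    IntervalIntegrable (fun x => ∫ y in c'..d', ∫ t in c..d, g (pt x y t)) volume a b := by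
  have h1 : Measurable (fun x => ∫ y in c'..d', ∫ t in c..d, g (pt x y t)) := by
    have h2 : StronglyMeasurable (fun x : ℝ => ∫ y, (fun q : ℝ × ℝ => ∫ t in c..d,
        g (pt q.1 q.2 t)) (x, y) ∂(volume.restrict (Ioc c' d'))) :=
      (trc_slice_meas hg c d hcd).stronglyMeasurable.integral_prod_right'
    have e : (fun x => ∫ y in c'..d', ∫ t in c..d, g (pt x y t)) =
        fun x : ℝ => ∫ y, (fun q : ℝ × ℝ => ∫ t in c..d,
        g (pt q.1 q.2 t)) (x, y) ∂(volume.restrict (Ioc c' d')) := by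
      funext x; rw [intervalIntegral.integral_of_le hcd']
    rw [e]; exact h2.measurable
  refine (intervalIntegrable_const (c := B * (d - c) * (d' - c'))).mono_fun
    h1.aestronglyMeasurable ?_
  refine Eventually.of_forall fun x => ?_
  have := intervalIntegral.norm_integral_le_of_norm_le_const (a := c') (b := d')
    (f := fun y => ∫ t in c..d, g (pt x y t)) (C := B * (d - c)) (fun y _ => by
      rw [Real.norm_eq_abs]; exact trc_slice_bound hB c d hcd x y)
  rw [abs_of_nonneg (by linarith : 0 ≤ d' - c')] at this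
  simp only [Real.norm_eq_abs] at this ⊢
  exact this.trans (le_abs_self _)

end slices

/-! ### Friedrichs inequality -/

theorem trc_roof_nonneg {x y : ℝ} (hx : |x| ≤ 7/5) (hy : |y| ≤ 1) : 0 ≤ roof x y := by
  unfold roof
  have : max 0 (max (|x| - 1) (|y| - 3/5)) ≤ 2/5 :=
    max_le (by norm_num) (max_le (by linarith) (by linarith))
  linarith

theorem trc_roof_le (x y : ℝ) : roof x y ≤ 1 := by
  unfold roof
  have : 0 ≤ max 0 (max (|x| - 1) (|y| - 3/5)) := le_max_left _ _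
  linarith

theorem trc_roof_continuous : Continuous (fun q : ℝ × ℝ => roof q.1 q.2) := by
  unfold roof
  fun_prop

theorem trc_norm_sq_pt (x y t : ℝ) : ‖pt x y t‖ ^ 2 = x ^ 2 + y ^ 2 + t ^ 2 := by
  rw [tg_norm_sq]; rfl

theorem trc_norm_ee (i : Fin 3) : ‖ee i‖ = 1 := by simp [ee]

/-- vertical estimate -/
theorem trc_vertical {f : E3 → ℝ} (hf : ContDiff ℝ 1 f) (h0 : ∀ x, ‖x‖ = 3 → f x = 0)
    {x y : ℝ} (hx : |x| ≤ 7/5) (hy : |y| ≤ 1) :
    f (pt x y (roof x y)) ^ 2 + f (pt x y (-roof x y)) ^ 2 ≤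
      3 * ∫ t in (-3:ℝ)..3, (Metric.ball (0 : E3) 3 \ cellB).indicator (fun p => ‖∇ f p‖ ^ 2)
        (pt x y t) := by
  set g : E3 → ℝ := (Metric.ball (0 : E3) 3 \ cellB).indicator (fun p => ‖∇ f p‖ ^ 2) with hg
  set ρ := roof x y with hρ
  have hρ0 : 0 ≤ ρ := trc_roof_nonneg hx hy
  have hρ1 : ρ ≤ 1 := trc_roof_le x y
  have hx2 : x ^ 2 ≤ 49/25 := by
    have := abs_le.mp hx
    nlinarith
  have hy2 : y ^ 2 ≤ 1 := by
    have := abs_le.mp hy
    nlinarith
  set s := √(9 - x ^ 2 - y ^ 2) with hs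
  have hs2 : s ^ 2 = 9 - x ^ 2 - y ^ 2 := Real.sq_sqrt (by linarith)
  have hs0 : 0 ≤ s := Real.sqrt_nonneg _
  have hs1 : 1 ≤ s := by nlinarith
  have hs3 : s ≤ 3 := by nlinarith [sq_nonneg x, sq_nonneg y]
  -- zero on the sphere
  have z1 : f (pt x y s) = 0 := by
    apply h0
    have h1 : ‖pt x y s‖ ^ 2 = 3 ^ 2 := by rw [trc_norm_sq_pt, hs2]; ring
    exact (pow_left_inj₀ (norm_nonneg _) (by norm_num) two_ne_zero).mp h1
  have z2 : f (pt x y (-s)) = 0 := by
    apply h0
    have h1 : ‖pt x y (-s)‖ ^ 2 = 3 ^ 2 := by rw [trc_norm_sq_pt, neg_sq, hs2]; ring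
    exact (pow_left_inj₀ (norm_nonneg _) (by norm_num) two_ne_zero).mp h1
  -- derivative along the line
  have hd : ∀ t, HasDerivAt (fun t => f (pt x y t)) (fderiv ℝ f (pt x y t) (ee 2)) t :=
    fun t => hasDerivAt_pt_two f x y t (hf.differentiable one_ne_zero _)
  have hptc : Continuous (fun t : ℝ => pt x y t) := by
    unfold pt
    fun_prop
  have hfc : Continuous (fderiv ℝ f) := hf.continuous_fderiv one_ne_zero
  have hc : Continuous (fun t => fderiv ℝ f (pt x y t) (ee 2)) :=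
    (hfc.comp hptc).clm_apply continuous_const
  have hgm : Measurable g := by
    refine ((measurable_gradient f).norm.pow_const 2).indicator ?_
    exact measurableSet_ball.diff cellB_open.measurableSet
  -- bound of `g`
  obtain ⟨B, hB⟩ := (isCompact_closedBall (0 : E3) 3).exists_bound_of_continuousOn
    (f := fun p => ‖fderiv ℝ f p‖ ^ 2) (by fun_prop)
  have hgB : ∀ p, |g p| ≤ max B 0 := by
    intro p
    rw [hg]
    by_cases hp : p ∈ Metric.ball (0 : E3) 3 \ cellB
    · rw [indicator_of_mem hp, norm_gradient]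
      have := hB p (Metric.ball_subset_closedBall hp.1)
      rw [Real.norm_eq_abs] at this
      exact this.trans (le_max_left _ _)
    · rw [indicator_of_notMem hp, abs_zero]
      exact le_max_right _ _
  have hg0 : ∀ p, 0 ≤ g p := fun p => indicator_nonneg (fun _ _ => sq_nonneg _) p
  have hgi : ∀ a b, IntervalIntegrable (fun t => g (pt x y t)) volume a b := by
    intro a b
    refine (intervalIntegrable_const (c := max B 0)).mono_fun
      (hgm.comp hptc.measurable).aestronglyMeasurable ?_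
    refine Eventually.of_forall fun t => ?_
    simp only [Real.norm_eq_abs]
    exact (hgB _).trans (le_abs_self _)
  -- pointwise comparison
  have hcmp : ∀ t, ρ ≤ |t| → |t| < s → fderiv ℝ f (pt x y t) (ee 2) ^ 2 ≤ g (pt x y t) := by
    intro t ht1 ht2
    have hmem : pt x y t ∈ Metric.ball (0 : E3) 3 \ cellB := by
      refine ⟨?_, ?_⟩
      · rw [mem_ball_zero_iff]
        have h1 : ‖pt x y t‖ ^ 2 < 3 ^ 2 := by
          rw [trc_norm_sq_pt]
          have : t ^ 2 < s ^ 2 := by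
            rw [← sq_abs t]
            exact pow_lt_pow_left₀ ht2 (abs_nonneg t) two_ne_zero
          linarith
        exact lt_of_pow_lt_pow_left₀ 2 (by norm_num) h1
      · intro h
        have h2 : |t| < roof x y := h
        linarith
    rw [hg, indicator_of_mem hmem, norm_gradient]
    have h1 : |fderiv ℝ f (pt x y t) (ee 2)| ≤ ‖fderiv ℝ f (pt x y t)‖ := by
      have := (fderiv ℝ f (pt x y t)).le_opNorm (ee 2)
      rwa [trc_norm_ee, mul_one, Real.norm_eq_abs] at this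
    rw [← sq_abs]
    exact pow_le_pow_left₀ (abs_nonneg _) h1 2
  have hint2 : ∀ a b, IntervalIntegrable (fun t => fderiv ℝ f (pt x y t) (ee 2) ^ 2) volume a b :=
    fun a b => (hc.pow 2).intervalIntegrable _ _
  -- upper half
  have hup : f (pt x y ρ) ^ 2 ≤ 3 * ∫ t in ρ..s, g (pt x y t) := by
    have h1 := trc_cs (a := ρ) (b := s) (by linarith) hd hc
    simp only [z1, zero_sub, neg_sq] at h1
    have h2 : ∫ t in ρ..s, fderiv ℝ f (pt x y t) (ee 2) ^ 2 ≤ ∫ t in ρ..s, g (pt x y t) := by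
      refine intervalIntegral.integral_mono_on_of_le_Ioo (by linarith) (hint2 _ _) (hgi _ _) ?_
      intro t ht
      exact hcmp t (by rw [abs_of_nonneg (by linarith [ht.1])]; exact ht.1.le)
        (by rw [abs_of_nonneg (by linarith [ht.1])]; exact ht.2)
    have h3 : 0 ≤ ∫ t in ρ..s, g (pt x y t) :=
      intervalIntegral.integral_nonneg (by linarith) fun t _ => hg0 _
    calc f (pt x y ρ) ^ 2 ≤ (s - ρ) * ∫ t in ρ..s, fderiv ℝ f (pt x y t) (ee 2) ^ 2 := h1
      _ ≤ (s - ρ) * ∫ t in ρ..s, g (pt x y t) := mul_le_mul_of_nonneg_left h2 (by linarith)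
      _ ≤ 3 * ∫ t in ρ..s, g (pt x y t) := mul_le_mul_of_nonneg_right (by linarith) h3
  have hlo : f (pt x y (-ρ)) ^ 2 ≤ 3 * ∫ t in (-s)..(-ρ), g (pt x y t) := by
    have h1 := trc_cs (a := -s) (b := -ρ) (by linarith) hd hc
    simp only [z2, sub_zero] at h1
    have h2 : ∫ t in (-s)..(-ρ), fderiv ℝ f (pt x y t) (ee 2) ^ 2 ≤
        ∫ t in (-s)..(-ρ), g (pt x y t) := by
      refine intervalIntegral.integral_mono_on_of_le_Ioo (by linarith) (hint2 _ _) (hgi _ _) ?_
      intro t ht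
      exact hcmp t (by rw [abs_of_nonpos (by linarith [ht.2])]; linarith [ht.2])
        (by rw [abs_of_nonpos (by linarith [ht.2])]; linarith [ht.1])
    have h3 : 0 ≤ ∫ t in (-s)..(-ρ), g (pt x y t) :=
      intervalIntegral.integral_nonneg (by linarith) fun t _ => hg0 _
    calc f (pt x y (-ρ)) ^ 2 ≤ (-ρ - -s) * ∫ t in (-s)..(-ρ), fderiv ℝ f (pt x y t) (ee 2) ^ 2 := h1
      _ ≤ (-ρ - -s) * ∫ t in (-s)..(-ρ), g (pt x y t) := mul_le_mul_of_nonneg_left h2 (by linarith)
      _ ≤ 3 * ∫ t in (-s)..(-ρ), g (pt x y t) := mul_le_mul_of_nonneg_right (by linarith) h3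
  -- collect
  have hsum : (∫ t in ρ..s, g (pt x y t)) + (∫ t in (-s)..(-ρ), g (pt x y t)) ≤
      ∫ t in (-3:ℝ)..3, g (pt x y t) := by
    have e : ∫ t in (-3:ℝ)..3, g (pt x y t) = (∫ t in (-3:ℝ)..(-s), g (pt x y t)) +
        (∫ t in (-s)..(-ρ), g (pt x y t)) + (∫ t in (-ρ)..ρ, g (pt x y t)) +
        (∫ t in ρ..s, g (pt x y t)) + (∫ t in s..3, g (pt x y t)) := by
      rw [intervalIntegral.integral_add_adjacent_intervals (hgi _ _) (hgi _ _),
        intervalIntegral.integral_add_adjacent_intervals (hgi _ _) (hgi _ _),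
        intervalIntegral.integral_add_adjacent_intervals (hgi _ _) (hgi _ _),
        intervalIntegral.integral_add_adjacent_intervals (hgi _ _) (hgi _ _)]
    have n1 : 0 ≤ ∫ t in (-3:ℝ)..(-s), g (pt x y t) :=
      intervalIntegral.integral_nonneg (by linarith) fun t _ => hg0 _
    have n2 : 0 ≤ ∫ t in (-ρ)..ρ, g (pt x y t) :=
      intervalIntegral.integral_nonneg (by linarith) fun t _ => hg0 _
    have n3 : 0 ≤ ∫ t in s..3, g (pt x y t) :=
      intervalIntegral.integral_nonneg (by linarith) fun t _ => hg0 _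
    linarith
  linarith

/-- Friedrichs inequality for the average over the boundary of the cell. -/
theorem friedrichs_cell : ∃ Cf : ℝ, 0 ≤ Cf ∧ ∀ f : E3 → ℝ, ContDiff ℝ 1 f →
    (∀ x, ‖x‖ = 3 → f x = 0) →
    pavg (fun x => f x ^ 2) ≤ Cf * ∫ x in Metric.ball (0 : E3) 3 \ cellB, ‖∇ f x‖ ^ 2 := by
  refine ⟨3, by norm_num, fun f hf h0 => ?_⟩
  set g : E3 → ℝ := (Metric.ball (0 : E3) 3 \ cellB).indicator (fun p => ‖∇ f p‖ ^ 2) with hg
  have hms : MeasurableSet (Metric.ball (0 : E3) 3 \ cellB) :=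
    measurableSet_ball.diff cellB_open.measurableSet
  have hgm : Measurable g := ((measurable_gradient f).norm.pow_const 2).indicator hms
  have hfc : Continuous (fderiv ℝ f) := hf.continuous_fderiv one_ne_zero
  obtain ⟨B, hB⟩ := (isCompact_closedBall (0 : E3) 3).exists_bound_of_continuousOn
    (f := fun p => ‖fderiv ℝ f p‖ ^ 2) (by fun_prop)
  have hgB : ∀ p, |g p| ≤ max B 0 := by
    intro p
    rw [hg]
    by_cases hp : p ∈ Metric.ball (0 : E3) 3 \ cellB
    · rw [indicator_of_mem hp, norm_gradient]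
      have := hB p (Metric.ball_subset_closedBall hp.1)
      rw [Real.norm_eq_abs] at this
      exact this.trans (le_max_left _ _)
    · rw [indicator_of_notMem hp, abs_zero]
      exact le_max_right _ _
  have hg0 : ∀ p, 0 ≤ g p := fun p => indicator_nonneg (fun _ _ => sq_nonneg _) p
  have hgI : Integrable g volume := by
    rw [hg, integrable_indicator_iff hms]
    refine Measure.integrableOn_of_bounded (M := max B 0)
      (lt_of_le_of_lt (measure_mono sdiff_subset) measure_ball_lt_top).ne ?_ ?_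
    · exact ((measurable_gradient f).norm.pow_const 2).aestronglyMeasurable
    · filter_upwards [ae_restrict_mem hms] with p hp
      have := hgB p
      rw [hg, indicator_of_mem hp] at this
      simpa using this
  have hcont : Continuous (fun q : ℝ × ℝ => f (pt q.1 q.2 (roof q.1 q.2)) ^ 2 +
      f (pt q.1 q.2 (-roof q.1 q.2)) ^ 2) := by
    have hr := trc_roof_continuous
    have hp : Continuous (fun q : ℝ × ℝ × ℝ => pt q.1 q.2.1 q.2.2) := by
      unfold pt; fun_prop
    have h1 : Continuous (fun q : ℝ × ℝ => pt q.1 q.2 (roof q.1 q.2)) :=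
      hp.comp (continuous_fst.prodMk (continuous_snd.prodMk hr))
    have h2 : Continuous (fun q : ℝ × ℝ => pt q.1 q.2 (-roof q.1 q.2)) :=
      hp.comp (continuous_fst.prodMk (continuous_snd.prodMk hr.neg))
    exact ((hf.continuous.comp h1).pow 2).add ((hf.continuous.comp h2).pow 2)
  have key : (∫ x in (-(7/5:ℝ))..(7/5), ∫ y in (-1:ℝ)..1,
      (f (pt x y (roof x y)) ^ 2 + f (pt x y (-roof x y)) ^ 2)) ≤
      3 * ∫ x in (-(7/5:ℝ))..(7/5), ∫ y in (-1:ℝ)..1, ∫ t in (-3:ℝ)..3, g (pt x y t) := by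
    rw [← intervalIntegral.integral_const_mul]
    refine intervalIntegral.integral_mono_on (by norm_num) ?_ ?_ ?_
    · exact (intervalIntegral.continuous_parametric_intervalIntegral_of_continuous'
        (f := fun x y => f (pt x y (roof x y)) ^ 2 + f (pt x y (-roof x y)) ^ 2)
        hcont (-1) 1).intervalIntegrable _ _
    · exact (trc_slice_int2 hgm hgB (-3) 3 (by norm_num) (-1) 1 (by norm_num) _ _).const_mul 3
    · intro x hx
      rw [← intervalIntegral.integral_const_mul]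
      refine intervalIntegral.integral_mono_on (by norm_num) ?_ ?_ ?_
      · exact (hcont.comp (continuous_const.prodMk continuous_id)).intervalIntegrable _ _
      · exact (trc_slice_int hgm hgB (-3) 3 (by norm_num) x _ _).const_mul 3
      · intro y hy
        exact trc_vertical hf h0 (abs_le.mpr ⟨by linarith [hx.1], hx.2⟩)
          (abs_le.mpr ⟨by linarith [hy.1], hy.2⟩)
  have hbox := integral_cbox (-(7/5)) (7/5) (-1) 1 (-3) 3 (by norm_num) (by norm_num)
    (by norm_num) g hgI.integrableOn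
  rw [← hbox] at key
  have hle : ∫ x in cbox (-(7/5)) (7/5) (-1) 1 (-3) 3, g x ≤ ∫ x, g x :=
    setIntegral_le_integral hgI (Eventually.of_forall hg0)
  have hfin : ∫ x, g x = ∫ x in Metric.ball (0 : E3) 3 \ cellB, ‖∇ f x‖ ^ 2 := by
    rw [hg, integral_indicator hms]
  have hnn : 0 ≤ ∫ x, g x := integral_nonneg hg0
  unfold pavg
  rw [← hfin]
  have h56 : (2 * (14/5) * 2 : ℝ) = 56/5 := by norm_num
  rw [h56, div_le_iff₀ (by norm_num)]
  linarith

/-! ### averages -/

theorem trc_pt_continuous : Continuous (fun q : ℝ × ℝ × ℝ => pt q.1 q.2.1 q.2.2) := by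
  unfold pt; fun_prop

theorem trc_bd_continuous {ψ : E3 → ℝ} (hψ : Continuous ψ) :
    Continuous (fun q : ℝ × ℝ => ψ (pt q.1 q.2 (roof q.1 q.2)) +
      ψ (pt q.1 q.2 (-roof q.1 q.2))) := by
  have hr := trc_roof_continuous
  have h1 : Continuous (fun q : ℝ × ℝ => pt q.1 q.2 (roof q.1 q.2)) :=
    trc_pt_continuous.comp (continuous_fst.prodMk (continuous_snd.prodMk hr))
  have h2 : Continuous (fun q : ℝ × ℝ => pt q.1 q.2 (-roof q.1 q.2)) :=
    trc_pt_continuous.comp (continuous_fst.prodMk (continuous_snd.prodMk hr.neg))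
  exact (hψ.comp h1).add (hψ.comp h2)

theorem trc_pavg_mono {ψ φ : E3 → ℝ} (hψ : Continuous ψ) (hφ : Continuous φ)
    (h : ∀ x, ψ x ≤ φ x) : pavg ψ ≤ pavg φ := by
  unfold pavg
  refine div_le_div_of_nonneg_right ?_ (by norm_num)
  refine intervalIntegral.integral_mono_on (by norm_num) ?_ ?_ ?_
  · exact (intervalIntegral.continuous_parametric_intervalIntegral_of_continuous'
        (f := fun x y => ψ (pt x y (roof x y)) + ψ (pt x y (-roof x y)))
        (trc_bd_continuous hψ) (-1) 1).intervalIntegrable _ _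
  · exact (intervalIntegral.continuous_parametric_intervalIntegral_of_continuous'
        (f := fun x y => φ (pt x y (roof x y)) + φ (pt x y (-roof x y)))
        (trc_bd_continuous hφ) (-1) 1).intervalIntegrable _ _
  · intro x _
    refine intervalIntegral.integral_mono_on (by norm_num) ?_ ?_ ?_
    · exact ((trc_bd_continuous hψ).comp
        (continuous_const.prodMk continuous_id)).intervalIntegrable _ _
    · exact ((trc_bd_continuous hφ).comp
        (continuous_const.prodMk continuous_id)).intervalIntegrable _ _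
    · intro y _
      exact add_le_add (h _) (h _)

theorem trc_pavg_const_mul (c : ℝ) (ψ : E3 → ℝ) : pavg (fun x => c * ψ x) = c * pavg ψ := by
  unfold pavg
  simp only [← mul_add, intervalIntegral.integral_const_mul]
  ring

theorem trc_avgn_mono (n : ℕ) : ∀ {ψ φ : E3 → ℝ}, Continuous ψ → Continuous φ →
    (∀ x, ψ x ≤ φ x) → avgn n ψ ≤ avgn n φ := by
  induction n with
  | zero => intro ψ φ hψ hφ h; exact trc_pavg_mono hψ hφ h
  | succ n ih =>
    intro ψ φ hψ hφ h
    have h1 := ih (hψ.comp (sim_continuous true)) (hφ.comp (sim_continuous true))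
      (fun x => h (sim true x))
    have h2 := ih (hψ.comp (sim_continuous false)) (hφ.comp (sim_continuous false))
      (fun x => h (sim false x))
    show (avgn n (ψ ∘ sim true) + avgn n (ψ ∘ sim false)) / 2 ≤
      (avgn n (φ ∘ sim true) + avgn n (φ ∘ sim false)) / 2
    linarith

theorem trc_avgn_const_mul (n : ℕ) (c : ℝ) : ∀ (ψ : E3 → ℝ),
    avgn n (fun x => c * ψ x) = c * avgn n ψ := by
  induction n with
  | zero => intro ψ; exact trc_pavg_const_mul c ψ
  | succ n ih =>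
    intro ψ
    have h1 := ih (ψ ∘ sim true)
    have h2 := ih (ψ ∘ sim false)
    show (avgn n (fun x => c * (ψ ∘ sim true) x) + avgn n (fun x => c * (ψ ∘ sim false) x)) / 2 =
      c * ((avgn n (ψ ∘ sim true) + avgn n (ψ ∘ sim false)) / 2)
    rw [h1, h2]; ring

/-- the average over the boundary only sees points outside `cellB` -/
theorem trc_pavg_congr {ψ φ : E3 → ℝ} (h : ∀ x, x ∉ cellB → ψ x = φ x) : pavg ψ = pavg φ := by
  have h1 : ∀ x y : ℝ, pt x y (roof x y) ∉ cellB := fun x y hm => by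
    have : |roof x y| < roof x y := hm
    exact absurd (le_abs_self _) (not_le.mpr this)
  have h2 : ∀ x y : ℝ, pt x y (-roof x y) ∉ cellB := fun x y hm => by
    have : |-roof x y| < roof x y := hm
    rw [abs_neg] at this
    exact absurd (le_abs_self _) (not_le.mpr this)
  unfold pavg
  simp only [h _ (h1 _ _), h _ (h2 _ _)]

/-! ### the ground state substitution -/

/-- `⟨∇h, ∇(z²/h)⟩ ≤ |∇z|²` at a point of differentiability -/
theorem trc_pointwise {z h : E3 → ℝ} {x : E3} (hz : DifferentiableAt ℝ z x)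
    (hh : DifferentiableAt ℝ h x) (hpos : 0 < h x) :
    inner ℝ (∇ h x) (∇ (fun y => z y ^ 2 / h y) x) ≤ ‖∇ z x‖ ^ 2 := by
  have hd : HasFDerivAt (fun y => z y ^ 2 / h y)
      ((h x ^ 2)⁻¹ • (h x • ((2 * z x) • fderiv ℝ z x) - (z x ^ 2) • fderiv ℝ h x)) x := by
    have h1 : HasFDerivAt (fun y => z y ^ 2) ((2 * z x) • fderiv ℝ z x) x := by
      have := hz.hasFDerivAt.pow 2
      refine this.congr_fderiv ?_
      ext v
      simp
    have h2 : HasFDerivAt (fun y => (h y)⁻¹) (-(h x ^ 2)⁻¹ • fderiv ℝ h x) x :=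
      (hasDerivAt_inv hpos.ne').comp_hasFDerivAt x hh.hasFDerivAt
    have h3 := h1.mul h2
    have e3 : (fun y => z y ^ 2 / h y) = fun y => z y ^ 2 * (h y)⁻¹ := by
      funext y; rw [div_eq_mul_inv]
    rw [e3]
    refine h3.congr_fderiv ?_
    ext v
    simp only [add_apply, smul_apply, smul_eq_mul, sub_apply]
    field_simp
    ring
  have e : ∇ (fun y => z y ^ 2 / h y) x =
      (h x ^ 2)⁻¹ • (h x • ((2 * z x) • ∇ z x) - (z x ^ 2) • ∇ h x) := by
    unfold gradient
    rw [hd.fderiv]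
    simp
  rw [e, inner_smul_right, inner_sub_right, inner_smul_right, inner_smul_right, inner_smul_right,
    real_inner_self_eq_norm_sq]
  have hsq : 0 ≤ ‖∇ z x - (z x / h x) • ∇ h x‖ ^ 2 := sq_nonneg _
  rw [@norm_sub_sq_real, inner_smul_right, norm_smul, mul_pow, Real.norm_eq_abs, sq_abs,
    real_inner_comm] at hsq
  have e2 : (h x ^ 2)⁻¹ * (h x * (2 * z x * inner ℝ (∇ h x) (∇ z x)) - z x ^ 2 * ‖∇ h x‖ ^ 2)
      = 2 * ((z x / h x) * inner ℝ (∇ h x) (∇ z x)) - (z x / h x) ^ 2 * ‖∇ h x‖ ^ 2 := by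
    field_simp
  rw [e2]
  linarith

theorem trc_lip_quot {z h : E3 → ℝ} {K K' : ℝ≥0} {M : ℝ} (hz : LipschitzWith K z)
    (hh : LipschitzWith K' h) (hM : ∀ x, |z x| ≤ M) (h1 : ∀ x, 1 ≤ h x) :
    LipschitzWith (Real.toNNReal (2 * M * K + M ^ 2 * K')) (fun y => z y ^ 2 / h y) := by
  have hM0 : 0 ≤ M := (abs_nonneg _).trans (hM 0)
  refine LipschitzWith.of_dist_le_mul fun x y => ?_
  rw [Real.coe_toNNReal _ (by positivity)]
  have d1 := hz.dist_le_mul x y
  have d2 := hh.dist_le_mul x y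
  rw [Real.dist_eq] at d1 d2 ⊢
  have hx := h1 x
  have hy := h1 y
  have hx0 : 0 < h x := by linarith
  have hy0 : 0 < h y := by linarith
  have e : z x ^ 2 / h x - z y ^ 2 / h y =
      (z x + z y) * (z x - z y) / h x - z y ^ 2 * (h x - h y) / (h x * h y) := by
    field_simp
    ring
  rw [e]
  refine (abs_sub _ _).trans ?_
  have hs : |z x + z y| ≤ 2 * M := (abs_add_le _ _).trans (by linarith [hM x, hM y])
  have t1 : |(z x + z y) * (z x - z y) / h x| ≤ 2 * M * (K * dist x y) := by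
    rw [abs_div, abs_mul, abs_of_pos hx0]
    refine (div_le_self (by positivity) hx).trans ?_
    exact mul_le_mul hs d1 (abs_nonneg _) (by positivity)
  have hz2 : z y ^ 2 ≤ M ^ 2 := by
    rw [← sq_abs]
    exact pow_le_pow_left₀ (abs_nonneg _) (hM y) 2
  have t2 : |z y ^ 2 * (h x - h y) / (h x * h y)| ≤ M ^ 2 * (K' * dist x y) := by
    rw [abs_div, abs_mul, abs_of_nonneg (sq_nonneg (z y)), abs_of_pos (mul_pos hx0 hy0)]
    refine (div_le_self (by positivity) (by nlinarith)).trans ?_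
    exact mul_le_mul hz2 d2 (abs_nonneg _) (by positivity)
  calc _ ≤ 2 * M * (K * dist x y) + M ^ 2 * (K' * dist x y) := add_le_add t1 t2
    _ = (2 * M * K + M ^ 2 * K') * dist x y := by ring

/-- Trace inequality, uniform in the level (ground state substitution with `M + P n`). -/
theorem trace_unif (D : ModData) : ∃ Ct : ℝ, 0 < Ct ∧ ∀ (n : ℕ) (z0 z : E3 → ℝ) (K : ℝ≥0) (M : ℝ),
    ContDiff ℝ 1 z0 → (∀ x, ‖x‖ = 3 → z0 x = 0) → LipschitzWith K z → (∀ x, |z x| ≤ M) →
    (∀ x, x ∉ cellB → z x = z0 x) →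
    avgn n (fun x => z x ^ 2) ≤
      Ct * ∫ x in Metric.ball (0 : E3) 3, D.gam0 x * ‖∇ z x‖ ^ 2 := by
  obtain ⟨B, hB0, hB⟩ := pr_F_bdd D
  obtain ⟨Cf, hCf0, hCf⟩ := friedrichs_cell
  obtain ⟨c, C, hc, hγ⟩ := gam0_bounds D
  refine ⟨(1 + 12 * B) * (1 + Cf), by positivity, fun n z0 z K M hz0 hz00 hz hM hzz => ?_⟩
  -- the weight
  have hP : ∀ x, |D.P n x| ≤ 6 * B := by
    intro x
    have h1 := pr_P_cauchy D B hB0 hB 0 n x
    rw [zero_add] at h1
    have h2 : D.P 0 x = 0 := rfl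
    rw [h2, sub_zero, pow_zero] at h1
    have h3 : 0 ≤ (5/6 : ℝ) ^ n := by positivity
    nlinarith
  set h : E3 → ℝ := fun x => (1 + 6 * B) + D.P n x with hh
  have h1 : ∀ x, 1 ≤ h x := fun x => by
    have := (abs_le.mp (hP x)).1
    simp only [hh]; linarith
  have h2 : ∀ x, h x ≤ 1 + 12 * B := fun x => by
    have := (abs_le.mp (hP x)).2
    simp only [hh]; linarith
  obtain ⟨KP, hKP⟩ := P_lipschitz D n
  have hhL : LipschitzWith KP h := by
    refine LipschitzWith.of_dist_le_mul fun x y => ?_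
    have := hKP.dist_le_mul x y
    simpa [hh, Real.dist_eq] using this
  set ψ : E3 → ℝ := fun y => z y ^ 2 / h y with hψ
  have hψL := trc_lip_quot hz hhL hM h1
  have hψ0 : ∀ x, 0 ≤ ψ x := fun x => div_nonneg (sq_nonneg _) (by linarith [h1 x])
  have hzc : Continuous (fun x => z x ^ 2) := hz.continuous.pow 2
  -- the pairing
  have hpair := P_pair D n ψ _ hψL
  set E := ∫ x in Metric.ball (0 : E3) 3, D.gam0 x * ‖∇ z x‖ ^ 2 with hE
  have hgradh : ∀ x, ∇ h x = ∇ (D.P n) x := fun x => by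
    unfold gradient
    simp only [hh]
    rw [fderiv_const_add]
  have hball : ∀ x, x ∉ Metric.ball (0 : E3) 3 → D.gam0 x * inner ℝ (∇ (D.P n) x) (∇ ψ x) = 0 := by
    intro x hx
    have hx' : x ∉ cellBc := fun hc' => by
      apply hx
      rw [mem_ball_zero_iff]
      linarith [cellBc_norm x hc']
    rw [pr_grad_zero (D.P n) x 0, inner_zero_left, mul_zero]
    filter_upwards [cellBc_closed.isOpen_compl.mem_nhds hx'] with y hy
    exact pr_P_off_c D n y hy
  have hset : ∫ x in Metric.ball (0 : E3) 3, D.gam0 x * inner ℝ (∇ (D.P n) x) (∇ ψ x) =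
      ∫ x, D.gam0 x * inner ℝ (∇ (D.P n) x) (∇ ψ x) :=
    setIntegral_eq_integral_of_forall_compl_eq_zero hball
  have hfinball : volume (Metric.ball (0 : E3) 3) ≠ (⊤ : ℝ≥0∞) := measure_ball_lt_top.ne
  have hγm := gam0_measurable D
  have hC0 : 0 ≤ C := by
    have := hγ 0; linarith [this.1, this.2]
  have hEint : IntegrableOn (fun x => D.gam0 x * ‖∇ z x‖ ^ 2) (Metric.ball (0 : E3) 3) := by
    refine Measure.integrableOn_of_bounded (M := C * K ^ 2) hfinball ?_ ?_
    · exact (hγm.mul ((measurable_gradient z).norm.pow_const 2)).aestronglyMeasurable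
    · filter_upwards with x
      rw [Real.norm_eq_abs, abs_mul, abs_of_nonneg (by linarith [(hγ x).1] : 0 ≤ D.gam0 x),
        abs_of_nonneg (sq_nonneg _)]
      exact mul_le_mul (hγ x).2 (pow_le_pow_left₀ (norm_nonneg _) (norm_gradient_le z K hz x) 2)
        (sq_nonneg _) hC0
  have hPint : IntegrableOn (fun x => D.gam0 x * inner ℝ (∇ (D.P n) x) (∇ ψ x))
      (Metric.ball (0 : E3) 3) := by
    refine Measure.integrableOn_of_bounded
      (M := C * (KP * (Real.toNNReal (2 * M * K + M ^ 2 * KP) : ℝ≥0))) hfinball ?_ ?_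
    · exact (hγm.mul ((measurable_gradient (D.P n)).inner
        (measurable_gradient ψ))).aestronglyMeasurable
    · filter_upwards with x
      rw [Real.norm_eq_abs, abs_mul, abs_of_nonneg (by linarith [(hγ x).1] : 0 ≤ D.gam0 x)]
      refine mul_le_mul (hγ x).2 ?_ (abs_nonneg _) hC0
      refine (abs_real_inner_le_norm _ _).trans ?_
      exact mul_le_mul (norm_gradient_le _ _ hKP x) (norm_gradient_le _ _ hψL x) (norm_nonneg _)
        (by positivity)
  have hle : ∫ x in Metric.ball (0 : E3) 3, D.gam0 x * inner ℝ (∇ (D.P n) x) (∇ ψ x) ≤ E := by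
    refine integral_mono_ae hPint hEint ?_
    have a1 : ∀ᵐ x ∂(volume.restrict (Metric.ball (0 : E3) 3)), DifferentiableAt ℝ z x :=
      ae_restrict_of_ae hz.ae_differentiableAt
    have a2 : ∀ᵐ x ∂(volume.restrict (Metric.ball (0 : E3) 3)), DifferentiableAt ℝ h x :=
      ae_restrict_of_ae hhL.ae_differentiableAt
    filter_upwards [a1, a2] with x hx1 hx2
    rw [← hgradh x]
    exact mul_le_mul_of_nonneg_left (trc_pointwise hx1 hx2 (by linarith [h1 x]))
      (by linarith [(hγ x).1])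
  rw [hset, hpair] at hle
  -- the average over the boundary
  have hE0 : 0 ≤ E := setIntegral_nonneg measurableSet_ball fun x _ =>
    mul_nonneg (by linarith [(hγ x).1]) (sq_nonneg _)
  have hpav : pavg ψ ≤ Cf * E := by
    have p1 : pavg ψ ≤ pavg (fun x => z x ^ 2) := by
      refine trc_pavg_mono hψL.continuous hzc fun x => ?_
      exact div_le_self (sq_nonneg _) (h1 x)
    have p2 : pavg (fun x => z x ^ 2) = pavg (fun x => z0 x ^ 2) :=
      trc_pavg_congr fun x hx => by rw [hzz x hx]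
    have p3 := hCf z0 hz0 hz00
    have hms : MeasurableSet (Metric.ball (0 : E3) 3 \ cellB) :=
      measurableSet_ball.diff cellB_open.measurableSet
    have p4 : ∫ x in Metric.ball (0 : E3) 3 \ cellB, ‖∇ z0 x‖ ^ 2 =
        ∫ x in Metric.ball (0 : E3) 3 \ cellB, D.gam0 x * ‖∇ z x‖ ^ 2 := by
      refine setIntegral_congr_ae hms ?_
      have hnull : ∀ᵐ x : E3, x ∉ cellBc \ cellB := measure_eq_zero_iff_ae_notMem.mp volume_bdry
      filter_upwards [hnull] with x hx hx'
      have hxc : x ∉ cellBc := fun hc' => hx ⟨hc', hx'.2⟩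
      have he : z0 =ᶠ[𝓝 x] z := by
        filter_upwards [cellBc_closed.isOpen_compl.mem_nhds hxc] with y hy
        exact (hzz y fun hy' => hy (cellB_subset hy')).symm
      rw [he.gradient_eq, gam0_off D x hx'.2, one_mul]
    have p5 : ∫ x in Metric.ball (0 : E3) 3 \ cellB, D.gam0 x * ‖∇ z x‖ ^ 2 ≤ E :=
      setIntegral_mono_set hEint (Eventually.of_forall fun x =>
        mul_nonneg (by linarith [(hγ x).1]) (sq_nonneg _)) sdiff_subset.eventuallyLE
    rw [p4] at p3
    have := mul_le_mul_of_nonneg_left p5 hCf0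
    linarith
  -- conclusion
  have hav : avgn n (fun x => z x ^ 2) ≤ (1 + 12 * B) * avgn n ψ := by
    rw [← trc_avgn_const_mul]
    refine trc_avgn_mono n hzc (hψL.continuous.const_mul _) fun x => ?_
    have hx0 : 0 < h x := by linarith [h1 x]
    have e : z x ^ 2 = h x * ψ x := by
      simp only [hψ]; field_simp
    rw [e]
    exact mul_le_mul_of_nonneg_right (h2 x) (hψ0 x)
  have hfin : avgn n ψ ≤ (1 + Cf) * E := by linarith
  calc avgn n (fun x => z x ^ 2) ≤ (1 + 12 * B) * avgn n ψ := hav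
    _ ≤ (1 + 12 * B) * ((1 + Cf) * E) := mul_le_mul_of_nonneg_left hfin (by positivity)
    _ = (1 + 12 * B) * (1 + Cf) * E := by ring

end Crest.Agent.R083
end

-- ▼ part R083/Doob
section

/-!
Row 83 (S0111): FIN-e, energy identities for multiplication and division by the Doob function.
-/

set_option autoImplicit false

namespace Crest.Agent.R083

open MeasureTheory Set Filter
open scoped Gradient ENNReal NNReal Topology ContDiff
open Crest.AnalysisR.PDE.Calderon

/-! ### Averages depend only on the closed cells -/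

theorem db_pavg_congr {ψ ψ' : E3 → ℝ} (h : ∀ x ∈ cellBc, ψ x = ψ' x) : pavg ψ = pavg ψ' := by
  have hroof : ∀ x y : ℝ, x ∈ Icc (-(7/5:ℝ)) (7/5) → y ∈ Icc (-1:ℝ) 1 → 0 ≤ roof x y := by
    intro x y hx hy
    unfold roof
    have h1 : |x| ≤ 7/5 := abs_le.2 ⟨by linarith [hx.1], hx.2⟩
    have h2 : |y| ≤ 1 := abs_le.2 ⟨hy.1, hy.2⟩
    have h3 : max 0 (max (|x| - 1) (|y| - 3/5)) ≤ 2/5 :=
      max_le (by norm_num) (max_le (by linarith) (by linarith))
    linarith
  unfold pavg
  congr 1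
  refine intervalIntegral.integral_congr fun x hx => ?_
  rw [uIcc_of_le (by norm_num)] at hx
  refine intervalIntegral.integral_congr fun y hy => ?_
  rw [uIcc_of_le (by norm_num)] at hy
  have hr := hroof x y hx hy
  have e1 : pt x y (roof x y) ∈ cellBc := by
    show |(pt x y (roof x y)) 2| ≤ roof ((pt x y (roof x y)) 0) ((pt x y (roof x y)) 1)
    simp only [pt, PiLp.toLp_apply, Matrix.cons_val]
    exact (abs_of_nonneg hr).le
  have e2 : pt x y (-roof x y) ∈ cellBc := by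
    show |(pt x y (-roof x y)) 2| ≤ roof ((pt x y (-roof x y)) 0) ((pt x y (-roof x y)) 1)
    simp only [pt, PiLp.toLp_apply, Matrix.cons_val]
    rw [abs_neg]
    exact (abs_of_nonneg hr).le
  show ψ _ + ψ _ = ψ' _ + ψ' _
  rw [h _ e1, h _ e2]

theorem db_avgn_congr (n : ℕ) {ψ ψ' : E3 → ℝ} (h : ∀ x ∈ Kc n, ψ x = ψ' x) :
    avgn n ψ = avgn n ψ' := by
  induction n generalizing ψ ψ' with
  | zero => exact db_pavg_congr h
  | succ n ih =>
    rw [pr_avgn_succ, pr_avgn_succ,
      ih (ψ := ψ ∘ sim true) (ψ' := ψ' ∘ sim true) fun x hx => h _ (Or.inl ⟨x, hx, rfl⟩),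
      ih (ψ := ψ ∘ sim false) (ψ' := ψ' ∘ sim false) fun x hx => h _ (Or.inr ⟨x, hx, rfl⟩)]

/-! ### Lipschitz products -/

theorem db_lip_mul {f g : E3 → ℝ} {Kf Kg : ℝ≥0} {A B : ℝ} (hf : LipschitzWith Kf f)
    (hg : LipschitzWith Kg g) (hA : ∀ x, |f x| ≤ A) (hB : ∀ x, |g x| ≤ B) :
    ∃ K : ℝ≥0, LipschitzWith K (fun x => f x * g x) := by
  have hA0 : 0 ≤ A := (abs_nonneg _).trans (hA 0)
  have hB0 : 0 ≤ B := (abs_nonneg _).trans (hB 0)
  refine ⟨Real.toNNReal (A * Kg + B * Kf), LipschitzWith.of_dist_le_mul fun x y => ?_⟩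
  have h1 := hf.dist_le_mul x y
  have h2 := hg.dist_le_mul x y
  rw [Real.dist_eq] at h1 h2 ⊢
  rw [Real.coe_toNNReal _ (by positivity)]
  have e : f x * g x - f y * g y = f x * (g x - g y) + g y * (f x - f y) := by ring
  calc |f x * g x - f y * g y| ≤ |f x| * |g x - g y| + |g y| * |f x - f y| := by
        rw [e]; refine (abs_add_le _ _).trans ?_; rw [abs_mul, abs_mul]
    _ ≤ A * (Kg * dist x y) + B * (Kf * dist x y) := by
        refine add_le_add (mul_le_mul (hA x) h2 (abs_nonneg _) hA0)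
          (mul_le_mul (hB y) h1 (abs_nonneg _) hB0)
    _ = (A * Kg + B * Kf) * dist x y := by ring

theorem db_lip_inv {b : E3 → ℝ} {K : ℝ≥0} (hb : LipschitzWith K b) (h : ∀ x, 1/2 ≤ b x) :
    LipschitzWith (4 * K) (fun x => (b x)⁻¹) := by
  refine LipschitzWith.of_dist_le_mul fun x y => ?_
  have h1 := hb.dist_le_mul x y
  rw [Real.dist_eq] at h1 ⊢
  have hx := h x
  have hy := h y
  have hx0 : b x ≠ 0 := by linarith
  have hy0 : b y ≠ 0 := by linarith
  have e : (b x)⁻¹ - (b y)⁻¹ = (b y - b x) * ((b x)⁻¹ * (b y)⁻¹) := by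
    field_simp
  have h2 : |(b x)⁻¹ * (b y)⁻¹| ≤ 4 := by
    rw [abs_mul, abs_inv, abs_inv, abs_of_pos (by linarith : (0:ℝ) < b x),
      abs_of_pos (by linarith : (0:ℝ) < b y)]
    have h3 : (b x)⁻¹ ≤ 2 := by
      rw [inv_le_comm₀ (by linarith) (by norm_num)]; linarith
    have h4 : (b y)⁻¹ ≤ 2 := by
      rw [inv_le_comm₀ (by linarith) (by norm_num)]; linarith
    calc (b x)⁻¹ * (b y)⁻¹ ≤ 2 * 2 :=
          mul_le_mul h3 h4 (inv_nonneg.2 (by linarith)) (by norm_num)
      _ = 4 := by norm_num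
  rw [e, abs_mul, abs_sub_comm]
  calc |b x - b y| * |(b x)⁻¹ * (b y)⁻¹| ≤ (K * dist x y) * 4 :=
        mul_le_mul h1 h2 (abs_nonneg _) (by positivity)
    _ = ((4 * K : ℝ≥0) : ℝ) * dist x y := by push_cast; ring

theorem db_grad_mul {f g : E3 → ℝ} {x : E3} (hf : DifferentiableAt ℝ f x)
    (hg : DifferentiableAt ℝ g x) :
    ∇ (fun y => f y * g y) x = f x • ∇ g x + g x • ∇ f x := by
  unfold gradient
  rw [fderiv_fun_mul hf hg]
  simp

/-! ### Convergence in `L²` of the ball of radius 3 -/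

/-- Lebesgue measure on the ball. -/
noncomputable abbrev dbμ : Measure E3 := volume.restrict (Metric.ball (0 : E3) 3)

/-- `L²` convergence of vector fields. -/
def DbT (Y : ℕ → E3 → E3) (Z : E3 → E3) : Prop :=
  (∀ᶠ j in atTop, MemLp (Y j) 2 dbμ) ∧ MemLp Z 2 dbμ ∧
    Tendsto (fun j => eLpNorm (fun x => Y j x - Z x) 2 dbμ) atTop (𝓝 0)

theorem DbT.const {Z : E3 → E3} (h : MemLp Z 2 dbμ) : DbT (fun _ => Z) Z :=
  ⟨Eventually.of_forall fun _ => h, h, by simp⟩

theorem DbT.add {Y Y' : ℕ → E3 → E3} {Z Z' : E3 → E3} (h : DbT Y Z) (h' : DbT Y' Z') :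
    DbT (fun j x => Y j x + Y' j x) (fun x => Z x + Z' x) := by
  refine ⟨?_, h.2.1.add h'.2.1, ?_⟩
  · filter_upwards [h.1, h'.1] with j h1 h2 using h1.add h2
  · have h3 := h.2.2.add h'.2.2
    rw [add_zero] at h3
    refine tendsto_of_tendsto_of_tendsto_of_le_of_le' tendsto_const_nhds h3
      (Eventually.of_forall fun _ => zero_le) ?_
    filter_upwards [h.1, h'.1] with j h1 h2
    have e : (fun x => Y j x + Y' j x - (Z x + Z' x)) =
        (fun x => Y j x - Z x) + fun x => Y' j x - Z' x := by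
      funext x; simp only [Pi.add_apply]; abel
    rw [e]
    exact eLpNorm_add_le (h1.sub h.2.1).aestronglyMeasurable
      (h2.sub h'.2.1).aestronglyMeasurable (by norm_num)

theorem DbT.smul {Y : ℕ → E3 → E3} {Z : E3 → E3} (h : DbT Y Z) {a : ℕ → E3 → ℝ} {a' : E3 → ℝ}
    {M : ℝ} (ha : ∀ᶠ j in atTop, Measurable (a j)) (ha' : Measurable a')
    (hM : ∀ x, |a' x| ≤ M) (hu : TendstoUniformly a a' atTop) :
    DbT (fun j x => a j x • Y j x) (fun x => a' x • Z x) := by
  have hM0 : 0 ≤ M := (abs_nonneg _).trans (hM 0)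
  have hb : ∀ᶠ j in atTop, ∀ x, |a j x| ≤ M + 1 := by
    filter_upwards [Metric.tendstoUniformly_iff.1 hu 1 one_pos] with j hj x
    have := hj x
    rw [Real.dist_eq, abs_sub_comm] at this
    have h2 := abs_sub_abs_le_abs_sub (a j x) (a' x)
    linarith [hM x]
  have hmem : ∀ (c : E3 → ℝ) (N : ℝ) (X : E3 → E3), Measurable c → (∀ x, |c x| ≤ N) →
      MemLp X 2 dbμ → MemLp (fun x => c x • X x) 2 dbμ := by
    intro c N X hc hN hX
    refine MemLp.of_le_mul hX (hc.aestronglyMeasurable.smul hX.aestronglyMeasurable)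
      (c := N) (Eventually.of_forall fun x => ?_)
    rw [norm_smul]
    exact mul_le_mul_of_nonneg_right (hN x) (norm_nonneg _)
  refine ⟨?_, hmem a' M Z ha' hM h.2.1, ?_⟩
  · filter_upwards [h.1, ha, hb] with j h1 h2 h3 using hmem _ _ _ h2 h3 h1
  · have key : ∀ ε : ℝ, 0 < ε → ∀ᶠ j in atTop,
        eLpNorm (fun x => a j x • Y j x - a' x • Z x) 2 dbμ ≤
          ENNReal.ofReal (M + 1) * eLpNorm (fun x => Y j x - Z x) 2 dbμ +
            ENNReal.ofReal ε * eLpNorm Z 2 dbμ := by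
      intro ε hε
      filter_upwards [h.1, ha, hb, Metric.tendstoUniformly_iff.1 hu ε hε] with j h1 h2 h3 h4
      have e : (fun x => a j x • Y j x - a' x • Z x) =
          (fun x => a j x • (Y j x - Z x)) + fun x => (a j x - a' x) • Z x := by
        funext x; simp only [Pi.add_apply]; module
      rw [e]
      refine (eLpNorm_add_le ?_ ?_ (by norm_num)).trans (add_le_add ?_ ?_)
      · exact h2.aestronglyMeasurable.smul (h1.sub h.2.1).aestronglyMeasurable
      · exact (h2.sub ha').aestronglyMeasurable.smul h.2.1.aestronglyMeasurable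
      · refine eLpNorm_le_mul_eLpNorm_of_ae_le_mul (Eventually.of_forall fun x => ?_) 2
        rw [norm_smul]
        exact mul_le_mul_of_nonneg_right (h3 x) (norm_nonneg _)
      · refine eLpNorm_le_mul_eLpNorm_of_ae_le_mul (Eventually.of_forall fun x => ?_) 2
        rw [norm_smul]
        have := h4 x
        rw [Real.dist_eq, abs_sub_comm] at this
        exact mul_le_mul_of_nonneg_right this.le (norm_nonneg _)
    rw [ENNReal.tendsto_atTop_zero]
    intro δ hδ
    by_cases hδ' : δ = ⊤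
    · exact ⟨0, fun _ _ => by rw [hδ']; exact le_top⟩
    -- choose ε with ε * ‖Z‖ ≤ δ / 2
    set N : ℝ := (eLpNorm Z 2 dbμ).toReal with hN
    have hZtop : eLpNorm Z 2 dbμ ≠ ⊤ := h.2.1.eLpNorm_lt_top.ne
    set d : ℝ := δ.toReal with hd
    have hd0 : 0 < d := ENNReal.toReal_pos hδ.ne' hδ'
    have hN0 : 0 ≤ N := ENNReal.toReal_nonneg
    have h1 := key (d / (2 * (N + 1))) (by positivity)
    have h2 : Tendsto (fun j => ENNReal.ofReal (M + 1) *
        eLpNorm (fun x => Y j x - Z x) 2 dbμ) atTop (𝓝 0) := by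
      have := ENNReal.Tendsto.const_mul (a := ENNReal.ofReal (M + 1)) h.2.2
        (Or.inr ENNReal.ofReal_ne_top)
      simpa using this
    rw [ENNReal.tendsto_atTop_zero] at h2
    obtain ⟨j0, hj0⟩ := h2 (ENNReal.ofReal (d / 2)) (by simpa using by positivity)
    obtain ⟨j1, hj1⟩ := eventually_atTop.1 h1
    refine ⟨max j0 j1, fun j hj => ?_⟩
    refine (hj1 j (le_of_max_le_right hj)).trans ?_
    have h3 := hj0 j (le_of_max_le_left hj)
    have h4 : ENNReal.ofReal (d / (2 * (N + 1))) * eLpNorm Z 2 dbμ ≤ ENNReal.ofReal (d / 2) := by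
      rw [← ENNReal.ofReal_toReal hZtop, ← hN, ← ENNReal.ofReal_mul (by positivity)]
      refine ENNReal.ofReal_le_ofReal ?_
      rw [div_mul_eq_mul_div, div_le_div_iff₀ (by positivity) (by norm_num)]
      nlinarith
    calc _ ≤ ENNReal.ofReal (d / 2) + ENNReal.ofReal (d / 2) := add_le_add h3 h4
      _ = δ := by
        rw [← ENNReal.ofReal_add (by positivity) (by positivity), add_halves, hd,
          ENNReal.ofReal_toReal hδ']


/-! ### Pairings -/

/-- Cauchy-Schwarz with a bounded weight. -/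
theorem db_cs {γ : E3 → ℝ} {C : ℝ} (hγ : Measurable γ) (hC : ∀ x, |γ x| ≤ C)
    {A B : E3 → E3} (hA : MemLp A 2 dbμ) (hB : MemLp B 2 dbμ) :
    Integrable (fun x => γ x * inner ℝ (A x) (B x)) dbμ ∧
    |∫ x, γ x * inner ℝ (A x) (B x) ∂dbμ| ≤
      C * (eLpNorm A 2 dbμ).toReal * (eLpNorm B 2 dbμ).toReal := by
  have hC0 : 0 ≤ C := (abs_nonneg _).trans (hC 0)
  have hA' : MemLp (fun x => γ x • A x) 2 dbμ := by
    refine MemLp.of_le_mul hA (hγ.aestronglyMeasurable.smul hA.aestronglyMeasurable)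
      (c := C) (Eventually.of_forall fun x => ?_)
    rw [norm_smul]
    exact mul_le_mul_of_nonneg_right (hC x) (norm_nonneg _)
  have he : (fun x => γ x * inner ℝ (A x) (B x)) =ᵐ[dbμ]
      fun x => inner ℝ ((hA'.toLp _ : E3 → E3) x) ((hB.toLp _ : E3 → E3) x) := by
    filter_upwards [hA'.coeFn_toLp, hB.coeFn_toLp] with x h1 h2
    rw [h1, h2, real_inner_smul_left]
  refine ⟨(L2.integrable_inner _ _).congr he.symm, ?_⟩
  rw [integral_congr_ae he, ← L2.inner_def (𝕜 := ℝ)]
  refine (abs_real_inner_le_norm _ _).trans ?_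
  rw [Lp.norm_toLp, Lp.norm_toLp]
  refine mul_le_mul_of_nonneg_right ?_ ENNReal.toReal_nonneg
  have h1 : eLpNorm (fun x => γ x • A x) 2 dbμ ≤ ENNReal.ofReal C * eLpNorm A 2 dbμ := by
    refine eLpNorm_le_mul_eLpNorm_of_ae_le_mul (Eventually.of_forall fun x => ?_) 2
    rw [norm_smul]
    exact mul_le_mul_of_nonneg_right (hC x) (norm_nonneg _)
  have h2 := ENNReal.toReal_mono (ENNReal.mul_ne_top ENNReal.ofReal_ne_top hA.eLpNorm_lt_top.ne) h1
  rwa [ENNReal.toReal_mul, ENNReal.toReal_ofReal hC0] at h2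

theorem DbT.pair {γ : E3 → ℝ} {C : ℝ} (hγ : Measurable γ) (hC : ∀ x, |γ x| ≤ C)
    {Y Y' : ℕ → E3 → E3} {Z Z' : E3 → E3} (h : DbT Y Z) (h' : DbT Y' Z') :
    Tendsto (fun j => ∫ x, γ x * inner ℝ (Y j x) (Y' j x) ∂dbμ) atTop
      (𝓝 (∫ x, γ x * inner ℝ (Z x) (Z' x) ∂dbμ)) := by
  have hC0 : 0 ≤ C := (abs_nonneg _).trans (hC 0)
  set a : ℕ → ℝ := fun j => (eLpNorm (fun x => Y j x - Z x) 2 dbμ).toReal with ha
  set a' : ℕ → ℝ := fun j => (eLpNorm (fun x => Y' j x - Z' x) 2 dbμ).toReal with ha'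
  set z : ℝ := (eLpNorm Z 2 dbμ).toReal with hz
  set z' : ℝ := (eLpNorm Z' 2 dbμ).toReal with hz'
  have hlim : Tendsto a atTop (𝓝 0) := by
    have := (ENNReal.tendsto_toReal ENNReal.zero_ne_top).comp h.2.2
    rw [ENNReal.toReal_zero] at this
    exact this
  have hlim' : Tendsto a' atTop (𝓝 0) := by
    have := (ENNReal.tendsto_toReal ENNReal.zero_ne_top).comp h'.2.2
    rw [ENNReal.toReal_zero] at this
    exact this
  rw [tendsto_iff_norm_sub_tendsto_zero]
  have hbd : ∀ᶠ j in atTop, ‖(∫ x, γ x * inner ℝ (Y j x) (Y' j x) ∂dbμ) -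
      ∫ x, γ x * inner ℝ (Z x) (Z' x) ∂dbμ‖ ≤ C * a j * a' j + C * a j * z' + C * z * a' j := by
    filter_upwards [h.1, h'.1] with j h1 h2
    have e1 := db_cs hγ hC (h1.sub h.2.1) (h2.sub h'.2.1)
    have e2 := db_cs hγ hC (h1.sub h.2.1) h'.2.1
    have e3 := db_cs hγ hC h.2.1 (h2.sub h'.2.1)
    have e4 := db_cs hγ hC h.2.1 h'.2.1
    have e5 := db_cs hγ hC h1 h2
    have key : (∫ x, γ x * inner ℝ (Y j x) (Y' j x) ∂dbμ) -
        ∫ x, γ x * inner ℝ (Z x) (Z' x) ∂dbμ =
        (∫ x, γ x * inner ℝ ((Y j - Z) x) ((Y' j - Z') x) ∂dbμ) +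
        (∫ x, γ x * inner ℝ ((Y j - Z) x) (Z' x) ∂dbμ) +
        ∫ x, γ x * inner ℝ (Z x) ((Y' j - Z') x) ∂dbμ := by
      have e12 : Integrable (fun x => γ x * inner ℝ ((Y j - Z) x) ((Y' j - Z') x) +
        γ x * inner ℝ ((Y j - Z) x) (Z' x)) dbμ := e1.1.add e2.1
      rw [← integral_add e1.1 e2.1, ← integral_add e12 e3.1, ← integral_sub e5.1 e4.1]
      congr 1
      funext x
      simp only [Pi.sub_apply, inner_sub_left, inner_sub_right]
      ring
    rw [key]
    refine (norm_add_le _ _).trans (add_le_add ((norm_add_le _ _).trans (add_le_add ?_ ?_)) ?_)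
    · exact e1.2
    · exact e2.2
    · exact e3.2
  refine squeeze_zero' (Eventually.of_forall fun _ => norm_nonneg _) hbd ?_
  have := ((hlim.const_mul C).mul hlim').add (((hlim.const_mul C).mul_const z').add
    (hlim'.const_mul (C * z)))
  simpa [add_assoc] using this


theorem db_cell_sub : cellBc ⊆ Metric.ball (0 : E3) 3 := fun x hx => by
  have := cellBc_norm x hx
  rw [mem_ball_zero_iff]; linarith

theorem db_memLp_lip {f : E3 → ℝ} {K : ℝ≥0} (hf : LipschitzWith K f) : MemLp (∇ f) 2 dbμ := by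
  have : IsFiniteMeasure dbμ :=
    ⟨by rw [Measure.restrict_apply_univ]; exact Metric.isBounded_ball.measure_lt_top⟩
  exact MemLp.of_bound (pr_grad_measurable f).aestronglyMeasurable K
    (Eventually.of_forall fun x => pr_grad_norm f K hf x)

theorem db_integral_ball (g : E3 → ℝ) (h : ∀ᵐ x, x ∉ cellBc → g x = 0) :
    ∫ x, g x = ∫ x, g x ∂dbμ := by
  refine (setIntegral_eq_integral_of_ae_compl_eq_zero ?_).symm
  filter_upwards [h] with x hx hx'
  exact hx fun h => hx' (db_cell_sub h)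

section D
variable (D : ModData) (n : ℕ)

theorem db_H_off : ∀ᵐ x, x ∉ cellBc → D.PsiG n x = 0 := by
  have h := pr_limit_zero (fun j => D.PsiJ n j) (D.PsiG n) (PsiG_mem D n) (PsiJ_grad D n)
    cellBcᶜ cellBc_compact.isClosed.measurableSet.compl
    (fun j x hx => pr_grad_off _ (fun y hy => PsiJ_off D n j y hy) x hx)
  filter_upwards [h] with x hx hx' using hx hx'

theorem db_T : DbT (fun j => ∇ (D.PsiJ n j)) (D.PsiG n) := by
  refine ⟨Eventually.of_forall fun j => ?_, (PsiG_mem D n).restrict _, ?_⟩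
  · obtain ⟨K, hK⟩ := PsiJ_lipschitz D n j
    exact db_memLp_lip hK
  · refine tendsto_of_tendsto_of_tendsto_of_le_of_le tendsto_const_nhds (PsiJ_grad D n)
      (fun _ => zero_le) (fun j => eLpNorm_mono_measure _ Measure.restrict_le_self)

/-- bound for a Lipschitz function vanishing off the cell -/
theorem db_bdd {f : E3 → ℝ} (hf : ∃ K : ℝ≥0, LipschitzWith K f) (h0 : ∀ x, x ∉ cellB → f x = 0) :
    ∃ B : ℝ, ∀ x, |f x| ≤ B := by
  obtain ⟨K, hK⟩ := hf
  obtain ⟨B, hB⟩ := cellBc_compact.exists_bound_of_continuousOn hK.continuous.continuousOn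
  refine ⟨max B 0, fun x => ?_⟩
  by_cases hx : x ∈ cellBc
  · exact (hB x hx).trans (le_max_left _ _)
  · rw [h0 x fun h => hx (cellB_subset h), abs_zero]
    exact le_max_right _ _

theorem db_Psi_bdd : ∃ B : ℝ, ∀ x, |D.Psi n x| ≤ B := by
  obtain ⟨j, hj⟩ := (Metric.tendstoUniformly_iff.1 (PsiJ_unif D n) 1 one_pos).exists
  obtain ⟨B, hB⟩ := db_bdd (PsiJ_lipschitz D n j) (fun x hx => PsiJ_off D n j x hx)
  refine ⟨B + 1, fun x => ?_⟩
  have h1 := hj x
  rw [Real.dist_eq] at h1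
  have h2 := abs_sub_abs_le_abs_sub (D.Psi n x) (D.PsiJ n j x)
  linarith [hB x]

theorem db_Psi_cont : Continuous (D.Psi n) :=
  (PsiJ_unif D n).continuous (Frequently.of_forall fun j => by
    obtain ⟨K, hK⟩ := PsiJ_lipschitz D n j
    exact hK.continuous)

variable (τ : ℝ)

theorem db_bj_lip (j : ℕ) : ∃ K : ℝ≥0, LipschitzWith K (D.bj τ n j) := by
  obtain ⟨K, hK⟩ := PsiJ_lipschitz D n j
  refine ⟨Real.toNNReal |τ| * K, LipschitzWith.of_dist_le_mul fun x y => ?_⟩
  have h := hK.dist_le_mul x y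
  rw [Real.dist_eq] at h ⊢
  have e : D.bj τ n j x - D.bj τ n j y = τ * (D.PsiJ n j x - D.PsiJ n j y) := by
    unfold ModData.bj; ring
  rw [e, abs_mul, NNReal.coe_mul, Real.coe_toNNReal _ (abs_nonneg τ), mul_assoc]
  exact mul_le_mul_of_nonneg_left h (abs_nonneg _)

theorem db_bj_bdd (j : ℕ) : ∃ B : ℝ, ∀ x, |D.bj τ n j x| ≤ B := by
  obtain ⟨B, hB⟩ := db_bdd (PsiJ_lipschitz D n j) (fun x hx => PsiJ_off D n j x hx)
  refine ⟨1 + |τ| * B, fun x => ?_⟩
  unfold ModData.bj
  refine (abs_add_le _ _).trans ?_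
  rw [abs_one, abs_mul]
  have := mul_le_mul_of_nonneg_left (hB x) (abs_nonneg τ)
  linarith

theorem db_bn_bdd : ∃ B : ℝ, ∀ x, |D.bn τ n x| ≤ B := by
  obtain ⟨B, hB⟩ := db_Psi_bdd D n
  refine ⟨1 + |τ| * B, fun x => ?_⟩
  unfold ModData.bn
  refine (abs_add_le _ _).trans ?_
  rw [abs_one, abs_mul]
  have := mul_le_mul_of_nonneg_left (hB x) (abs_nonneg τ)
  linarith

theorem db_bj_unif : TendstoUniformly (D.bj τ n) (D.bn τ n) atTop := by
  rw [Metric.tendstoUniformly_iff]
  intro ε hε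
  filter_upwards [Metric.tendstoUniformly_iff.1 (PsiJ_unif D n) (ε / (|τ| + 1))
    (by positivity)] with j hj x
  have h := hj x
  rw [Real.dist_eq] at h ⊢
  have e : D.bn τ n x - D.bj τ n j x = τ * (D.Psi n x - D.PsiJ n j x) := by
    unfold ModData.bj ModData.bn; ring
  rw [e, abs_mul]
  rw [lt_div_iff₀ (by positivity)] at h
  nlinarith [abs_nonneg (D.Psi n x - D.PsiJ n j x), abs_nonneg τ]

theorem db_bj_Kc (j : ℕ) (b : Bool) (x : E3) (hx : x ∈ sim b '' Kc n) :
    D.bj τ n j x = D.bn τ n x := by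
  unfold ModData.bj ModData.bn
  rw [PsiJ_Kc D n j b x hx, Psi_Kc D n b x hx]

theorem db_bn_cont : Continuous (D.bn τ n) := by
  unfold ModData.bn
  exact continuous_const.add (continuous_const.mul (db_Psi_cont D n))

theorem db_grad_bj (j : ℕ) (x : E3) : ∇ (D.bj τ n j) x = τ • ∇ (D.PsiJ n j) x := by
  have h : D.bj τ n j = fun y => 1 + τ * D.PsiJ n j y := rfl
  rw [← pr_grad_const_mul, h]
  unfold gradient
  rw [fderiv_const_add]

theorem db_pair_lim {ψ : ℕ → E3 → ℝ} (hψ : ∀ᶠ j in atTop, ∃ K : ℝ≥0, LipschitzWith K (ψ j))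
    {V : E3 → E3} (hV : DbT (fun j => ∇ (ψ j)) V) {r : ℝ}
    (hr : ∀ᶠ j in atTop, (avgn n (ψ j ∘ sim true) - avgn n (ψ j ∘ sim false)) / 2 = r) :
    ∫ x, D.gam0 x * inner ℝ (D.PsiG n x) (V x) ∂dbμ = r := by
  obtain ⟨c, C, hc, hb⟩ := gam0_bounds D
  have hC : ∀ x, |D.gam0 x| ≤ C := fun x => by
    rw [abs_of_pos (hc.trans_le (hb x).1)]; exact (hb x).2
  have h1 := DbT.pair (gam0_measurable D) hC (DbT.const (db_T D n).2.1) hV
  refine tendsto_nhds_unique h1 (tendsto_const_nhds.congr' ?_)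
  filter_upwards [hψ, hr] with j hj hrj
  obtain ⟨K, hK⟩ := hj
  rw [← hrj, ← Psi_pair D n (ψ j) K hK]
  refine db_integral_ball _ ?_
  filter_upwards [db_H_off D n] with x hx hx'
  rw [hx hx', inner_zero_left, mul_zero]

end D


theorem DbT.congr {Y Y' : ℕ → E3 → E3} {Z : E3 → E3} (h : DbT Y Z)
    (he : ∀ᶠ j in atTop, Y' j =ᵐ[volume] Y j) : DbT Y' Z := by
  have he' : ∀ᶠ j in atTop, Y' j =ᵐ[dbμ] Y j := by
    filter_upwards [he] with j hj using ae_restrict_of_ae hj
  refine ⟨?_, h.2.1, ?_⟩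
  · filter_upwards [h.1, he'] with j h1 h2 using h1.ae_eq h2.symm
  · refine h.2.2.congr' ?_
    filter_upwards [he'] with j h2
    refine eLpNorm_congr_ae ?_
    filter_upwards [h2] with x hx
    rw [hx]

theorem db_unif_mul {a : ℕ → E3 → ℝ} {a' : E3 → ℝ} (h : TendstoUniformly a a' atTop)
    {c : E3 → ℝ} {M : ℝ} (hM : ∀ x, |c x| ≤ M) :
    TendstoUniformly (fun j x => c x * a j x) (fun x => c x * a' x) atTop := by
  have hM0 : 0 ≤ M := (abs_nonneg _).trans (hM 0)
  rw [Metric.tendstoUniformly_iff]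
  intro ε hε
  filter_upwards [Metric.tendstoUniformly_iff.1 h (ε / (M + 1)) (by positivity)] with j hj x
  have h1 := hj x
  rw [Real.dist_eq] at h1 ⊢
  rw [← mul_sub, abs_mul]
  rw [lt_div_iff₀ (by positivity)] at h1
  nlinarith [abs_nonneg (a' x - a j x), abs_nonneg (c x), hM x]

theorem db_unif_const (c : E3 → ℝ) : TendstoUniformly (fun _ : ℕ => c) c atTop := by
  rw [Metric.tendstoUniformly_iff]
  intro ε hε
  exact Eventually.of_forall fun j x => by rw [dist_self]; exact hε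

theorem db_energy (γ : E3 → ℝ) {u : E3 → ℝ} {Y : E3 → E3} (h : ∇ u =ᵐ[volume] Y) :
    ballEnergy γ u = ∫ x, γ x * inner ℝ (Y x) (Y x) ∂dbμ := by
  unfold ballEnergy
  refine integral_congr_ae (ae_restrict_of_ae ?_)
  filter_upwards [h] with x hx
  rw [hx, real_inner_self_eq_norm_sq]

/-- Energy identity for multiplication by the Doob function. -/
theorem doob_mul (D : ModData) (τ : ℝ) (n : ℕ) (f : E3 → ℝ) (K : ℝ≥0) (M : ℝ)
    (hf : LipschitzWith K f) (hM : ∀ x, |f x| ≤ M) :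
    Tendsto (fun j => ballEnergy D.gam0 (fun x => D.bj τ n j x * f x)) atTop
      (𝓝 (ballEnergy (fun x => D.bn τ n x ^ 2 * D.gam0 x) f +
        τ / 2 * (avgn n ((fun x => D.bn τ n x * f x ^ 2) ∘ sim true) -
          avgn n ((fun x => D.bn τ n x * f x ^ 2) ∘ sim false)))) := by
  obtain ⟨c, C, hc, hbd⟩ := gam0_bounds D
  have hC0 : 0 ≤ C := (hc.trans_le (hbd 0).1).le.trans (hbd 0).2
  have hC : ∀ x, |D.gam0 x| ≤ C := fun x => by
    rw [abs_of_pos (hc.trans_le (hbd x).1)]; exact (hbd x).2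
  obtain ⟨B, hB⟩ := db_bn_bdd D n τ
  have hM0 : 0 ≤ M := (abs_nonneg _).trans (hM 0)
  have hB0 : 0 ≤ B := (abs_nonneg _).trans (hB 0)
  have hfc : Continuous f := hf.continuous
  have hbc : ∀ j, Continuous (D.bj τ n j) := fun j => by
    obtain ⟨K, hK⟩ := db_bj_lip D n τ j
    exact hK.continuous
  have hbn : Continuous (D.bn τ n) := db_bn_cont D n τ
  -- almost everywhere differentiability
  have hae : ∀ j, ∀ᵐ x, DifferentiableAt ℝ f x ∧ DifferentiableAt ℝ (D.bj τ n j) x := by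
    intro j
    filter_upwards [pr_lip_diff f ⟨K, hf⟩, pr_lip_diff _ (db_bj_lip D n τ j)] with x h1 h2
      using ⟨h1, h2⟩
  -- the gradients of `b_j f`
  set Y : E3 → E3 := fun x => D.bn τ n x • ∇ f x + (τ * f x) • D.PsiG n x with hY
  have hYT : DbT (fun j => ∇ (fun x => D.bj τ n j x * f x)) Y := by
    have h1 : DbT (fun j x => D.bj τ n j x • ∇ f x) (fun x => D.bn τ n x • ∇ f x) :=
      DbT.smul (DbT.const (db_memLp_lip hf)) (Eventually.of_forall fun j => (hbc j).measurable)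
        hbn.measurable hB (db_bj_unif D n τ)
    have h2 : DbT (fun j x => (τ * f x) • ∇ (D.PsiJ n j) x) (fun x => (τ * f x) • D.PsiG n x) :=
      DbT.smul (db_T D n) (Eventually.of_forall fun j => (hfc.measurable.const_mul τ))
        (hfc.measurable.const_mul τ) (M := |τ| * M)
        (fun x => by rw [abs_mul]; exact mul_le_mul_of_nonneg_left (hM x) (abs_nonneg _))
        (db_unif_const _)
    refine (h1.add h2).congr (Eventually.of_forall fun j => ?_)
    filter_upwards [hae j] with x hx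
    rw [db_grad_mul hx.2 hx.1, db_grad_bj, smul_smul, mul_comm (f x) τ]
  -- the gradients of `b_j f²`
  set V : E3 → E3 := fun x => (2 * f x * D.bn τ n x) • ∇ f x +
    (τ * (f x * f x)) • D.PsiG n x with hV
  have hVT : DbT (fun j => ∇ (fun x => D.bj τ n j x * (f x * f x))) V := by
    have h1 : DbT (fun j x => (2 * f x * D.bj τ n j x) • ∇ f x)
        (fun x => (2 * f x * D.bn τ n x) • ∇ f x) := by
      refine DbT.smul (DbT.const (db_memLp_lip hf)) (Eventually.of_forall fun j =>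
        ((hfc.const_mul 2).mul (hbc j)).measurable)
        ((hfc.const_mul 2).mul hbn).measurable (M := 2 * M * B) (fun x => ?_)
        (db_unif_mul (db_bj_unif D n τ) (M := 2 * M) fun x => ?_)
      · rw [abs_mul, abs_mul, abs_two]
        exact mul_le_mul (mul_le_mul_of_nonneg_left (hM x) (by norm_num)) (hB x)
          (abs_nonneg _) (by positivity)
      · rw [abs_mul, abs_two]
        exact mul_le_mul_of_nonneg_left (hM x) (by norm_num)
    have h2 : DbT (fun j x => (τ * (f x * f x)) • ∇ (D.PsiJ n j) x)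
        (fun x => (τ * (f x * f x)) • D.PsiG n x) :=
      DbT.smul (db_T D n) (Eventually.of_forall fun j => ((hfc.mul hfc).measurable.const_mul τ))
        ((hfc.mul hfc).measurable.const_mul τ) (M := |τ| * (M * M))
        (fun x => by
          rw [abs_mul, abs_mul]
          exact mul_le_mul_of_nonneg_left (mul_le_mul (hM x) (hM x) (abs_nonneg _) hM0)
            (abs_nonneg _))
        (db_unif_const _)
    refine (h1.add h2).congr (Eventually.of_forall fun j => ?_)
    filter_upwards [hae j] with x hx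
    have hff : DifferentiableAt ℝ (fun y => f y * f y) x := hx.1.fun_mul hx.1
    rw [db_grad_mul hx.2 hff, db_grad_mul hx.1 hx.1, db_grad_bj]
    module
  -- the pairing
  have hpair := db_pair_lim D n
    (ψ := fun j x => D.bj τ n j x * (f x * f x))
    (Eventually.of_forall fun j => by
      obtain ⟨Kb, hKb⟩ := db_bj_lip D n τ j
      obtain ⟨Bb, hBb⟩ := db_bj_bdd D n τ j
      obtain ⟨K2, hK2⟩ := db_lip_mul hf hf hM hM
      exact db_lip_mul hKb hK2 hBb (B := M * M) fun x => by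
        rw [abs_mul]; exact mul_le_mul (hM x) (hM x) (abs_nonneg _) hM0)
    hVT (r := (avgn n ((fun x => D.bn τ n x * f x ^ 2) ∘ sim true) -
          avgn n ((fun x => D.bn τ n x * f x ^ 2) ∘ sim false)) / 2)
    (Eventually.of_forall fun j => by
      rw [db_avgn_congr n (ψ := (fun x => D.bj τ n j x * (f x * f x)) ∘ sim true)
          (ψ' := (fun x => D.bn τ n x * f x ^ 2) ∘ sim true),
        db_avgn_congr n (ψ := (fun x => D.bj τ n j x * (f x * f x)) ∘ sim false)
          (ψ' := (fun x => D.bn τ n x * f x ^ 2) ∘ sim false)]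
      · intro x hx
        simp only [Function.comp_apply]
        rw [db_bj_Kc D n τ j false _ ⟨x, hx, rfl⟩, pow_two]
      · intro x hx
        simp only [Function.comp_apply]
        rw [db_bj_Kc D n τ j true _ ⟨x, hx, rfl⟩, pow_two])
  -- conclusion
  have hlim := DbT.pair (gam0_measurable D) hC hYT hYT
  have he : ∀ j, ballEnergy D.gam0 (fun x => D.bj τ n j x * f x) =
      ∫ x, D.gam0 x * inner ℝ (∇ (fun x => D.bj τ n j x * f x) x)
        (∇ (fun x => D.bj τ n j x * f x) x) ∂dbμ := fun j => db_energy _ (ae_eq_refl _)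
  simp only [he]
  convert hlim using 2
  have hw : ∀ x, |D.bn τ n x ^ 2 * D.gam0 x| ≤ B ^ 2 * C := by
    intro x
    rw [abs_mul, abs_pow]
    exact mul_le_mul (pow_le_pow_left₀ (abs_nonneg _) (hB x) 2) (hC x) (abs_nonneg _)
      (by positivity)
  have hwm : Measurable fun x => D.bn τ n x ^ 2 * D.gam0 x :=
    (hbn.measurable.pow_const 2).mul (gam0_measurable D)
  have i1 := (db_cs hwm hw (db_memLp_lip hf) (db_memLp_lip hf)).1
  have i2 := (db_cs (gam0_measurable D) hC (db_T D n).2.1 hVT.2.1).1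
  have i3 := i2.const_mul τ
  rw [db_energy _ (ae_eq_refl (∇ f))]
  have e1 : τ / 2 * (avgn n ((fun x => D.bn τ n x * f x ^ 2) ∘ sim true) -
          avgn n ((fun x => D.bn τ n x * f x ^ 2) ∘ sim false)) =
      ∫ x, τ * (D.gam0 x * inner ℝ (D.PsiG n x) (V x)) ∂dbμ := by
    rw [integral_const_mul, hpair]; ring
  rw [e1, ← integral_add i1 i3]
  refine integral_congr_ae (Eventually.of_forall fun x => ?_)
  simp only [hY, hV, inner_add_left, inner_add_right, real_inner_smul_left,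
    real_inner_smul_right]
  rw [real_inner_comm (D.PsiG n x) (∇ f x)]
  ring


theorem db_inv_sub {a b : ℝ} (ha : 1/2 ≤ a) (hb : 1/2 ≤ b) : |a⁻¹ - b⁻¹| ≤ 4 * |a - b| := by
  have ha0 : a ≠ 0 := by linarith
  have hb0 : b ≠ 0 := by linarith
  have e : a⁻¹ - b⁻¹ = (b - a) * (a⁻¹ * b⁻¹) := by field_simp
  have h3 : a⁻¹ ≤ 2 := by
    rw [inv_le_comm₀ (by linarith) (by norm_num)]; linarith
  have h4 : b⁻¹ ≤ 2 := by
    rw [inv_le_comm₀ (by linarith) (by norm_num)]; linarith
  have h5 : 0 < a⁻¹ := inv_pos.2 (by linarith)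
  have h6 : 0 < b⁻¹ := inv_pos.2 (by linarith)
  have h2 : |a⁻¹ * b⁻¹| ≤ 4 := by
    rw [abs_of_pos (mul_pos h5 h6)]
    nlinarith
  rw [e, abs_mul, abs_sub_comm]
  nlinarith [abs_nonneg (a - b)]

theorem db_inv_sq_sub {a b : ℝ} (ha : 1/2 ≤ a) (hb : 1/2 ≤ b) :
    |a⁻¹ ^ 2 - b⁻¹ ^ 2| ≤ 16 * |a - b| := by
  have h3 : a⁻¹ ≤ 2 := by
    rw [inv_le_comm₀ (by linarith) (by norm_num)]; linarith
  have h4 : b⁻¹ ≤ 2 := by
    rw [inv_le_comm₀ (by linarith) (by norm_num)]; linarith
  have h5 : 0 < a⁻¹ := inv_pos.2 (by linarith)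
  have h6 : 0 < b⁻¹ := inv_pos.2 (by linarith)
  have h1 := db_inv_sub ha hb
  have e : a⁻¹ ^ 2 - b⁻¹ ^ 2 = (a⁻¹ + b⁻¹) * (a⁻¹ - b⁻¹) := by ring
  rw [e, abs_mul, abs_of_pos (add_pos h5 h6)]
  have h7 : a⁻¹ + b⁻¹ ≤ 4 := by linarith
  calc (a⁻¹ + b⁻¹) * |a⁻¹ - b⁻¹| ≤ 4 * (4 * |a - b|) :=
        mul_le_mul h7 h1 (abs_nonneg _) (by norm_num)
    _ = 16 * |a - b| := by ring

/-- Energy identity for division by the Doob function. -/
theorem doob_div (D : ModData) (τ : ℝ) (n : ℕ) (f : E3 → ℝ) (K : ℝ≥0) (M : ℝ)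
    (hf : LipschitzWith K f) (hM : ∀ x, |f x| ≤ M) (hK : ∀ x ∈ Kc (n + 1), f x = 0)
    (hb : ∀ᶠ j in atTop, ∀ x, 1/2 ≤ D.bj τ n j x) :
    Tendsto (fun j => ballEnergy (fun x => D.bn τ n x ^ 2 * D.gam0 x)
        (fun x => f x / D.bj τ n j x)) atTop (𝓝 (ballEnergy D.gam0 f)) := by
  obtain ⟨c, C, hc, hbd⟩ := gam0_bounds D
  have hC0 : 0 ≤ C := (hc.trans_le (hbd 0).1).le.trans (hbd 0).2
  have hC : ∀ x, |D.gam0 x| ≤ C := fun x => by
    rw [abs_of_pos (hc.trans_le (hbd x).1)]; exact (hbd x).2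
  obtain ⟨B, hB⟩ := db_bn_bdd D n τ
  have hM0 : 0 ≤ M := (abs_nonneg _).trans (hM 0)
  have hB0 : 0 ≤ B := (abs_nonneg _).trans (hB 0)
  have hfc : Continuous f := hf.continuous
  have hbc : ∀ j, Continuous (D.bj τ n j) := fun j => by
    obtain ⟨K, hK⟩ := db_bj_lip D n τ j
    exact hK.continuous
  have hbn : Continuous (D.bn τ n) := db_bn_cont D n τ
  have hbn2 : ∀ x, 1/2 ≤ D.bn τ n x := by
    intro x
    refine ge_of_tendsto ((db_bj_unif D n τ).tendsto_at x) ?_
    filter_upwards [hb] with j hj using hj x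
  -- inverses
  have hw2 : ∀ x, |(D.bn τ n x)⁻¹| ≤ 2 := by
    intro x
    rw [abs_of_pos (inv_pos.2 (by linarith [hbn2 x])), inv_le_comm₀ (by linarith [hbn2 x])
      (by norm_num)]
    linarith [hbn2 x]
  have hwc : Continuous fun x => (D.bn τ n x)⁻¹ :=
    hbn.inv₀ fun x => by linarith [hbn2 x]
  have hwjc : ∀ᶠ j in atTop, Continuous fun x => (D.bj τ n j x)⁻¹ := by
    filter_upwards [hb] with j hj
    exact (hbc j).inv₀ fun x => by linarith [hj x]
  have hwu : TendstoUniformly (fun j x => (D.bj τ n j x)⁻¹) (fun x => (D.bn τ n x)⁻¹) atTop := by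
    rw [Metric.tendstoUniformly_iff]
    intro ε hε
    filter_upwards [hb, Metric.tendstoUniformly_iff.1 (db_bj_unif D n τ) (ε / 4) (by positivity)]
      with j hj h1 x
    have h2 := h1 x
    have h3 := db_inv_sub (hbn2 x) (hj x)
    rw [Real.dist_eq] at h2 ⊢
    linarith
  have hwu2 : TendstoUniformly (fun j x => (D.bj τ n j x)⁻¹ ^ 2)
      (fun x => (D.bn τ n x)⁻¹ ^ 2) atTop := by
    rw [Metric.tendstoUniformly_iff]
    intro ε hε
    filter_upwards [hb, Metric.tendstoUniformly_iff.1 (db_bj_unif D n τ) (ε / 16) (by positivity)]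
      with j hj h1 x
    have h2 := h1 x
    have h3 := db_inv_sq_sub (hbn2 x) (hj x)
    rw [Real.dist_eq] at h2 ⊢
    linarith
  -- the quotients are Lipschitz
  have hwL : ∀ᶠ j in atTop, ∃ K' : ℝ≥0, LipschitzWith K' (fun x => f x * (D.bj τ n j x)⁻¹) := by
    filter_upwards [hb] with j hj
    obtain ⟨Kb, hKb⟩ := db_bj_lip D n τ j
    refine db_lip_mul hf (db_lip_inv hKb hj) hM (B := 2) fun x => ?_
    rw [abs_of_pos (inv_pos.2 (by linarith [hj x])), inv_le_comm₀ (by linarith [hj x])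
      (by norm_num)]
    linarith [hj x]
  have hwLb : ∀ᶠ j in atTop, ∀ x, |f x * (D.bj τ n j x)⁻¹| ≤ M * 2 := by
    filter_upwards [hb] with j hj x
    rw [abs_mul]
    refine mul_le_mul (hM x) ?_ (abs_nonneg _) hM0
    rw [abs_of_pos (inv_pos.2 (by linarith [hj x])), inv_le_comm₀ (by linarith [hj x])
      (by norm_num)]
    linarith [hj x]
  -- gradients of the quotients
  have hgr : ∀ᶠ j in atTop, ∀ᵐ x, DifferentiableAt ℝ f x ∧
      DifferentiableAt ℝ (fun x => f x * (D.bj τ n j x)⁻¹) x ∧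
      ∇ (fun x => f x * (D.bj τ n j x)⁻¹) x = (D.bj τ n j x)⁻¹ • ∇ f x +
        (-(τ * (f x * (D.bj τ n j x)⁻¹ ^ 2))) • ∇ (D.PsiJ n j) x := by
    filter_upwards [hb, hwL] with j hj hL
    filter_upwards [pr_lip_diff f ⟨K, hf⟩, pr_lip_diff _ (db_bj_lip D n τ j), pr_lip_diff _ hL]
      with x h1 h2 h3
    refine ⟨h1, h3, ?_⟩
    have hne : ∀ y, D.bj τ n j y ≠ 0 := fun y => by linarith [hj y]
    have e1 : (fun y => D.bj τ n j y * (f y * (D.bj τ n j y)⁻¹)) = f := by
      funext y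
      field_simp [hne y]
    have e2 := db_grad_mul h2 h3
    rw [e1, db_grad_bj] at e2
    have e3 : ∇ (fun x => f x * (D.bj τ n j x)⁻¹) x = (D.bj τ n j x)⁻¹ •
        (∇ f x - (f x * (D.bj τ n j x)⁻¹) • τ • ∇ (D.PsiJ n j) x) := by
      rw [e2, add_sub_cancel_right, smul_smul, inv_mul_cancel₀ (hne x), one_smul]
    rw [e3]
    module
  set Y : E3 → E3 := fun x => (D.bn τ n x)⁻¹ • ∇ f x +
    (-(τ * (f x * (D.bn τ n x)⁻¹ ^ 2))) • D.PsiG n x with hY
  have hYT : DbT (fun j => ∇ (fun x => f x * (D.bj τ n j x)⁻¹)) Y := by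
    have h1 : DbT (fun j x => (D.bj τ n j x)⁻¹ • ∇ f x) (fun x => (D.bn τ n x)⁻¹ • ∇ f x) :=
      DbT.smul (DbT.const (db_memLp_lip hf))
        (by filter_upwards [hwjc] with j hj using hj.measurable) hwc.measurable hw2 hwu
    have h2 : DbT (fun j x => (-(τ * (f x * (D.bj τ n j x)⁻¹ ^ 2))) • ∇ (D.PsiJ n j) x)
        (fun x => (-(τ * (f x * (D.bn τ n x)⁻¹ ^ 2))) • D.PsiG n x) := by
      refine DbT.smul (db_T D n) ?_ ?_ (M := |τ| * (M * 4)) (fun x => ?_) ?_
      · filter_upwards [hwjc] with j hj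
        exact ((hfc.mul (hj.pow 2)).measurable.const_mul τ).neg
      · exact ((hfc.mul (hwc.pow 2)).measurable.const_mul τ).neg
      · rw [abs_neg, abs_mul, abs_mul, abs_pow]
        refine mul_le_mul_of_nonneg_left (mul_le_mul (hM x) ?_ (by positivity) hM0)
          (abs_nonneg _)
        have := pow_le_pow_left₀ (abs_nonneg _) (hw2 x) 2
        linarith
      · have := db_unif_mul hwu2 (c := fun x => -(τ * f x)) (M := |τ| * M) fun x => by
          rw [abs_neg, abs_mul]; exact mul_le_mul_of_nonneg_left (hM x) (abs_nonneg _)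
        convert this using 2
        · funext x; ring
        · ring
    refine (h1.add h2).congr ?_
    filter_upwards [hgr] with j hj
    filter_upwards [hj] with x hx using hx.2.2
  -- the gradients of `f² / b_j`
  set V : E3 → E3 := fun x => (2 * f x * (D.bn τ n x)⁻¹) • ∇ f x +
    (-(τ * (f x * f x * (D.bn τ n x)⁻¹ ^ 2))) • D.PsiG n x with hV
  have hVT : DbT (fun j => ∇ (fun x => f x * (f x * (D.bj τ n j x)⁻¹))) V := by
    have h1 : DbT (fun j x => (2 * f x * (D.bj τ n j x)⁻¹) • ∇ f x)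
        (fun x => (2 * f x * (D.bn τ n x)⁻¹) • ∇ f x) := by
      refine DbT.smul (DbT.const (db_memLp_lip hf)) ?_
        ((hfc.const_mul 2).mul hwc).measurable (M := 2 * M * 2) (fun x => ?_)
        (db_unif_mul hwu (M := 2 * M) fun x => ?_)
      · filter_upwards [hwjc] with j hj
        exact ((hfc.const_mul 2).mul hj).measurable
      · rw [abs_mul, abs_mul, abs_two]
        exact mul_le_mul (mul_le_mul_of_nonneg_left (hM x) (by norm_num)) (hw2 x)
          (abs_nonneg _) (by positivity)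
      · rw [abs_mul, abs_two]
        exact mul_le_mul_of_nonneg_left (hM x) (by norm_num)
    have h2 : DbT (fun j x => (-(τ * (f x * f x * (D.bj τ n j x)⁻¹ ^ 2))) • ∇ (D.PsiJ n j) x)
        (fun x => (-(τ * (f x * f x * (D.bn τ n x)⁻¹ ^ 2))) • D.PsiG n x) := by
      refine DbT.smul (db_T D n) ?_ ?_ (M := |τ| * (M * M * 4)) (fun x => ?_) ?_
      · filter_upwards [hwjc] with j hj
        exact (((hfc.mul hfc).mul (hj.pow 2)).measurable.const_mul τ).neg
      · exact (((hfc.mul hfc).mul (hwc.pow 2)).measurable.const_mul τ).neg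
      · rw [abs_neg, abs_mul, abs_mul, abs_pow, abs_mul]
        refine mul_le_mul_of_nonneg_left (mul_le_mul (mul_le_mul (hM x) (hM x) (abs_nonneg _) hM0)
          ?_ (by positivity) (by positivity)) (abs_nonneg _)
        have := pow_le_pow_left₀ (abs_nonneg _) (hw2 x) 2
        linarith
      · have := db_unif_mul hwu2 (c := fun x => -(τ * (f x * f x))) (M := |τ| * (M * M)) fun x => by
          rw [abs_neg, abs_mul, abs_mul]
          exact mul_le_mul_of_nonneg_left (mul_le_mul (hM x) (hM x) (abs_nonneg _) hM0)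
            (abs_nonneg _)
        convert this using 2
        · funext x; ring
        · ring
    refine (h1.add h2).congr ?_
    filter_upwards [hgr] with j hj
    filter_upwards [hj] with x hx
    rw [db_grad_mul hx.1 hx.2.1, hx.2.2]
    module
  have hpair := db_pair_lim D n
    (ψ := fun j x => f x * (f x * (D.bj τ n j x)⁻¹))
    (by
      filter_upwards [hwL, hwLb] with j hj hj2
      obtain ⟨K', hK'⟩ := hj
      exact db_lip_mul hf hK' hM hj2)
    hVT (r := 0)
    (Eventually.of_forall fun j => by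
      have hz : ∀ b, ∀ x ∈ Kc n,
          ((fun x => f x * (f x * (D.bj τ n j x)⁻¹)) ∘ sim b) x = (fun _ => (0:ℝ)) x := by
        intro b x hx
        have : sim b x ∈ Kc (n + 1) := by
          cases b with
          | true => exact Or.inl ⟨x, hx, rfl⟩
          | false => exact Or.inr ⟨x, hx, rfl⟩
        simp only [Function.comp_apply]
        rw [hK _ this, zero_mul]
      rw [db_avgn_congr n (hz true), db_avgn_congr n (hz false), sub_self, zero_div])
  -- conclusion
  have hw : ∀ x, |D.bn τ n x ^ 2 * D.gam0 x| ≤ B ^ 2 * C := by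
    intro x
    rw [abs_mul, abs_pow]
    exact mul_le_mul (pow_le_pow_left₀ (abs_nonneg _) (hB x) 2) (hC x) (abs_nonneg _)
      (by positivity)
  have hwm : Measurable fun x => D.bn τ n x ^ 2 * D.gam0 x :=
    (hbn.measurable.pow_const 2).mul (gam0_measurable D)
  have hlim := DbT.pair hwm hw hYT hYT
  have he : ∀ j, ballEnergy (fun x => D.bn τ n x ^ 2 * D.gam0 x)
      (fun x => f x / D.bj τ n j x) =
      ∫ x, D.bn τ n x ^ 2 * D.gam0 x * inner ℝ (∇ (fun x => f x * (D.bj τ n j x)⁻¹) x)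
        (∇ (fun x => f x * (D.bj τ n j x)⁻¹) x) ∂dbμ := by
    intro j
    have : (fun x => f x / D.bj τ n j x) = fun x => f x * (D.bj τ n j x)⁻¹ := by
      funext x; rw [div_eq_mul_inv]
    rw [this]
    exact db_energy _ (ae_eq_refl _)
  simp only [he]
  convert hlim using 2
  have i1 := (db_cs (gam0_measurable D) hC (db_memLp_lip hf) (db_memLp_lip hf)).1
  have i2 := (db_cs (gam0_measurable D) hC (db_T D n).2.1 hVT.2.1).1
  have i3 := i2.const_mul (-τ)
  rw [db_energy _ (ae_eq_refl (∇ f))]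
  have e1 : (0:ℝ) = ∫ x, -τ * (D.gam0 x * inner ℝ (D.PsiG n x) (V x)) ∂dbμ := by
    rw [integral_const_mul, hpair, mul_zero]
  rw [← add_zero (∫ x, D.gam0 x * inner ℝ (∇ f x) (∇ f x) ∂dbμ), e1, ← integral_add i1 i3]
  refine integral_congr_ae (Eventually.of_forall fun x => ?_)
  have hne : D.bn τ n x ≠ 0 := by linarith [hbn2 x]
  simp only [hY, hV, inner_add_left, inner_add_right, real_inner_smul_left,
    real_inner_smul_right]
  rw [real_inner_comm (D.PsiG n x) (∇ f x)]
  field_simp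
  ring

end Crest.Agent.R083
end

-- ▼ part R083/FinAsm

/-!
Row 83 (S0111): final assembly.
-/

set_option autoImplicit false

namespace Crest.Agent.R083

open MeasureTheory Set Filter
open scoped Gradient ENNReal NNReal Topology ContDiff
open Crest.AnalysisR.PDE.Calderon

theorem fa_off (x : E3) (hx : 2 < ‖x‖) : x ∉ cellB := fun h => by
  have := cellBc_norm x (cellB_subset h)
  linarith


theorem fa_grad_add_const (f : E3 → ℝ) (c : ℝ) (x : E3) : ∇ (fun y => f y + c) x = ∇ f x := by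
  unfold gradient
  rw [fderiv_add_const]

theorem fa_grad_add {f g : E3 → ℝ} {x : E3} (hf : DifferentiableAt ℝ f x)
    (hg : DifferentiableAt ℝ g x) : ∇ (fun y => f y + g y) x = ∇ f x + ∇ g x := by
  unfold gradient
  rw [fderiv_fun_add hf hg, map_add]

theorem fa_mul_lip {f g : E3 → ℝ} {Kf Kg : ℝ≥0} {Mf Mg : ℝ} (hf : LipschitzWith Kf f)
    (hg : LipschitzWith Kg g) (hMf : ∀ x, |f x| ≤ Mf) (hMg : ∀ x, |g x| ≤ Mg) :
    ∃ K : ℝ≥0, LipschitzWith K (fun x => f x * g x) := by
  have h0 : 0 ≤ Mf := (abs_nonneg _).trans (hMf 0)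
  have h1 : 0 ≤ Mg := (abs_nonneg _).trans (hMg 0)
  refine ⟨Mf.toNNReal * Kg + Mg.toNNReal * Kf, ?_⟩
  rw [lipschitzWith_iff_dist_le_mul]
  intro x y
  have a := hf.dist_le_mul x y
  have b := hg.dist_le_mul x y
  rw [Real.dist_eq] at a b ⊢
  push_cast
  rw [Real.coe_toNNReal _ h0, Real.coe_toNNReal _ h1]
  have h2 : f x * g x - f y * g y = f x * (g x - g y) + g y * (f x - f y) := by ring
  rw [h2]
  refine (abs_add_le _ _).trans ?_
  rw [abs_mul, abs_mul]
  have e1 : |f x| * |g x - g y| ≤ Mf * (Kg * dist x y) :=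
    mul_le_mul (hMf x) b (abs_nonneg _) h0
  have e2 : |g y| * |f x - f y| ≤ Mg * (Kf * dist x y) :=
    mul_le_mul (hMg y) a (abs_nonneg _) h1
  nlinarith

theorem fa_inv_lip {f : E3 → ℝ} {K : ℝ≥0} (hf : LipschitzWith K f) (hb : ∀ x, 1/2 ≤ f x) :
    LipschitzWith (4 * K) (fun x => (f x)⁻¹) := by
  rw [lipschitzWith_iff_dist_le_mul]
  intro x y
  have a := hf.dist_le_mul x y
  rw [Real.dist_eq] at a ⊢
  have hx : 0 < f x := by linarith [hb x]
  have hy : 0 < f y := by linarith [hb y]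
  have h1 : (f x)⁻¹ - (f y)⁻¹ = (f y - f x) / (f x * f y) := by
    field_simp
  rw [h1, abs_div, abs_of_pos (mul_pos hx hy), div_le_iff₀ (mul_pos hx hy), abs_sub_comm]
  push_cast
  have h2 : 1/4 ≤ f x * f y := by nlinarith [hb x, hb y]
  have h3 : 0 ≤ (K : ℝ) * dist x y := by positivity
  nlinarith

/-- A compactly supported continuous function is bounded. -/
theorem fa_bdd {f : E3 → ℝ} (hf : Continuous f) (hs : HasCompactSupport f) :
    ∃ M : ℝ, ∀ x, |f x| ≤ M := by
  obtain ⟨M, hM⟩ := hs.exists_bound_of_continuous hf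
  exact ⟨M, fun x => by simpa [Real.norm_eq_abs] using hM x⟩

/-- Upper bound: near-minimal energies for the weight at level `n`, then for the limit weight. -/
theorem fa_upper (D : ModData) (c C B τ : ℝ) (Φ : E3 → ℝ) (hc : 0 < c)
    (hb : ∀ x, c ≤ D.gam0 x ∧ D.gam0 x ≤ C) (hB : 0 < B)
    (hPb : ∀ n x, |D.Psi n x| ≤ B) (hPJ : ∀ n, ∀ᶠ j in atTop, ∀ x, |D.PsiJ n j x| ≤ B)
    (hΦc : Continuous Φ) (hΦ : ∀ n x, |Φ x - D.Psi n x| ≤ B * (5/6 : ℝ) ^ n)
    (hτ : 0 < τ) (hτB : τ * B ≤ 1/4)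
    (φ : E3 → ℝ) (m : ℝ)
    (hm : ∀ u, IsCompetitor φ u → m ≤ ballEnergy D.gam0 u)
    (hm' : ∀ δ : ℝ, 0 < δ → ∃ u, IsCompetitor φ u ∧ ballEnergy D.gam0 u ≤ m + δ)
    (hΦb : ∀ x, |Φ x| ≤ 2 * B)
    (η : ℝ) (hη : 0 < η) :
    ∃ w, IsCompetitor φ w ∧
      ballEnergy (fun x => (1 + τ * Φ x) ^ 2 * D.gam0 x) w < m + η := by
  -- choose the level
  have hlim : Tendsto (fun n : ℕ => (1 + (5/6 : ℝ) ^ n) ^ 2 * (m + η / 2)) atTop
      (𝓝 ((1 + 0) ^ 2 * (m + η / 2))) :=
    (((tendsto_pow_atTop_nhds_zero_of_lt_one (by norm_num) (by norm_num)).const_add 1).pow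
      2).mul_const _
  have hlt : (1 + 0) ^ 2 * (m + η / 2) < m + 3 * η / 4 := by linarith
  obtain ⟨n0, hn0⟩ := (eventually_atTop.1 (hlim.eventually_lt_const hlt))
  obtain ⟨n', hn', κ, v, hv, hvs, hvK, hvE⟩ := flat_near_min D φ m hm hm' (η / 4) (by positivity)
    (n0 + 1)
  obtain ⟨n, rfl⟩ : ∃ n, n' = n + 1 := ⟨n' - 1, by omega⟩
  have hnn : n0 ≤ n := by omega
  obtain ⟨Kv, hKv⟩ := hv.1.lipschitzWith_of_hasCompactSupport hvs (by norm_num)
  obtain ⟨Mv, hMv⟩ := fa_bdd hv.1.continuous hvs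
  set f : E3 → ℝ := fun x => v x + (-κ) with hf
  have hfL : LipschitzWith Kv f := by
    rw [lipschitzWith_iff_dist_le_mul]
    intro x y
    have := hKv.dist_le_mul x y
    rw [Real.dist_eq] at this ⊢
    simpa [hf] using this
  have hfM : ∀ x, |f x| ≤ Mv + |κ| := fun x => by
    have h1 := abs_add_le (v x) (-κ)
    rw [abs_neg] at h1
    have := hMv x
    change |v x + -κ| ≤ _
    linarith
  have hfgrad : ∀ x, ∇ f x = ∇ v x := fun x => fa_grad_add_const v (-κ) x
  have hfE : ballEnergy D.gam0 f = ballEnergy D.gam0 v := by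
    unfold ballEnergy; simp only [hfgrad]
  have hbjlow : ∀ᶠ j in atTop, ∀ x, 1/2 ≤ D.bj τ n j x := by
    filter_upwards [hPJ n] with j hj x
    have h1 := (abs_le.1 (hj x)).1
    unfold ModData.bj
    nlinarith
  have hdiv := doob_div D τ n f Kv (Mv + |κ|) hfL hfM
    (fun x hx => by change v x + -κ = 0; rw [hvK x hx]; ring) hbjlow
  have hlt2 : ballEnergy D.gam0 f < m + η / 2 := by rw [hfE]; linarith
  obtain ⟨j, hj1, hj2⟩ := ((hdiv.eventually_lt_const hlt2).and hbjlow).exists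
  -- the Lipschitz perturbation
  obtain ⟨Kb, hKb⟩ := bj_lip D τ n j
  have hinvL := fa_inv_lip hKb hj2
  have hinvL1 : LipschitzWith (4 * Kb) (fun x => (D.bj τ n j x)⁻¹ - 1) := by
    rw [lipschitzWith_iff_dist_le_mul]
    intro x y
    have := hinvL.dist_le_mul x y
    rw [Real.dist_eq] at this ⊢
    simpa using this
  have hinvb : ∀ x, |(D.bj τ n j x)⁻¹ - 1| ≤ 2 := fun x => by
    have h1 : 0 < D.bj τ n j x := by linarith [hj2 x]
    have h2 : (D.bj τ n j x)⁻¹ ≤ 2 := by
      rw [inv_le_comm₀ h1 (by norm_num)]; linarith [hj2 x]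
    have h3 : 0 < (D.bj τ n j x)⁻¹ := inv_pos.2 h1
    rw [abs_le]; constructor <;> linarith
  obtain ⟨Kz, hKz⟩ := fa_mul_lip hfL hinvL1 hfM hinvb
  set z : E3 → ℝ := fun x => f x * ((D.bj τ n j x)⁻¹ - 1) with hz
  have hz0 : ∀ x, 2 < ‖x‖ → z x = 0 := fun x hx => by
    change f x * ((D.bj τ n j x)⁻¹ - 1) = 0
    rw [bj_off D τ n j x (fa_off x hx)]; simp
  -- the weight
  have hgm : Measurable D.gam0 := gam0_measurable D
  set γ1 : E3 → ℝ := fun x => (1 + τ * Φ x) ^ 2 * D.gam0 x with hγ1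
  have hγ1m : Measurable γ1 := by
    have : Measurable (fun x => (1 + τ * Φ x) ^ 2) :=
      ((continuous_const.add (continuous_const.mul hΦc)).pow 2).measurable
    exact this.mul hgm
  have hC : 0 < C := hc.trans_le ((hb 0).1.trans (hb 0).2)
  have hcx : ∀ x, 1/2 ≤ 1 + τ * Φ x ∧ 1 + τ * Φ x ≤ 3/2 := fun x => by
    have h1 := abs_le.1 (hΦb x)
    constructor <;> nlinarith
  have hγ1b : ∀ x, c / 4 ≤ γ1 x ∧ γ1 x ≤ 9 / 4 * C := fun x => by
    have h1 := hcx x
    have h2 := hb x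
    have h3 : 1/4 ≤ (1 + τ * Φ x) ^ 2 := by nlinarith
    have h4 : (1 + τ * Φ x) ^ 2 ≤ 9/4 := by nlinarith
    have h5 : 0 < D.gam0 x := hc.trans_le h2.1
    constructor
    · change c / 4 ≤ (1 + τ * Φ x) ^ 2 * D.gam0 x
      nlinarith
    · change (1 + τ * Φ x) ^ 2 * D.gam0 x ≤ 9 / 4 * C
      nlinarith
  obtain ⟨w, hw, hwE⟩ := lip_competitor γ1 (c / 4) (9 / 4 * C) (by positivity) hγ1m hγ1b φ v hv z Kz
    hKz hz0 (η / 8) (by positivity)
  refine ⟨w, hw, ?_⟩
  -- identify the energy of the perturbed function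
  have hq : ∀ᵐ x, ∇ v x + ∇ z x = ∇ (fun y => f y / D.bj τ n j y) x := by
    filter_upwards [hKz.ae_differentiableAt] with x hx
    have h1 : DifferentiableAt ℝ f x :=
      ((hv.1.differentiable (by norm_num)) x).add_const _
    rw [← hfgrad x, ← fa_grad_add h1 hx]
    congr 1
    funext y
    change f y + f y * ((D.bj τ n j y)⁻¹ - 1) = f y / D.bj τ n j y
    ring
  have hqL : ∃ K : ℝ≥0, LipschitzWith K (fun y => f y / D.bj τ n j y) := by
    have hinvb' : ∀ x, |(D.bj τ n j x)⁻¹| ≤ 2 := fun x => by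
      have h1 : 0 < D.bj τ n j x := by linarith [hj2 x]
      rw [abs_of_pos (inv_pos.2 h1), inv_le_comm₀ h1 (by norm_num)]; linarith [hj2 x]
    simpa only [div_eq_mul_inv] using fa_mul_lip hfL hinvL hfM hinvb'
  obtain ⟨Kq, hKq⟩ := hqL
  have hE1 : ∫ x in Metric.ball (0 : E3) 3, γ1 x * ‖∇ v x + ∇ z x‖ ^ 2 =
      ∫ x in Metric.ball (0 : E3) 3, γ1 x * ‖∇ (fun y => f y / D.bj τ n j y) x‖ ^ 2 := by
    refine integral_congr_ae (ae_restrict_of_ae ?_)
    filter_upwards [hq] with x hx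
    rw [hx]
  -- compare the weights
  have hbnx : ∀ x, 1/2 ≤ D.bn τ n x ∧ D.bn τ n x ≤ 3/2 := fun x => by
    have h1 := abs_le.1 (hPb n x)
    unfold ModData.bn
    constructor <;> nlinarith
  have hcomp : ∀ x, γ1 x ≤ (1 + (5/6 : ℝ) ^ n) ^ 2 * (D.bn τ n x ^ 2 * D.gam0 x) := fun x => by
    have h1 := hbnx x
    have h2 := hcx x
    have h3 := (abs_le.1 (hΦ n x)).2
    have h4 : 1 + τ * Φ x ≤ (1 + (5/6 : ℝ) ^ n) * D.bn τ n x := by
      have h5 : τ * (Φ x - D.Psi n x) ≤ 1/4 * (5/6 : ℝ) ^ n := by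
        calc τ * (Φ x - D.Psi n x) ≤ τ * (B * (5/6 : ℝ) ^ n) := by gcongr
          _ = (τ * B) * (5/6 : ℝ) ^ n := by ring
          _ ≤ 1/4 * (5/6 : ℝ) ^ n := by gcongr
      have h6 : 1 + τ * Φ x = D.bn τ n x + τ * (Φ x - D.Psi n x) := by
        unfold ModData.bn; ring
      have h7 : 0 < (5/6 : ℝ) ^ n := by positivity
      rw [h6]
      nlinarith
    have h8 : (1 + τ * Φ x) ^ 2 ≤ ((1 + (5/6 : ℝ) ^ n) * D.bn τ n x) ^ 2 :=
      pow_le_pow_left₀ (by linarith) h4 2
    have h9 : 0 < D.gam0 x := hc.trans_le (hb x).1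
    calc γ1 x = (1 + τ * Φ x) ^ 2 * D.gam0 x := rfl
      _ ≤ ((1 + (5/6 : ℝ) ^ n) * D.bn τ n x) ^ 2 * D.gam0 x :=
          mul_le_mul_of_nonneg_right h8 h9.le
      _ = (1 + (5/6 : ℝ) ^ n) ^ 2 * (D.bn τ n x ^ 2 * D.gam0 x) := by ring
  have hγnm : Measurable (fun x => D.bn τ n x ^ 2 * D.gam0 x) :=
    ((bn_continuous D τ n).pow 2).measurable.mul hgm
  have hγnb : ∀ x, |D.bn τ n x ^ 2 * D.gam0 x| ≤ 9 / 4 * C := fun x => by
    have h1 := hbnx x
    have h2 := hb x
    have h4 : (D.bn τ n x) ^ 2 ≤ 9/4 := by nlinarith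
    have h5 : 0 < D.gam0 x := hc.trans_le h2.1
    rw [abs_of_nonneg (by positivity)]
    nlinarith [sq_nonneg (D.bn τ n x)]
  have hE2 : ∫ x in Metric.ball (0 : E3) 3, γ1 x * ‖∇ (fun y => f y / D.bj τ n j y) x‖ ^ 2 ≤
      (1 + (5/6 : ℝ) ^ n) ^ 2 * ballEnergy (fun x => D.bn τ n x ^ 2 * D.gam0 x)
        (fun y => f y / D.bj τ n j y) := by
    unfold ballEnergy
    rw [← integral_const_mul]
    refine integral_mono ?_ ?_ fun x => ?_
    · exact bd_int_sq (C := 9 / 4 * C) hγ1m (fun x => by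
        rw [abs_of_nonneg ((by positivity : 0 ≤ c / 4).trans (hγ1b x).1)]; exact (hγ1b x).2)
        (bd_grad hKq)
    · exact (bd_int_sq hγnm hγnb (bd_grad hKq)).const_mul _
    · have := mul_le_mul_of_nonneg_right (hcomp x)
        (sq_nonneg ‖∇ (fun y => f y / D.bj τ n j y) x‖)
      change γ1 x * ‖∇ (fun y => f y / D.bj τ n j y) x‖ ^ 2 ≤
        (1 + (5/6 : ℝ) ^ n) ^ 2 * ((D.bn τ n x ^ 2 * D.gam0 x) *
          ‖∇ (fun y => f y / D.bj τ n j y) x‖ ^ 2)
      linarith
  have hE3 : (1 + (5/6 : ℝ) ^ n) ^ 2 * ballEnergy (fun x => D.bn τ n x ^ 2 * D.gam0 x)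
        (fun y => f y / D.bj τ n j y) ≤ (1 + (5/6 : ℝ) ^ n) ^ 2 * (m + η / 2) := by
    gcongr
  have hE4 := hn0 n hnn
  rw [hE1] at hwE
  linarith

set_option maxHeartbeats 4000000 in
/-- Lower bound for the energy of a competitor for the weighted conductivity. -/
theorem fa_lower (D : ModData) (c C B τ Ct : ℝ) (Φ : E3 → ℝ) (hc : 0 < c)
    (hb : ∀ x, c ≤ D.gam0 x ∧ D.gam0 x ≤ C) (hB : 0 < B)
    (hPb : ∀ n x, |D.Psi n x| ≤ B) (hPJ : ∀ n, ∀ᶠ j in atTop, ∀ x, |D.PsiJ n j x| ≤ B)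
    (hΦc : Continuous Φ) (hΦ : ∀ n x, |Φ x - D.Psi n x| ≤ B * (5/6 : ℝ) ^ n)
    (hτ : 0 < τ) (hτB : τ * B ≤ 1/4) (hCt : 0 < Ct) (hτC : τ * Ct ≤ 1/8)
    (htr : ∀ (n : ℕ) (z0 z : E3 → ℝ) (K : ℝ≥0) (M : ℝ),
      ContDiff ℝ 1 z0 → (∀ x, ‖x‖ = 3 → z0 x = 0) → LipschitzWith K z → (∀ x, |z x| ≤ M) →
      (∀ x, x ∉ cellB → z x = z0 x) →
      avgn n (fun x => z x ^ 2) ≤
        Ct * ∫ x in Metric.ball (0 : E3) 3, D.gam0 x * ‖∇ z x‖ ^ 2)
    (φ : E3 → ℝ) (m : ℝ)
    (hm : ∀ u, IsCompetitor φ u → m ≤ ballEnergy D.gam0 u)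
    (hm' : ∀ δ : ℝ, 0 < δ → ∃ u, IsCompetitor φ u ∧ ballEnergy D.gam0 u ≤ m + δ)
    (hΦb : ∀ x, |Φ x| ≤ 2 * B)
    (η : ℝ) (hη : 0 < η) (u₀ : E3 → ℝ) (hu₀ : IsCompetitor φ u₀) :
    m ≤ ballEnergy (fun x => (1 + τ * Φ x) ^ 2 * D.gam0 x) u₀ + 4 * η := by
  obtain ⟨u, hu, hus, ⟨Ku, hKu⟩, huE⟩ := compact_competitor φ u₀ hu₀
  rw [← huE]
  clear huE hu₀
  set γ1 : E3 → ℝ := fun x => (1 + τ * Φ x) ^ 2 * D.gam0 x with hγ1
  -- choose the level
  have hlim : Tendsto (fun n : ℕ => (1 + (5/6 : ℝ) ^ n) ^ 2 * ballEnergy γ1 u) atTop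
      (𝓝 ((1 + 0) ^ 2 * ballEnergy γ1 u)) :=
    (((tendsto_pow_atTop_nhds_zero_of_lt_one (by norm_num) (by norm_num)).const_add 1).pow
      2).mul_const _
  have hlt : (1 + 0) ^ 2 * ballEnergy γ1 u < ballEnergy γ1 u + η := by linarith
  obtain ⟨n0, hn0⟩ := (eventually_atTop.1 (hlim.eventually_lt_const hlt))
  obtain ⟨n', hn', κ, v, hv, hvs, hvK, hvE⟩ := flat_near_min D φ m hm hm' η hη (n0 + 1)
  obtain ⟨n, rfl⟩ : ∃ n, n' = n + 1 := ⟨n' - 1, by omega⟩
  have hnn : n0 ≤ n := by omega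
  obtain ⟨Kv, hKv⟩ := hv.1.lipschitzWith_of_hasCompactSupport hvs (by norm_num)
  obtain ⟨Mv, hMv⟩ := fa_bdd hv.1.continuous hvs
  obtain ⟨Mu, hMu⟩ := fa_bdd hu.1.continuous hus
  set f : E3 → ℝ := fun x => u x + (-κ) with hf
  have hfL : LipschitzWith Ku f := by
    rw [lipschitzWith_iff_dist_le_mul]
    intro x y
    have := hKu.dist_le_mul x y
    rw [Real.dist_eq] at this ⊢
    simpa [hf] using this
  have hfM : ∀ x, |f x| ≤ Mu + |κ| := fun x => by
    have h1 := abs_add_le (u x) (-κ)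
    rw [abs_neg] at h1
    have := hMu x
    change |u x + -κ| ≤ _
    linarith
  have hfgrad : ∀ x, ∇ f x = ∇ u x := fun x => fa_grad_add_const u (-κ) x
  have hgm : Measurable D.gam0 := gam0_measurable D
  have hC : 0 < C := hc.trans_le ((hb 0).1.trans (hb 0).2)
  have hgpos : ∀ x, 0 ≤ D.gam0 x := fun x => hc.le.trans (hb x).1
  have hgabs : ∀ x, |D.gam0 x| ≤ C := fun x => by rw [abs_of_nonneg (hgpos x)]; exact (hb x).2
  -- the limit
  have hmul := doob_mul D τ n f Ku (Mu + |κ|) hfL hfM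
  set En := ballEnergy (fun x => D.bn τ n x ^ 2 * D.gam0 x) f with hEn
  set Δ := avgn n ((fun x => D.bn τ n x * f x ^ 2) ∘ sim true) -
          avgn n ((fun x => D.bn τ n x * f x ^ 2) ∘ sim false) with hΔ
  obtain ⟨j, hj1, hj2⟩ := ((hmul.eventually_lt_const
    (show En + τ / 2 * Δ < En + τ / 2 * Δ + η by linarith)).and (hPJ n)).exists
  obtain ⟨Kb, hKb⟩ := bj_lip D τ n j
  have hb1L : LipschitzWith Kb (fun x => D.bj τ n j x - 1) := by
    rw [lipschitzWith_iff_dist_le_mul]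
    intro x y
    have := hKb.dist_le_mul x y
    rw [Real.dist_eq] at this ⊢
    simpa using this
  have hb1b : ∀ x, |D.bj τ n j x - 1| ≤ 1 := fun x => by
    have h1 := abs_le.1 (hj2 x)
    unfold ModData.bj
    rw [abs_le]; constructor <;> nlinarith
  obtain ⟨Ky, hKy⟩ := fa_mul_lip hb1L hfL hb1b hfM
  set y : E3 → ℝ := fun x => (D.bj τ n j x - 1) * f x with hy
  have hy0 : ∀ x, x ∉ cellB → y x = 0 := fun x hx => by
    change (D.bj τ n j x - 1) * f x = 0
    rw [bj_off D τ n j x hx]; simp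
  have hyb : ∀ x, |y x| ≤ Mu + |κ| := fun x => by
    change |(D.bj τ n j x - 1) * f x| ≤ _
    rw [abs_mul]
    calc |D.bj τ n j x - 1| * |f x| ≤ 1 * (Mu + |κ|) :=
          mul_le_mul (hb1b x) (hfM x) (abs_nonneg _) zero_le_one
      _ = _ := one_mul _
  set z0 : E3 → ℝ := fun x => u x - v x with hz0
  have hz0C : ContDiff ℝ 1 z0 := hu.1.sub hv.1
  have hz0S : ∀ x, ‖x‖ = 3 → z0 x = 0 := fun x hx => by
    change u x - v x = 0
    rw [hu.2 x hx, hv.2 x hx, sub_self]
  set z : E3 → ℝ := fun x => z0 x + y x with hz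
  have hz0L : LipschitzWith (Ku + Kv) z0 := hKu.sub hKv
  have hzL : LipschitzWith (Ku + Kv + Ky) z := hz0L.add hKy
  have hzb : ∀ x, |z x| ≤ Mu + Mv + (Mu + |κ|) := fun x => by
    have h1 := abs_add_le (z0 x) (y x)
    have h2 : |z0 x| ≤ |u x| + |v x| := abs_sub (u x) (v x)
    have h3 := hMu x
    have h4 := hMv x
    have h5 := hyb x
    change |z0 x + y x| ≤ _
    linarith
  have hzoff : ∀ x, x ∉ cellB → z x = z0 x := fun x hx => by
    change z0 x + y x = z0 x
    rw [hy0 x hx, add_zero]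
  -- differentiability
  have hud : ∀ x, DifferentiableAt ℝ u x := fun x => hu.1.differentiable (by norm_num) x
  have hvd : ∀ x, DifferentiableAt ℝ v x := fun x => hv.1.differentiable (by norm_num) x
  have hz0g : ∀ x, ∇ z0 x = ∇ u x - ∇ v x := fun x => by
    change ∇ (fun x => u x - v x) x = _
    unfold gradient
    rw [fderiv_fun_sub (hud x) (hvd x), map_sub]
  have hzg : ∀ᵐ x, ∇ z x = ∇ u x - ∇ v x + ∇ y x := by
    filter_upwards [hKy.ae_differentiableAt] with x hx
    rw [← hz0g]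
    exact fa_grad_add ((hz0C.differentiable (by norm_num)) x) hx
  -- energy of the product
  have hprod : ballEnergy D.gam0 (fun x => D.bj τ n j x * f x) =
      ∫ x in Metric.ball (0 : E3) 3, D.gam0 x * ‖∇ v x + ∇ z x‖ ^ 2 := by
    unfold ballEnergy
    refine integral_congr_ae (ae_restrict_of_ae ?_)
    filter_upwards [hKy.ae_differentiableAt, hzg] with x hx hx2
    have h1 : ∇ (fun x => D.bj τ n j x * f x) x = ∇ v x + ∇ z x := by
      have h2 : (fun x => D.bj τ n j x * f x) = fun x => f x + y x := by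
        funext x
        change D.bj τ n j x * f x = f x + (D.bj τ n j x - 1) * f x
        ring
      rw [h2, fa_grad_add ((hud x).add_const _) hx, hx2, hfgrad]
      abel
    rw [h1]
  -- near minimality
  have hX : Bd (∇ v) := bd_grad hKv
  have hZ : Bd (∇ z) := bd_grad hzL
  have hcomp : ∀ t : ℝ, m ≤ ∫ x in Metric.ball (0 : E3) 3, D.gam0 x * ‖∇ v x + t • ∇ z x‖ ^ 2 := by
    intro t
    refine le_of_forall_pos_lt_add fun ε hε => ?_
    have hvt : IsCompetitor φ (fun x => v x + t * z0 x) :=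
      NearMin.competitor_add hv hz0C hz0S t
    have hyt : LipschitzWith (‖t‖₊ * Ky) (fun x => t * y x) := by
      rw [lipschitzWith_iff_dist_le_mul]
      intro a b
      have := hKy.dist_le_mul a b
      rw [Real.dist_eq] at this ⊢
      rw [← mul_sub, abs_mul, NNReal.coe_mul, coe_nnnorm, Real.norm_eq_abs, mul_assoc]
      exact mul_le_mul_of_nonneg_left this (abs_nonneg _)
    obtain ⟨w, hw, hwE⟩ := lip_competitor D.gam0 c C hc hgm hb φ _ hvt (fun x => t * y x) _ hyt
      (fun x hx => by rw [hy0 x (fa_off x hx), mul_zero]) ε hε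
    have h1 := hm w hw
    have h2 : ∫ x in Metric.ball (0 : E3) 3, D.gam0 x *
        ‖∇ (fun x => v x + t * z0 x) x + ∇ (fun x => t * y x) x‖ ^ 2 =
        ∫ x in Metric.ball (0 : E3) 3, D.gam0 x * ‖∇ v x + t • ∇ z x‖ ^ 2 := by
      refine integral_congr_ae (ae_restrict_of_ae ?_)
      filter_upwards [hKy.ae_differentiableAt, hzg] with x hx hx2
      have h3 : ∇ (fun x => v x + t * z0 x) x = ∇ v x + t • (∇ u x - ∇ v x) := by
        rw [NearMin.grad_add_smul hv.1 hz0C, hz0g]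
      have h4 : ∇ (fun x => t * y x) x = t • ∇ y x := by
        unfold gradient
        rw [fderiv_const_mul hx, map_smulₛₗ]
        simp
      rw [h3, h4, hx2, smul_add]
      congr 3
      abel
    rw [h2] at hwE
    linarith
  have hlow := energy_lower hgm hgabs hgpos hX hZ m η hcomp hvE (1/2) (by norm_num)
  rw [← hprod] at hlow
  set Bz := ∫ x in Metric.ball (0 : E3) 3, D.gam0 x * ‖∇ z x‖ ^ 2 with hBz
  have hBz0 : 0 ≤ Bz := integral_nonneg fun x => mul_nonneg (hgpos x) (sq_nonneg _)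
  -- the trace term
  have htrz := htr (n + 1) z0 z _ _ hz0C hz0S hzL hzb hzoff
  rw [← hBz] at htrz
  have hbnx : ∀ x, 1/2 ≤ D.bn τ n x ∧ D.bn τ n x ≤ 3/2 := fun x => by
    have h1 := abs_le.1 (hPb n x)
    unfold ModData.bn
    constructor <;> nlinarith
  have hzK : ∀ x ∈ Kc (n + 1), z x = D.bn τ n x * f x := fun x hx => by
    change u x - v x + (D.bj τ n j x - 1) * (u x + -κ) = D.bn τ n x * (u x + -κ)
    rw [bn_Kc D τ n j x hx, hvK x hx]; ring
  have hzsq : ∀ x ∈ Kc (n + 1), |D.bn τ n x * f x ^ 2| ≤ 2 * z x ^ 2 := fun x hx => by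
    rw [hzK x hx, abs_of_nonneg (mul_nonneg (by linarith [(hbnx x).1]) (sq_nonneg _))]
    have := (hbnx x).1
    nlinarith [mul_nonneg (mul_nonneg (show (0:ℝ) ≤ D.bn τ n x by linarith) (sq_nonneg (f x)))
      (show (0:ℝ) ≤ 2 * D.bn τ n x - 1 by linarith)]
  have hfc : Continuous f := hfL.continuous
  have hzc : Continuous z := hzL.continuous
  have hc1 : Continuous (fun x => D.bn τ n x * f x ^ 2) := (bn_continuous D τ n).mul (hfc.pow 2)
  have hc2 : Continuous (fun x => 2 * z x ^ 2) := continuous_const.mul (hzc.pow 2)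
  have ht := abs_avgn_le n (ψ := (fun x => D.bn τ n x * f x ^ 2) ∘ sim true)
    (ψ' := (fun x => 2 * z x ^ 2) ∘ sim true) (hc1.comp (sim_continuous _))
    (hc2.comp (sim_continuous _)) fun x hx => hzsq _ (Or.inl (mem_image_of_mem _ hx))
  have hff := abs_avgn_le n (ψ := (fun x => D.bn τ n x * f x ^ 2) ∘ sim false)
    (ψ' := (fun x => 2 * z x ^ 2) ∘ sim false) (hc1.comp (sim_continuous _))
    (hc2.comp (sim_continuous _)) fun x hx => hzsq _ (Or.inr (mem_image_of_mem _ hx))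
  have hsum : (avgn n ((fun x => 2 * z x ^ 2) ∘ sim true) +
      avgn n ((fun x => 2 * z x ^ 2) ∘ sim false)) / 2 = 2 * avgn (n + 1) (fun x => z x ^ 2) := by
    rw [← avgn_const_mul (n + 1) 2]
    rfl
  have hΔb : |Δ| ≤ 4 * (Ct * Bz) := by
    have h1 := abs_sub (avgn n ((fun x => D.bn τ n x * f x ^ 2) ∘ sim true))
      (avgn n ((fun x => D.bn τ n x * f x ^ 2) ∘ sim false))
    rw [← hΔ] at h1
    linarith
  have hτΔ : τ / 2 * Δ ≤ 1/4 * Bz := by
    have h1 : τ / 2 * Δ ≤ τ / 2 * (4 * (Ct * Bz)) :=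
      mul_le_mul_of_nonneg_left ((le_abs_self _).trans hΔb) (by positivity)
    have h2 : τ / 2 * (4 * (Ct * Bz)) = 2 * (τ * Ct) * Bz := by ring
    rw [h2] at h1
    nlinarith
  have hEnlow : m - 3 * η ≤ En := by
    have h1 : η / (1/2) = 2 * η := by ring
    rw [h1] at hlow
    linarith
  -- compare the weights
  have hγ1m : Measurable γ1 := by
    have : Measurable (fun x => (1 + τ * Φ x) ^ 2) :=
      ((continuous_const.add (continuous_const.mul hΦc)).pow 2).measurable
    exact this.mul hgm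
  have hcx : ∀ x, 1/2 ≤ 1 + τ * Φ x ∧ 1 + τ * Φ x ≤ 3/2 := fun x => by
    have h1 := abs_le.1 (hΦb x)
    constructor <;> nlinarith
  have hγ1b : ∀ x, |γ1 x| ≤ 9 / 4 * C := fun x => by
    have h1 := hcx x
    have h2 := hb x
    have h4 : (1 + τ * Φ x) ^ 2 ≤ 9/4 := by nlinarith
    have h5 : 0 < D.gam0 x := hc.trans_le h2.1
    change |(1 + τ * Φ x) ^ 2 * D.gam0 x| ≤ 9 / 4 * C
    rw [abs_of_nonneg (by positivity)]
    nlinarith [sq_nonneg (1 + τ * Φ x)]
  have hcompw : ∀ x, D.bn τ n x ^ 2 * D.gam0 x ≤ (1 + (5/6 : ℝ) ^ n) ^ 2 * γ1 x := fun x => by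
    have h1 := hbnx x
    have h2 := hcx x
    have h3 := (abs_le.1 (hΦ n x)).1
    have h4 : D.bn τ n x ≤ (1 + (5/6 : ℝ) ^ n) * (1 + τ * Φ x) := by
      have h5 : τ * (D.Psi n x - Φ x) ≤ 1/4 * (5/6 : ℝ) ^ n := by
        calc τ * (D.Psi n x - Φ x) ≤ τ * (B * (5/6 : ℝ) ^ n) := by gcongr; linarith
          _ = (τ * B) * (5/6 : ℝ) ^ n := by ring
          _ ≤ 1/4 * (5/6 : ℝ) ^ n := by gcongr
      have h6 : D.bn τ n x = (1 + τ * Φ x) + τ * (D.Psi n x - Φ x) := by
        unfold ModData.bn; ring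
      have h7 : 0 < (5/6 : ℝ) ^ n := by positivity
      rw [h6]
      nlinarith
    have h8 : (D.bn τ n x) ^ 2 ≤ ((1 + (5/6 : ℝ) ^ n) * (1 + τ * Φ x)) ^ 2 :=
      pow_le_pow_left₀ (by linarith) h4 2
    have h9 : 0 < D.gam0 x := hc.trans_le (hb x).1
    calc D.bn τ n x ^ 2 * D.gam0 x ≤ ((1 + (5/6 : ℝ) ^ n) * (1 + τ * Φ x)) ^ 2 * D.gam0 x :=
          mul_le_mul_of_nonneg_right h8 h9.le
      _ = (1 + (5/6 : ℝ) ^ n) ^ 2 * γ1 x := by simp only [hγ1]; ring
  have hγnm : Measurable (fun x => D.bn τ n x ^ 2 * D.gam0 x) :=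
    ((bn_continuous D τ n).pow 2).measurable.mul hgm
  have hγnb : ∀ x, |D.bn τ n x ^ 2 * D.gam0 x| ≤ 9 / 4 * C := fun x => by
    have h1 := hbnx x
    have h2 := hb x
    have h4 : (D.bn τ n x) ^ 2 ≤ 9/4 := by nlinarith
    have h5 : 0 < D.gam0 x := hc.trans_le h2.1
    rw [abs_of_nonneg (by positivity)]
    nlinarith [sq_nonneg (D.bn τ n x)]
  have hE2 : En ≤ (1 + (5/6 : ℝ) ^ n) ^ 2 * ballEnergy γ1 u := by
    rw [hEn]
    unfold ballEnergy
    simp only [hfgrad]
    rw [← integral_const_mul]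
    refine integral_mono (bd_int_sq hγnm hγnb (bd_grad hKu))
      ((bd_int_sq hγ1m hγ1b (bd_grad hKu)).const_mul _) fun x => ?_
    have := mul_le_mul_of_nonneg_right (hcompw x) (sq_nonneg ‖∇ u x‖)
    change (D.bn τ n x ^ 2 * D.gam0 x) * ‖∇ u x‖ ^ 2 ≤
      (1 + (5/6 : ℝ) ^ n) ^ 2 * (γ1 x * ‖∇ u x‖ ^ 2)
    linarith
  have hE4 := hn0 n hnn
  linarith

/-- The final statement from a module. -/
theorem fa_main (D : ModData) :
    ∃ γ₀ γ₁ : EuclideanSpace ℝ (Fin 3) → ℝ, ∃ c C : ℝ, 0 < c ∧ Measurable γ₀ ∧ Measurable γ₁ ∧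
      (∀ x, c ≤ γ₀ x ∧ γ₀ x ≤ C ∧ c ≤ γ₁ x ∧ γ₁ x ≤ C) ∧
      (∃ r : ℝ, r < 3 ∧ ∀ x : EuclideanSpace ℝ (Fin 3), r < ‖x‖ → γ₀ x = 1 ∧ γ₁ x = 1) ∧
      0 < volume {x : EuclideanSpace ℝ (Fin 3) | γ₀ x ≠ γ₁ x} ∧
      SameBoundaryEnergies γ₀ γ₁ := by
  obtain ⟨c, C, hc, hb⟩ := gam0_bounds D
  obtain ⟨B1, hB1, hPb1, hPJ1⟩ := psi_bound D
  obtain ⟨B2, Φ, hB2, hΦc, hΦ2, hΦoff, x₀, hx₀⟩ := psi_limit D
  obtain ⟨Ct, hCt, htr⟩ := trace_unif D
  set B := max B1 B2 with hBdef
  have hB : 0 < B := lt_max_of_lt_left hB1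
  have hPb : ∀ n x, |D.Psi n x| ≤ B := fun n x => (hPb1 n x).trans (le_max_left _ _)
  have hPJ : ∀ n, ∀ᶠ j in atTop, ∀ x, |D.PsiJ n j x| ≤ B := fun n => by
    filter_upwards [hPJ1 n] with j hj x using (hj x).trans (le_max_left _ _)
  have hΦ : ∀ n x, |Φ x - D.Psi n x| ≤ B * (5/6 : ℝ) ^ n := fun n x =>
    (hΦ2 n x).trans (mul_le_mul_of_nonneg_right (le_max_right _ _) (by positivity))
  have hΦb : ∀ x, |Φ x| ≤ 2 * B := fun x => by
    have h1 := hΦ 0 x
    rw [pow_zero, mul_one] at h1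
    have h2 := hPb 0 x
    have h3 := abs_add_le (Φ x - D.Psi 0 x) (D.Psi 0 x)
    simp only [sub_add_cancel] at h3
    linarith
  set τ : ℝ := min (1 / (4 * B)) (1 / (8 * Ct)) with hτdef
  have hτ : 0 < τ := lt_min (by positivity) (by positivity)
  have hτB : τ * B ≤ 1/4 := by
    have h1 : τ ≤ 1 / (4 * B) := min_le_left _ _
    calc τ * B ≤ 1 / (4 * B) * B := mul_le_mul_of_nonneg_right h1 hB.le
      _ = 1/4 := by field_simp
  have hτC : τ * Ct ≤ 1/8 := by
    have h1 : τ ≤ 1 / (8 * Ct) := min_le_right _ _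
    calc τ * Ct ≤ 1 / (8 * Ct) * Ct := mul_le_mul_of_nonneg_right h1 hCt.le
      _ = 1/8 := by field_simp
  have hgm : Measurable D.gam0 := gam0_measurable D
  have hC : 0 < C := hc.trans_le ((hb 0).1.trans (hb 0).2)
  set γ1 : E3 → ℝ := fun x => (1 + τ * Φ x) ^ 2 * D.gam0 x with hγ1
  have hγ1m : Measurable γ1 := by
    have : Measurable (fun x => (1 + τ * Φ x) ^ 2) :=
      ((continuous_const.add (continuous_const.mul hΦc)).pow 2).measurable
    exact this.mul hgm
  have hcx : ∀ x, 1/2 ≤ 1 + τ * Φ x ∧ 1 + τ * Φ x ≤ 3/2 := fun x => by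
    have h1 := abs_le.1 (hΦb x)
    constructor <;> nlinarith
  have hγ1b : ∀ x, c / 4 ≤ γ1 x ∧ γ1 x ≤ 9 / 4 * C := fun x => by
    have h1 := hcx x
    have h2 := hb x
    have h3 : 1/4 ≤ (1 + τ * Φ x) ^ 2 := by nlinarith
    have h4 : (1 + τ * Φ x) ^ 2 ≤ 9/4 := by nlinarith
    have h5 : 0 < D.gam0 x := hc.trans_le h2.1
    constructor
    · change c / 4 ≤ (1 + τ * Φ x) ^ 2 * D.gam0 x
      nlinarith
    · change (1 + τ * Φ x) ^ 2 * D.gam0 x ≤ 9 / 4 * C
      nlinarith
  refine ⟨D.gam0, γ1, c / 4, 9 / 4 * C, by positivity, hgm, hγ1m, fun x => ⟨?_, ?_, (hγ1b x).1,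
    (hγ1b x).2⟩, ⟨2, by norm_num, fun x hx => ⟨gam0_off D x (fa_off x hx), ?_⟩⟩, ?_, ?_⟩
  · linarith [(hb x).1]
  · linarith [(hb x).2]
  · change (1 + τ * Φ x) ^ 2 * D.gam0 x = 1
    rw [gam0_off D x (fa_off x hx), hΦoff x (fa_off x hx)]; norm_num
  · -- the conductivities differ on a nonempty open set
    have hopen : IsOpen {x : E3 | 0 < Φ x} := isOpen_lt continuous_const hΦc
    have hne : ({x : E3 | 0 < Φ x}).Nonempty := ⟨x₀, hx₀⟩
    refine lt_of_lt_of_le (hopen.measure_pos volume hne) (measure_mono fun x hx => ?_)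
    have hx' : 0 < Φ x := hx
    have h5 : 0 < D.gam0 x := hc.trans_le (hb x).1
    have h6 : 0 < τ * Φ x := mul_pos hτ hx'
    change D.gam0 x ≠ (1 + τ * Φ x) ^ 2 * D.gam0 x
    have h7 : 1 < (1 + τ * Φ x) ^ 2 := by nlinarith
    nlinarith [mul_lt_mul_of_pos_right h7 h5] 
  · intro φ hφ
    -- the infimum
    set S : Set ℝ := {E | ∃ u, IsCompetitor φ u ∧ E = ballEnergy D.gam0 u} with hS
    have hSne : S.Nonempty := ⟨_, φ, ⟨hφ, fun _ _ => rfl⟩, rfl⟩
    have hSb : BddBelow S := ⟨0, by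
      rintro E ⟨u, _, rfl⟩
      exact integral_nonneg fun x => mul_nonneg (hc.le.trans (hb x).1) (sq_nonneg _)⟩
    set m := sInf S with hm_def
    have hm : ∀ u, IsCompetitor φ u → m ≤ ballEnergy D.gam0 u := fun u hu =>
      csInf_le hSb ⟨u, hu, rfl⟩
    have hmlt : ∀ δ : ℝ, 0 < δ → ∃ u, IsCompetitor φ u ∧ ballEnergy D.gam0 u < m + δ := by
      intro δ hδ
      obtain ⟨E, ⟨u, hu, rfl⟩, hE⟩ := exists_lt_of_csInf_lt hSne
        (show sInf S < m + δ by linarith)
      exact ⟨u, hu, hE⟩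
    have hm' : ∀ δ : ℝ, 0 < δ → ∃ u, IsCompetitor φ u ∧ ballEnergy D.gam0 u ≤ m + δ :=
      fun δ hδ => by
        obtain ⟨u, hu, hE⟩ := hmlt δ hδ
        exact ⟨u, hu, hE.le⟩
    constructor
    · intro u hu ε hε
      obtain ⟨w, hw, hwE⟩ := fa_upper D c C B τ Φ hc hb hB hPb hPJ hΦc hΦ hτ hτB φ m hm hm' hΦb
        ε hε
      exact ⟨w, hw, hwE.trans_le (by linarith [hm u hu])⟩
    · intro u hu ε hε
      have h1 := fa_lower D c C B τ Ct Φ hc hb hB hPb hPJ hΦc hΦ hτ hτB hCt hτC htr φ m hm hm' hΦb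
        (ε / 8) (by positivity) u hu
      obtain ⟨w, hw, hwE⟩ := hmlt (ε / 4) (by positivity)
      refine ⟨w, hw, ?_⟩
      linarith

end Crest.Agent.R083
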