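import Crest.Agent.R083.Defs
import Crest.Agent.R083.IsoDefs
import Crest.Agent.R083.Wdf

-- ▼ part R083/Potential
section

/-!
Row 83 (S0111), ISO-a (task 901, helper286): local second order potentials.

For smooth fields `(w, J)` with `∂₂ w = J₂` and `div J = 0` there are, near every point, smooth
functions `Zx`, `Zy` with `w = ∂₁ Zx - ∂₀ Zy`, `J₀ = ∂₂∂₂ Zy`, `J₁ = -∂₂∂₂ Zx`.
-/

set_option autoImplicit false

namespace Crest.Agent.R083

open MeasureTheory Set Filter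
open scoped Gradient ENNReal NNReal Topology ContDiff

/-- (only to create the namespace) -/
theorem Pot.trivial_ns : True := trivial

open Pot

/-! ### parametric integrals of smooth functions -/

section param

variable {E : Type} [NormedAddCommGroup E] [NormedSpace ℝ E] [ProperSpace E]

theorem Pot.hasFDerivAt_param {F : Type} [NormedAddCommGroup F] [NormedSpace ℝ F] [CompleteSpace F]
    {g : E × ℝ → F} (hg : ContDiff ℝ 1 g) (x₀ : E) :
    HasFDerivAt (fun x => ∫ s in (0:ℝ)..1, g (x, s))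
      (∫ s in (0:ℝ)..1, (fderiv ℝ g (x₀, s)).comp (ContinuousLinearMap.inl ℝ E ℝ)) x₀ := by
  have hgc : Continuous g := hg.continuous
  have hfc : Continuous (fderiv ℝ g) := hg.continuous_fderiv one_ne_zero
  have hf'c : Continuous (fun p : E × ℝ =>
      (fderiv ℝ g p).comp (ContinuousLinearMap.inl ℝ E ℝ)) :=
    hfc.clm_comp continuous_const
  -- bound on a compact set
  obtain ⟨C, hC⟩ := ((isCompact_closedBall x₀ 1).prod (isCompact_Icc (a := (0:ℝ)) (b := 1))).exists_bound_of_continuousOn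
    hf'c.continuousOn
  refine intervalIntegral.hasFDerivAt_integral_of_dominated_of_fderiv_le
    (F := fun x s => g (x, s))
    (F' := fun x s => (fderiv ℝ g (x, s)).comp (ContinuousLinearMap.inl ℝ E ℝ))
    (bound := fun _ => C) (s := Metric.closedBall x₀ 1)
    (Metric.closedBall_mem_nhds x₀ one_pos) ?_ ?_ ?_ ?_ ?_ ?_
  · exact Eventually.of_forall fun x =>
      (hgc.comp (Continuous.prodMk_right x)).aestronglyMeasurable
  · exact (hgc.comp (Continuous.prodMk_right x₀)).intervalIntegrable _ _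
  · exact (hf'c.comp (Continuous.prodMk_right x₀)).aestronglyMeasurable
  · refine Eventually.of_forall fun s hs x hx => hC (x, s) ⟨hx, ?_⟩
    rw [uIoc_of_le zero_le_one] at hs
    exact ⟨hs.1.le, hs.2⟩
  · exact intervalIntegrable_const
  · refine Eventually.of_forall fun s _ x _ => ?_
    have h1 : HasFDerivAt g (fderiv ℝ g (x, s)) (x, s) :=
      (hg.differentiable one_ne_zero _).hasFDerivAt
    exact h1.comp x (hasFDerivAt_prodMk_left x s)

theorem Pot.contDiff_param_nat (n : ℕ) : ∀ {F : Type} [NormedAddCommGroup F] [NormedSpace ℝ F]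
    [CompleteSpace F] {g : E × ℝ → F}, ContDiff ℝ n g →
    ContDiff ℝ n (fun x => ∫ s in (0:ℝ)..1, g (x, s)) := by
  induction n with
  | zero =>
    intro F _ _ _ g hg
    refine contDiff_zero.mpr ?_
    have := contDiff_zero.mp hg
    exact intervalIntegral.continuous_parametric_intervalIntegral_of_continuous'
      (f := fun x s => g (x, s)) (by simpa [Function.uncurry_def] using this) 0 1
  | succ n ih =>
    intro F _ _ _ g hg
    have hg1 : ContDiff ℝ 1 g := hg.of_le (by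
      push_cast
      exact le_add_self)
    refine contDiff_succ_iff_hasFDerivAt.mpr ⟨_, ?_, fun x => hasFDerivAt_param hg1 x⟩
    have h2 : ContDiff ℝ n (fderiv ℝ g) := hg.fderiv_right (by push_cast; exact le_rfl)
    exact ih (g := fun p => (fderiv ℝ g p).comp (ContinuousLinearMap.inl ℝ E ℝ))
      (h2.clm_comp contDiff_const)

theorem Pot.contDiff_param {F : Type} [NormedAddCommGroup F] [NormedSpace ℝ F] [CompleteSpace F]
    {g : E × ℝ → F} (hg : ContDiff ℝ ∞ g) :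
    ContDiff ℝ ∞ (fun x => ∫ s in (0:ℝ)..1, g (x, s)) := by
  rw [contDiff_infty] at hg ⊢
  exact fun n => contDiff_param_nat n (hg n)

end param

/-! ### coordinates -/

theorem Pot.ee_apply (i j : Fin 3) : ee i j = if j = i then 1 else 0 := by
  simp [ee]

theorem Pot.ee_self (i : Fin 3) : ee i i = 1 := by simp [ee_apply]

theorem Pot.ee_ne {i j : Fin 3} (h : j ≠ i) : ee i j = 0 := by simp [ee_apply, h]

theorem Pot.contDiff_coord (j : Fin 3) {n : WithTop ℕ∞} : ContDiff ℝ n (fun x : E3 => x j) :=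
  (EuclideanSpace.proj (𝕜 := ℝ) j).contDiff

/-- the projection as a continuous linear map -/
theorem Pot.hasFDerivAt_coord (j : Fin 3) (x : E3) :
    HasFDerivAt (fun x : E3 => x j) (EuclideanSpace.proj (𝕜 := ℝ) j : E3 →L[ℝ] ℝ) x :=
  (EuclideanSpace.proj (𝕜 := ℝ) j : E3 →L[ℝ] ℝ).hasFDerivAt

/-! ### the operators `P j a` (primitive in direction `j` from the level `a`) -/

/-- move towards the plane `x j = a`: parameter `s = 1` gives the projection. -/
noncomputable def mv (j : Fin 3) (a : ℝ) (x : E3) (s : ℝ) : E3 := x + (s * (a - x j)) • ee j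

/-- restriction to the plane `x j = a` -/
noncomputable def Qr (j : Fin 3) (a : ℝ) (f : E3 → ℝ) (x : E3) : ℝ := f (mv j a x 1)

/-- primitive in direction `j`, from the plane `x j = a` -/
noncomputable def Pr (j : Fin 3) (a : ℝ) (f : E3 → ℝ) (x : E3) : ℝ :=
  (x j - a) * ∫ s in (0:ℝ)..1, f (mv j a x s)

theorem contDiff_mv (j : Fin 3) (a : ℝ) :
    ContDiff ℝ ∞ (fun p : E3 × ℝ => mv j a p.1 p.2) := by
  unfold mv
  refine contDiff_fst.add (ContDiff.smul (contDiff_snd.mul (contDiff_const.sub ?_)) contDiff_const)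
  exact (contDiff_coord j).comp contDiff_fst

theorem contDiff_Pr (j : Fin 3) (a : ℝ) {f : E3 → ℝ} (hf : ContDiff ℝ ∞ f) :
    ContDiff ℝ ∞ (Pr j a f) := by
  unfold Pr
  refine ((contDiff_coord j).sub contDiff_const).mul ?_
  exact contDiff_param (g := fun p : E3 × ℝ => f (mv j a p.1 p.2)) (hf.comp (contDiff_mv j a))

theorem contDiff_Qr (j : Fin 3) (a : ℝ) {f : E3 → ℝ} (hf : ContDiff ℝ ∞ f) :
    ContDiff ℝ ∞ (Qr j a f) := by
  unfold Qr
  exact hf.comp ((contDiff_mv j a).comp (contDiff_id.prodMk contDiff_const))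

theorem mv_apply_self (j : Fin 3) (a : ℝ) (x : E3) (s : ℝ) :
    mv j a x s j = x j + s * (a - x j) := by
  simp [mv, ee_self]

theorem mv_apply_ne (j : Fin 3) (a : ℝ) (x : E3) (s : ℝ) {i : Fin 3} (h : i ≠ j) :
    mv j a x s i = x i := by
  simp [mv, ee_ne h]

/-- derivative of `mv` in the space variable -/
theorem hasFDerivAt_mv (j : Fin 3) (a : ℝ) (s : ℝ) (x : E3) :
    HasFDerivAt (fun x => mv j a x s)
      (ContinuousLinearMap.id ℝ E3 +
        (-(s • (EuclideanSpace.proj (𝕜 := ℝ) j : E3 →L[ℝ] ℝ))).smulRight (ee j)) x := by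
  unfold mv
  refine (hasFDerivAt_id x).add ?_
  have h1 : HasFDerivAt (fun x : E3 => s * (a - x j))
      (-(s • (EuclideanSpace.proj (𝕜 := ℝ) j : E3 →L[ℝ] ℝ))) x := by
    have := ((hasFDerivAt_coord j x).const_sub a).const_mul s
    refine this.congr_fderiv ?_
    ext
    simp
  exact h1.smul_const (ee j)

/-- (2) the primitive commutes with the derivatives in the other directions -/
theorem fderiv_Pr_ne {i j : Fin 3} (hij : i ≠ j) (a : ℝ) {f : E3 → ℝ} (hf : ContDiff ℝ ∞ f)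
    (x : E3) : fderiv ℝ (Pr j a f) x (ee i) = Pr j a (fun y => fderiv ℝ f y (ee i)) x := by
  have hg : ContDiff ℝ 1 (fun p : E3 × ℝ => f (mv j a p.1 p.2)) :=
    (hf.comp (contDiff_mv j a)).of_le (by exact_mod_cast le_top)
  have h1 := hasFDerivAt_param hg x
  have h2 : HasFDerivAt (fun x : E3 => x j - a)
      (EuclideanSpace.proj (𝕜 := ℝ) j : E3 →L[ℝ] ℝ) x := (hasFDerivAt_coord j x).sub_const a
  have h3 := h2.mul h1
  have h4 : fderiv ℝ (Pr j a f) x = _ := h3.fderiv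
  rw [h4]
  have hpi : (EuclideanSpace.proj (𝕜 := ℝ) j : E3 →L[ℝ] ℝ) (ee i) = 0 := by
    show ee i j = 0
    exact ee_ne hij.symm
  simp only [add_apply, smul_apply, smul_eq_mul, hpi,
    mul_zero, add_zero]
  unfold Pr
  congr 1
  have hfc : Continuous (fderiv ℝ (fun p : E3 × ℝ => f (mv j a p.1 p.2))) :=
    hg.continuous_fderiv one_ne_zero
  have hint : IntervalIntegrable (fun s => (fderiv ℝ (fun p : E3 × ℝ => f (mv j a p.1 p.2))
      (x, s)).comp (ContinuousLinearMap.inl ℝ E3 ℝ)) volume 0 1 :=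
    ((hfc.comp (Continuous.prodMk_right x)).clm_comp continuous_const).intervalIntegrable _ _
  rw [ContinuousLinearMap.intervalIntegral_apply hint]
  refine intervalIntegral.integral_congr fun s _ => ?_
  simp only
  -- compute the partial derivative
  have hd1 : HasFDerivAt (fun y => f (mv j a y s))
      ((fderiv ℝ (fun p : E3 × ℝ => f (mv j a p.1 p.2)) (x, s)).comp
        (ContinuousLinearMap.inl ℝ E3 ℝ)) x := by
    have h0 : HasFDerivAt (fun p : E3 × ℝ => f (mv j a p.1 p.2))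
        (fderiv ℝ (fun p : E3 × ℝ => f (mv j a p.1 p.2)) (x, s)) (x, s) :=
      (hg.differentiable one_ne_zero (x, s)).hasFDerivAt
    exact HasFDerivAt.comp (g := fun p : E3 × ℝ => f (mv j a p.1 p.2))
      (f := fun e : E3 => (e, s)) x h0 (hasFDerivAt_prodMk_left x s)
  have hd2 : HasFDerivAt (fun y => f (mv j a y s)) ((fderiv ℝ f (mv j a x s)).comp
      (ContinuousLinearMap.id ℝ E3 +
        (-(s • (EuclideanSpace.proj (𝕜 := ℝ) j : E3 →L[ℝ] ℝ))).smulRight (ee j))) x :=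
    ((hf.differentiable (by simp) _).hasFDerivAt).comp x (hasFDerivAt_mv j a s x)
  rw [hd1.unique hd2]
  simp [hpi]

/-- `Pr` as an integral over `a..x j` -/
theorem Pr_eq (j : Fin 3) (a : ℝ) (f : E3 → ℝ) (x : E3) :
    Pr j a f x = ∫ τ in a..(x j), f (x + (τ - x j) • ee j) := by
  unfold Pr mv
  have h := intervalIntegral.smul_integral_comp_mul_add
    (fun τ => f (x + (τ - x j) • ee j)) (a := 0) (b := 1) (a - x j) (x j)
  simp only [smul_eq_mul, mul_zero, zero_add, mul_one, sub_add_cancel] at h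
  rw [intervalIntegral.integral_symm (x j) a, ← h, ← neg_mul, neg_sub]
  congr 1
  refine intervalIntegral.integral_congr fun s _ => ?_
  simp only
  congr 3
  ring

/-- (1) the derivative of the primitive in its own direction -/
theorem fderiv_Pr_self (j : Fin 3) (a : ℝ) {f : E3 → ℝ} (hf : ContDiff ℝ ∞ f) (x : E3) :
    fderiv ℝ (Pr j a f) x (ee j) = f x := by
  have hd : HasFDerivAt (Pr j a f) (fderiv ℝ (Pr j a f) x) x :=
    ((contDiff_Pr j a hf).differentiable (by simp) x).hasFDerivAt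
  have hline : HasDerivAt (fun h : ℝ => x + h • ee j) (ee j) 0 := by
    have := ((hasDerivAt_id (0:ℝ)).smul_const (ee j)).const_add x
    simpa using this
  have hd' : HasFDerivAt (Pr j a f) (fderiv ℝ (Pr j a f) x) (x + (0:ℝ) • ee j) := by
    simpa using hd
  have h1 := hd'.comp_hasDerivAt (0:ℝ) hline
  -- the same function as a primitive
  have h2 : (Pr j a f) ∘ (fun h : ℝ => x + h • ee j) =
      fun h : ℝ => ∫ τ in a..(x j + h), f (x + (τ - x j) • ee j) := by
    funext h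
    simp only [Function.comp_apply]
    rw [Pr_eq]
    have e1 : (x + h • ee j) j = x j + h := by simp [ee_self]
    rw [e1]
    refine intervalIntegral.integral_congr fun τ _ => ?_
    simp only
    congr 1
    rw [add_assoc, ← add_smul]
    congr 2
    ring
  rw [h2] at h1
  have hc : Continuous (fun τ : ℝ => f (x + (τ - x j) • ee j)) := by
    have := hf.continuous
    fun_prop
  have h3 : HasDerivAt (fun h : ℝ => ∫ τ in a..(x j + h), f (x + (τ - x j) • ee j)) (f x) 0 := by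
    have h4 := intervalIntegral.integral_hasDerivAt_right (a := a) (b := x j + 0)
      (f := fun τ : ℝ => f (x + (τ - x j) • ee j)) (hc.intervalIntegrable _ _)
      (hc.stronglyMeasurableAtFilter _ _) hc.continuousAt
    have h5 : HasDerivAt (fun h : ℝ => x j + h) 1 0 := (hasDerivAt_id (0:ℝ)).const_add (x j)
    have h6 : HasDerivAt (fun h : ℝ => ∫ τ in a..(x j + h), f (x + (τ - x j) • ee j))
        (f (x + ((x j + 0) - x j) • ee j) * 1) 0 := h4.comp (0:ℝ) h5
    simpa using h6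
  exact h1.unique h3

/-- derivative of the restriction, in its own direction -/
theorem fderiv_Qr_self (j : Fin 3) (a : ℝ) {f : E3 → ℝ} (hf : ContDiff ℝ ∞ f) (x : E3) :
    fderiv ℝ (Qr j a f) x (ee j) = 0 := by
  have hd2 : HasFDerivAt (fun y => f (mv j a y 1)) ((fderiv ℝ f (mv j a x 1)).comp
      (ContinuousLinearMap.id ℝ E3 +
        (-((1:ℝ) • (EuclideanSpace.proj (𝕜 := ℝ) j : E3 →L[ℝ] ℝ))).smulRight (ee j))) x :=
    ((hf.differentiable (by simp) _).hasFDerivAt).comp x (hasFDerivAt_mv j a 1 x)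
  have : fderiv ℝ (Qr j a f) x = _ := hd2.fderiv
  rw [this]
  have hpi : (EuclideanSpace.proj (𝕜 := ℝ) j : E3 →L[ℝ] ℝ) (ee j) = 1 := by
    show ee j j = 1
    exact ee_self j
  simp [hpi]

/-- FTC: `Pr j a (∂ⱼ f) = f - Qr j a f` -/
theorem Pr_fderiv (j : Fin 3) (a : ℝ) {f : E3 → ℝ} (hf : ContDiff ℝ ∞ f) (x : E3) :
    Pr j a (fun y => fderiv ℝ f y (ee j)) x = f x - Qr j a f x := by
  rw [Pr_eq]
  have hd : ∀ τ : ℝ, HasDerivAt (fun τ : ℝ => f (x + (τ - x j) • ee j))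
      (fderiv ℝ f (x + (τ - x j) • ee j) (ee j)) τ := by
    intro τ
    have hline : HasDerivAt (fun τ : ℝ => x + (τ - x j) • ee j) (ee j) τ := by
      have := (((hasDerivAt_id τ).sub_const (x j)).smul_const (ee j)).const_add x
      simpa using this
    exact ((hf.differentiable (by simp) _).hasFDerivAt).comp_hasDerivAt τ hline
  have hc : Continuous (fun τ : ℝ => fderiv ℝ f (x + (τ - x j) • ee j) (ee j)) := by
    have h1 := (hf.continuous_fderiv (by simp))
    have h2 : Continuous (fun τ : ℝ => x + (τ - x j) • ee j) := by fun_prop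
    exact (h1.comp h2).clm_apply continuous_const
  rw [intervalIntegral.integral_eq_sub_of_hasDerivAt (fun τ _ => hd τ) (hc.intervalIntegrable _ _)]
  unfold Qr mv
  simp

/-- the restriction has a constant primitive in its own direction -/
theorem Pr_Qr (j : Fin 3) (a : ℝ) (f : E3 → ℝ) (x : E3) :
    Pr j a (Qr j a f) x = (x j - a) * Qr j a f x := by
  unfold Pr Qr
  congr 1
  have : ∀ s : ℝ, mv j a (mv j a x s) 1 = mv j a x 1 := by
    intro s
    ext i
    rcases eq_or_ne i j with h | h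
    · subst h
      rw [mv_apply_self, mv_apply_self, mv_apply_self]
      ring
    · rw [mv_apply_ne j a _ _ h, mv_apply_ne j a _ _ h, mv_apply_ne j a _ _ h]
  simp only [this]
  simp

/-! ### locality -/

/-- moving towards a plane through the centre stays in the ball -/
theorem mv_mem_ball {x₀ x : E3} {r : ℝ} (hx : x ∈ Metric.ball x₀ r) (j : Fin 3) {s : ℝ}
    (h0 : 0 ≤ s) (h1 : s ≤ 1) : mv j (x₀ j) x s ∈ Metric.ball x₀ r := by
  rw [Metric.mem_ball] at hx ⊢
  refine lt_of_le_of_lt ?_ hx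
  rw [EuclideanSpace.dist_eq, EuclideanSpace.dist_eq]
  refine Real.sqrt_le_sqrt (Finset.sum_le_sum fun i _ => ?_)
  rcases eq_or_ne i j with h | h
  · subst h
    rw [mv_apply_self, Real.dist_eq, Real.dist_eq, sq_abs, sq_abs]
    have e : x i + s * (x₀ i - x i) - x₀ i = (1 - s) * (x i - x₀ i) := by ring
    rw [e, mul_pow]
    have : (1 - s) ^ 2 ≤ 1 := by nlinarith
    nlinarith [sq_nonneg (x i - x₀ i)]
  · rw [mv_apply_ne _ _ _ _ h]

theorem Pr_congr {x₀ : E3} {r : ℝ} {f g : E3 → ℝ} (h : ∀ x ∈ Metric.ball x₀ r, f x = g x)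
    (j : Fin 3) {x : E3} (hx : x ∈ Metric.ball x₀ r) : Pr j (x₀ j) f x = Pr j (x₀ j) g x := by
  unfold Pr
  congr 1
  refine intervalIntegral.integral_congr fun s hs => ?_
  rw [uIcc_of_le zero_le_one] at hs
  exact h _ (mv_mem_ball hx j hs.1 hs.2)

theorem Pr_sub (j : Fin 3) (a : ℝ) {f g : E3 → ℝ} (hf : Continuous f) (hg : Continuous g)
    (x : E3) : Pr j a (fun y => f y - g y) x = Pr j a f x - Pr j a g x := by
  unfold Pr
  have hm : Continuous (fun s : ℝ => mv j a x s) := by unfold mv; fun_prop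
  have h := intervalIntegral.integral_sub (μ := volume)
    ((hf.comp hm).intervalIntegrable (μ := volume) 0 1)
    ((hg.comp hm).intervalIntegrable (μ := volume) 0 1)
  simp only [Function.comp_apply] at h
  rw [← mul_sub, ← h]

theorem Pr_neg (j : Fin 3) (a : ℝ) (f : E3 → ℝ) (x : E3) :
    Pr j a (fun y => - f y) x = - Pr j a f x := by
  unfold Pr
  rw [intervalIntegral.integral_neg, mul_neg]

/-! ### potential fields -/

/-- the potential `w` of a second order potential -/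
noncomputable def pw (Zx Zy : E3 → ℝ) (x : E3) : ℝ :=
  fderiv ℝ Zx x (ee 1) - fderiv ℝ Zy x (ee 0)

/-- the flux of a second order potential -/
noncomputable def pJ (Zx Zy : E3 → ℝ) (x : E3) : E3 :=
  pt (fderiv ℝ (fun y => fderiv ℝ Zy y (ee 2)) x (ee 2))
    (-(fderiv ℝ (fun y => fderiv ℝ Zx y (ee 2)) x (ee 2)))
    (fderiv ℝ (pw Zx Zy) x (ee 2))

theorem Pot.pt_zero (a b c : ℝ) : pt a b c 0 = a := rfl
theorem Pot.pt_one (a b c : ℝ) : pt a b c 1 = b := rfl
theorem Pot.pt_two (a b c : ℝ) : pt a b c 2 = c := rfl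

theorem Pot.contDiff_pd {f : E3 → ℝ} (hf : ContDiff ℝ ∞ f) (e : E3) :
    ContDiff ℝ ∞ (fun y => fderiv ℝ f y e) := by
  have : ContDiff ℝ ∞ (fderiv ℝ f) := hf.fderiv_right (by simp)
  exact this.clm_apply contDiff_const

/-- cutting off: a globally smooth function equal to `f` on a ball, for `f` smooth on `V`. -/
theorem Pot.exists_global {V : Set E3} (hV : IsOpen V) {x₀ : E3} (hx₀ : x₀ ∈ V) :
    ∃ r > 0, Metric.ball x₀ r ⊆ V ∧ ∃ χ : E3 → ℝ, (∀ x ∈ Metric.ball x₀ r, χ x = 1) ∧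
      ∀ f : E3 → ℝ, ContDiffOn ℝ ∞ f V → ContDiff ℝ ∞ (fun x => χ x * f x) := by
  obtain ⟨ρ, hρ, hρV⟩ := Metric.isOpen_iff.mp hV x₀ hx₀
  let b : ContDiffBump x₀ := ⟨ρ / 3, ρ / 2, by positivity, by linarith⟩
  refine ⟨ρ / 3, by positivity, (Metric.ball_subset_ball (by linarith)).trans hρV, b, ?_, ?_⟩
  · intro x hx
    exact b.one_of_mem_closedBall (Metric.ball_subset_closedBall hx)
  · intro f hf
    rw [contDiff_iff_contDiffAt]
    intro x
    by_cases hx : x ∈ tsupport b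
    · rw [b.tsupport_eq] at hx
      have hxV : x ∈ V := hρV (Metric.closedBall_subset_ball (by
        show ρ / 2 < ρ
        linarith) hx)
      exact (b.contDiff.contDiffAt).mul (hf.contDiffAt (hV.mem_nhds hxV))
    · have h0 : (fun x => b x * f x) =ᶠ[𝓝 x] fun _ => 0 := by
        have := (isClosed_tsupport b).isOpen_compl.mem_nhds hx
        filter_upwards [this] with y hy
        rw [image_eq_zero_of_notMem_tsupport hy, zero_mul]
      exact (contDiffAt_const (c := (0:ℝ))).congr_of_eventuallyEq h0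

theorem fderiv_Pr_Qr {i j : Fin 3} (hij : i ≠ j) (a b : ℝ) {f : E3 → ℝ} (hf : ContDiff ℝ ∞ f)
    (x : E3) : fderiv ℝ (Pr j a (Qr i b f)) x (ee i) = 0 := by
  rw [fderiv_Pr_ne hij a (contDiff_Qr i b hf)]
  have : (fun y => fderiv ℝ (Qr i b f) y (ee i)) = fun _ => 0 :=
    funext fun y => fderiv_Qr_self i b hf y
  rw [this]
  simp [Pr]

theorem Pot.fderiv_coord_apply {J : E3 → E3} {x : E3} (hJ : DifferentiableAt ℝ J x) (i : Fin 3)
    (e : E3) : fderiv ℝ (fun y => J y i) x e = (fderiv ℝ J x e) i := by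
  have h := (hasFDerivAt_coord i (J x)).comp x hJ.hasFDerivAt
  have h2 : fderiv ℝ (fun y => J y i) x = _ := h.fderiv
  rw [h2]
  rfl

/-- **local potentials**, with globally smooth potential functions. -/
theorem local_potential_global {V : Set E3} (hV : IsOpen V) {w : E3 → ℝ} {J : E3 → E3}
    (hw : ContDiffOn ℝ ∞ w V) (hJ : ContDiffOn ℝ ∞ J V)
    (h2 : ∀ x ∈ V, fderiv ℝ w x (ee 2) = J x 2) (hdiv : ∀ x ∈ V, dvg J x = 0)
    {x₀ : E3} (hx₀ : x₀ ∈ V) :
    ∃ r > 0, Metric.ball x₀ r ⊆ V ∧ ∃ Zx Zy : E3 → ℝ, ContDiff ℝ ∞ Zx ∧ ContDiff ℝ ∞ Zy ∧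
      ∀ x ∈ Metric.ball x₀ r, w x = pw Zx Zy x ∧ J x = pJ Zx Zy x := by
  obtain ⟨r, hr, hrV, χ, hχ, hχf⟩ := exists_global hV hx₀
  refine ⟨r, hr, hrV, ?_⟩
  set B := Metric.ball x₀ r with hB
  have hBo : IsOpen B := Metric.isOpen_ball
  set W : E3 → ℝ := fun x => χ x * w x with hWdef
  set A : Fin 3 → E3 → ℝ := fun i x => χ x * J x i with hAdef
  have hW : ContDiff ℝ ∞ W := hχf w hw
  have hA : ∀ i, ContDiff ℝ ∞ (A i) := fun i =>
    hχf (fun x => J x i) ((contDiff_coord i).comp_contDiffOn hJ)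
  have hWB : ∀ x ∈ B, W x = w x := fun x hx => by
    simp only [hWdef]; rw [hχ x hx, one_mul]
  have hAB : ∀ i, ∀ x ∈ B, A i x = J x i := fun i x hx => by
    simp only [hAdef]; rw [hχ x hx, one_mul]
  have hWB' : ∀ x ∈ B, W =ᶠ[𝓝 x] w := fun x hx => by
    filter_upwards [hBo.mem_nhds hx] with y hy using hWB y hy
  have hAB' : ∀ i, ∀ x ∈ B, A i =ᶠ[𝓝 x] fun y => J y i := fun i x hx => by
    filter_upwards [hBo.mem_nhds hx] with y hy using hAB i y hy
  have hJd : ∀ x ∈ B, DifferentiableAt ℝ J x := fun x hx =>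
    (hJ.contDiffAt (hV.mem_nhds (hrV hx))).differentiableAt (by simp)
  have hW2 : ∀ x ∈ B, fderiv ℝ W x (ee 2) = A 2 x := fun x hx => by
    rw [(hWB' x hx).fderiv_eq, h2 x (hrV hx), hAB 2 x hx]
  have hAdiv : ∀ x ∈ B, fderiv ℝ (A 0) x (ee 0) + fderiv ℝ (A 1) x (ee 1)
      + fderiv ℝ (A 2) x (ee 2) = 0 := fun x hx => by
    rw [(hAB' 0 x hx).fderiv_eq, (hAB' 1 x hx).fderiv_eq, (hAB' 2 x hx).fderiv_eq,
      fderiv_coord_apply (hJd x hx), fderiv_coord_apply (hJd x hx),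
      fderiv_coord_apply (hJd x hx)]
    have := hdiv x (hrV hx)
    unfold dvg at this
    rwa [Fin.sum_univ_three] at this
  set t := x₀ 2 with ht
  set a := x₀ 0 with ha
  set PA1 := Pr 2 t (Pr 2 t (A 1)) with hPA1
  set PA0 := Pr 2 t (Pr 2 t (A 0)) with hPA0
  set G0 := Pr 0 a (Qr 2 t W) with hG0
  set G1 := Pr 0 a (Qr 2 t (A 2)) with hG1
  have cPA1 : ContDiff ℝ ∞ PA1 := contDiff_Pr _ _ (contDiff_Pr _ _ (hA 1))
  have cPA0 : ContDiff ℝ ∞ PA0 := contDiff_Pr _ _ (contDiff_Pr _ _ (hA 0))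
  have cG0 : ContDiff ℝ ∞ G0 := contDiff_Pr _ _ (contDiff_Qr _ _ hW)
  have cG1 : ContDiff ℝ ∞ G1 := contDiff_Pr _ _ (contDiff_Qr _ _ (hA 2))
  have dd : ∀ {f : E3 → ℝ}, ContDiff ℝ ∞ f → ∀ x, HasFDerivAt f (fderiv ℝ f x) x :=
    fun hf x => (hf.differentiable (by simp) x).hasFDerivAt
  have cZx : ContDiff ℝ ∞ (fun x => - PA1 x) := cPA1.neg
  have cZy : ContDiff ℝ ∞ (fun x : E3 => PA0 x - G0 x - (x 2 - t) * G1 x) :=
    (cPA0.sub cG0).sub (((contDiff_coord 2).sub contDiff_const).mul cG1)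
  refine ⟨fun x => - PA1 x, fun x => PA0 x - G0 x - (x 2 - t) * G1 x, cZx, cZy, ?_⟩
  -- first derivatives
  have dZx : ∀ x e, fderiv ℝ (fun x => - PA1 x) x e = - fderiv ℝ PA1 x e := fun x e => by
    have h : HasFDerivAt (fun x => - PA1 x) (-(fderiv ℝ PA1 x)) x := (dd cPA1 x).neg
    rw [h.fderiv]; rfl
  have dZy : ∀ x e, fderiv ℝ (fun x : E3 => PA0 x - G0 x - (x 2 - t) * G1 x) x e =
      fderiv ℝ PA0 x e - fderiv ℝ G0 x e - ((x 2 - t) * fderiv ℝ G1 x e + e 2 * G1 x) :=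
    fun x e => by
    have h : HasFDerivAt (fun x : E3 => PA0 x - G0 x - (x 2 - t) * G1 x) _ x :=
      ((dd cPA0 x).sub (dd cG0 x)).sub
        ((((hasFDerivAt_coord 2 x).sub_const t)).mul (dd cG1 x))
    rw [h.fderiv]
    simp only [sub_apply, add_apply, smul_apply, smul_eq_mul]
    have : (EuclideanSpace.proj (𝕜 := ℝ) 2 : E3 →L[ℝ] ℝ) e = e 2 := rfl
    rw [this]
    ring
  -- the `∂₂` derivatives
  have e22 : (ee 2 : E3) 2 = 1 := ee_self 2
  have e02 : (ee 0 : E3) 2 = 0 := ee_ne (by decide)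
  have d2Zx : (fun y => fderiv ℝ (fun x => - PA1 x) y (ee 2)) = fun y => - Pr 2 t (A 1) y :=
    funext fun y => by
      rw [dZx, hPA1, fderiv_Pr_self 2 t (contDiff_Pr _ _ (hA 1))]
  have d2Zy : (fun y => fderiv ℝ (fun x : E3 => PA0 x - G0 x - (x 2 - t) * G1 x) y (ee 2)) =
      fun y => Pr 2 t (A 0) y - G1 y :=
    funext fun y => by
      rw [dZy, hPA0, fderiv_Pr_self 2 t (contDiff_Pr _ _ (hA 0)), hG0,
        fderiv_Pr_Qr (by decide) a t hW, e22]
      have : fderiv ℝ G1 y (ee 2) = 0 := by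
        rw [hG1]; exact fderiv_Pr_Qr (by decide) a t (hA 2) y
      rw [this]
      ring
  have hPw : ∀ x ∈ B, w x = pw (fun x => - PA1 x) (fun x => PA0 x - G0 x - (x 2 - t) * G1 x) x := by
    intro x hx
    unfold pw
    rw [dZx, dZy, e02]
    -- `∂₁ PA1`, `∂₀ PA0`
    have i1 : fderiv ℝ PA1 x (ee 1) = Pr 2 t (Pr 2 t (fun y => fderiv ℝ (A 1) y (ee 1))) x := by
      rw [hPA1, fderiv_Pr_ne (by decide) t (contDiff_Pr _ _ (hA 1))]
      congr 1
      funext y
      exact fderiv_Pr_ne (by decide) t (hA 1) y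
    have i0 : fderiv ℝ PA0 x (ee 0) = Pr 2 t (Pr 2 t (fun y => fderiv ℝ (A 0) y (ee 0))) x := by
      rw [hPA0, fderiv_Pr_ne (by decide) t (contDiff_Pr _ _ (hA 0))]
      congr 1
      funext y
      exact fderiv_Pr_ne (by decide) t (hA 0) y
    have iG0 : fderiv ℝ G0 x (ee 0) = Qr 2 t W x := by
      rw [hG0, fderiv_Pr_self 0 a (contDiff_Qr _ _ hW)]
    have iG1 : fderiv ℝ G1 x (ee 0) = Qr 2 t (A 2) x := by
      rw [hG1, fderiv_Pr_self 0 a (contDiff_Qr _ _ (hA 2))]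
    rw [i1, i0, iG0, iG1]
    -- the double primitive of the divergence
    have c1 := contDiff_pd (hA 1) (ee 1)
    have c0 := contDiff_pd (hA 0) (ee 0)
    have c2 := contDiff_pd (hA 2) (ee 2)
    have k1 : ∀ y ∈ B, Pr 2 t (fun z => fderiv ℝ (A 1) z (ee 1)) y
        = - Pr 2 t (fun z => fderiv ℝ (A 0) z (ee 0)) y - (A 2 y - Qr 2 t (A 2) y) := by
      intro y hy
      have e1 := Pr_sub 2 t (f := fun z => -(fderiv ℝ (A 0) z (ee 0)))
        (g := fun z => fderiv ℝ (A 2) z (ee 2)) c0.continuous.neg c2.continuous y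
      rw [← Pr_fderiv 2 t (hA 2) y, ← Pr_neg, ← e1]
      refine Pr_congr (fun z hz => ?_) 2 hy
      have := hAdiv z hz
      linarith
    have k2 : Pr 2 t (Pr 2 t (fun z => fderiv ℝ (A 1) z (ee 1))) x
        = - Pr 2 t (Pr 2 t (fun z => fderiv ℝ (A 0) z (ee 0))) x
          - (Pr 2 t (A 2) x - (x 2 - t) * Qr 2 t (A 2) x) := by
      have e1 := Pr_sub 2 t (f := A 2) (g := Qr 2 t (A 2)) (hA 2).continuous
        (contDiff_Qr 2 t (hA 2)).continuous x
      have e2 := Pr_sub 2 t (f := fun y => -(Pr 2 t (fun z => fderiv ℝ (A 0) z (ee 0)) y))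
        (g := fun y => A 2 y - Qr 2 t (A 2) y) (contDiff_Pr 2 t c0).continuous.neg
        ((hA 2).continuous.sub (contDiff_Qr 2 t (hA 2)).continuous) x
      rw [← Pr_Qr 2 t (A 2) x, ← Pr_neg, ← e1, ← e2]
      exact Pr_congr k1 2 hx
    have k3 : Pr 2 t (A 2) x = W x - Qr 2 t W x := by
      rw [← Pr_fderiv 2 t hW x]
      exact Pr_congr (fun z hz => (hW2 z hz).symm) 2 hx
    rw [k2, k3, hWB x hx]
    ring
  intro x hx
  refine ⟨hPw x hx, ?_⟩
  unfold pJ
  rw [d2Zx, d2Zy]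
  have j0 : fderiv ℝ (fun y => Pr 2 t (A 0) y - G1 y) x (ee 2) = J x 0 := by
    have h : HasFDerivAt (fun y => Pr 2 t (A 0) y - G1 y) _ x :=
      (dd (contDiff_Pr 2 t (hA 0)) x).sub (dd cG1 x)
    rw [h.fderiv, sub_apply, fderiv_Pr_self 2 t (hA 0), hG1,
      fderiv_Pr_Qr (by decide) a t (hA 2), sub_zero, hAB 0 x hx]
  have j1 : fderiv ℝ (fun y => - Pr 2 t (A 1) y) x (ee 2) = - J x 1 := by
    have h : HasFDerivAt (fun y => - Pr 2 t (A 1) y) _ x := (dd (contDiff_Pr 2 t (hA 1)) x).neg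
    rw [h.fderiv, neg_apply, fderiv_Pr_self 2 t (hA 1), hAB 1 x hx]
  have j2 : fderiv ℝ (pw (fun x => - PA1 x) (fun x => PA0 x - G0 x - (x 2 - t) * G1 x)) x (ee 2)
      = J x 2 := by
    have he : pw (fun x => - PA1 x) (fun x => PA0 x - G0 x - (x 2 - t) * G1 x) =ᶠ[𝓝 x] w := by
      filter_upwards [hBo.mem_nhds hx] with y hy using (hPw y hy).symm
    rw [he.fderiv_eq, h2 x (hrV hx)]
  rw [j0, j1, j2, neg_neg]
  ext i
  fin_cases i
  · exact (pt_zero _ _ _).symm
  · exact (pt_one _ _ _).symm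
  · exact (pt_two _ _ _).symm


/-! ### the flux is a curl -/


/-- symmetry of second derivatives -/
theorem Pot.pd_comm {f : E3 → ℝ} (hf : ContDiff ℝ 2 f) (x e e' : E3) :
    fderiv ℝ (fun y => fderiv ℝ f y e) x e' = fderiv ℝ (fun y => fderiv ℝ f y e') x e := by
  have hd : DifferentiableAt ℝ (fderiv ℝ f) x :=
    (hf.fderiv_right (m := 1) (by norm_num)).differentiable one_ne_zero x
  have h1 : ∀ e, HasFDerivAt (fun y => fderiv ℝ f y e) ((fderiv ℝ (fderiv ℝ f) x).flip e) x :=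
    fun e => by
      have := hd.hasFDerivAt.clm_apply (hasFDerivAt_const e x)
      refine this.congr_fderiv ?_
      ext v
      simp
  rw [(h1 e).fderiv, (h1 e').fderiv]
  have hs : IsSymmSndFDerivAt ℝ f x := hf.contDiffAt.isSymmSndFDerivAt (by simp)
  exact hs.eq e' e



/-! ### smoothness, divergence -/





end Crest.Agent.R083
end

-- ▼ part R083/Flatten

/-!
Row 83 (S0111), ISO group, part (F): flattening of smooth fields.
-/

set_option autoImplicit false

namespace Crest.Agent.R083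

open MeasureTheory Set Filter
open scoped Gradient ENNReal NNReal Topology ContDiff

namespace Flat

theorem two_le_infty : (2 : WithTop ℕ∞) ≤ ((⊤ : ℕ∞) : WithTop ℕ∞) := by
  have : ((2 : ℕ) : WithTop ℕ∞) ≤ ((⊤ : ℕ∞) : WithTop ℕ∞) := WithTop.coe_le_coe.2 le_top
  exact this

theorem pd_contDiff (i : Fin 3) {f : E3 → ℝ} (hf : ContDiff ℝ ∞ f) : ContDiff ℝ ∞ (pd i f) := by
  have h : ContDiff ℝ ∞ (fderiv ℝ f) := hf.fderiv_right (by simp)
  exact h.clm_apply contDiff_const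

theorem smooth_diff {f : E3 → ℝ} (hf : ContDiff ℝ ∞ f) : Differentiable ℝ f :=
  hf.differentiable (by simp)

theorem fderiv_pd (i : Fin 3) {f : E3 → ℝ} (hf : ContDiff ℝ ∞ f) (x y : E3) :
    fderiv ℝ (pd i f) x y = fderiv ℝ (fderiv ℝ f) x y (ee i) := by
  have h : ContDiff ℝ ∞ (fderiv ℝ f) := hf.fderiv_right (by simp)
  have h1 : HasFDerivAt (fderiv ℝ f) (fderiv ℝ (fderiv ℝ f) x) x :=
    (h.differentiable (by simp) x).hasFDerivAt
  have h2 := h1.clm_apply (hasFDerivAt_const (ee i) x)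
  have h3 : fderiv ℝ (pd i f) x = _ := h2.fderiv
  rw [h3]
  simp

theorem pd_comm (i j : Fin 3) {f : E3 → ℝ} (hf : ContDiff ℝ ∞ f) :
    pd i (pd j f) = pd j (pd i f) := by
  funext x
  have h := (hf.contDiffAt (x := x)).isSymmSndFDerivAt (by
    rw [minSmoothness_of_isRCLikeNormedField]
    exact two_le_infty)
  rw [pd, pd, fderiv_pd j hf, fderiv_pd i hf]
  exact h _ _

theorem norm_ee (i : Fin 3) : ‖ee i‖ = 1 := by simp [ee]


theorem sum_ee (y : E3) : y = ∑ i : Fin 3, y i • ee i := by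
  ext j
  simp [ee, Pi.single_apply]

theorem fderiv_eq_sum (f : E3 → ℝ) (x y : E3) : fderiv ℝ f x y = ∑ i, y i * pd i f x := by
  conv_lhs => rw [sum_ee y]
  rw [map_sum]
  exact Finset.sum_congr rfl fun i _ => by rw [map_smul, smul_eq_mul, pd]

theorem norm_fderiv_le_sum (f : E3 → ℝ) (x : E3) : ‖fderiv ℝ f x‖ ≤ ∑ i, |pd i f x| := by
  refine ContinuousLinearMap.opNorm_le_bound _ (Finset.sum_nonneg fun i _ => abs_nonneg _)
    fun y => ?_
  rw [fderiv_eq_sum, Finset.sum_mul]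
  refine (norm_sum_le _ _).trans (Finset.sum_le_sum fun i _ => ?_)
  rw [norm_mul, mul_comm]
  exact mul_le_mul_of_nonneg_left (PiLp.norm_apply_le y i) (abs_nonneg _)

theorem norm_gradient (f : E3 → ℝ) (x : E3) : ‖∇ f x‖ = ‖fderiv ℝ f x‖ := by
  rw [gradient, LinearIsometryEquiv.norm_map]

theorem pd_add (i : Fin 3) {f g : E3 → ℝ} (hf : Differentiable ℝ f) (hg : Differentiable ℝ g) :
    pd i (fun x => f x + g x) = fun x => pd i f x + pd i g x := by
  funext x
  rw [pd, fderiv_fun_add (hf x) (hg x)]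
  rfl

theorem pd_sub (i : Fin 3) {f g : E3 → ℝ} (hf : Differentiable ℝ f) (hg : Differentiable ℝ g) :
    pd i (fun x => f x - g x) = fun x => pd i f x - pd i g x := by
  funext x
  rw [pd, fderiv_fun_sub (hf x) (hg x)]
  rfl

theorem pd_mul (i : Fin 3) {f g : E3 → ℝ} (hf : Differentiable ℝ f) (hg : Differentiable ℝ g) :
    pd i (fun x => f x * g x) = fun x => f x * pd i g x + g x * pd i f x := by
  funext x
  rw [pd, fderiv_fun_mul (hf x) (hg x)]
  simp [pd]

theorem pd_congr (i : Fin 3) {f g : E3 → ℝ} {x : E3} (h : f =ᶠ[𝓝 x] g) :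
    pd i f =ᶠ[𝓝 x] pd i g := by
  have := h.fderiv (𝕜 := ℝ)
  filter_upwards [this] with y hy
  rw [pd, pd, hy]

theorem pd_zero (i : Fin 3) : pd i (0 : E3 → ℝ) = 0 := by
  funext x
  simp [pd]

theorem pd_neg (i : Fin 3) (f : E3 → ℝ) : pd i (fun x => - f x) = fun x => - pd i f x := by
  funext x
  simp [pd]

theorem pd_scale {f : E3 → ℝ} (hf : Differentiable ℝ f) (i : Fin 3) (x₀ : E3) (r : ℝ) :
    pd i (fun x => f (r⁻¹ • (x - x₀))) = fun x => r⁻¹ * pd i f (r⁻¹ • (x - x₀)) := by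
  funext x
  have h1 : HasFDerivAt (fun x : E3 => r⁻¹ • (x - x₀)) (r⁻¹ • ContinuousLinearMap.id ℝ E3) x :=
    ((hasFDerivAt_id x).sub_const x₀).const_smul r⁻¹
  have h2 := (hf (r⁻¹ • (x - x₀))).hasFDerivAt.comp x h1
  have h3 : fderiv ℝ (fun x => f (r⁻¹ • (x - x₀))) x = _ := h2.fderiv
  rw [pd, h3]
  simp [pd]

theorem exists_bump : ∃ b : E3 → ℝ, ContDiff ℝ ∞ b ∧ HasCompactSupport b ∧
    (∀ x, ‖x‖ ≤ 1 / 2 → b x = 1) ∧ (∀ x, 3 / 4 ≤ ‖x‖ → b x = 0) ∧ ∀ x, |b x| ≤ 1 := by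
  let b : ContDiffBump (0 : E3) := ⟨1 / 2, 3 / 4, by norm_num, by norm_num⟩
  refine ⟨b, b.contDiff, b.hasCompactSupport, fun x hx => ?_, fun x hx => ?_, fun x => ?_⟩
  · exact b.one_of_mem_closedBall (by rwa [mem_closedBall_zero_iff])
  · exact b.zero_of_le_dist (by rwa [dist_zero_right])
  · rw [abs_of_nonneg b.nonneg]
    exact b.le_one

theorem bound_real (g : E3 → ℝ) (hg : Continuous g) (h0 : ∀ x, 1 < ‖x‖ → g x = 0) :
    ∃ C : ℝ, 0 < C ∧ ∀ x, |g x| ≤ C := by
  obtain ⟨C, hC⟩ := (isCompact_closedBall (0 : E3) 1).bddAbove_image (f := fun x => |g x|)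
    hg.abs.continuousOn
  refine ⟨max C 1, by positivity, fun x => ?_⟩
  by_cases hx : ‖x‖ ≤ 1
  · exact (hC ⟨x, by rwa [mem_closedBall_zero_iff], rfl⟩).trans (le_max_left _ _)
  · rw [h0 x (not_le.1 hx), abs_zero]; exact le_trans zero_le_one (le_max_right _ _)

theorem bound_two (b : E3 → ℝ) (hb : ContDiff ℝ ∞ b) (h0 : ∀ x, 3 / 4 ≤ ‖x‖ → b x = 0) :
    ∃ C : ℝ, 0 < C ∧ ∀ x i j, |pd i b x| ≤ C ∧ |pd j (pd i b) x| ≤ C := by
  have ev : ∀ x : E3, 1 < ‖x‖ → b =ᶠ[𝓝 x] 0 := by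
    intro x hx
    filter_upwards [continuous_norm.continuousAt.eventually (lt_mem_nhds hx)] with y hy
    exact h0 y (by linarith)
  have ev1 : ∀ (x : E3) (i), 1 < ‖x‖ → pd i b =ᶠ[𝓝 x] 0 := by
    intro x i hx
    have := pd_congr i (ev x hx)
    rwa [pd_zero] at this
  have ev2 : ∀ (x : E3) (i j), 1 < ‖x‖ → pd j (pd i b) =ᶠ[𝓝 x] 0 := by
    intro x i j hx
    have := pd_congr j (ev1 x i hx)
    rwa [pd_zero] at this
  obtain ⟨C, hC0, hC⟩ := bound_real (fun x => ∑ i, |pd i b x| + ∑ i, ∑ j, |pd j (pd i b) x|)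
    (by
      refine Continuous.add (continuous_finsetSum _ fun i _ => (pd_contDiff i hb).continuous.abs)
        (continuous_finsetSum _ fun i _ => continuous_finsetSum _ fun j _ =>
          (pd_contDiff j (pd_contDiff i hb)).continuous.abs))
    (by
      intro x hx
      have h1 : ∀ i, pd i b x = 0 := fun i => (ev1 x i hx).eq_of_nhds
      have h2 : ∀ i j, pd j (pd i b) x = 0 := fun i j => (ev2 x i j hx).eq_of_nhds
      simp [h1, h2])
  refine ⟨C, hC0, fun x i j => ?_⟩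
  have h := hC x
  have p1 : 0 ≤ ∑ i, |pd i b x| := Finset.sum_nonneg fun _ _ => abs_nonneg _
  have p2 : 0 ≤ ∑ i, ∑ j, |pd j (pd i b) x| :=
    Finset.sum_nonneg fun _ _ => Finset.sum_nonneg fun _ _ => abs_nonneg _
  rw [abs_of_nonneg (add_nonneg p1 p2)] at h
  have q1 : |pd i b x| ≤ ∑ i, |pd i b x| :=
    Finset.single_le_sum (f := fun i => |pd i b x|) (fun _ _ => abs_nonneg _) (Finset.mem_univ i)
  have q2 : |pd j (pd i b) x| ≤ ∑ j, |pd j (pd i b) x| :=
    Finset.single_le_sum (f := fun j => |pd j (pd i b) x|) (fun _ _ => abs_nonneg _)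
      (Finset.mem_univ j)
  have q3 : ∑ j, |pd j (pd i b) x| ≤ ∑ i, ∑ j, |pd j (pd i b) x| :=
    Finset.single_le_sum (f := fun i => ∑ j, |pd j (pd i b) x|)
      (fun _ _ => Finset.sum_nonneg fun _ _ => abs_nonneg _) (Finset.mem_univ i)
  constructor <;> linarith

/-- cutoff at scale `r` -/
theorem exists_cutoff : ∃ C : ℝ, 0 < C ∧ ∀ (x₀ : E3) (r : ℝ), 0 < r →
    ∃ θ : E3 → ℝ, ContDiff ℝ ∞ θ ∧ (∀ x ∈ Metric.ball x₀ (r / 2), θ x = 1) ∧
      (∀ x, x ∉ Metric.closedBall x₀ (3 * r / 4) → θ x = 0) ∧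
      (∀ x, |θ x| ≤ 1) ∧ (∀ x i, |pd i θ x| ≤ C / r) ∧
      (∀ x i j, |pd j (pd i θ) x| ≤ C / r ^ 2) := by
  obtain ⟨b, hb, hs, hone, hzero, hle⟩ := exists_bump
  obtain ⟨C, hC0, hC⟩ := bound_two b hb hzero
  refine ⟨C, hC0, fun x₀ r hr => ?_⟩
  have hsub : ContDiff ℝ ∞ (fun x : E3 => r⁻¹ • (x - x₀)) :=
    (contDiff_id.sub contDiff_const).const_smul r⁻¹
  have e1 : ∀ i, pd i (fun x => b (r⁻¹ • (x - x₀))) = fun x => r⁻¹ * pd i b (r⁻¹ • (x - x₀)) :=
    fun i => pd_scale (smooth_diff hb) i x₀ r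
  have e2 : ∀ i j, pd j (pd i (fun x => b (r⁻¹ • (x - x₀)))) =
      fun x => r⁻¹ * (r⁻¹ * pd j (pd i b) (r⁻¹ • (x - x₀))) := by
    intro i j
    have h := pd_mul (f := fun _ => r⁻¹) (g := fun x => pd i b (r⁻¹ • (x - x₀))) j
      (differentiable_const _) (smooth_diff ((pd_contDiff i hb).comp hsub))
    rw [e1, h, pd_scale (smooth_diff (pd_contDiff i hb))]
    funext x
    simp [pd]
  refine ⟨fun x => b (r⁻¹ • (x - x₀)), hb.comp hsub, ?_, ?_, fun x => hle _, ?_, ?_⟩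
  · intro x hx
    refine hone _ ?_
    rw [Metric.mem_ball, dist_eq_norm] at hx
    rw [norm_smul, norm_inv, Real.norm_of_nonneg hr.le, inv_mul_le_iff₀ hr]
    linarith
  · intro x hx
    refine hzero _ ?_
    rw [Metric.mem_closedBall, dist_eq_norm, not_le] at hx
    rw [norm_smul, norm_inv, Real.norm_of_nonneg hr.le, le_inv_mul_iff₀ hr]
    linarith
  · intro x i
    rw [e1]
    simp only
    rw [abs_mul, abs_of_nonneg (inv_nonneg.2 hr.le), inv_mul_eq_div]
    gcongr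
    exact (hC _ i 0).1
  · intro x i j
    rw [e2]
    simp only
    rw [abs_mul, abs_mul, abs_of_nonneg (inv_nonneg.2 hr.le), ← mul_assoc, ← mul_inv,
      inv_mul_eq_div, ← sq]
    gcongr
    exact (hC _ i j).2



theorem coord_contDiff (i : Fin 3) (x₀ : E3) : ContDiff ℝ ∞ (fun x : E3 => x i - x₀ i) :=
  ((EuclideanSpace.proj i : E3 →L[ℝ] ℝ).contDiff).sub contDiff_const




/-- The quadratic Taylor polynomial. -/
noncomputable def quad (c : ℝ) (a : Fin 3 → ℝ) (B : Fin 3 → Fin 3 → ℝ) (x₀ x : E3) : ℝ :=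
  c + ∑ i, a i * (x i - x₀ i) + ∑ i, ∑ j, B i j / 2 * ((x i - x₀ i) * (x j - x₀ j))

theorem quad_contDiff (c : ℝ) (a : Fin 3 → ℝ) (B : Fin 3 → Fin 3 → ℝ) (x₀ : E3) :
    ContDiff ℝ ∞ (quad c a B x₀) := by
  unfold quad
  refine (contDiff_const.add (ContDiff.sum fun i _ => contDiff_const.mul (coord_contDiff i x₀))).add
    (ContDiff.sum fun i _ => ContDiff.sum fun j _ => contDiff_const.mul
      ((coord_contDiff i x₀).mul (coord_contDiff j x₀)))

theorem quad_hasFDerivAt (c : ℝ) (a : Fin 3 → ℝ) (B : Fin 3 → Fin 3 → ℝ) (x₀ x : E3) :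
    HasFDerivAt (quad c a B x₀) (∑ i, a i • (EuclideanSpace.proj i : E3 →L[ℝ] ℝ) +
      ∑ i, ∑ j, (B i j / 2) • ((x i - x₀ i) • (EuclideanSpace.proj j : E3 →L[ℝ] ℝ) +
        (x j - x₀ j) • (EuclideanSpace.proj i : E3 →L[ℝ] ℝ))) x := by
  have h : ∀ i, HasFDerivAt (fun x : E3 => x i - x₀ i) (EuclideanSpace.proj i : E3 →L[ℝ] ℝ) x :=
    fun i => ((EuclideanSpace.proj i : E3 →L[ℝ] ℝ).hasFDerivAt).sub_const _
  unfold quad
  refine HasFDerivAt.fun_add ?_ ?_
  · refine HasFDerivAt.const_add _ ?_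
    exact HasFDerivAt.fun_sum fun i _ => (h i).const_mul (a i)
  · exact HasFDerivAt.fun_sum fun i _ => HasFDerivAt.fun_sum fun j _ =>
      ((h i).mul (h j)).const_mul (B i j / 2)

theorem pd_quad (k : Fin 3) (c : ℝ) (a : Fin 3 → ℝ) (B : Fin 3 → Fin 3 → ℝ)
    (hB : ∀ i j, B i j = B j i) (x₀ : E3) :
    pd k (quad c a B x₀) = fun x => a k + ∑ j, B k j * (x j - x₀ j) := by
  funext x
  rw [pd, (quad_hasFDerivAt c a B x₀ x).fderiv]
  have hp : ∀ i, (EuclideanSpace.proj i : E3 →L[ℝ] ℝ) (ee k) = if i = k then 1 else 0 := by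
    intro i
    simp [ee]
  simp only [add_apply, Fin.sum_univ_three, FunLike.coe_smul, Pi.smul_apply, hp, smul_eq_mul]
  have e1 := hB 0 1
  have e2 := hB 0 2
  have e3 := hB 1 2
  fin_cases k <;> simp <;> simp only [e1, e2, e3] <;> ring

theorem pd_pd_quad (k l : Fin 3) (c : ℝ) (a : Fin 3 → ℝ) (B : Fin 3 → Fin 3 → ℝ)
    (hB : ∀ i j, B i j = B j i) (x₀ : E3) :
    pd l (pd k (quad c a B x₀)) = fun _ => B k l := by
  funext x
  have h : HasFDerivAt (fun x : E3 => a k + ∑ j, B k j * (x j - x₀ j))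
      (∑ j, B k j • (EuclideanSpace.proj j : E3 →L[ℝ] ℝ)) x := by
    refine HasFDerivAt.const_add _ ?_
    exact HasFDerivAt.fun_sum fun i _ =>
      (((EuclideanSpace.proj i : E3 →L[ℝ] ℝ).hasFDerivAt).sub_const _).const_mul (B k i)
  rw [pd_quad k c a B hB x₀, pd, h.fderiv]
  simp [ee]


/-- mean value bound on a ball from the partial derivatives -/
theorem mvt_ball {f : E3 → ℝ} (hf : Differentiable ℝ f) (x₀ x : E3) (K : ℝ)
    (h0 : f x₀ = 0) (h : ∀ y ∈ Metric.closedBall x₀ ‖x - x₀‖, ∀ i, |pd i f y| ≤ K) :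
    |f x| ≤ 3 * K * ‖x - x₀‖ := by
  have hx : x ∈ Metric.closedBall x₀ ‖x - x₀‖ := by
    rw [Metric.mem_closedBall, dist_eq_norm]
  have hx0 : x₀ ∈ Metric.closedBall x₀ ‖x - x₀‖ := Metric.mem_closedBall_self (norm_nonneg _)
  have h1 := (convex_closedBall x₀ ‖x - x₀‖).norm_image_sub_le_of_norm_fderiv_le (𝕜 := ℝ)
    (f := f) (C := 3 * K) (fun y _ => hf y) (fun y hy => by
      refine (norm_fderiv_le_sum f y).trans ?_
      rw [Fin.sum_univ_three]
      have a0 := h y hy 0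
      have a1 := h y hy 1
      have a2 := h y hy 2
      linarith) hx0 hx
  rw [h0, sub_zero] at h1
  exact h1

theorem exists_rem {Z : E3 → ℝ} (hZ : ContDiff ℝ ∞ Z) (x₀ : E3) (ε : ℝ) (hε : 0 < ε) :
    ∃ q : E3 → ℝ, ContDiff ℝ ∞ q ∧
      (∀ i j x, pd j (pd i q) x = pd j (pd i Z) x₀) ∧
      (∀ i x, pd i q x = pd i Z x₀ + ∑ j, pd j (pd i Z) x₀ * (x j - x₀ j)) ∧
      ∃ r₀ : ℝ, 0 < r₀ ∧ ∀ x ∈ Metric.ball x₀ r₀,
        |Z x - q x| ≤ ε * ‖x - x₀‖ ^ 2 ∧
        (∀ i, |pd i (fun y => Z y - q y) x| ≤ ε * ‖x - x₀‖) ∧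
        (∀ i j, |pd j (pd i (fun y => Z y - q y)) x| ≤ ε) := by
  set B : Fin 3 → Fin 3 → ℝ := fun i j => pd j (pd i Z) x₀ with hB
  have hBs : ∀ i j, B i j = B j i := by
    intro i j
    simp only [hB]
    rw [pd_comm j i hZ]
  set q := quad (Z x₀) (fun i => pd i Z x₀) B x₀ with hq
  have hqs : ContDiff ℝ ∞ q := quad_contDiff _ _ _ _
  have hg : ContDiff ℝ ∞ (fun y => Z y - q y) := hZ.sub hqs
  have e1 : ∀ i, pd i (fun y => Z y - q y) = fun x => pd i Z x - pd i q x :=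
    fun i => pd_sub i (smooth_diff hZ) (smooth_diff hqs)
  have e2 : ∀ i j, pd j (pd i (fun y => Z y - q y)) = fun x => pd j (pd i Z) x - B i j := by
    intro i j
    rw [e1, pd_sub j (smooth_diff (pd_contDiff i hZ)) (smooth_diff (pd_contDiff i hqs)),
      hq, pd_pd_quad i j _ _ _ hBs]
  have ev : ∀ᶠ x in 𝓝 x₀, ∀ i j, |pd j (pd i (fun y => Z y - q y)) x| < ε / 9 := by
    refine eventually_all.2 fun i => eventually_all.2 fun j => ?_
    have hc : Continuous (fun x => |pd j (pd i (fun y => Z y - q y)) x|) :=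
      (pd_contDiff j (pd_contDiff i hg)).continuous.abs
    have h0 : |pd j (pd i (fun y => Z y - q y)) x₀| < ε / 9 := by
      rw [e2]
      simp only [hB, sub_self, abs_zero]
      positivity
    exact hc.continuousAt.eventually (gt_mem_nhds h0)
  obtain ⟨r₀, hr₀, hball⟩ := Metric.eventually_nhds_iff_ball.1 ev
  refine ⟨q, hqs, ?_, ?_, r₀, hr₀, ?_⟩
  · intro i j x
    rw [hq, pd_pd_quad i j _ _ _ hBs]
  · intro i x
    rw [hq, pd_quad i _ _ _ hBs]
  · have z1 : ∀ i, pd i (fun y => Z y - q y) x₀ = 0 := by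
      intro i
      rw [e1, hq, pd_quad i _ _ _ hBs]
      simp
    have z0 : Z x₀ - q x₀ = 0 := by
      rw [hq, quad]
      simp
    have b1 : ∀ x ∈ Metric.ball x₀ r₀, ∀ i, |pd i (fun y => Z y - q y) x| ≤ ε / 3 * ‖x - x₀‖ := by
      intro x hx i
      have := mvt_ball (smooth_diff (pd_contDiff i hg)) x₀ x (ε / 9) (z1 i) (by
        intro y hy j
        refine (hball y ?_ i j).le
        rw [Metric.mem_closedBall] at hy
        rw [Metric.mem_ball, dist_eq_norm] at hx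
        exact Metric.mem_ball.2 (lt_of_le_of_lt hy hx))
      refine this.trans (le_of_eq ?_)
      ring
    intro x hx
    refine ⟨?_, fun i => ?_, fun i j => ?_⟩
    · have h := mvt_ball (smooth_diff hg) x₀ x (ε / 3 * ‖x - x₀‖) z0 (by
        intro y hy j
        rw [Metric.mem_closedBall] at hy
        rw [Metric.mem_ball, dist_eq_norm] at hx
        refine (b1 y (Metric.mem_ball.2 (lt_of_le_of_lt hy hx)) j).trans ?_
        rw [dist_eq_norm] at hy
        gcongr)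
      refine h.trans (le_of_eq ?_)
      ring
    · refine (b1 x hx i).trans ?_
      have := norm_nonneg (x - x₀)
      nlinarith
    · refine (hball x hx i j).le.trans ?_
      linarith

/-- scalar flattening -/
theorem flat_scalar {Z : E3 → ℝ} (hZ : ContDiff ℝ ∞ Z) (x₀ : E3) (η : ℝ) (hη : 0 < η) :
    ∃ r₀ : ℝ, 0 < r₀ ∧ ∀ r, 0 < r → r < r₀ → ∃ ζ : E3 → ℝ, ContDiff ℝ ∞ ζ ∧
      (∀ x, x ∉ Metric.closedBall x₀ (3 * r / 4) → ζ x = 0) ∧
      (∀ x ∈ Metric.ball x₀ (r / 2), ∀ i j,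
        pd j (pd i Z) x + pd j (pd i ζ) x = pd j (pd i Z) x₀) ∧
      (∀ x ∈ Metric.ball x₀ (r / 2), ∀ i,
        pd i Z x + pd i ζ x = pd i Z x₀ + ∑ j, pd j (pd i Z) x₀ * (x j - x₀ j)) ∧
      (∀ x i, |pd i ζ x| ≤ η * r) ∧ (∀ x i j, |pd j (pd i ζ) x| ≤ η) := by
  obtain ⟨C, hC0, hC⟩ := exists_cutoff
  set ε := η / (1 + 3 * C) with hε
  have hε0 : 0 < ε := by positivity
  obtain ⟨q, hq, hqq, hq1, r₀, hr₀, hb⟩ := exists_rem hZ x₀ ε hε0
  refine ⟨r₀, hr₀, fun r hr hr' => ?_⟩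
  obtain ⟨θ, hθ, hθ1, hθ0, hθb, hθd, hθdd⟩ := hC x₀ r hr
  have hg : ContDiff ℝ ∞ (fun y => Z y - q y) := hZ.sub hq
  set g := fun y => Z y - q y with hgdef
  have hεη : ε * (1 + 3 * C) = η := by
    rw [hε]; field_simp
  have hεη' : ε ≤ η := by nlinarith
  have d1 : ∀ i, pd i (fun x => θ x * g x) = fun x => θ x * pd i g x + g x * pd i θ x :=
    fun i => pd_mul i (smooth_diff hθ) (smooth_diff hg)
  have d2 : ∀ i j, pd j (pd i (fun x => θ x * g x)) =
      fun x => (θ x * pd j (pd i g) x + pd i g x * pd j θ x) +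
        (g x * pd j (pd i θ) x + pd i θ x * pd j g x) := by
    intro i j
    have s1 : Differentiable ℝ (fun x => θ x * pd i g x) :=
      (smooth_diff hθ).mul (smooth_diff (pd_contDiff i hg))
    have s2 : Differentiable ℝ (fun x => g x * pd i θ x) :=
      (smooth_diff hg).mul (smooth_diff (pd_contDiff i hθ))
    rw [d1, pd_add j s1 s2, pd_mul j (smooth_diff hθ) (smooth_diff (pd_contDiff i hg)),
      pd_mul j (smooth_diff hg) (smooth_diff (pd_contDiff i hθ))]
  have hζ : ContDiff ℝ ∞ (fun x => -(θ x * g x)) := (hθ.mul hg).neg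
  have n1 : ∀ i, pd i (fun x => -(θ x * g x)) = fun x => -(pd i (fun x => θ x * g x) x) :=
    fun i => pd_neg i _
  have n2 : ∀ i j, pd j (pd i (fun x => -(θ x * g x))) =
      fun x => -(pd j (pd i (fun x => θ x * g x)) x) := by
    intro i j
    rw [n1, pd_neg]
  have hout : ∀ x, x ∉ Metric.closedBall x₀ (3 * r / 4) → (fun x => -(θ x * g x)) =ᶠ[𝓝 x] 0 := by
    intro x hx
    filter_upwards [Metric.isClosed_closedBall.isOpen_compl.mem_nhds hx] with y hy
    have : θ y = 0 := hθ0 y hy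
    simp [this]
  have hin : ∀ x, x ∈ Metric.closedBall x₀ (3 * r / 4) → ‖x - x₀‖ ≤ r ∧ x ∈ Metric.ball x₀ r₀ := by
    intro x hx
    rw [Metric.mem_closedBall, dist_eq_norm] at hx
    refine ⟨by linarith, ?_⟩
    rw [Metric.mem_ball, dist_eq_norm]
    linarith
  have bnd : ∀ x, x ∈ Metric.closedBall x₀ (3 * r / 4) → |g x| ≤ ε * r ^ 2 ∧
      (∀ i, |pd i g x| ≤ ε * r) ∧ (∀ i j, |pd j (pd i g) x| ≤ ε) := by
    intro x hx
    obtain ⟨h1, h2⟩ := hin x hx
    obtain ⟨k1, k2, k3⟩ := hb x h2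
    refine ⟨k1.trans ?_, fun i => (k2 i).trans ?_, k3⟩
    · gcongr
    · gcongr
  refine ⟨fun x => -(θ x * g x), hζ, ?_, ?_, ?_, ?_, ?_⟩
  · intro x hx
    exact (hout x hx).eq_of_nhds
  · intro x hx i j
    have heq : (fun x => -(θ x * g x)) =ᶠ[𝓝 x] fun x => -(g x) := by
      filter_upwards [Metric.isOpen_ball.mem_nhds hx] with y hy
      rw [hθ1 y hy, one_mul]
    have h1 := (pd_congr j (pd_congr i heq)).eq_of_nhds
    rw [h1]
    have h2 : pd j (pd i (fun x => -(g x))) x = -(pd j (pd i g) x) := by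
      have : pd i (fun x => -(g x)) = fun x => -(pd i g x) := pd_neg i g
      rw [this, pd_neg]
    rw [h2]
    have h3 : pd j (pd i g) x = pd j (pd i Z) x - pd j (pd i q) x := by
      have : pd i g = fun x => pd i Z x - pd i q x := pd_sub i (smooth_diff hZ) (smooth_diff hq)
      rw [this, pd_sub j (smooth_diff (pd_contDiff i hZ)) (smooth_diff (pd_contDiff i hq))]
    rw [h3, hqq i j x]
    ring
  · intro x hx i
    have heq : (fun x => -(θ x * g x)) =ᶠ[𝓝 x] fun x => -(g x) := by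
      filter_upwards [Metric.isOpen_ball.mem_nhds hx] with y hy
      rw [hθ1 y hy, one_mul]
    have h1 := (pd_congr i heq).eq_of_nhds
    rw [h1]
    have h2 : pd i (fun x => -(g x)) x = -(pd i g x) := congrFun (pd_neg i g) x
    rw [h2]
    have h3 : pd i g x = pd i Z x - pd i q x :=
      congrFun (pd_sub i (smooth_diff hZ) (smooth_diff hq)) x
    rw [h3, hq1 i x]
    ring
  · intro x i
    by_cases hx : x ∈ Metric.closedBall x₀ (3 * r / 4)
    · obtain ⟨k1, k2, k3⟩ := bnd x hx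
      rw [n1, d1]
      simp only
      rw [abs_neg]
      calc |θ x * pd i g x + g x * pd i θ x| ≤ |θ x * pd i g x| + |g x * pd i θ x| := abs_add_le _ _
        _ ≤ 1 * (ε * r) + (ε * r ^ 2) * (C / r) := by
          rw [abs_mul, abs_mul]
          gcongr
          · exact hθb x
          · exact k2 i
          · exact hθd x i
        _ = ε * (1 + C) * r := by field_simp
        _ ≤ η * r := by
          gcongr
          nlinarith
    · have h := (pd_congr i (hout x hx)).eq_of_nhds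
      rw [h, pd_zero]
      simp only [Pi.zero_apply, abs_zero]
      positivity
  · intro x i j
    by_cases hx : x ∈ Metric.closedBall x₀ (3 * r / 4)
    · obtain ⟨k1, k2, k3⟩ := bnd x hx
      rw [n2, d2]
      simp only
      rw [abs_neg]
      calc |θ x * pd j (pd i g) x + pd i g x * pd j θ x +
            (g x * pd j (pd i θ) x + pd i θ x * pd j g x)|
          ≤ |θ x * pd j (pd i g) x| + |pd i g x * pd j θ x| +
            (|g x * pd j (pd i θ) x| + |pd i θ x * pd j g x|) :=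
            (abs_add_le _ _).trans (add_le_add (abs_add_le _ _) (abs_add_le _ _))
        _ ≤ 1 * ε + (ε * r) * (C / r) + ((ε * r ^ 2) * (C / r ^ 2) + (C / r) * (ε * r)) := by
          rw [abs_mul, abs_mul, abs_mul, abs_mul]
          gcongr
          · exact hθb x
          · exact k3 i j
          · exact k2 i
          · exact hθd x j
          · exact hθdd x i j
          · exact hθd x i
          · exact k2 j
        _ = ε * (1 + 3 * C) := by field_simp; ring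
        _ = η := hεη
        _ ≤ η := le_rfl
    · have h := (pd_congr j (pd_congr i (hout x hx))).eq_of_nhds
      rw [h, pd_zero, pd_zero]
      simp only [Pi.zero_apply, abs_zero]
      positivity





theorem pt_contDiff {a b c : E3 → ℝ} (ha : ContDiff ℝ ∞ a) (hb : ContDiff ℝ ∞ b)
    (hc : ContDiff ℝ ∞ c) : ContDiff ℝ ∞ (fun x => pt (a x) (b x) (c x)) := by
  rw [contDiff_euclidean]
  intro i
  fin_cases i
  · exact ha
  · exact hb
  · exact hc

theorem fderiv_apply_coord {Ξ : E3 → E3} {x : E3} (h : DifferentiableAt ℝ Ξ x) (y : E3)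
    (j : Fin 3) : (fderiv ℝ Ξ x y) j = fderiv ℝ (fun z => Ξ z j) x y := by
  have h1 : HasFDerivAt (fun z => Ξ z j)
      ((EuclideanSpace.proj j : E3 →L[ℝ] ℝ).comp (fderiv ℝ Ξ x)) x :=
    (EuclideanSpace.proj j : E3 →L[ℝ] ℝ).hasFDerivAt.comp x h.hasFDerivAt
  rw [h1.fderiv]
  rfl

theorem norm_pt_le (a b c : ℝ) : ‖pt a b c‖ ≤ |a| + |b| + |c| := by
  have h : pt a b c = a • ee 0 + b • ee 1 + c • ee 2 := by
    rw [sum_ee (pt a b c), Fin.sum_univ_three]
    rfl
  rw [h]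
  refine (norm_add_le _ _).trans (add_le_add ((norm_add_le _ _).trans ?_) ?_)
  · rw [norm_smul, norm_smul, norm_ee, norm_ee, mul_one, mul_one]
    exact le_rfl
  · rw [norm_smul, norm_ee, mul_one]
    exact le_rfl

theorem dvg_eq {T : E3 → E3} (hT : Differentiable ℝ T) (x : E3) :
    dvg T x = ∑ i, pd i (fun z => T z i) x := by
  rw [dvg]
  exact Finset.sum_congr rfl fun i _ => fderiv_apply_coord (hT x) _ _

/-- The perturbation fields generated by two compactly supported potentials. -/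
theorem pert_fields (ζx ζy : E3 → ℝ) (hx : ContDiff ℝ ∞ ζx) (hy : ContDiff ℝ ∞ ζy) (x₀ : E3)
    (s : ℝ) (h0x : ∀ x, x ∉ Metric.closedBall x₀ s → ζx x = 0)
    (h0y : ∀ x, x ∉ Metric.closedBall x₀ s → ζy x = 0) (a b : ℝ)
    (bx1 : ∀ x i, |pd i ζx x| ≤ a) (by1 : ∀ x i, |pd i ζy x| ≤ a)
    (bx2 : ∀ x i j, |pd j (pd i ζx) x| ≤ b) (by2 : ∀ x i j, |pd j (pd i ζy) x| ≤ b) :
    ∃ (v : E3 → ℝ) (T : E3 → E3), ContDiff ℝ ∞ v ∧ ContDiff ℝ ∞ T ∧
      (∀ x, x ∉ Metric.closedBall x₀ s → v x = 0 ∧ T x = 0) ∧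
      (∀ x, |v x| ≤ 2 * a ∧ ‖∇ v x‖ ≤ 6 * b ∧ ‖T x‖ ≤ 6 * b) ∧
      LipschitzWith (6 * b).toNNReal v ∧ WDF T ∧
      (∀ x, fderiv ℝ v x (ee 2) = T x 2 ∧ dvg T x = 0) ∧
      (∀ x, v x = pd 1 ζx x - pd 0 ζy x) ∧
      (∀ x, T x 0 = pd 2 (pd 2 ζy) x ∧ T x 1 = -pd 2 (pd 2 ζx) x ∧
        T x 2 = pd 2 (pd 1 ζx) x - pd 2 (pd 0 ζy) x) := by
  have sx := fun i => pd_contDiff i hx
  have sy := fun i => pd_contDiff i hy
  have sxx := fun i j => pd_contDiff j (sx i)
  have syy := fun i j => pd_contDiff j (sy i)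
  have hv : ContDiff ℝ ∞ (fun x => pd 1 ζx x - pd 0 ζy x) := (sx 1).sub (sy 0)
  set v : E3 → ℝ := fun x => pd 1 ζx x - pd 0 ζy x with hvdef
  have hpv : ∀ j, pd j v = fun x => pd j (pd 1 ζx) x - pd j (pd 0 ζy) x :=
    fun j => pd_sub j (smooth_diff (sx 1)) (smooth_diff (sy 0))
  set T : E3 → E3 := fun x => pt (pd 2 (pd 2 ζy) x) (-pd 2 (pd 2 ζx) x) (pd 2 v x) with hTdef
  have hT : ContDiff ℝ ∞ T := pt_contDiff (syy 2 2) (sxx 2 2).neg (pd_contDiff 2 hv)
  have hgv : ∀ x, ‖fderiv ℝ v x‖ ≤ 6 * b := by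
    intro x
    refine (norm_fderiv_le_sum v x).trans ?_
    rw [Fin.sum_univ_three]
    have h : ∀ j, |pd j v x| ≤ 2 * b := by
      intro j
      rw [hpv]
      have h1 := abs_sub (pd j (pd 1 ζx) x) (pd j (pd 0 ζy) x)
      have h2 := bx2 x 1 j
      have h3 := by2 x 0 j
      simp only
      linarith
    have k0 := h 0
    have k1 := h 1
    have k2 := h 2
    linarith
  have outx : ∀ x, x ∉ Metric.closedBall x₀ s → ζx =ᶠ[𝓝 x] 0 := by
    intro x hx
    filter_upwards [Metric.isClosed_closedBall.isOpen_compl.mem_nhds hx] with y hy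
    exact h0x y hy
  have outy : ∀ x, x ∉ Metric.closedBall x₀ s → ζy =ᶠ[𝓝 x] 0 := by
    intro x hx
    filter_upwards [Metric.isClosed_closedBall.isOpen_compl.mem_nhds hx] with y hy
    exact h0y y hy
  have z1 : ∀ (f : E3 → ℝ) (x : E3), f =ᶠ[𝓝 x] 0 → ∀ i, pd i f =ᶠ[𝓝 x] 0 := by
    intro f x h i
    have := pd_congr i h
    rwa [pd_zero] at this
  have hout : ∀ x, x ∉ Metric.closedBall x₀ s → v x = 0 ∧ T x = 0 := by
    intro x hx
    have a1 := (z1 ζx x (outx x hx) 1).eq_of_nhds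
    have a2 := (z1 ζy x (outy x hx) 0).eq_of_nhds
    have b1 := (z1 _ x (z1 ζx x (outx x hx) 2) 2).eq_of_nhds
    have b2 := (z1 _ x (z1 ζy x (outy x hx) 2) 2).eq_of_nhds
    have b3 := (z1 _ x (z1 ζx x (outx x hx) 1) 2).eq_of_nhds
    have b4 := (z1 _ x (z1 ζy x (outy x hx) 0) 2).eq_of_nhds
    simp only [Pi.zero_apply] at a1 a2 b1 b2 b3 b4
    constructor
    · simp only [hvdef, a1, a2, sub_zero]
    · simp only [hTdef, hpv, b1, b2, b3, b4, neg_zero, sub_zero]
      ext j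
      fin_cases j <;> rfl
  have hΞ : ContDiff ℝ ∞ (fun x => pt (-pd 2 ζx x) (-pd 2 ζy x) 0) :=
    pt_contDiff (sx 2).neg (sy 2).neg contDiff_const
  set Ξ : E3 → E3 := fun x => pt (-pd 2 ζx x) (-pd 2 ζy x) 0 with hΞdef
  have hcurl : curlv Ξ = T := by
    funext x
    have hd : DifferentiableAt ℝ Ξ x := (hΞ.differentiable (by simp)) x
    rw [curlv]
    simp only [fderiv_apply_coord hd]
    have f0 : (fun z => Ξ z 0) = fun z => -pd 2 ζx z := rfl
    have f1 : (fun z => Ξ z 1) = fun z => -pd 2 ζy z := rfl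
    have f2 : (fun z => Ξ z 2) = fun _ => 0 := rfl
    rw [f0, f1, f2]
    have g0 : ∀ i, fderiv ℝ (fun z => -pd 2 ζx z) x (ee i) = -pd i (pd 2 ζx) x := by
      intro i
      have := congrFun (pd_neg i (pd 2 ζx)) x
      exact this
    have g1 : ∀ i, fderiv ℝ (fun z => -pd 2 ζy z) x (ee i) = -pd i (pd 2 ζy) x := by
      intro i
      have := congrFun (pd_neg i (pd 2 ζy)) x
      exact this
    have g2 : ∀ i, fderiv ℝ (fun _ : E3 => (0 : ℝ)) x (ee i) = 0 := by
      intro i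
      simp
    rw [g0, g0, g1, g1, g2, g2, hTdef]
    simp only [hpv]
    rw [pd_comm 1 2 hx, pd_comm 0 2 hy]
    congr 1 <;> ring
  have hdiv : ∀ x, dvg T x = 0 := by
    intro x
    rw [dvg_eq (hT.differentiable (by simp)), Fin.sum_univ_three]
    have f0 : (fun z => T z 0) = pd 2 (pd 2 ζy) := rfl
    have f1 : (fun z => T z 1) = fun z => -pd 2 (pd 2 ζx) z := rfl
    have f2 : (fun z => T z 2) = pd 2 v := rfl
    rw [f0, f1, f2, pd_neg, hpv 2, pd_sub 2 (smooth_diff (sxx 1 2)) (smooth_diff (syy 0 2))]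
    simp only
    have c1 : pd 0 (pd 2 (pd 2 ζy)) = pd 2 (pd 2 (pd 0 ζy)) := by
      rw [pd_comm 0 2 (sy 2), pd_comm 0 2 hy]
    have c2 : pd 1 (pd 2 (pd 2 ζx)) = pd 2 (pd 2 (pd 1 ζx)) := by
      rw [pd_comm 1 2 (sx 2), pd_comm 1 2 hx]
    rw [c1, c2]
    ring
  refine ⟨v, T, hv, hT, hout, ?_, ?_, ?_, fun x => ⟨rfl, hdiv x⟩, ?_, ?_⟩
  · intro x
    refine ⟨?_, ?_, ?_⟩
    · have h1 := abs_sub (pd 1 ζx x) (pd 0 ζy x)
      have h2 := bx1 x 1
      have h3 := by1 x 0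
      simp only [hvdef]
      linarith
    · rw [norm_gradient]
      exact hgv x
    · refine (norm_pt_le _ _ _).trans ?_
      have h1 := abs_sub (pd 2 (pd 1 ζx) x) (pd 2 (pd 0 ζy) x)
      have h2 := bx2 x 1 2
      have h3 := by2 x 0 2
      have h4 := bx2 x 2 2
      have h5 := by2 x 2 2
      have h6 : 0 ≤ b := (abs_nonneg _).trans h2
      rw [abs_neg, hpv]
      simp only
      linarith
  · refine lipschitzWith_of_nnnorm_fderiv_le (smooth_diff hv) fun x => ?_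
    rw [← NNReal.coe_le_coe, coe_nnnorm]
    exact (hgv x).trans (Real.le_coe_toNNReal _)
  · rw [← hcurl]
    have hcs : HasCompactSupport Ξ := by
      refine HasCompactSupport.intro (isCompact_closedBall x₀ s) fun x hx => ?_
      have a1 := (z1 ζx x (outx x hx) 2).eq_of_nhds
      have a2 := (z1 ζy x (outy x hx) 2).eq_of_nhds
      simp only [Pi.zero_apply] at a1 a2
      simp only [hΞdef, a1, a2, neg_zero]
      ext j
      fin_cases j <;> rfl
    obtain ⟨K, hK⟩ := ContDiff.lipschitzWith_of_hasCompactSupport hcs hΞ (by simp)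
    refine wdf_curl Ξ K hK (‖x₀‖ + |s|) fun x hx => ?_
    have hx' : x ∉ Metric.closedBall x₀ s := by
      intro h
      rw [Metric.mem_closedBall, dist_eq_norm] at h
      have h1 : ‖x‖ ≤ ‖x - x₀‖ + ‖x₀‖ := by
        have := norm_add_le (x - x₀) x₀
        rwa [sub_add_cancel] at this
      have h2 := le_abs_self s
      linarith
    have a1 := (z1 ζx x (outx x hx') 2).eq_of_nhds
    have a2 := (z1 ζy x (outy x hx') 2).eq_of_nhds
    simp only [Pi.zero_apply] at a1 a2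
    simp only [hΞdef, a1, a2, neg_zero]
    ext j
    fin_cases j <;> rfl
  · intro x
    rfl
  · intro x
    refine ⟨rfl, rfl, ?_⟩
    have : T x 2 = pd 2 v x := rfl
    rw [this, hpv]

end Flat

open Flat in
/-- ISO-b: flattening of a smooth solution of the model system near a point. -/
theorem flatten (Ω : Set E3) (w : E3 → ℝ) (J : E3 → E3) (hS : Sys Ω w J)
    (a : E3) (ha : a ∈ Ω) (η : ℝ≥0) (hη : 0 < η) :
    ∃ r0 : ℝ, 0 < r0 ∧ ∀ r : ℝ, 0 < r → r < r0 → ∃ (v : E3 → ℝ) (T : E3 → E3),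
      ContDiff ℝ ∞ v ∧ ContDiff ℝ ∞ T ∧ (∀ x, x ∉ Metric.ball a r → v x = 0 ∧ T x = 0) ∧
      LipschitzWith η v ∧ (∀ x, |v x| ≤ η) ∧ (∀ x, ‖T x‖ ≤ η) ∧ WDF T ∧
      (∀ x, fderiv ℝ v x (ee 2) = T x 2) ∧ (∀ x, dvg T x = 0) ∧
      ∀ x ∈ Metric.ball a (r / 2), w x + v x = w a + inner ℝ (∇ w a) (x - a) ∧
        J x + T x = J a := by
  obtain ⟨ρ, hρ, hρΩ, Zx, Zy, sx, sy, hZ⟩ :=
    local_potential_global hS.op hS.hw hS.hJ hS.h2 hS.hd ha
  have hη0 : (0 : ℝ) < η := hη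
  have hη6 : (0 : ℝ) < η / 6 := by positivity
  obtain ⟨r1, hr1, h1⟩ := flat_scalar sx a (η / 6) hη6
  obtain ⟨r2, hr2, h2⟩ := flat_scalar sy a (η / 6) hη6
  refine ⟨min (min r1 r2) (min ρ 1), by positivity, fun r hr hr' => ?_⟩
  have k1 : r < r1 := hr'.trans_le ((min_le_left _ _).trans (min_le_left _ _))
  have k2 : r < r2 := hr'.trans_le ((min_le_left _ _).trans (min_le_right _ _))
  have k3 : r < ρ := hr'.trans_le ((min_le_right _ _).trans (min_le_left _ _))
  have k4 : r < 1 := hr'.trans_le ((min_le_right _ _).trans (min_le_right _ _))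
  obtain ⟨ζx, cx, ox, x2, x1, bx1, bx2⟩ := h1 r hr k1
  obtain ⟨ζy, cy, oy, y2, y1, by1, by2⟩ := h2 r hr k2
  have hle : η / 6 * r ≤ (η : ℝ) / 6 := by nlinarith
  obtain ⟨v, T, sv, sT, hout, hb, hlip, hwdf, hvT, hpv, hT⟩ := pert_fields ζx ζy cx cy a
    (3 * r / 4) ox oy (η / 6) (η / 6) (fun x i => (bx1 x i).trans hle)
    (fun x i => (by1 x i).trans hle) bx2 by2
  have ha' : a ∈ Metric.ball a ρ := Metric.mem_ball_self hρ
  have hsub : ∀ x ∈ Metric.ball a (r / 2), x ∈ Metric.ball a ρ := fun x hx =>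
    Metric.ball_subset_ball (by linarith) hx
  have hpw : pw Zx Zy = fun x => pd 1 Zx x - pd 0 Zy x := rfl
  have hpdpw : ∀ j, pd j (pw Zx Zy) = fun x => pd j (pd 1 Zx) x - pd j (pd 0 Zy) x := fun j =>
    pd_sub j (smooth_diff (pd_contDiff 1 sx)) (smooth_diff (pd_contDiff 0 sy))
  have hev : w =ᶠ[𝓝 a] pw Zx Zy := by
    filter_upwards [Metric.isOpen_ball.mem_nhds ha'] with y hy
    exact (hZ y hy).1
  have hpdw : ∀ j, pd j w a = pd j (pd 1 Zx) a - pd j (pd 0 Zy) a := by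
    intro j
    rw [(pd_congr j hev).eq_of_nhds, hpdpw]
  have hin : ∀ x : E3, inner ℝ (∇ w a) (x - a) =
      ∑ j, (pd j (pd 1 Zx) a - pd j (pd 0 Zy) a) * (x j - a j) := by
    intro x
    have e : inner ℝ (∇ w a) (x - a) = fderiv ℝ w a (x - a) := by
      rw [gradient, InnerProductSpace.toDual_symm_apply]
    rw [e, fderiv_eq_sum]
    refine Finset.sum_congr rfl fun j _ => ?_
    rw [hpdw j, mul_comm]
    rfl
  have hJc : ∀ x ∈ Metric.ball a ρ, J x 0 = pd 2 (pd 2 Zy) x ∧ J x 1 = -pd 2 (pd 2 Zx) x ∧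
      J x 2 = pd 2 (pd 1 Zx) x - pd 2 (pd 0 Zy) x := by
    intro x hx
    have h := (hZ x hx).2
    refine ⟨?_, ?_, ?_⟩
    · rw [h]; rfl
    · rw [h]; rfl
    · rw [h]
      exact congrFun (hpdpw 2) x
  refine ⟨v, T, sv, sT, ?_, ?_, ?_, ?_, hwdf, fun x => (hvT x).1, fun x => (hvT x).2, ?_⟩
  · intro x hx
    refine hout x fun h => hx ?_
    rw [Metric.mem_closedBall] at h
    rw [Metric.mem_ball]
    linarith
  · have e : (6 * ((η : ℝ) / 6)).toNNReal = η := by
      rw [mul_div_cancel₀ _ (by norm_num : (6 : ℝ) ≠ 0), Real.toNNReal_coe]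
    rwa [e] at hlip
  · intro x
    have h := (hb x).1
    linarith
  · intro x
    have h := (hb x).2.2
    linarith
  · intro x hx
    obtain ⟨j0, j1, j2⟩ := hJc x (hsub x hx)
    obtain ⟨a0, a1, a2⟩ := hJc a ha'
    obtain ⟨t0, t1, t2⟩ := hT x
    constructor
    · have e1 : w x = pd 1 Zx x - pd 0 Zy x := (hZ x (hsub x hx)).1
      have e2 : w a = pd 1 Zx a - pd 0 Zy a := (hZ a ha').1
      have e3 := x1 x hx 1
      have e4 := y1 x hx 0
      rw [hin x, hpv x, e1, e2]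
      simp only [sub_mul, Finset.sum_sub_distrib]
      linarith
    · have e0 := y2 x hx 2 2
      have e1 := x2 x hx 2 2
      have e2 := x2 x hx 1 2
      have e3 := y2 x hx 0 2
      ext j
      fin_cases j
      · show J x 0 + T x 0 = J a 0
        rw [j0, t0, a0]
        exact e0
      · show J x 1 + T x 1 = J a 1
        rw [j1, t1, a1]
        linarith
      · show J x 2 + T x 2 = J a 2
        rw [j2, t2, a2]
        linarith

end Crest.Agent.R083
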