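import Mathlib
import Crest.Agent.R083.FrontDefs

-- ▼ part R083/Cascade
section

/-!
Row 83 (S0111), TM-a: the one-variable profile of the frequency cascade.
-/

set_option autoImplicit false

namespace Crest.Agent.R083

open MeasureTheory Set Filter
open scoped Topology ContDiff

/-- The profile `a` of the cascade modes with the splitting `a'' = al + be`.
`mode k = A κ^k a(τ_k)`, `τ_k = 8^k (4/3) (1 - σ)`. -/
structure Profile (ε : ℝ) where
  κ : ℝ
  r0 : ℝ
  R0 : ℝ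
  a : ℝ → ℝ
  al : ℝ → ℝ
  be : ℝ → ℝ
  hκ : 0 < κ
  hκ1 : 64 * κ < 1
  hr0 : 1 ≤ r0
  hR0 : r0 ≤ R0
  ca : ContDiff ℝ ∞ a
  cal : ContDiff ℝ ∞ al
  cbe : ContDiff ℝ ∞ be
  ha0 : ∀ τ, 0 ≤ a τ
  ha1 : ∀ τ, a τ ≤ 1
  hapos : ∀ τ, 0 < a τ ↔ 1/2 < τ ∧ τ < 8
  haeq : ∀ τ, deriv (deriv a) τ = al τ + be τ
  hal1 : ∀ τ, r0 * a τ ≤ al τ
  hal2 : ∀ τ, al τ ≤ R0 * a τ
  hbe : ∀ τ, be τ ≠ 0 → (1/2 < τ ∧ τ < 9/16) ∨ (7 < τ ∧ τ < 8)
  hdeath : ∀ τ, 1/2 ≤ τ → τ ≤ 9/16 → |be τ| ≤ ε * (κ * a (8 * τ))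
  hbirth : ∀ τ, 7 ≤ τ → τ ≤ 8 → κ * |be τ| ≤ ε * a (τ / 8)

namespace ProfileAux

/-- Cutoff. -/
noncomputable def chi (τ : ℝ) : ℝ :=
  Real.smoothTransition ((τ - 1/2) * 16) * Real.smoothTransition (8 - τ)

lemma chi_contDiff : ContDiff ℝ ∞ chi := by
  unfold chi
  exact (Real.smoothTransition.contDiff.comp (by fun_prop)).mul
    (Real.smoothTransition.contDiff.comp (by fun_prop))

lemma chi_nonneg (τ : ℝ) : 0 ≤ chi τ :=
  mul_nonneg (Real.smoothTransition.nonneg _) (Real.smoothTransition.nonneg _)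

lemma chi_le_one (τ : ℝ) : chi τ ≤ 1 :=
  mul_le_one₀ (Real.smoothTransition.le_one _) (Real.smoothTransition.nonneg _)
    (Real.smoothTransition.le_one _)

lemma chi_eq_one {τ : ℝ} (h1 : 9/16 ≤ τ) (h2 : τ ≤ 7) : chi τ = 1 := by
  unfold chi
  rw [Real.smoothTransition.one_of_one_le (by linarith),
    Real.smoothTransition.one_of_one_le (by linarith), one_mul]

lemma chi_eq_zero_left {τ : ℝ} (h : τ ≤ 1/2) : chi τ = 0 := by
  unfold chi
  rw [Real.smoothTransition.zero_of_nonpos (by linarith), zero_mul]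

lemma chi_eq_zero_right {τ : ℝ} (h : 8 ≤ τ) : chi τ = 0 := by
  unfold chi
  rw [Real.smoothTransition.zero_of_nonpos (x := 8 - τ) (by linarith), mul_zero]

lemma chi_pos {τ : ℝ} (h1 : 1/2 < τ) (h2 : τ < 8) : 0 < chi τ := by
  unfold chi
  exact mul_pos (Real.smoothTransition.pos_of_pos (by linarith))
    (Real.smoothTransition.pos_of_pos (by linarith))

lemma chi_support : Function.support chi ⊆ Icc (1/2) 8 := by
  intro τ hτ
  by_contra h
  apply hτ
  rw [mem_Icc, not_and_or, not_le, not_le] at h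
  rcases h with h | h
  · exact chi_eq_zero_left h.le
  · exact chi_eq_zero_right h.le

lemma chi_compact : HasCompactSupport chi :=
  HasCompactSupport.of_support_subset_isCompact isCompact_Icc chi_support

/-- The exponential profile. -/
noncomputable def V (Λ τ : ℝ) : ℝ := expNegInvGlue (τ / Λ)

lemma V_contDiff (Λ : ℝ) : ContDiff ℝ ∞ (V Λ) := by
  unfold V
  exact expNegInvGlue.contDiff.comp (by fun_prop)

lemma V_eq {Λ τ : ℝ} (hΛ : 0 < Λ) (hτ : 0 < τ) : V Λ τ = Real.exp (-(Λ / τ)) := by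
  unfold V expNegInvGlue
  rw [if_neg (not_le.2 (div_pos hτ hΛ))]
  congr 1
  rw [inv_div]

lemma V_nonneg (Λ τ : ℝ) : 0 ≤ V Λ τ := expNegInvGlue.nonneg _

lemma V_pos {Λ τ : ℝ} (hΛ : 0 < Λ) (hτ : 0 < τ) : 0 < V Λ τ :=
  expNegInvGlue.pos_of_pos (div_pos hτ hΛ)

lemma V_le_one (Λ τ : ℝ) (hΛ : 0 < Λ) : V Λ τ ≤ 1 := by
  rcases le_or_gt τ 0 with h | h
  · unfold V
    rw [expNegInvGlue.zero_of_nonpos (div_nonpos_of_nonpos_of_nonneg h hΛ.le)]
    exact zero_le_one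
  · rw [V_eq hΛ h]
    apply Real.exp_le_one_iff.2
    have : 0 < Λ / τ := div_pos hΛ h
    linarith

lemma V_deriv {Λ τ : ℝ} (hΛ : 0 < Λ) (hτ : 0 < τ) :
    HasDerivAt (V Λ) (Λ / τ ^ 2 * V Λ τ) τ := by
  have h1 : HasDerivAt (fun t : ℝ => Real.exp (-(Λ / t))) (Λ / τ ^ 2 * V Λ τ) τ := by
    have h2 : HasDerivAt (fun t : ℝ => -(Λ / t)) (Λ / τ ^ 2) τ := by
      have h := ((hasDerivAt_inv hτ.ne').const_mul (-Λ))
      have e1 : (fun y : ℝ => -Λ * y⁻¹) = fun t : ℝ => -(Λ / t) := by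
        funext t; rw [div_eq_mul_inv]; ring
      have e2 : -Λ * -(τ ^ 2)⁻¹ = Λ / τ ^ 2 := by
        rw [div_eq_mul_inv]; ring
      rw [e1, e2] at h
      exact h
    have h3 := h2.exp
    rw [V_eq hΛ hτ]
    convert h3 using 1
    ring
  apply h1.congr_of_eventuallyEq
  filter_upwards [lt_mem_nhds hτ] with t ht
  exact V_eq hΛ ht

lemma V_deriv2 {Λ τ : ℝ} (hΛ : 0 < Λ) (hτ : 0 < τ) :
    HasDerivAt (deriv (V Λ)) (Λ * (Λ - 2 * τ) / τ ^ 4 * V Λ τ) τ := by
  have h1 : HasDerivAt (fun t : ℝ => Λ / t ^ 2 * V Λ t)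
      (Λ * (Λ - 2 * τ) / τ ^ 4 * V Λ τ) τ := by
    have h2 : HasDerivAt (fun t : ℝ => Λ / t ^ 2) (-(2 * Λ) / τ ^ 3) τ := by
      have h := ((hasDerivAt_pow 2 τ).fun_inv (pow_ne_zero 2 hτ.ne')).const_mul Λ
      have e1 : (fun y : ℝ => Λ * (y ^ 2)⁻¹) = fun t : ℝ => Λ / t ^ 2 := by
        funext t; rw [div_eq_mul_inv]
      rw [e1] at h
      refine h.congr_deriv ?_
      have := hτ.ne'
      push_cast
      field_simp
    have h3 := h2.mul (V_deriv hΛ hτ)
    refine h3.congr_deriv ?_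
    have := hτ.ne'
    field_simp
    ring
  apply h1.congr_of_eventuallyEq
  filter_upwards [lt_mem_nhds hτ] with t ht
  exact (V_deriv hΛ ht).deriv

lemma deriv_chi_contDiff : ContDiff ℝ ∞ (deriv chi) := by
  have h := chi_contDiff
  rw [contDiff_infty_iff_deriv] at h
  exact h.2

lemma deriv2_chi_contDiff : ContDiff ℝ ∞ (deriv (deriv chi)) := by
  have h := deriv_chi_contDiff
  rw [contDiff_infty_iff_deriv] at h
  exact h.2

lemma exists_bound :
    ∃ D : ℝ, 0 < D ∧ ∀ τ, |deriv chi τ| ≤ D ∧ |deriv (deriv chi) τ| ≤ D := by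
  obtain ⟨D1, hD1⟩ := deriv_chi_contDiff.continuous.bounded_above_of_compact_support
    chi_compact.deriv
  obtain ⟨D2, hD2⟩ := deriv2_chi_contDiff.continuous.bounded_above_of_compact_support
    chi_compact.deriv.deriv
  refine ⟨max 1 (max D1 D2), lt_of_lt_of_le one_pos (le_max_left _ _), fun τ => ⟨?_, ?_⟩⟩
  · exact (hD1 τ).trans ((le_max_left _ _).trans (le_max_right _ _))
  · exact (hD2 τ).trans ((le_max_right _ _).trans (le_max_right _ _))

/-- `chi` is locally constant outside the two windows. -/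
lemma deriv_chi_zero {τ : ℝ} (h : ¬ ((1/2 < τ ∧ τ < 9/16) ∨ (7 < τ ∧ τ < 8))) :
    deriv chi τ = 0 ∧ deriv (deriv chi) τ = 0 := by
  have hcl : IsClosed {t : ℝ | deriv chi t = 0} :=
    isClosed_eq deriv_chi_contDiff.continuous continuous_const
  have hcl2 : IsClosed {t : ℝ | deriv (deriv chi) t = 0} :=
    isClosed_eq deriv2_chi_contDiff.continuous continuous_const
  have key : ∀ (U : Set ℝ) (c : ℝ), IsOpen U → (∀ t ∈ U, chi t = c) →
      ∀ t ∈ closure U, deriv chi t = 0 ∧ deriv (deriv chi) t = 0 := by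
    intro U c hU hc t ht
    have h1 : ∀ t ∈ U, deriv chi t = 0 := by
      intro t ht
      have : chi =ᶠ[𝓝 t] fun _ => c := by
        filter_upwards [hU.mem_nhds ht] with s hs using hc s hs
      rw [this.deriv_eq]; simp
    have h2 : ∀ t ∈ U, deriv (deriv chi) t = 0 := by
      intro t ht
      have : deriv chi =ᶠ[𝓝 t] fun _ => 0 := by
        filter_upwards [hU.mem_nhds ht] with s hs using h1 s hs
      rw [this.deriv_eq]; simp
    exact ⟨hcl.closure_subset_iff.2 h1 ht, hcl2.closure_subset_iff.2 h2 ht⟩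
  push Not at h
  obtain ⟨ha, hb⟩ := h
  by_cases h1 : τ ≤ 1/2
  · refine key (Iio (1/2)) 0 isOpen_Iio (fun t ht => chi_eq_zero_left (le_of_lt ht)) τ ?_
    rw [closure_Iio]; exact h1
  push Not at h1
  have h2 := ha h1
  by_cases h3 : τ ≤ 7
  · refine key (Ioo (9/16) 7) 1 isOpen_Ioo (fun t ht => chi_eq_one ht.1.le ht.2.le) τ ?_
    rw [closure_Ioo (by norm_num)]; exact ⟨h2, h3⟩
  push Not at h3
  have h4 := hb h3
  refine key (Ioi 8) 0 isOpen_Ioi (fun t ht => chi_eq_zero_right (le_of_lt ht)) τ ?_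
  rw [closure_Ioi]; exact h4

/-- Choice of the large parameter. -/
lemma exists_Lam (ε D : ℝ) (hε : 0 < ε) (hD : 0 < D) :
    ∃ Λ : ℝ, 200 ≤ Λ ∧ 16 * D * (Λ + 1) ≤ ε * Real.exp (23/280 * Λ) := by
  have h1 : Tendsto (fun x : ℝ => x ^ 1 * Real.exp (-(23/280) * x)) atTop (𝓝 0) := by
    have := Real.tendsto_pow_mul_exp_neg_atTop_nhds_zero 1
    have h2 : Tendsto (fun x : ℝ => (23/280) * x) atTop atTop :=
      Tendsto.const_mul_atTop (by norm_num) tendsto_id
    have h3 := (this.comp h2).const_mul (280/23)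
    rw [mul_zero] at h3
    refine h3.congr (fun x => ?_)
    simp only [Function.comp, pow_one]
    rw [show -(23/280 * x) = -(23/280) * x by ring]
    ring
  have h2 : ∀ᶠ x : ℝ in atTop, x ^ 1 * Real.exp (-(23/280) * x) < ε / (32 * D) :=
    (tendsto_order.1 h1).2 _ (by positivity)
  obtain ⟨Λ, hΛ, hΛ2⟩ := (h2.and (eventually_ge_atTop (200:ℝ))).exists
  refine ⟨Λ, hΛ2, ?_⟩
  rw [pow_one, lt_div_iff₀ (by positivity)] at hΛ
  have he : Real.exp (-(23/280) * Λ) * Real.exp (23/280 * Λ) = 1 := by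
    rw [← Real.exp_add]; ring_nf; exact Real.exp_zero
  have hp := Real.exp_pos (23/280 * Λ)
  have h3 : Λ * (32 * D) ≤ ε * Real.exp (23/280 * Λ) := by
    calc Λ * (32 * D) = Λ * Real.exp (-(23/280) * Λ) * (32 * D) * Real.exp (23/280 * Λ) := by
          rw [show Λ * Real.exp (-(23/280) * Λ) * (32 * D) * Real.exp (23/280 * Λ)
            = Λ * (32 * D) * (Real.exp (-(23/280) * Λ) * Real.exp (23/280 * Λ)) by ring, he]
          ring
      _ ≤ ε * Real.exp (23/280 * Λ) := by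
          apply mul_le_mul_of_nonneg_right hΛ.le hp.le
  nlinarith

end ProfileAux

open ProfileAux in
/-- Existence of the cascade profile, for an arbitrarily small coupling constant. -/
theorem exists_profile (ε : ℝ) (hε : 0 < ε) : Nonempty (Profile ε) := by
  obtain ⟨D, hD, hDb⟩ := exists_bound
  obtain ⟨Λ, hΛ, hΛε⟩ := exists_Lam ε D hε hD
  have hΛ0 : 0 < Λ := by linarith
  set κ : ℝ := Real.exp (-(11/10 * Λ)) with hκdef
  have hκ : 0 < κ := Real.exp_pos _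
  -- bounds for the error term
  have hbe_eq : ∀ τ : ℝ, 0 < τ → 2 * deriv chi τ * deriv (V Λ) τ + deriv (deriv chi) τ * V Λ τ
      = (2 * deriv chi τ * (Λ / τ ^ 2) + deriv (deriv chi) τ) * V Λ τ := by
    intro τ hτ
    rw [(V_deriv hΛ0 hτ).deriv]; ring
  have hbe_abs : ∀ τ : ℝ, 1/2 ≤ τ →
      |2 * deriv chi τ * deriv (V Λ) τ + deriv (deriv chi) τ * V Λ τ|
        ≤ 8 * D * (Λ + 1) * V Λ τ := by
    intro τ hτ
    have hτ0 : 0 < τ := by linarith
    rw [hbe_eq τ hτ0, abs_mul, abs_of_nonneg (V_nonneg Λ τ)]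
    apply mul_le_mul_of_nonneg_right _ (V_nonneg Λ τ)
    obtain ⟨h1, h2⟩ := hDb τ
    have h3 : Λ / τ ^ 2 ≤ 4 * Λ := by
      rw [div_le_iff₀ (by positivity)]
      have : 1/4 ≤ τ ^ 2 := by nlinarith
      nlinarith
    have h4 : 0 ≤ Λ / τ ^ 2 := by positivity
    calc |2 * deriv chi τ * (Λ / τ ^ 2) + deriv (deriv chi) τ|
        ≤ |2 * deriv chi τ * (Λ / τ ^ 2)| + |deriv (deriv chi) τ| := abs_add_le _ _
      _ = 2 * |deriv chi τ| * (Λ / τ ^ 2) + |deriv (deriv chi) τ| := by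
          rw [abs_mul, abs_mul, abs_of_nonneg h4, abs_of_pos (by norm_num : (0:ℝ) < 2)]
      _ ≤ 2 * D * (4 * Λ) + D := by
          have := mul_le_mul h1 h3 h4 hD.le
          nlinarith
      _ ≤ 8 * D * (Λ + 1) := by nlinarith
  have hVd2 : ∀ τ : ℝ, 0 < τ → deriv (deriv (V Λ)) τ = Λ * (Λ - 2 * τ) / τ ^ 4 * V Λ τ :=
    fun τ hτ => (V_deriv2 hΛ0 hτ).deriv
  have cV : ContDiff ℝ ∞ (V Λ) := V_contDiff Λ
  have cV1 : ContDiff ℝ ∞ (deriv (V Λ)) := (contDiff_infty_iff_deriv.1 cV).2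
  have cV2 : ContDiff ℝ ∞ (deriv (deriv (V Λ))) := (contDiff_infty_iff_deriv.1 cV1).2
  have cc1 := deriv_chi_contDiff
  have cc2 := deriv2_chi_contDiff
  have hzero : ∀ τ : ℝ, ¬ (1/2 < τ ∧ τ < 8) → chi τ = 0 := by
    intro τ h
    rw [not_and_or, not_lt, not_lt] at h
    rcases h with h | h
    · exact chi_eq_zero_left h
    · exact chi_eq_zero_right h
  refine ⟨{ κ := κ, r0 := 1, R0 := 16 * Λ ^ 2,
            a := fun τ => chi τ * V Λ τ
            al := fun τ => chi τ * deriv (deriv (V Λ)) τ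
            be := fun τ => 2 * deriv chi τ * deriv (V Λ) τ + deriv (deriv chi) τ * V Λ τ
            hκ := hκ
            hκ1 := ?_
            hr0 := le_rfl
            hR0 := by nlinarith
            ca := chi_contDiff.mul cV
            cal := chi_contDiff.mul cV2
            cbe := ((contDiff_const.mul cc1).mul cV1).add (cc2.mul cV)
            ha0 := fun τ => mul_nonneg (chi_nonneg τ) (V_nonneg Λ τ)
            ha1 := fun τ => mul_le_one₀ (chi_le_one τ) (V_nonneg Λ τ) (V_le_one Λ τ hΛ0)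
            hapos := ?_
            haeq := ?_
            hal1 := ?_
            hal2 := ?_
            hbe := ?_
            hdeath := ?_
            hbirth := ?_ }⟩
  · -- κ small
    have h1 : (64:ℝ) < Real.exp (11/10 * Λ) := by
      have := Real.add_one_le_exp (11/10 * Λ)
      linarith
    rw [hκdef, Real.exp_neg, ← div_eq_mul_inv, div_lt_one (Real.exp_pos _)]
    exact h1
  · intro τ
    constructor
    · intro h
      by_contra h2
      rw [hzero τ h2, zero_mul] at h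
      exact lt_irrefl _ h
    · rintro ⟨h1, h2⟩
      exact mul_pos (chi_pos h1 h2) (V_pos hΛ0 (by linarith))
  · intro τ
    have hchi1 : ∀ t, HasDerivAt chi (deriv chi t) t := fun t =>
      ((chi_contDiff.differentiable (by simp)) t).hasDerivAt
    have hchi2 : ∀ t, HasDerivAt (deriv chi) (deriv (deriv chi) t) t := fun t =>
      ((cc1.differentiable (by simp)) t).hasDerivAt
    have hV1 : ∀ t, HasDerivAt (V Λ) (deriv (V Λ) t) t := fun t =>
      ((cV.differentiable (by simp)) t).hasDerivAt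
    have hV2 : ∀ t, HasDerivAt (deriv (V Λ)) (deriv (deriv (V Λ)) t) t := fun t =>
      ((cV1.differentiable (by simp)) t).hasDerivAt
    have h1 : deriv (fun τ => chi τ * V Λ τ) = fun t => deriv chi t * V Λ t +
        chi t * deriv (V Λ) t := by
      funext t
      exact ((hchi1 t).mul (hV1 t)).deriv
    rw [h1]
    have h2 := (((hchi2 τ).mul (hV1 τ)).add ((hchi1 τ).mul (hV2 τ))).deriv
    refine Eq.trans h2 ?_
    ring
  · intro τ
    by_cases h : 1/2 < τ ∧ τ < 8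
    · have hτ0 : 0 < τ := by linarith [h.1]
      rw [hVd2 τ hτ0, one_mul]
      apply mul_le_mul_of_nonneg_left _ (chi_nonneg τ)
      have h1 : 1 ≤ Λ * (Λ - 2 * τ) / τ ^ 4 := by
        rw [le_div_iff₀ (by positivity)]
        have h2 : τ ^ 4 ≤ 8 ^ 4 := pow_le_pow_left₀ hτ0.le h.2.le 4
        have h3 : 200 * (200 - 16) ≤ Λ * (Λ - 2 * τ) := by
          apply mul_le_mul hΛ (by linarith [h.2]) (by norm_num) hΛ0.le
        norm_num at h2 h3
        linarith
      have := V_nonneg Λ τ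
      nlinarith
    · rw [hzero τ h]; simp
  · intro τ
    by_cases h : 1/2 < τ ∧ τ < 8
    · have hτ0 : 0 < τ := by linarith [h.1]
      rw [hVd2 τ hτ0]
      have h1 : Λ * (Λ - 2 * τ) / τ ^ 4 ≤ 16 * Λ ^ 2 := by
        rw [div_le_iff₀ (by positivity)]
        have h2 : (1/2) ^ 4 ≤ τ ^ 4 := pow_le_pow_left₀ (by norm_num) h.1.le 4
        norm_num at h2
        have h3 : Λ * (Λ - 2 * τ) ≤ Λ ^ 2 := by nlinarith
        nlinarith [sq_nonneg Λ]
      have h2 := V_nonneg Λ τ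
      have h3 := chi_nonneg τ
      calc chi τ * (Λ * (Λ - 2 * τ) / τ ^ 4 * V Λ τ)
          = (Λ * (Λ - 2 * τ) / τ ^ 4) * (chi τ * V Λ τ) := by ring
        _ ≤ 16 * Λ ^ 2 * (chi τ * V Λ τ) :=
            mul_le_mul_of_nonneg_right h1 (mul_nonneg h3 h2)
    · rw [hzero τ h]; simp
  · intro τ h
    by_contra h2
    obtain ⟨h3, h4⟩ := deriv_chi_zero h2
    apply h
    simp only [h3, h4]; ring
  · intro τ h1 h2
    have hτ0 : 0 < τ := by linarith
    refine (hbe_abs τ h1).trans ?_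
    have e1 : chi (8 * τ) = 1 := chi_eq_one (by linarith) (by linarith)
    simp only [e1, one_mul]
    have e2 : V Λ τ ≤ Real.exp (-(16/9 * Λ)) := by
      rw [V_eq hΛ0 hτ0]
      apply Real.exp_le_exp.2
      have : 16/9 * Λ ≤ Λ / τ := by
        rw [le_div_iff₀ hτ0]; nlinarith
      linarith
    have e3 : Real.exp (-(1/4 * Λ)) ≤ V Λ (8 * τ) := by
      rw [V_eq hΛ0 (by linarith)]
      apply Real.exp_le_exp.2
      have : Λ / (8 * τ) ≤ 1/4 * Λ := by
        rw [div_le_iff₀ (by linarith)]; nlinarith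
      linarith
    have e4 : Real.exp (-(16/9 * Λ)) * Real.exp (23/280 * Λ) ≤ κ * Real.exp (-(1/4 * Λ)) := by
      rw [hκdef, ← Real.exp_add, ← Real.exp_add]
      apply Real.exp_le_exp.2
      nlinarith
    calc 8 * D * (Λ + 1) * V Λ τ ≤ 16 * D * (Λ + 1) * Real.exp (-(16/9 * Λ)) := by
          have : 0 ≤ 8 * D * (Λ + 1) := by positivity
          have h5 := mul_le_mul_of_nonneg_left e2 this
          have h6 : 0 ≤ 8 * D * (Λ + 1) * Real.exp (-(16/9 * Λ)) := by positivity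
          linarith
      _ ≤ ε * Real.exp (23/280 * Λ) * Real.exp (-(16/9 * Λ)) :=
          mul_le_mul_of_nonneg_right hΛε (Real.exp_pos _).le
      _ = ε * (Real.exp (-(16/9 * Λ)) * Real.exp (23/280 * Λ)) := by ring
      _ ≤ ε * (κ * Real.exp (-(1/4 * Λ))) := mul_le_mul_of_nonneg_left e4 hε.le
      _ ≤ ε * (κ * V Λ (8 * τ)) :=
          mul_le_mul_of_nonneg_left (mul_le_mul_of_nonneg_left e3 hκ.le) hε.le
  · intro τ h1 h2
    have hτ0 : 0 < τ := by linarith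
    have h0 := hbe_abs τ (by linarith)
    have e1 : chi (τ / 8) = 1 := chi_eq_one (by linarith) (by linarith)
    simp only [e1, one_mul]
    have e2 : V Λ τ ≤ Real.exp (-(1/8 * Λ)) := by
      rw [V_eq hΛ0 hτ0]
      apply Real.exp_le_exp.2
      have : 1/8 * Λ ≤ Λ / τ := by
        rw [le_div_iff₀ hτ0]; nlinarith
      linarith
    have e3 : Real.exp (-(8/7 * Λ)) ≤ V Λ (τ / 8) := by
      rw [V_eq hΛ0 (by linarith)]
      apply Real.exp_le_exp.2
      have : Λ / (τ / 8) ≤ 8/7 * Λ := by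
        rw [div_le_iff₀ (by linarith)]; nlinarith
      linarith
    have e4 : κ * Real.exp (-(1/8 * Λ)) * Real.exp (23/280 * Λ) = Real.exp (-(8/7 * Λ)) := by
      rw [hκdef, ← Real.exp_add, ← Real.exp_add]
      congr 1
      ring
    calc κ * |2 * deriv chi τ * deriv (V Λ) τ + deriv (deriv chi) τ * V Λ τ|
        ≤ κ * (8 * D * (Λ + 1) * V Λ τ) := mul_le_mul_of_nonneg_left h0 hκ.le
      _ ≤ κ * (16 * D * (Λ + 1) * Real.exp (-(1/8 * Λ))) := by
          apply mul_le_mul_of_nonneg_left _ hκ.le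
          have : 0 ≤ 8 * D * (Λ + 1) := by positivity
          have h5 := mul_le_mul_of_nonneg_left e2 this
          have h6 : 0 ≤ 8 * D * (Λ + 1) * Real.exp (-(1/8 * Λ)) := by positivity
          linarith
      _ ≤ κ * (ε * Real.exp (23/280 * Λ) * Real.exp (-(1/8 * Λ))) :=
          mul_le_mul_of_nonneg_left
            (mul_le_mul_of_nonneg_right hΛε (Real.exp_pos _).le) hκ.le
      _ = ε * (κ * Real.exp (-(1/8 * Λ)) * Real.exp (23/280 * Λ)) := by ring
      _ = ε * Real.exp (-(8/7 * Λ)) := by rw [e4]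
      _ ≤ ε * V Λ (τ / 8) := mul_le_mul_of_nonneg_left e3 hε.le

/-- Rescaled distance to the front `σ = 1`. -/
noncomputable def tauk (k : ℕ) (σ : ℝ) : ℝ := 8 ^ k * (4 / 3) * (1 - σ)

/-- Wave numbers. -/
noncomputable def nk (k : ℕ) : ℝ := Real.pi * 8 ^ k

/-- Cascade amplitudes (TM-a). -/
structure CascData where
  u : ℕ → ℝ → ℝ
  α : ℕ → ℝ → ℝ
  β : ℕ → ℝ → ℝ
  r0 : ℝ
  R0 : ℝ
  Cd : ℝ
  r0pos : 0 < r0
  us : ∀ k, ContDiff ℝ ∞ (u k)
  αs : ∀ k, ContDiff ℝ ∞ (α k)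
  βs : ∀ k, ContDiff ℝ ∞ (β k)
  ode : ∀ k σ, deriv (deriv (u k)) σ = α k σ + β k σ
  supp : ∀ k σ, (tauk k σ ≤ 1 / 2 ∨ 8 ≤ tauk k σ) → u k σ = 0
  suppβ : ∀ k σ, ¬ ((1 / 2 < tauk k σ ∧ tauk k σ < 9 / 16) ∨ (7 < tauk k σ ∧ tauk k σ < 8)) →
    β k σ = 0
  nonneg : ∀ k σ, 0 ≤ u k σ
  pos : ∀ k σ, 9 / 16 ≤ tauk k σ → tauk k σ ≤ 7 → 0 < u k σ
  ell : ∀ k σ, r0 * nk k ^ 2 * u k σ ≤ α k σ ∧ α k σ ≤ R0 * nk k ^ 2 * u k σ
  birth : ∀ k σ, 1 ≤ k → 7 ≤ tauk (k + 1) σ → tauk (k + 1) σ ≤ 8 →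
    |β (k + 1) σ| ≤ r0 / 100 * nk k ^ 2 * u k σ
  death : ∀ k σ, 1 ≤ k → 1 / 2 ≤ tauk k σ → tauk k σ ≤ 9 / 16 →
    |β k σ| ≤ r0 / 100 * nk (k + 1) ^ 2 * u (k + 1) σ
  decay : ∀ k σ, nk k * u k σ ≤ Cd * (1 / 2) ^ k ∧ |deriv (u k) σ| ≤ Cd * (1 / 2) ^ k ∧
    |β k σ| ≤ Cd * nk k * (1 / 2) ^ k

lemma tauk_succ (k : ℕ) (σ : ℝ) : tauk (k + 1) σ = 8 * tauk k σ := by
  unfold tauk; rw [pow_succ]; ring

lemma tauk_contDiff (k : ℕ) : ContDiff ℝ ∞ (tauk k) := by
  unfold tauk; fun_prop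

lemma tauk_hasDerivAt (k : ℕ) (σ : ℝ) : HasDerivAt (tauk k) (-(8 ^ k * (4 / 3))) σ := by
  unfold tauk
  have h := ((hasDerivAt_id σ).const_sub 1).const_mul ((8:ℝ) ^ k * (4 / 3))
  simpa using h

lemma nk_pos (k : ℕ) : 0 < nk k := by
  unfold nk; positivity

lemma bounded_of_contDiff_support {f : ℝ → ℝ} (hf : Continuous f) (hs : ∀ τ, f τ ≠ 0 → τ ∈ Icc (1/2:ℝ) 8) :
    ∃ B : ℝ, ∀ τ, |f τ| ≤ B := by
  have hc : HasCompactSupport f :=
    HasCompactSupport.of_support_subset_isCompact isCompact_Icc (fun τ hτ => hs τ hτ)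
  obtain ⟨B, hB⟩ := hf.bounded_above_of_compact_support hc
  exact ⟨B, fun τ => hB τ⟩

/-- TM-a: the cascade amplitudes exist. -/
theorem casc_exists : Nonempty CascData := by
  obtain ⟨P⟩ := exists_profile (1/6400) (by norm_num)
  have hκ := P.hκ
  have hκ1 := P.hκ1
  have hsuppa : ∀ τ, P.a τ ≠ 0 → τ ∈ Icc (1/2:ℝ) 8 := by
    intro τ h
    have h1 : 0 < P.a τ := lt_of_le_of_ne (P.ha0 τ) (Ne.symm h)
    obtain ⟨h2, h3⟩ := (P.hapos τ).1 h1
    exact ⟨h2.le, h3.le⟩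
  have hsuppb : ∀ τ, P.be τ ≠ 0 → τ ∈ Icc (1/2:ℝ) 8 := by
    intro τ h
    rcases P.hbe τ h with ⟨h1, h2⟩ | ⟨h1, h2⟩
    · exact ⟨h1.le, by linarith⟩
    · exact ⟨by linarith, h2.le⟩
  have hca1 : ContDiff ℝ ∞ (deriv P.a) := (contDiff_infty_iff_deriv.1 P.ca).2
  have hsuppa' : HasCompactSupport (deriv P.a) :=
    (HasCompactSupport.of_support_subset_isCompact isCompact_Icc
      (fun τ hτ => hsuppa τ hτ)).deriv
  obtain ⟨B1, hB1⟩ := hca1.continuous.bounded_above_of_compact_support hsuppa'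
  obtain ⟨B2, hB2⟩ := bounded_of_contDiff_support P.cbe.continuous hsuppb
  have hB1' : 0 ≤ B1 := (norm_nonneg _).trans (hB1 0)
  have hB2' : 0 ≤ B2 := (abs_nonneg _).trans (hB2 0)
  have hπ := Real.pi_pos
  have hu1 : ∀ k σ, HasDerivAt (fun σ => P.κ ^ k * P.a (tauk k σ))
      (P.κ ^ k * (deriv P.a (tauk k σ) * (-(8 ^ k * (4 / 3))))) σ := by
    intro k σ
    have h1 : HasDerivAt P.a (deriv P.a (tauk k σ)) (tauk k σ) :=
      ((P.ca.differentiable (by simp)) _).hasDerivAt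
    exact (h1.comp σ (tauk_hasDerivAt k σ)).const_mul _
  have hu1' : ∀ k, deriv (fun σ => P.κ ^ k * P.a (tauk k σ)) =
      fun σ => P.κ ^ k * (deriv P.a (tauk k σ) * (-(8 ^ k * (4 / 3)))) :=
    fun k => funext fun σ => (hu1 k σ).deriv
  have hu2 : ∀ k σ, deriv (deriv (fun σ => P.κ ^ k * P.a (tauk k σ))) σ =
      P.κ ^ k * ((8 ^ k * (4 / 3)) ^ 2 * (P.al (tauk k σ) + P.be (tauk k σ))) := by
    intro k σ
    rw [hu1' k]
    have h1 : HasDerivAt (deriv P.a) (deriv (deriv P.a) (tauk k σ)) (tauk k σ) :=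
      ((hca1.differentiable (by simp)) _).hasDerivAt
    have h2 := ((h1.comp σ (tauk_hasDerivAt k σ)).mul_const (-(8 ^ k * (4 / 3) : ℝ))).const_mul
      (P.κ ^ k)
    have h3 := h2.deriv
    refine Eq.trans h3 ?_
    rw [P.haeq]; ring
  have hpow : ∀ k : ℕ, P.κ ^ k * 8 ^ k ≤ (1/2) ^ k := by
    intro k
    rw [← mul_pow]
    exact pow_le_pow_left₀ (by positivity) (by linarith) k
  have hpow2 : ∀ k : ℕ, P.κ ^ k * 8 ^ k * 8 ^ k ≤ 8 ^ k * (1/2) ^ k := by
    intro k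
    have h1 := mul_le_mul_of_nonneg_right (hpow k) (show (0:ℝ) ≤ 8 ^ k by positivity)
    linarith
  refine ⟨{ u := fun k σ => P.κ ^ k * P.a (tauk k σ)
            α := fun k σ => P.κ ^ k * ((8 ^ k * (4 / 3)) ^ 2 * P.al (tauk k σ))
            β := fun k σ => P.κ ^ k * ((8 ^ k * (4 / 3)) ^ 2 * P.be (tauk k σ))
            r0 := 16 / 9 / Real.pi ^ 2 * P.r0
            R0 := 16 / 9 / Real.pi ^ 2 * P.R0
            Cd := 4 + 4 / 3 * B1 + 16 / 9 * B2
            r0pos := mul_pos (by positivity) (by linarith [P.hr0])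
            us := fun k => contDiff_const.mul (P.ca.comp (tauk_contDiff k))
            αs := fun k => contDiff_const.mul (contDiff_const.mul (P.cal.comp (tauk_contDiff k)))
            βs := fun k => contDiff_const.mul (contDiff_const.mul (P.cbe.comp (tauk_contDiff k)))
            ode := ?_
            supp := ?_
            suppβ := ?_
            nonneg := ?_
            pos := ?_
            ell := ?_
            birth := ?_
            death := ?_
            decay := ?_ }⟩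
  · intro k σ
    rw [hu2 k σ]; ring
  · intro k σ h
    have : P.a (tauk k σ) = 0 := by
      by_contra h0
      have h1 : 0 < P.a (tauk k σ) := lt_of_le_of_ne (P.ha0 _) (Ne.symm h0)
      obtain ⟨h2, h3⟩ := (P.hapos _).1 h1
      rcases h with h | h <;> linarith
    simp only [this, mul_zero]
  · intro k σ h
    have : P.be (tauk k σ) = 0 := by
      by_contra h0
      exact h (P.hbe _ h0)
    simp only [this, mul_zero]
  · intro k σ
    exact mul_nonneg (pow_pos hκ k).le (P.ha0 _)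
  · intro k σ h1 h2
    exact mul_pos (pow_pos hκ k) ((P.hapos _).2 ⟨by linarith, by linarith⟩)
  · intro k σ
    have hc : 0 ≤ P.κ ^ k * (8 ^ k * (4 / 3)) ^ 2 := by positivity
    have e1 : ∀ r : ℝ, 16 / 9 / Real.pi ^ 2 * r * nk k ^ 2 * (P.κ ^ k * P.a (tauk k σ)) =
        P.κ ^ k * (8 ^ k * (4 / 3)) ^ 2 * (r * P.a (tauk k σ)) := by
      intro r
      unfold nk
      field_simp
      ring
    constructor
    · rw [e1, ← mul_assoc (P.κ ^ k)]
      exact mul_le_mul_of_nonneg_left (P.hal1 _) hc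
    · rw [e1, ← mul_assoc (P.κ ^ k)]
      exact mul_le_mul_of_nonneg_left (P.hal2 _) hc
  · intro k σ _ h1 h2
    have h3 := P.hbirth _ h1 h2
    have h4 : tauk (k + 1) σ / 8 = tauk k σ := by rw [tauk_succ]; ring
    rw [h4] at h3
    have hc : 0 ≤ P.κ ^ k * (8 ^ (k + 1) * (4 / 3)) ^ 2 := by positivity
    have hr := P.hr0
    have ha := P.ha0 (tauk k σ)
    have hE : 16 / 9 / Real.pi ^ 2 * P.r0 / 100 * nk k ^ 2 * (P.κ ^ k * P.a (tauk k σ)) =
        P.κ ^ k * (8 ^ (k + 1) * (4 / 3)) ^ 2 * (P.r0 / 6400 * P.a (tauk k σ)) := by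
      unfold nk
      rw [pow_succ]
      field_simp
      ring
    rw [hE]
    calc |P.κ ^ (k + 1) * ((8 ^ (k + 1) * (4 / 3)) ^ 2 * P.be (tauk (k + 1) σ))|
        = P.κ ^ k * (8 ^ (k + 1) * (4 / 3)) ^ 2 * (P.κ * |P.be (tauk (k + 1) σ)|) := by
          rw [abs_mul, abs_mul, abs_of_pos (pow_pos hκ _), abs_of_nonneg (sq_nonneg _), pow_succ]
          ring
      _ ≤ P.κ ^ k * (8 ^ (k + 1) * (4 / 3)) ^ 2 * (1 / 6400 * P.a (tauk k σ)) :=
          mul_le_mul_of_nonneg_left h3 hc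
      _ ≤ P.κ ^ k * (8 ^ (k + 1) * (4 / 3)) ^ 2 * (P.r0 / 6400 * P.a (tauk k σ)) := by
          apply mul_le_mul_of_nonneg_left _ hc
          apply mul_le_mul_of_nonneg_right _ ha
          linarith
  · intro k σ _ h1 h2
    have h3 := P.hdeath _ h1 h2
    have h4 : 8 * tauk k σ = tauk (k + 1) σ := by rw [tauk_succ]
    rw [h4] at h3
    have hc : 0 ≤ P.κ ^ k * (8 ^ k * (4 / 3)) ^ 2 := by positivity
    have hr := P.hr0
    have ha : 0 ≤ P.κ * P.a (tauk (k + 1) σ) := mul_nonneg hκ.le (P.ha0 _)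
    have hE : 16 / 9 / Real.pi ^ 2 * P.r0 / 100 * nk (k + 1) ^ 2 *
        (P.κ ^ (k + 1) * P.a (tauk (k + 1) σ)) =
        P.κ ^ k * (8 ^ k * (4 / 3)) ^ 2 * (64 * P.r0 / 100 * (P.κ * P.a (tauk (k + 1) σ))) := by
      unfold nk
      rw [pow_succ, pow_succ]
      field_simp
      ring
    rw [hE]
    calc |P.κ ^ k * ((8 ^ k * (4 / 3)) ^ 2 * P.be (tauk k σ))|
        = P.κ ^ k * (8 ^ k * (4 / 3)) ^ 2 * |P.be (tauk k σ)| := by
          rw [abs_mul, abs_mul, abs_of_pos (pow_pos hκ _), abs_of_nonneg (sq_nonneg _)]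
          ring
      _ ≤ P.κ ^ k * (8 ^ k * (4 / 3)) ^ 2 * (1 / 6400 * (P.κ * P.a (tauk (k + 1) σ))) :=
          mul_le_mul_of_nonneg_left h3 hc
      _ ≤ P.κ ^ k * (8 ^ k * (4 / 3)) ^ 2 *
          (64 * P.r0 / 100 * (P.κ * P.a (tauk (k + 1) σ))) := by
          apply mul_le_mul_of_nonneg_left _ hc
          apply mul_le_mul_of_nonneg_right _ ha
          linarith
  · intro k σ
    have h1 := hpow k
    have h2 : (0:ℝ) < (1/2) ^ k := by positivity
    have hk8 : (0:ℝ) < 8 ^ k := by positivity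
    have hκk : 0 < P.κ ^ k := pow_pos hκ k
    refine ⟨?_, ?_, ?_⟩
    · have ha := P.ha1 (tauk k σ)
      have ha0 := P.ha0 (tauk k σ)
      have hpi : Real.pi ≤ 4 := Real.pi_le_four
      calc nk k * (P.κ ^ k * P.a (tauk k σ)) = Real.pi * (P.κ ^ k * 8 ^ k) * P.a (tauk k σ) := by
            unfold nk; ring
        _ ≤ 4 * (1/2) ^ k * 1 := by
            apply mul_le_mul _ ha ha0 (by positivity)
            exact mul_le_mul hpi h1 (by positivity) (by norm_num)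
        _ ≤ (4 + 4 / 3 * B1 + 16 / 9 * B2) * (1/2) ^ k := by
            rw [mul_one]
            apply mul_le_mul_of_nonneg_right _ h2.le
            nlinarith
    · rw [(hu1 k σ).deriv]
      have hb := hB1 (tauk k σ)
      rw [Real.norm_eq_abs] at hb
      calc |P.κ ^ k * (deriv P.a (tauk k σ) * -(8 ^ k * (4 / 3)))|
          = (P.κ ^ k * 8 ^ k) * (4 / 3 * |deriv P.a (tauk k σ)|) := by
            rw [abs_mul, abs_mul, abs_neg, abs_of_pos hκk,
              abs_of_pos (show (0:ℝ) < 8 ^ k * (4/3) by positivity)]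
            ring
        _ ≤ (1/2) ^ k * (4 / 3 * B1) := by
            apply mul_le_mul h1 _ (by positivity) h2.le
            linarith
        _ ≤ (4 + 4 / 3 * B1 + 16 / 9 * B2) * (1/2) ^ k := by
            rw [mul_comm]
            apply mul_le_mul_of_nonneg_right _ h2.le
            nlinarith
    · have hb := hB2 (tauk k σ)
      calc |P.κ ^ k * ((8 ^ k * (4 / 3)) ^ 2 * P.be (tauk k σ))|
          = (P.κ ^ k * 8 ^ k * 8 ^ k) * (16 / 9 * |P.be (tauk k σ)|) := by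
            rw [abs_mul, abs_mul, abs_of_pos hκk, abs_of_nonneg (sq_nonneg _)]
            ring
        _ ≤ (8 ^ k * (1/2) ^ k) * (16 / 9 * B2) := by
            apply mul_le_mul (hpow2 k) _ (by positivity) (by positivity)
            linarith
        _ ≤ (4 + 4 / 3 * B1 + 16 / 9 * B2) * nk k * (1/2) ^ k := by
            unfold nk
            have h3 : (1:ℝ) ≤ Real.pi := by linarith [Real.pi_gt_three]
            have h4 : 0 ≤ 8 ^ k * (1/2:ℝ) ^ k := by positivity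
            calc (8 ^ k * (1/2) ^ k) * (16 / 9 * B2)
                = (16 / 9 * B2) * (8 ^ k * (1/2) ^ k) := by ring
              _ ≤ ((4 + 4 / 3 * B1 + 16 / 9 * B2) * Real.pi) * (8 ^ k * (1/2) ^ k) := by
                  apply mul_le_mul_of_nonneg_right _ h4
                  nlinarith
              _ = (4 + 4 / 3 * B1 + 16 / 9 * B2) * (Real.pi * 8 ^ k) * (1/2) ^ k := by ring

end Crest.Agent.R083
end

-- ▼ part R083/FrontMode

/-!
Row 83, TM-c (front lemma): one mode is a smooth solution field.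
-/

set_option autoImplicit false

namespace Crest.Agent.R083

open MeasureTheory Set Filter
open scoped Gradient ENNReal NNReal Topology ContDiff

/-- `p ↦ (p 2, p i)` as a continuous linear map. -/
noncomputable def fmL (i : Fin 3) : E3 →L[ℝ] ℝ × ℝ :=
  (EuclideanSpace.proj 2 : E3 →L[ℝ] ℝ).prod (EuclideanSpace.proj i : E3 →L[ℝ] ℝ)

theorem fmL_apply (i : Fin 3) (p : E3) : fmL i p = (p 2, p i) := rfl

/-- Coordinate as a continuous linear map. -/
noncomputable def fmC (i : Fin 3) : E3 →L[ℝ] ℝ :=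
  (EuclideanSpace.proj i : E3 →L[ℝ] ℝ)

theorem fmC_apply (i : Fin 3) (p : E3) : fmC i p = p i := rfl

theorem fm_ee (i j : Fin 3) : (ee i : E3) j = if j = i then 1 else 0 := by
  simp [ee]

theorem fm_hasFDerivAt {F : ℝ × ℝ → ℝ} {i : Fin 3} {p : E3}
    (hF : DifferentiableAt ℝ F (p 2, p i)) :
    HasFDerivAt (fun p : E3 => F (p 2, p i)) ((fderiv ℝ F (p 2, p i)).comp (fmL i)) p :=
  HasFDerivAt.comp (g := F) (f := fun p : E3 => (p 2, p i)) p hF.hasFDerivAt
    (fmL i).hasFDerivAt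

theorem fm_contDiffOn {F : ℝ × ℝ → ℝ} {i : Fin 3} {S : Set (ℝ × ℝ)} (hF : ContDiffOn ℝ ∞ F S) :
    ContDiffOn ℝ ∞ (fun p : E3 => F (p 2, p i)) {p | (p 2, p i) ∈ S} :=
  hF.comp (s := {p : E3 | (p 2, p i) ∈ S}) (f := fun p : E3 => (p 2, p i))
    (fmL i).contDiff.contDiffOn (fun _ hp => hp)

theorem fm_open {i : Fin 3} {S : Set (ℝ × ℝ)} (hS : IsOpen S) :
    IsOpen {p : E3 | (p 2, p i) ∈ S} :=
  hS.preimage (fmL i).continuous

theorem fm_diffAt {F : ℝ × ℝ → ℝ} {S : Set (ℝ × ℝ)} (hS : IsOpen S) (hF : ContDiffOn ℝ ∞ F S)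
    {q : ℝ × ℝ} (hq : q ∈ S) : DifferentiableAt ℝ F q :=
  ((hF q hq).contDiffAt (hS.mem_nhds hq)).differentiableAt (by simp)

theorem fm_fderiv_contDiffOn {G : ℝ × ℝ → ℝ} {S : Set (ℝ × ℝ)} (hS : IsOpen S)
    (hG : ContDiffOn ℝ ∞ G S) (v : ℝ × ℝ) :
    ContDiffOn ℝ ∞ (fun q => fderiv ℝ G q v) S :=
  (hG.fderiv_of_isOpen hS (by simp)).clm_apply contDiffOn_const

theorem mode_grad (M : ModeData) (hi : M.i = 0 ∨ M.i = 1) (p : E3)
    (hG : DifferentiableAt ℝ M.G (p 2, p M.i)) :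
    fderiv ℝ M.w p (ee M.i) = fderiv ℝ M.G (p 2, p M.i) (0, 1) ∧
    fderiv ℝ M.w p (ee (oth M.i)) = 0 ∧
    fderiv ℝ M.w p (ee 2) = fderiv ℝ M.G (p 2, p M.i) (1, 0) := by
  have h : fderiv ℝ M.w p = (fderiv ℝ M.G (p 2, p M.i)).comp (fmL M.i) :=
    (fm_hasFDerivAt (i := M.i) hG).fderiv
  rw [h]
  simp only [ContinuousLinearMap.comp_apply, fmL_apply, fm_ee]
  have h00 : ((0:ℝ), (0:ℝ)) = 0 := rfl
  rcases hi with hi | hi
  · rw [hi]; simp [oth, h00]
  · rw [hi]; simp [oth, h00]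

theorem fm_sin2_deriv (m : ℝ) (o : Fin 3) (p : E3) :
    HasFDerivAt (fun p : E3 => 2 * Real.sin (m * p o) ^ 2)
      ((2 * (2 * Real.sin (m * p o) * (Real.cos (m * p o) * m))) • fmC o) p := by
  have h1 : HasFDerivAt (fun p : E3 => p o) (fmC o) p := (fmC o).hasFDerivAt
  have h2 : HasDerivAt (fun t : ℝ => 2 * Real.sin (m * t) ^ 2)
      (2 * (2 * Real.sin (m * p o) * (Real.cos (m * p o) * m))) (p o) := by
    have h3 : HasDerivAt (fun t : ℝ => m * t) m (p o) := by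
      simpa using (hasDerivAt_id (p o)).const_mul m
    have h4 := ((h3.sin).pow 2).const_mul 2
    simpa using h4
  exact HasDerivAt.comp_hasFDerivAt (h₂ := fun t : ℝ => 2 * Real.sin (m * t) ^ 2) p h2 h1

theorem fm_sinc_deriv (m : ℝ) (hm : m ≠ 0) (o : Fin 3) (p : E3) :
    HasFDerivAt (fun p : E3 => Real.sin (2 * m * p o) / (2 * m))
      ((Real.cos (2 * m * p o)) • fmC o) p := by
  have h1 : HasFDerivAt (fun p : E3 => p o) (fmC o) p := (fmC o).hasFDerivAt
  have h2 : HasDerivAt (fun t : ℝ => Real.sin (2 * m * t) / (2 * m))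
      (Real.cos (2 * m * p o)) (p o) := by
    have h3 : HasDerivAt (fun t : ℝ => 2 * m * t) (2 * m) (p o) := by
      simpa using (hasDerivAt_id (p o)).const_mul (2 * m)
    have h4 := (h3.sin).div_const (2 * m)
    refine h4.congr_deriv ?_
    field_simp
  exact h2.comp_hasFDerivAt p h1

theorem fm_contDiff_sin2 (m : ℝ) (o : Fin 3) :
    ContDiff ℝ ∞ (fun p : E3 => 2 * Real.sin (m * p o) ^ 2) := by
  have h : ContDiff ℝ ∞ (fun p : E3 => p o) := (fmC o).contDiff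
  exact contDiff_const.mul ((Real.contDiff_sin.comp (contDiff_const.mul h)).pow 2)

theorem fm_contDiff_sinc (m : ℝ) (o : Fin 3) :
    ContDiff ℝ ∞ (fun p : E3 => Real.sin (2 * m * p o) / (2 * m)) := by
  have h : ContDiff ℝ ∞ (fun p : E3 => p o) := (fmC o).contDiff
  exact (Real.contDiff_sin.comp (contDiff_const.mul h)).div_const _

theorem mode_field (M : ModeData) (hi : M.i = 0 ∨ M.i = 1) (S : Set (ℝ × ℝ)) (hS : IsOpen S)
    (hm1 : M.m1 ≠ 0) (hm2 : M.m2 ≠ 0)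
    (hG : ContDiffOn ℝ ∞ M.G S) (hK : ContDiffOn ℝ ∞ M.K S)
    (hb1 : ContDiffOn ℝ ∞ M.b1 S) (hB1 : ContDiffOn ℝ ∞ M.B1 S)
    (hb2 : ContDiffOn ℝ ∞ M.b2 S) (hB2 : ContDiffOn ℝ ∞ M.B2 S)
    (h1 : ∀ q ∈ S, fderiv ℝ M.B1 q (0, 1) = M.b1 q)
    (h2 : ∀ q ∈ S, fderiv ℝ M.B2 q (0, 1) = M.b2 q)
    (heq : ∀ q ∈ S, fderiv ℝ (fun q => fderiv ℝ M.G q (1, 0)) q (1, 0) +
      fderiv ℝ M.K q (0, 1) = M.b1 q + M.b2 q) :
    IsFld {p | (p 2, p M.i) ∈ S} M.w M.J := by
  have hΩ : IsOpen {p : E3 | (p 2, p M.i) ∈ S} := fm_open hS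
  have hGd := fm_fderiv_contDiffOn hS hG (1, 0)
  have cJi : ContDiffOn ℝ ∞ M.Ji {p | (p 2, p M.i) ∈ S} :=
    ((fm_contDiffOn hK).sub ((fm_contDiff_sin2 M.m1 (oth M.i)).contDiffOn.mul
      (fm_contDiffOn hB1))).sub ((fm_contDiff_sin2 M.m2 (oth M.i)).contDiffOn.mul
      (fm_contDiffOn hB2))
  have cJo : ContDiffOn ℝ ∞ M.Jo {p | (p 2, p M.i) ∈ S} :=
    (((fm_contDiffOn hb1).mul (fm_contDiff_sinc M.m1 (oth M.i)).contDiffOn).neg).sub
      ((fm_contDiffOn hb2).mul (fm_contDiff_sinc M.m2 (oth M.i)).contDiffOn)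
  have cJ2 : ContDiffOn ℝ ∞ (fun p : E3 => fderiv ℝ M.G (p 2, p M.i) (1, 0))
      {p | (p 2, p M.i) ∈ S} := fm_contDiffOn hGd
  have cJ : ContDiffOn ℝ ∞ M.J {p | (p 2, p M.i) ∈ S} := by
    rw [contDiffOn_euclidean]
    intro j
    rcases hi with hi | hi
    · have hJ : ∀ p, M.J p = pt (M.Ji p) (M.Jo p) (fderiv ℝ M.G (p 2, p M.i) (1, 0)) := by
        intro p; unfold ModeData.J; rw [if_pos hi]
      fin_cases j
      · exact cJi.congr fun p _ => by rw [hJ]; rfl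
      · exact cJo.congr fun p _ => by rw [hJ]; rfl
      · exact cJ2.congr fun p _ => by rw [hJ]; rfl
    · have hJ : ∀ p, M.J p = pt (M.Jo p) (M.Ji p) (fderiv ℝ M.G (p 2, p M.i) (1, 0)) := by
        intro p; unfold ModeData.J; rw [if_neg (by rw [hi]; decide)]
      fin_cases j
      · exact cJo.congr fun p _ => by rw [hJ]; rfl
      · exact cJi.congr fun p _ => by rw [hJ]; rfl
      · exact cJ2.congr fun p _ => by rw [hJ]; rfl
  have hJ2 : ∀ p, M.J p 2 = fderiv ℝ M.G (p 2, p M.i) (1, 0) := by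
    intro p
    unfold ModeData.J
    split_ifs <;> rfl
  refine ⟨fm_contDiffOn hG, cJ, fun p hp => ⟨?_, ?_⟩⟩
  · rw [(mode_grad M hi p (fm_diffAt hS hG hp)).2.2, hJ2]
  · have hp' : (p 2, p M.i) ∈ S := hp
    have dJ : DifferentiableAt ℝ M.J p :=
      ((cJ p hp).contDiffAt (hΩ.mem_nhds hp)).differentiableAt (by simp)
    have hcomp : ∀ j : Fin 3, (fderiv ℝ M.J p (ee j)) j = fderiv ℝ (fun p => M.J p j) p (ee j) := by
      intro j
      have h := ((fmC j).hasFDerivAt.comp p dJ.hasFDerivAt).fderiv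
      have h' : fderiv ℝ (fun p => M.J p j) p = (fmC j).comp (fderiv ℝ M.J p) := h
      rw [h']; rfl
    -- derivative of the main component
    have eJi : fderiv ℝ M.Ji p (ee M.i) = fderiv ℝ M.K (p 2, p M.i) (0, 1) -
        2 * Real.sin (M.m1 * p (oth M.i)) ^ 2 * M.b1 (p 2, p M.i) -
        2 * Real.sin (M.m2 * p (oth M.i)) ^ 2 * M.b2 (p 2, p M.i) := by
      have d := ((fm_hasFDerivAt (i := M.i) (fm_diffAt hS hK hp')).sub
        ((fm_sin2_deriv M.m1 (oth M.i) p).mul (fm_hasFDerivAt (i := M.i) (fm_diffAt hS hB1 hp')))).sub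
        ((fm_sin2_deriv M.m2 (oth M.i) p).mul (fm_hasFDerivAt (i := M.i) (fm_diffAt hS hB2 hp')))
      have hd : fderiv ℝ M.Ji p = _ := d.fderiv
      rw [hd]
      rw [← h1 _ hp', ← h2 _ hp']
      have h00 : ((0:ℝ), (0:ℝ)) = 0 := rfl
      simp only [sub_apply, add_apply,
        smul_apply, ContinuousLinearMap.comp_apply, fmL_apply, fmC_apply,
        fm_ee, smul_eq_mul]
      rcases hi with hi | hi
      · rw [hi]; simp [oth, h00]
      · rw [hi]; simp [oth, h00]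
    have eJo : fderiv ℝ M.Jo p (ee (oth M.i)) =
        -(M.b1 (p 2, p M.i) * Real.cos (2 * M.m1 * p (oth M.i))) -
        M.b2 (p 2, p M.i) * Real.cos (2 * M.m2 * p (oth M.i)) := by
      have d := (((fm_hasFDerivAt (i := M.i) (fm_diffAt hS hb1 hp')).mul
          (fm_sinc_deriv M.m1 hm1 (oth M.i) p)).neg).sub
        ((fm_hasFDerivAt (i := M.i) (fm_diffAt hS hb2 hp')).mul
          (fm_sinc_deriv M.m2 hm2 (oth M.i) p))
      have hd : fderiv ℝ M.Jo p = _ := d.fderiv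
      rw [hd]
      have h00 : ((0:ℝ), (0:ℝ)) = 0 := rfl
      simp only [sub_apply, add_apply,
        neg_apply,
        smul_apply, ContinuousLinearMap.comp_apply, fmL_apply, fmC_apply,
        fm_ee, smul_eq_mul]
      rcases hi with hi | hi
      · rw [hi]; simp [oth, h00]
      · rw [hi]; simp [oth, h00]
    have eJ2 : fderiv ℝ (fun p : E3 => fderiv ℝ M.G (p 2, p M.i) (1, 0)) p (ee 2) =
        fderiv ℝ (fun q => fderiv ℝ M.G q (1, 0)) (p 2, p M.i) (1, 0) := by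
      rw [(fm_hasFDerivAt (i := M.i) (fm_diffAt hS hGd hp')).fderiv]
      simp only [ContinuousLinearMap.comp_apply, fmL_apply, fm_ee]
      rcases hi with hi | hi
      · rw [hi]; simp
      · rw [hi]; simp
    have key := heq _ hp'
    have t1 : 2 * Real.sin (M.m1 * p (oth M.i)) ^ 2 + Real.cos (2 * M.m1 * p (oth M.i)) = 1 := by
      rw [mul_assoc 2 M.m1, Real.cos_two_mul']
      have := Real.sin_sq_add_cos_sq (M.m1 * p (oth M.i))
      linarith
    have t2 : 2 * Real.sin (M.m2 * p (oth M.i)) ^ 2 + Real.cos (2 * M.m2 * p (oth M.i)) = 1 := by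
      rw [mul_assoc 2 M.m2, Real.cos_two_mul']
      have := Real.sin_sq_add_cos_sq (M.m2 * p (oth M.i))
      linarith
    have hsum : fderiv ℝ M.Ji p (ee M.i) + fderiv ℝ M.Jo p (ee (oth M.i)) +
        fderiv ℝ (fun p : E3 => fderiv ℝ M.G (p 2, p M.i) (1, 0)) p (ee 2) = 0 := by
      rw [eJi, eJo, eJ2]
      linear_combination key - M.b1 (p 2, p M.i) * t1 - M.b2 (p 2, p M.i) * t2
    unfold dvg
    rw [Fin.sum_univ_three, hcomp, hcomp, hcomp]
    have hJ2f : (fun p => M.J p 2) = fun p : E3 => fderiv ℝ M.G (p 2, p M.i) (1, 0) :=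
      funext hJ2
    rw [hJ2f]
    refine Eq.trans ?_ hsum
    rcases hi with hi | hi
    · have hJ0 : (fun p => M.J p 0) = M.Ji := by
        funext p; unfold ModeData.J; rw [if_pos hi]; rfl
      have hJ1 : (fun p => M.J p 1) = M.Jo := by
        funext p; unfold ModeData.J; rw [if_pos hi]; rfl
      rw [hJ0, hJ1]
      have ho : oth M.i = 1 := by rw [hi]; rfl
      rw [ho]
      simp only [hi]
    · have hne : M.i ≠ 0 := by rw [hi]; decide
      have hJ0 : (fun p => M.J p 0) = M.Jo := by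
        funext p; unfold ModeData.J; rw [if_neg hne]; rfl
      have hJ1 : (fun p => M.J p 1) = M.Ji := by
        funext p; unfold ModeData.J; rw [if_neg hne]; rfl
      rw [hJ0, hJ1]
      have ho : oth M.i = 0 := by rw [hi]; rfl
      rw [ho]
      simp only [hi]
      ring

end Crest.Agent.R083
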