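import Crest.Agent.R083.Defs

/-!
Row 83 (S0111), task ISO-c: algebra of horizontal ellipticity and the metric version of
`Resolves`.
-/

set_option autoImplicit false

namespace Crest.Agent.R083

open MeasureTheory Set Filter
open scoped Gradient ENNReal NNReal Topology

namespace IsoAlg

lemma inner_e3 (x y : E3) : inner ℝ x y = x 0 * y 0 + x 1 * y 1 + x 2 * y 2 := by
  simp [PiLp.inner_apply, Fin.sum_univ_three, mul_comm]

lemma norm_sq_e3 (x : E3) : ‖x‖ ^ 2 = x 0 ^ 2 + x 1 ^ 2 + x 2 ^ 2 := by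
  rw [← real_inner_self_eq_norm_sq, inner_e3]; ring

@[simp] lemma pt_zero (a b c : ℝ) : pt a b c 0 = a := rfl
@[simp] lemma pt_one (a b c : ℝ) : pt a b c 1 = b := rfl
@[simp] lemma pt_two (a b c : ℝ) : pt a b c 2 = c := rfl

lemma ee_two_0 : (ee 2) 0 = 0 := by simp [ee]
lemma ee_two_1 : (ee 2) 1 = 0 := by simp [ee]
lemma ee_two_2 : (ee 2) 2 = 1 := by simp [ee]

lemma ext_e3 {x y : E3} (h0 : x 0 = y 0) (h1 : x 1 = y 1) (h2 : x 2 = y 2) : x = y := by
  ext i
  fin_cases i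
  · exact h0
  · exact h1
  · exact h2

/-- The rank one operator `x ↦ ⟪a, x⟫ a`. -/
noncomputable def rk (a : E3) : E3 →L[ℝ] E3 := (innerSL ℝ a).smulRight a

lemma rk_apply (a x : E3) : rk a x = (inner ℝ a x : ℝ) • a := by
  simp [rk]

lemma inner_rk (a x y : E3) : inner ℝ (rk a x) y = inner ℝ a x * inner ℝ a y := by
  rw [rk_apply, inner_smul_left]; simp

private lemma aux_sq (u w a b c d : ℝ) :
    (u * a + w * (-d)) ^ 2 + (u * b + w * c) ^ 2 ≤
      2 * (u ^ 2 * (a ^ 2 + b ^ 2) + w ^ 2 * (c ^ 2 + d ^ 2)) := by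
  nlinarith [sq_nonneg (u * a - w * (-d)), sq_nonneg (u * b - w * c)]

private lemma aux_cs1 (a b c d : ℝ) : (a * c + b * d) ^ 2 ≤ (a ^ 2 + b ^ 2) * (c ^ 2 + d ^ 2) := by
  nlinarith [sq_nonneg (a * d - b * c)]

private lemma aux_lo (δ U W X Y : ℝ) (hδ : 0 < δ) (hU : 0 ≤ U) (hW : 0 ≤ W) (hX : 0 ≤ X)
    (h : Y ≤ 2 * (1 / δ * U + (1 / δ * (1 / δ)) * W)) :
    Y + X ≤ (1 + 2 / δ + 2 / δ ^ 2) * (U + W + X) := by
  have e : (1 + 2 / δ + 2 / δ ^ 2) = 1 + 2 * (1 / δ) + 2 * (1 / δ * (1 / δ)) := by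
    field_simp
  rw [e]
  have hd : 0 < 1 / δ := by positivity
  have hdd : 0 ≤ 1 / δ * (1 / δ) := by positivity
  nlinarith [mul_nonneg hd.le hW, mul_nonneg hdd hU, mul_nonneg hd.le hX, mul_nonneg hdd hX]

private lemma aux_hi (δ U W X Y : ℝ) (hδ : 0 < δ) (hX : 0 ≤ X) (hY : 0 ≤ Y)
    (h1 : U ≤ 1 / δ * Y) (h2 : W ≤ Y) :
    U + W + X ≤ (1 + 2 / δ + 2 / δ ^ 2) * (Y + X) := by
  have e : (1 + 2 / δ + 2 / δ ^ 2) = 1 + 2 * (1 / δ) + 2 * (1 / δ * (1 / δ)) := by
    field_simp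
  rw [e]
  have hd : 0 < 1 / δ := by positivity
  have hdd : 0 ≤ 1 / δ * (1 / δ) := by positivity
  nlinarith [mul_nonneg hd.le hX, mul_nonneg hdd hX, mul_nonneg hd.le hY, mul_nonneg hdd hY]

end IsoAlg
open IsoAlg

/-- (A): a horizontally elliptic pair is a pair (gradient, flux) of an elliptic symmetric tensor
which fixes `ee 2`. -/
theorem hell_tensor (δ : ℝ) (hδ : 0 < δ) : ∃ δ' : ℝ, 0 < δ' ∧ ∀ p j : E3, HEll δ p j →
    j 2 = p 2 → ∃ A : E3 →L[ℝ] E3, Ell δ' A ∧ A (ee 2) = ee 2 ∧ A p = j := by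
  refine ⟨(1 + 2 / δ + 2 / δ ^ 2)⁻¹, by positivity, ?_⟩
  rintro p j ⟨hp, hE⟩ h2
  set P := p 0 ^ 2 + p 1 ^ 2 with hP
  set Q := j 0 ^ 2 + j 1 ^ 2 with hQ
  set s := j 0 * p 0 + j 1 * p 1 with hs
  have hQ0 : 0 ≤ Q := by positivity
  have hE' : δ * (P + Q) ≤ s := by
    have : δ * (p 0 ^ 2 + p 1 ^ 2 + j 0 ^ 2 + j 1 ^ 2) = δ * (P + Q) := by rw [hP, hQ]; ring
    linarith [this, hE]
  have hs0 : 0 < s := lt_of_lt_of_le (by positivity) hE'
  set a : E3 := pt (j 0) (j 1) 0 with ha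
  set q : E3 := pt (-p 1) (p 0) 0 with hq
  refine ⟨s⁻¹ • rk a + P⁻¹ • rk q + rk (ee 2), ⟨?_, ?_⟩, ?_, ?_⟩
  · intro x y
    simp only [add_apply, smul_apply, inner_add_left,
      inner_add_right, inner_smul_left, inner_smul_right, inner_rk]
    rw [real_inner_comm (rk a y) x, real_inner_comm (rk q y) x, real_inner_comm (rk (ee 2) y) x,
      inner_rk, inner_rk, inner_rk]
    simp
    ring
  · intro x
    have hval : inner ℝ ((s⁻¹ • rk a + P⁻¹ • rk q + rk (ee 2)) x) x =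
        s⁻¹ * (j 0 * x 0 + j 1 * x 1) ^ 2 + P⁻¹ * (-p 1 * x 0 + p 0 * x 1) ^ 2 + x 2 ^ 2 := by
      have i1 : inner ℝ a x = j 0 * x 0 + j 1 * x 1 := by rw [inner_e3, ha]; simp
      have i2 : inner ℝ q x = -p 1 * x 0 + p 0 * x 1 := by rw [inner_e3, hq]; simp
      have i3 : inner ℝ (ee 2) x = x 2 := by rw [inner_e3, ee_two_0, ee_two_1, ee_two_2]; ring
      simp only [add_apply, smul_apply, inner_add_left,
        inner_smul_left, inner_rk, i1, i2, i3]
      simp
      ring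
    rw [hval, norm_sq_e3]
    set u := j 0 * x 0 + j 1 * x 1 with hu
    set w := -p 1 * x 0 + p 0 * x 1 with hw
    have hid : s ^ 2 * (x 0 ^ 2 + x 1 ^ 2) ≤ 2 * (u ^ 2 * P + w ^ 2 * Q) := by
      have e0 : s * x 0 = u * p 0 + w * (-j 1) := by rw [hs, hu, hw]; ring
      have e1 : s * x 1 = u * p 1 + w * (j 0) := by rw [hs, hu, hw]; ring
      have : s ^ 2 * (x 0 ^ 2 + x 1 ^ 2) = (s * x 0) ^ 2 + (s * x 1) ^ 2 := by ring
      rw [this, e0, e1, hP, hQ]
      exact aux_sq u w (p 0) (p 1) (j 0) (j 1)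
    have hu2 : u ^ 2 ≤ Q * (x 0 ^ 2 + x 1 ^ 2) := by
      rw [hu, hQ]; exact aux_cs1 _ _ _ _
    have hw2 : w ^ 2 ≤ P * (x 0 ^ 2 + x 1 ^ 2) := by
      rw [hw, hP]
      have := aux_cs1 (-p 1) (p 0) (x 0) (x 1)
      linarith [this, show (-p 1) ^ 2 + p 0 ^ 2 = p 0 ^ 2 + p 1 ^ 2 by ring]
    have hPs : P / s ≤ 1 / δ := by
      rw [div_le_div_iff₀ hs0 hδ]; nlinarith
    have hQs : Q / s ≤ 1 / δ := by
      rw [div_le_div_iff₀ hs0 hδ]; nlinarith
    have hX : 0 ≤ x 0 ^ 2 + x 1 ^ 2 := by positivity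
    have hU : 0 ≤ s⁻¹ * u ^ 2 := by positivity
    have hW : 0 ≤ P⁻¹ * w ^ 2 := by positivity
    have hd : 0 < 1 / δ := by positivity
    constructor
    · -- lower bound
      have h1 : x 0 ^ 2 + x 1 ^ 2 ≤ 2 * ((P / s) * (s⁻¹ * u ^ 2) + ((P / s) * (Q / s)) * (P⁻¹ * w ^ 2)) := by
        have : 2 * ((P / s) * (s⁻¹ * u ^ 2) + ((P / s) * (Q / s)) * (P⁻¹ * w ^ 2)) =
            2 * (u ^ 2 * P + w ^ 2 * Q) / s ^ 2 := by
          field_simp
        rw [this, le_div_iff₀ (by positivity)]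
        linarith
      have h2 : (P / s) * (s⁻¹ * u ^ 2) ≤ 1 / δ * (s⁻¹ * u ^ 2) :=
        mul_le_mul_of_nonneg_right hPs hU
      have h3 : ((P / s) * (Q / s)) * (P⁻¹ * w ^ 2) ≤ (1 / δ * (1 / δ)) * (P⁻¹ * w ^ 2) := by
        refine mul_le_mul_of_nonneg_right ?_ hW
        exact mul_le_mul hPs hQs (by positivity) hd.le
      have h4 : x 0 ^ 2 + x 1 ^ 2 + x 2 ^ 2 ≤ (1 + 2 / δ + 2 / δ ^ 2) *
          (s⁻¹ * u ^ 2 + P⁻¹ * w ^ 2 + x 2 ^ 2) :=
        aux_lo δ _ _ _ _ hδ hU hW (sq_nonneg _) (by linarith)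
      rw [inv_mul_le_iff₀ (by positivity)]
      exact h4
    · rw [inv_inv]
      have h1 : s⁻¹ * u ^ 2 ≤ 1 / δ * (x 0 ^ 2 + x 1 ^ 2) := by
        calc s⁻¹ * u ^ 2 ≤ s⁻¹ * (Q * (x 0 ^ 2 + x 1 ^ 2)) := by gcongr
          _ = Q / s * (x 0 ^ 2 + x 1 ^ 2) := by field_simp
          _ ≤ 1 / δ * (x 0 ^ 2 + x 1 ^ 2) := by gcongr
      have h2 : P⁻¹ * w ^ 2 ≤ x 0 ^ 2 + x 1 ^ 2 := by
        rw [inv_mul_le_iff₀ hp]; exact hw2
      exact aux_hi δ _ _ _ _ hδ (sq_nonneg _) hX h1 h2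
  · have i1 : inner ℝ a (ee 2) = 0 := by rw [inner_e3, ha, ee_two_0, ee_two_1]; simp
    have i2 : inner ℝ q (ee 2) = 0 := by rw [inner_e3, hq, ee_two_0, ee_two_1]; simp
    have i3 : inner ℝ (ee 2) (ee 2) = (1 : ℝ) := by
      rw [inner_e3, ee_two_0, ee_two_1, ee_two_2]; ring
    simp only [add_apply, smul_apply, rk_apply, i1, i2, i3]
    simp
  · have hPP : P ≠ 0 := ne_of_gt hp
    have hss : s ≠ 0 := ne_of_gt hs0
    have i1 : inner ℝ a p = s := by rw [inner_e3, ha, hs]; simp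
    have i2 : inner ℝ q p = 0 := by rw [inner_e3, hq]; simp; ring
    have i3 : inner ℝ (ee 2) p = p 2 := by rw [inner_e3, ee_two_0, ee_two_1, ee_two_2]; ring
    simp only [add_apply, smul_apply, rk_apply, i1, i2, i3]
    apply ext_e3
    · simp [ha, ee_two_0, hss]
    · simp [ha, ee_two_1, hss]
    · simp [ha, ee_two_2, h2]


/-! ### Square roots of elliptic tensors -/

namespace IsoAlg


lemma inner_gradient (f : E3 → ℝ) (x y : E3) : inner ℝ (∇ f x) y = fderiv ℝ f x y := by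
  rw [gradient, InnerProductSpace.toDual_symm_apply]

/-- Chain rule with an invertible symmetric linear map. -/
lemma grad_comp_sym (S : E3 ≃L[ℝ] E3) (hS : ∀ x y, inner ℝ (S x) y = inner ℝ x (S y))
    (f : E3 → ℝ) (x : E3) : ∇ (fun y => f (S y)) x = S (∇ f (S x)) := by
  refine ext_inner_right ℝ fun y => ?_
  rw [inner_gradient, hS, inner_gradient]
  have : (fun y => f (S y)) = f ∘ S := rfl
  rw [this, S.comp_right_fderiv]
  rfl

/-- Operator which is diagonal in an orthonormal basis. -/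
noncomputable def dg (b : OrthonormalBasis (Fin 3) ℝ E3) (d : Fin 3 → ℝ) : E3 →L[ℝ] E3 :=
  ∑ i, d i • rk (b i)

lemma inner_dg (b : OrthonormalBasis (Fin 3) ℝ E3) (d : Fin 3 → ℝ) (x y : E3) :
    inner ℝ (dg b d x) y = ∑ i, d i * (inner ℝ (b i) x * inner ℝ (b i) y) := by
  simp only [dg, sum_apply, smul_apply, sum_inner, inner_smul_left, inner_rk]
  simp

lemma dg_basis (b : OrthonormalBasis (Fin 3) ℝ E3) (d : Fin 3 → ℝ) (i : Fin 3) :
    dg b d (b i) = d i • b i := by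
  simp only [dg, sum_apply, smul_apply, rk_apply]
  rw [Finset.sum_eq_single i]
  · simp
  · intro j _ hj
    have : inner ℝ (b j) (b i) = (0 : ℝ) := by
      rw [orthonormal_iff_ite.1 b.orthonormal]; simp [hj]
    rw [this]; simp
  · simp

lemma dg_sym (b : OrthonormalBasis (Fin 3) ℝ E3) (d : Fin 3 → ℝ) (x y : E3) :
    inner ℝ (dg b d x) y = inner ℝ x (dg b d y) := by
  rw [real_inner_comm (dg b d y) x, inner_dg, inner_dg]
  refine Finset.sum_congr rfl fun i _ => by ring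

lemma dg_comp (b : OrthonormalBasis (Fin 3) ℝ E3) (d e : Fin 3 → ℝ) (x : E3) :
    dg b d (dg b e x) = dg b (fun i => d i * e i) x := by
  have : (dg b d).toLinearMap ∘ₗ (dg b e).toLinearMap = (dg b fun i => d i * e i).toLinearMap := by
    refine b.toBasis.ext fun i => ?_
    simp only [OrthonormalBasis.coe_toBasis, LinearMap.comp_apply, ContinuousLinearMap.coe_coe,
      dg_basis, map_smul, smul_smul]
    rw [mul_comm]
  exact congrArg (fun f => f x) this

lemma dg_one (b : OrthonormalBasis (Fin 3) ℝ E3) (d : Fin 3 → ℝ) (hd : ∀ i, d i = 1) (x : E3) :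
    dg b d x = x := by
  have : (dg b d).toLinearMap = LinearMap.id := by
    refine b.toBasis.ext fun i => ?_
    simp only [OrthonormalBasis.coe_toBasis, ContinuousLinearMap.coe_coe,
      dg_basis, hd, one_smul, LinearMap.id_apply]
  exact congrArg (fun f => f x) this

/-- Every elliptic tensor has a symmetric invertible square root. -/
lemma exists_sqrt (μ : ℝ) (hμ : 0 < μ) (M : E3 →L[ℝ] E3) (hM : Ell μ M) :
    ∃ S : E3 ≃L[ℝ] E3, (∀ x y, inner ℝ (S x) y = inner ℝ x (S y)) ∧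
      (∀ x y, inner ℝ (S.symm x) y = inner ℝ x (S.symm y)) ∧
      (∀ x, S (S x) = M x) ∧
      (∀ x, μ * ‖x‖ ^ 2 ≤ ‖S x‖ ^ 2 ∧ ‖S x‖ ^ 2 ≤ μ⁻¹ * ‖x‖ ^ 2) ∧
      (∀ x, μ * ‖x‖ ^ 2 ≤ ‖S.symm x‖ ^ 2 ∧ ‖S.symm x‖ ^ 2 ≤ μ⁻¹ * ‖x‖ ^ 2) := by
  obtain ⟨hsym, hell⟩ := hM
  have hs : M.toLinearMap.IsSymmetric := hsym
  have hn : Module.finrank ℝ E3 = 3 := by simp [E3]
  set b := hs.eigenvectorBasis hn with hb
  set lam := hs.eigenvalues hn with hlam
  have hMb : ∀ i, M (b i) = lam i • b i := fun i => hs.apply_eigenvectorBasis hn i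
  have hlb : ∀ i, μ ≤ lam i ∧ lam i ≤ μ⁻¹ := by
    intro i
    have h1 := hell (b i)
    have h2 : inner ℝ (M (b i)) (b i) = lam i := by
      rw [hMb, inner_smul_left]; simp
    rw [h2] at h1
    simpa using h1
  have hl0 : ∀ i, 0 < lam i := fun i => lt_of_lt_of_le hμ (hlb i).1
  have h1 : ∀ x, dg b (fun i => √(lam i)) (dg b (fun i => (√(lam i))⁻¹) x) = x := by
    intro x
    rw [dg_comp]
    refine dg_one _ _ (fun i => ?_) x
    exact mul_inv_cancel₀ (ne_of_gt (Real.sqrt_pos.2 (hl0 i)))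
  have h2 : ∀ x, dg b (fun i => (√(lam i))⁻¹) (dg b (fun i => √(lam i)) x) = x := by
    intro x
    rw [dg_comp]
    refine dg_one _ _ (fun i => ?_) x
    exact inv_mul_cancel₀ (ne_of_gt (Real.sqrt_pos.2 (hl0 i)))
  set S : E3 ≃L[ℝ] E3 := ContinuousLinearEquiv.equivOfInverse
    (dg b (fun i => √(lam i))) (dg b (fun i => (√(lam i))⁻¹)) h2 h1 with hS
  have hSx : ∀ x, S x = dg b (fun i => √(lam i)) x := fun x => rfl
  have hSs : ∀ x, S.symm x = dg b (fun i => (√(lam i))⁻¹) x := fun x => rfl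
  have hpars : ∀ x : E3, ‖x‖ ^ 2 = ∑ i, (inner ℝ (b i) x) ^ 2 := by
    intro x
    rw [← b.sum_sq_norm_inner_right x]
    simp
  refine ⟨S, ?_, ?_, ?_, ?_, ?_⟩
  · intro x y; rw [hSx, hSx]; exact dg_sym _ _ _ _
  · intro x y; rw [hSs, hSs]; exact dg_sym _ _ _ _
  · intro x
    rw [hSx, hSx, dg_comp]
    have : (dg b (fun i => √(lam i) * √(lam i))).toLinearMap = M.toLinearMap := by
      refine b.toBasis.ext fun i => ?_
      simp only [OrthonormalBasis.coe_toBasis, ContinuousLinearMap.coe_coe, dg_basis, hMb]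
      rw [Real.mul_self_sqrt (hl0 i).le]
    exact congrArg (fun f => f x) this
  · intro x
    have : ‖S x‖ ^ 2 = ∑ i, lam i * (inner ℝ (b i) x) ^ 2 := by
      rw [← real_inner_self_eq_norm_sq, hSx, dg_sym, dg_comp, real_inner_comm, inner_dg]
      refine Finset.sum_congr rfl fun i _ => ?_
      rw [Real.mul_self_sqrt (hl0 i).le]; ring
    rw [this, hpars x, Finset.mul_sum, Finset.mul_sum]
    constructor
    · exact Finset.sum_le_sum fun i _ => mul_le_mul_of_nonneg_right (hlb i).1 (sq_nonneg _)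
    · exact Finset.sum_le_sum fun i _ => mul_le_mul_of_nonneg_right (hlb i).2 (sq_nonneg _)
  · intro x
    have : ‖S.symm x‖ ^ 2 = ∑ i, (lam i)⁻¹ * (inner ℝ (b i) x) ^ 2 := by
      rw [← real_inner_self_eq_norm_sq, hSs, dg_sym, dg_comp, real_inner_comm, inner_dg]
      refine Finset.sum_congr rfl fun i _ => ?_
      rw [← mul_inv, Real.mul_self_sqrt (hl0 i).le]; ring
    rw [this, hpars x, Finset.mul_sum, Finset.mul_sum]
    constructor
    · refine Finset.sum_le_sum fun i _ => mul_le_mul_of_nonneg_right ?_ (sq_nonneg _)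
      rw [le_inv_comm₀ hμ (hl0 i)]; exact (hlb i).2
    · refine Finset.sum_le_sum fun i _ => mul_le_mul_of_nonneg_right ?_ (sq_nonneg _)
      exact inv_anti₀ hμ (hlb i).1

/-! ### Linear change of variables -/

lemma map_equiv_volume (S : E3 ≃L[ℝ] E3) : ∃ k : ℝ, 0 < k ∧
    Measure.map S (volume : Measure E3) = ENNReal.ofReal k • volume := by
  have hdet : LinearMap.det (S : E3 →ₗ[ℝ] E3) ≠ 0 := S.toLinearEquiv.isUnit_det'.ne_zero
  refine ⟨|(LinearMap.det (S : E3 →ₗ[ℝ] E3))⁻¹|, abs_pos.2 (inv_ne_zero hdet), ?_⟩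
  exact Measure.map_linearMap_addHaar_eq_smul_addHaar volume hdet

lemma integral_comp_equiv (S : E3 ≃L[ℝ] E3) : ∃ k : ℝ, ∀ f : E3 → ℝ,
    ∫ x, f (S x) = k * ∫ y, f y := by
  obtain ⟨k, hk, hmap⟩ := map_equiv_volume S
  refine ⟨k, fun f => ?_⟩
  have h1 := MeasureTheory.integral_map_equiv (μ := (volume : Measure E3))
    S.toHomeomorph.toMeasurableEquiv f
  have h2 : Measure.map (S.toHomeomorph.toMeasurableEquiv) (volume : Measure E3) =
    ENNReal.ofReal k • volume := hmap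
  rw [h2, integral_smul_measure, ENNReal.toReal_ofReal hk.le] at h1
  rw [← smul_eq_mul, h1]
  rfl

lemma integrable_comp_equiv (S : E3 ≃L[ℝ] E3) (R : E3 → E3) (hR : Integrable R volume) :
    Integrable (fun x => R (S x)) volume := by
  obtain ⟨k, hk, hmap⟩ := map_equiv_volume S
  have h2 : Measure.map (S.toHomeomorph.toMeasurableEquiv) (volume : Measure E3) =
    ENNReal.ofReal k • volume := hmap
  have h3 : Integrable R (Measure.map (S.toHomeomorph.toMeasurableEquiv) (volume : Measure E3)) := by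
    rw [h2]; exact hR.smul_measure ENNReal.ofReal_ne_top
  exact (MeasureTheory.integrable_map_equiv _ _).1 h3

lemma wdf_comp (S : E3 ≃L[ℝ] E3) (hS : ∀ x y, inner ℝ (S x) y = inner ℝ x (S y))
    (R : E3 → E3) (hR : WDF R) : WDF (fun x => S (R (S.symm x))) := by
  obtain ⟨hi, hw⟩ := hR
  refine ⟨?_, ?_⟩
  · exact (S : E3 →L[ℝ] E3).integrable_comp (integrable_comp_equiv S.symm R hi)
  · intro ψ K hψ
    obtain ⟨k, hk⟩ := integral_comp_equiv S.symm
    have h1 : ∀ x, inner ℝ (S (R (S.symm x))) (∇ ψ x) =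
        (fun y => inner ℝ (R y) (∇ (fun z => ψ (S z)) y)) (S.symm x) := by
      intro x
      simp only
      rw [grad_comp_sym S hS ψ (S.symm x), S.apply_symm_apply, hS]
    simp_rw [h1]
    rw [hk (fun y => inner ℝ (R y) (∇ (fun z => ψ (S z)) y))]
    have hl : LipschitzWith (K * ‖(S : E3 →L[ℝ] E3)‖₊) (fun z => ψ (S z)) :=
      hψ.comp (S : E3 →L[ℝ] E3).lipschitz
    rw [hw _ _ hl, mul_zero]

lemma ae_comp_equiv (S : E3 ≃L[ℝ] E3) (U : Set E3) (P : E3 → Prop)
    (h : ∀ᵐ y ∂(volume.restrict (S ⁻¹' U)), P y) (hU : MeasurableSet U) :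
    ∀ᵐ x ∂(volume.restrict U), P (S.symm x) := by
  rw [ae_restrict_iff' hU]
  rw [ae_restrict_iff' (S.continuous.measurable hU)] at h
  have hdet : LinearMap.det (S.symm : E3 →ₗ[ℝ] E3) ≠ 0 :=
    S.symm.toLinearEquiv.isUnit_det'.ne_zero
  have hq : Measure.QuasiMeasurePreserving (S.symm : E3 →ₗ[ℝ] E3) volume volume :=
    Measure.LinearMap.quasiMeasurePreserving volume _ hdet
  have := hq.ae h
  filter_upwards [this] with x hx hxU
  apply hx
  show S (S.symm x) ∈ U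
  rw [S.apply_symm_apply]; exact hxU

lemma abs_coord_le (x : E3) (i : Fin 3) : |x i| ≤ ‖x‖ := by
  have := EuclideanSpace.norm_eq x
  rw [this]
  apply Real.le_sqrt_of_sq_le
  simp only [Real.norm_eq_abs, sq_abs]
  exact Finset.single_le_sum (f := fun i => x i ^ 2) (fun j _ => sq_nonneg (x j)) (Finset.mem_univ i)

lemma sum_ee (x : E3) : ∑ i, x i • ee i = x := by
  apply ext_e3 <;> simp [Fin.sum_univ_three, ee]

end IsoAlg

/-- (M) metric version of `Resolves`, for all directions at once. -/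
theorem resolves_metric_of
    (H : ∀ δ : ℝ, 0 < δ → ∃ (c C : ℝ) (L : ℝ≥0), 0 < c ∧
      ∀ A : E3 →L[ℝ] E3, Ell δ A → Resolves c C L A)
    (δ μ : ℝ) (hδ : 0 < δ) (hμ : 0 < μ) :
    ∃ (c C : ℝ) (L : ℝ≥0), 0 < c ∧ ∀ A M : E3 →L[ℝ] E3, Ell δ A → Ell μ M →
      ∀ U : Set E3, IsOpen U → Bornology.IsBounded U → ∀ ε : ℝ, 0 < ε →
      ∃ (γ : E3 → ℝ) (v : E3 → E3 → ℝ) (R : E3 → E3 → E3),
        Measurable γ ∧ (∀ x, c ≤ γ x ∧ γ x ≤ C) ∧
        ∀ g : E3, LipschitzWith (L * ‖g‖₊) (v g) ∧ (∀ x, x ∉ U → v g x = 0) ∧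
          (∀ x, |v g x| ≤ ε * ‖g‖) ∧ Measurable (R g) ∧ (∀ x, ‖R g x‖ ≤ L * ‖g‖) ∧
          (∀ x, x ∉ U → R g x = 0) ∧ WDF (R g) ∧
          ∀ᵐ x ∂(volume.restrict U), A g + R g x = γ x • M (g + ∇ (v g) x) := by
  obtain ⟨c, C, L₀, hc, hres⟩ := H (δ * μ) (by positivity)
  set κ : ℝ≥0 := Real.toNNReal (√(μ⁻¹)) with hκ
  have hκv : (κ : ℝ) = √(μ⁻¹) := Real.coe_toNNReal _ (Real.sqrt_nonneg _)
  have hκ2 : (κ : ℝ) ^ 2 = μ⁻¹ := by rw [hκv]; exact Real.sq_sqrt (by positivity)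
  refine ⟨c, C, 3 * κ ^ 2 * L₀, hc, ?_⟩
  intro A M hA hM U hU hUb ε hε
  obtain ⟨S, hS1, hS2, hS3, hS4, hS5⟩ := exists_sqrt μ hμ M hM
  have bS : ∀ x, ‖S x‖ ≤ κ * ‖x‖ := by
    intro x
    have := (hS4 x).2
    rw [← hκ2, ← mul_pow] at this
    exact le_of_sq_le_sq this (by positivity)
  have bSs : ∀ x, ‖S.symm x‖ ≤ κ * ‖x‖ := by
    intro x
    have := (hS5 x).2
    rw [← hκ2, ← mul_pow] at this
    exact le_of_sq_le_sq this (by positivity)
  have lipSs : LipschitzWith κ S.symm := by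
    refine LipschitzWith.of_dist_le_mul fun x y => ?_
    rw [dist_eq_norm, dist_eq_norm, ← map_sub]
    exact bSs _
  set B : E3 →L[ℝ] E3 := (S.symm : E3 →L[ℝ] E3) ∘L A ∘L (S.symm : E3 →L[ℝ] E3) with hB
  have hBx : ∀ x, B x = S.symm (A (S.symm x)) := fun x => rfl
  have hBell : Ell (δ * μ) B := by
    constructor
    · intro x y
      rw [hBx, hBx, hS2, hA.1, ← hS2]
    · intro x
      rw [hBx, hS2]
      obtain ⟨h1, h2⟩ := hA.2 (S.symm x)
      obtain ⟨h3, h4⟩ := hS5 x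
      constructor
      · calc δ * μ * ‖x‖ ^ 2 = δ * (μ * ‖x‖ ^ 2) := by ring
          _ ≤ δ * ‖S.symm x‖ ^ 2 := by gcongr
          _ ≤ _ := h1
      · calc inner ℝ (A (S.symm x)) (S.symm x) ≤ δ⁻¹ * ‖S.symm x‖ ^ 2 := h2
          _ ≤ δ⁻¹ * (μ⁻¹ * ‖x‖ ^ 2) := by gcongr
          _ = (δ * μ)⁻¹ * ‖x‖ ^ 2 := by rw [mul_inv]; ring
  have hU' : IsOpen (S ⁻¹' U) := hU.preimage S.continuous
  have hU'b : Bornology.IsBounded (S ⁻¹' U) := by
    have : S ⁻¹' U = S.symm '' U := by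
      ext x
      constructor
      · intro hx; exact ⟨S x, hx, S.symm_apply_apply x⟩
      · rintro ⟨y, hy, rfl⟩
        show S (S.symm y) ∈ U
        rw [S.apply_symm_apply]; exact hy
    rw [this]
    exact lipSs.isBounded_image hUb
  obtain ⟨γ, v, R, hγm, hγb, hvR⟩ := hres B hBell (S ⁻¹' U) hU' hU'b (ε / (3 * κ + 1))
    (by positivity)
  have hcoord : ∀ (g : E3) (i : Fin 3), |(S g) i| ≤ κ * ‖g‖ := fun g i =>
    (abs_coord_le _ _).trans (bS g)
  refine ⟨fun x => γ (S.symm x), fun g x => ∑ i, (S g) i * v i (S.symm x),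
    fun g x => S (∑ i, (S g) i • R i (S.symm x)), hγm.comp S.symm.continuous.measurable,
    fun x => hγb _, fun g => ⟨?_, ?_, ?_, ?_, ?_, ?_, ?_, ?_⟩⟩
  · refine LipschitzWith.of_dist_le_mul fun x y => ?_
    rw [Real.dist_eq, ← Finset.sum_sub_distrib]
    have h1 : ∀ i, |(S g) i * v i (S.symm x) - (S g) i * v i (S.symm y)| ≤
        κ * ‖g‖ * (L₀ * (κ * dist x y)) := by
      intro i
      rw [← mul_sub, abs_mul]
      refine mul_le_mul (hcoord g i) ?_ (abs_nonneg _) (by positivity)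
      have h2 := (hvR i).1.dist_le_mul (S.symm x) (S.symm y)
      rw [Real.dist_eq] at h2
      refine h2.trans ?_
      have h3 := lipSs.dist_le_mul x y
      gcongr
    calc |∑ i, ((S g) i * v i (S.symm x) - (S g) i * v i (S.symm y))|
        ≤ ∑ i, |(S g) i * v i (S.symm x) - (S g) i * v i (S.symm y)| :=
          Finset.abs_sum_le_sum_abs _ _
      _ ≤ ∑ _i : Fin 3, κ * ‖g‖ * (L₀ * (κ * dist x y)) := Finset.sum_le_sum fun i _ => h1 i
      _ = ((3 * κ ^ 2 * L₀ * ‖g‖₊ : ℝ≥0) : ℝ) * dist x y := by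
          simp only [Finset.sum_const, Finset.card_univ, Fintype.card_fin]
          push_cast
          ring
  · intro x hx
    refine Finset.sum_eq_zero fun i _ => ?_
    rw [(hvR i).2.1 (S.symm x) (by
      intro h
      apply hx
      have : S (S.symm x) ∈ U := h
      rwa [S.apply_symm_apply] at this), mul_zero]
  · intro x
    have h1 : ∀ i, |(S g) i * v i (S.symm x)| ≤ κ * ‖g‖ * (ε / (3 * κ + 1)) := by
      intro i
      rw [abs_mul]
      exact mul_le_mul (hcoord g i) ((hvR i).2.2.1 _) (abs_nonneg _) (by positivity)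
    calc |∑ i, (S g) i * v i (S.symm x)| ≤ ∑ i, |(S g) i * v i (S.symm x)| :=
          Finset.abs_sum_le_sum_abs _ _
      _ ≤ ∑ _i : Fin 3, κ * ‖g‖ * (ε / (3 * κ + 1)) := Finset.sum_le_sum fun i _ => h1 i
      _ = ε * ‖g‖ * ((3 * κ) / (3 * κ + 1)) := by
          simp only [Finset.sum_const, Finset.card_univ, Fintype.card_fin]
          ring
      _ ≤ ε * ‖g‖ * 1 := by
          gcongr
          rw [div_le_one (by positivity)]
          linarith
      _ = ε * ‖g‖ := mul_one _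
  · refine S.continuous.measurable.comp ?_
    refine Finset.measurable_sum _ fun i _ => ?_
    exact ((hvR i).2.2.2.1.comp S.symm.continuous.measurable).const_smul ((S g) i)
  · intro x
    have h1 : ∀ i, ‖(S g) i • R i (S.symm x)‖ ≤ κ * ‖g‖ * L₀ := by
      intro i
      rw [norm_smul, Real.norm_eq_abs]
      exact mul_le_mul (hcoord g i) ((hvR i).2.2.2.2.1 _) (norm_nonneg _) (by positivity)
    calc ‖S (∑ i, (S g) i • R i (S.symm x))‖ ≤ κ * ‖∑ i, (S g) i • R i (S.symm x)‖ := bS _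
      _ ≤ κ * ∑ i, ‖(S g) i • R i (S.symm x)‖ := by
          gcongr
          exact norm_sum_le _ _
      _ ≤ κ * ∑ _i : Fin 3, κ * ‖g‖ * L₀ := by
          gcongr with i
          exact h1 i
      _ = ((3 * κ ^ 2 * L₀ : ℝ≥0) : ℝ) * ‖g‖ := by
          simp only [Finset.sum_const, Finset.card_univ, Fintype.card_fin]
          push_cast
          ring
  · intro x hx
    have : ∑ i, (S g) i • R i (S.symm x) = 0 := by
      refine Finset.sum_eq_zero fun i _ => ?_
      rw [(hvR i).2.2.2.2.2.1 (S.symm x) (by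
        intro h
        apply hx
        have : S (S.symm x) ∈ U := h
        rwa [S.apply_symm_apply] at this), smul_zero]
    simp only [this, map_zero]
  · have hlin : WDF (fun y => ∑ i, (S g) i • R i y) := by
      refine ⟨?_, ?_⟩
      · exact integrable_finsetSum _ fun i _ => ((hvR i).2.2.2.2.2.2.1.1).smul ((S g) i)
      · intro ψ K hψ
        have h1 : ∀ y, inner ℝ (∑ i, (S g) i • R i y) (∇ ψ y) =
            ∑ i, (S g) i * inner ℝ (R i y) (∇ ψ y) := by
          intro y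
          rw [sum_inner]
          refine Finset.sum_congr rfl fun i _ => ?_
          rw [inner_smul_left]; simp
        simp_rw [h1]
        have hbound : ∀ y, ‖∇ ψ y‖ ≤ K := by
          intro y
          rw [gradient, LinearIsometryEquiv.norm_map]
          exact norm_fderiv_le_of_lipschitz ℝ hψ
        have hgm : AEStronglyMeasurable (fun y => ∇ ψ y) volume := by
          have : Measurable (fderiv ℝ ψ) := measurable_fderiv ℝ ψ
          have h2 : Measurable fun y => ∇ ψ y := by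
            unfold gradient
            exact (InnerProductSpace.toDual ℝ E3).symm.continuous.measurable.comp this
          exact h2.aestronglyMeasurable
        have hint : ∀ i, Integrable (fun y => inner ℝ (R i y) (∇ ψ y)) volume := by
          intro i
          have hRi := (hvR i).2.2.2.2.2.2.1.1
          refine Integrable.mono' (hRi.norm.mul_const (K : ℝ)) ?_ ?_
          · exact hRi.aestronglyMeasurable.inner hgm
          · refine Filter.Eventually.of_forall fun y => ?_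
            refine (norm_inner_le_norm _ _).trans ?_
            gcongr
            exact hbound y
        rw [integral_finsetSum _ fun i _ => (hint i).const_mul _]
        refine Finset.sum_eq_zero fun i _ => ?_
        rw [integral_const_mul, (hvR i).2.2.2.2.2.2.1.2 ψ K hψ, mul_zero]
    exact wdf_comp S hS1 _ hlin
  · have hae : ∀ᵐ y ∂(volume.restrict (S ⁻¹' U)),
        B (S g) + ∑ i, (S g) i • R i y = γ y • (S g + ∇ (fun z => ∑ i, (S g) i * v i z) y) := by
      have hd : ∀ i, ∀ᵐ y ∂(volume.restrict (S ⁻¹' U)), DifferentiableAt ℝ (v i) y := fun i =>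
        ae_restrict_of_ae (hvR i).1.ae_differentiableAt
      have hr : ∀ i, ∀ᵐ y ∂(volume.restrict (S ⁻¹' U)),
          B (ee i) + R i y = γ y • (ee i + ∇ (v i) y) := fun i => (hvR i).2.2.2.2.2.2.2
      filter_upwards [ae_all_iff.2 hd, ae_all_iff.2 hr] with y hy1 hy2
      have hg : ∇ (fun z => ∑ i, (S g) i * v i z) y = ∑ i, (S g) i • ∇ (v i) y := by
        refine ext_inner_right ℝ fun z => ?_
        rw [inner_gradient, sum_inner]
        have hf : fderiv ℝ (fun z => ∑ i, (S g) i * v i z) y =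
            ∑ i, (S g) i • fderiv ℝ (v i) y := by
          rw [fderiv_fun_sum fun i _ => (hy1 i).const_mul _]
          refine Finset.sum_congr rfl fun i _ => ?_
          rw [fderiv_const_mul (hy1 i)]
        rw [hf, sum_apply]
        refine Finset.sum_congr rfl fun i _ => ?_
        rw [smul_apply, inner_smul_left, inner_gradient]
        simp
      rw [hg]
      have hBg : B (S g) = ∑ i, (S g) i • B (ee i) := by
        conv_lhs => rw [← sum_ee (S g)]
        rw [map_sum]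
        refine Finset.sum_congr rfl fun i _ => ?_
        rw [map_smul]
      have hSg : S g = ∑ i, (S g) i • ee i := (sum_ee (S g)).symm
      calc B (S g) + ∑ i, (S g) i • R i y = ∑ i, (S g) i • (B (ee i) + R i y) := by
            rw [hBg, ← Finset.sum_add_distrib]
            refine Finset.sum_congr rfl fun i _ => ?_
            rw [smul_add]
        _ = ∑ i, (S g) i • (γ y • (ee i + ∇ (v i) y)) := by
            refine Finset.sum_congr rfl fun i _ => ?_
            rw [hy2 i]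
        _ = γ y • (∑ i, (S g) i • ee i + ∑ i, (S g) i • ∇ (v i) y) := by
            rw [← Finset.sum_add_distrib, Finset.smul_sum]
            refine Finset.sum_congr rfl fun i _ => ?_
            rw [← smul_add, smul_comm]
        _ = γ y • (S g + ∑ i, (S g) i • ∇ (v i) y) := by rw [← hSg]
    have := ae_comp_equiv S U _ hae hU.measurableSet
    filter_upwards [this] with x hx
    have hgr : ∇ (fun x => ∑ i, (S g) i * v i (S.symm x)) x =
        S.symm (∇ (fun z => ∑ i, (S g) i * v i z) (S.symm x)) :=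
      grad_comp_sym S.symm hS2 (fun z => ∑ i, (S g) i * v i z) x
    rw [hgr]
    have h1 : M (g + S.symm (∇ (fun z => ∑ i, (S g) i * v i z) (S.symm x))) =
        S (S g + ∇ (fun z => ∑ i, (S g) i * v i z) (S.symm x)) := by
      rw [← hS3, map_add, S.apply_symm_apply]
    rw [h1, ← map_smul, ← hx, map_add, hBx, S.apply_symm_apply, S.symm_apply_apply]

end Crest.Agent.R083
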