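import Crest.Agent.R083.IsoDefs
import Crest.Agent.R083.Glue
import Crest.Agent.R083.WdfOps
import Crest.Agent.R083.Wdf

-- ▼ part R083/IsoLoc
section

/-!
Row 83 (S0111), ISO group: the local step of the isotropisation (helper771).
-/

set_option autoImplicit false

namespace Crest.Agent.R083.Iso

open MeasureTheory Set Filter Metric
open scoped Gradient ENNReal NNReal Topology ContDiff

/-- `HEll` is stable under small perturbations (with a loss in the constant). -/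
theorem HEll_near {δ1 δ2 : ℝ} (h : δ2 < δ1) {p j : E3} (hE : HEll δ1 p j) :
    ∃ κ : ℝ, 0 < κ ∧ ∀ p' j' : E3, ‖p' - p‖ ≤ κ → ‖j' - j‖ ≤ κ → HEll δ2 p' j' := by
  let S : Set (E3 × E3) := {q | 0 < q.1 0 ^ 2 + q.1 1 ^ 2 ∧
    δ2 * (q.1 0 ^ 2 + q.1 1 ^ 2 + q.2 0 ^ 2 + q.2 1 ^ 2) < q.2 0 * q.1 0 + q.2 1 * q.1 1}
  have hc1 : ∀ i : Fin 3, Continuous fun q : E3 × E3 => q.1 i := fun i => by fun_prop
  have hc2 : ∀ i : Fin 3, Continuous fun q : E3 × E3 => q.2 i := fun i => by fun_prop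
  have o1 : IsOpen {q : E3 × E3 | 0 < q.1 0 ^ 2 + q.1 1 ^ 2} :=
    isOpen_lt continuous_const (((hc1 0).pow 2).add ((hc1 1).pow 2))
  have o2 : IsOpen {q : E3 × E3 | δ2 * (q.1 0 ^ 2 + q.1 1 ^ 2 + q.2 0 ^ 2 + q.2 1 ^ 2) <
      q.2 0 * q.1 0 + q.2 1 * q.1 1} :=
    isOpen_lt (continuous_const.mul (((((hc1 0).pow 2).add ((hc1 1).pow 2)).add
      ((hc2 0).pow 2)).add ((hc2 1).pow 2)))
      (((hc2 0).mul (hc1 0)).add ((hc2 1).mul (hc1 1)))
  have hS : IsOpen S := o1.inter o2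
  have hm : (p, j) ∈ S := by
    refine ⟨hE.1, lt_of_lt_of_le ?_ hE.2⟩
    have h1 : 0 < p 0 ^ 2 + p 1 ^ 2 + j 0 ^ 2 + j 1 ^ 2 := by
      have := hE.1
      positivity
    exact mul_lt_mul_of_pos_right h h1
  obtain ⟨ρ, hρ, hb⟩ := Metric.isOpen_iff.1 hS _ hm
  refine ⟨ρ / 2, by positivity, fun p' j' h1 h2 => ?_⟩
  have h3 : (p', j') ∈ S := by
    apply hb
    rw [mem_ball, Prod.dist_eq, max_lt_iff]
    constructor
    · rw [dist_eq_norm]; simp only; linarith
    · rw [dist_eq_norm]; simp only; linarith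
  exact ⟨h3.1, h3.2.le⟩

/-- The local output of one step in the ball `ball a r`. -/
structure Loc (c C : ℝ) (L Nb : ℝ≥0) (δ2 N2 ε : ℝ) (η : ℝ≥0) (M : E3 → (E3 →L[ℝ] E3))
    (Ω : Set E3) (w : E3 → ℝ) (J : E3 → E3) (a : E3) (r : ℝ) where
  γ : E3 → ℝ
  u : E3 → ℝ
  v1 : E3 → ℝ
  v2 : E3 → ℝ
  R : E3 → E3
  T1 : E3 → E3
  T2 : E3 → E3
  cb : closedBall a r ⊆ Ω
  v1s : ContDiff ℝ ∞ v1
  T1s : ContDiff ℝ ∞ T1
  pde : ∀ x, fderiv ℝ v1 x (ee 2) = T1 x 2
  dv : ∀ x, dvg T1 x = 0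
  ell : ∀ x ∈ ball a r, HEll δ2 (∇ (fun x => w x + v1 x) x) (J x + T1 x)
  bd : ∀ x ∈ ball a r, ‖∇ (fun x => w x + v1 x) x‖ ≤ N2
  γm : Measurable γ
  γb : ∀ x, c ≤ γ x ∧ γ x ≤ C
  uL : LipschitzWith L u
  v1L : LipschitzWith η v1
  v2L : LipschitzWith (L * Nb) v2
  z1 : ∀ x, x ∉ ball a r → v1 x = 0 ∧ T1 x = 0
  z2 : ∀ x, x ∉ ball a (r / 2) → u x = 0 ∧ v2 x = 0 ∧ R x = 0 ∧ T2 x = 0
  small : ∀ x, |u x| ≤ ε ∧ |v1 x| ≤ ε ∧ |v2 x| ≤ ε
  Rm : Measurable R
  T1m : Measurable T1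
  T2m : Measurable T2
  bds : ∀ x, ‖R x‖ ≤ L ∧ ‖T1 x‖ ≤ η ∧ ‖T2 x‖ ≤ L * Nb
  RW : WDF R
  T1W : WDF T1
  T2W : WDF T2
  rel : ∀ᵐ x ∂(volume.restrict (ball a (r / 2))),
    ee 2 + R x = γ x • M x (ee 2 + ∇ u x) ∧
    J x + T1 x + T2 x = γ x • M x (∇ (fun x => w x + v1 x) x + ∇ v2 x)

theorem norm_ee (i : Fin 3) : ‖ee i‖ = 1 := by
  simp [ee]

theorem fderiv_eq_inner_grad (f : E3 → ℝ) (x y : E3) : fderiv ℝ f x y = inner ℝ (∇ f x) y := by
  rw [grad_def, InnerProductSpace.toDual_symm_apply]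

theorem grad_apply_two (f : E3 → ℝ) (x : E3) : (∇ f x) 2 = fderiv ℝ f x (ee 2) := by
  rw [fderiv_eq_inner_grad, ee, EuclideanSpace.inner_single_right]
  simp

/-- The gradient of an affine function. -/
theorem grad_affine (b : ℝ) (g a x : E3) : ∇ (fun y => b + inner ℝ g (y - a)) x = g := by
  have h1 : HasFDerivAt (fun y : E3 => b + inner ℝ g (y - a)) (innerSL ℝ g) x := by
    have h2 : HasFDerivAt (fun y : E3 => (innerSL ℝ g) (y - a)) (innerSL ℝ g) x :=
      (innerSL ℝ g).hasFDerivAt.comp x ((hasFDerivAt_id x).sub_const a)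
    simpa using h2.const_add b
  have h3 : ∇ (fun y : E3 => b + inner ℝ g (y - a)) x
      = (InnerProductSpace.toDual ℝ E3).symm (innerSL ℝ g) := by
    rw [grad_def, h1.fderiv]
  rw [h3]
  apply (InnerProductSpace.toDual ℝ E3).injective
  rw [LinearIsometryEquiv.apply_symm_apply]
  ext y
  simp

theorem HEll_mono {δ0 δ1 : ℝ} (h : δ0 ≤ δ1) {p j : E3} (hE : HEll δ1 p j) : HEll δ0 p j := by
  refine ⟨hE.1, le_trans (mul_le_mul_of_nonneg_right h ?_) hE.2⟩
  positivity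

theorem grad_continuousAt {f : E3 → ℝ} {Ω : Set E3} (hΩ : IsOpen Ω) (hf : ContDiffOn ℝ ∞ f Ω)
    {a : E3} (ha : a ∈ Ω) : ContinuousAt (∇ f) a := by
  have h1 : ContinuousAt (fderiv ℝ f) a :=
    (hf.continuousOn_fderiv_of_isOpen hΩ (by simp)).continuousAt (hΩ.mem_nhds ha)
  exact (InnerProductSpace.toDual ℝ E3).symm.continuous.continuousAt.comp h1

theorem grad_congr {f g : E3 → ℝ} {x : E3} (h : f =ᶠ[𝓝 x] g) : ∇ f x = ∇ g x := by
  rw [grad_def, grad_def, h.fderiv_eq]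

section
variable
    (flatten : ∀ (Ω : Set E3) (w : E3 → ℝ) (J : E3 → E3) (_ : Sys Ω w J)
    (a : E3) (_ : a ∈ Ω) (η : ℝ≥0) (_ : 0 < η),
    ∃ r0 : ℝ, 0 < r0 ∧ ∀ r : ℝ, 0 < r → r < r0 → ∃ (v : E3 → ℝ) (T : E3 → E3),
      ContDiff ℝ ∞ v ∧ ContDiff ℝ ∞ T ∧ (∀ x, x ∉ ball a r → v x = 0 ∧ T x = 0) ∧
      LipschitzWith η v ∧ (∀ x, |v x| ≤ η) ∧ (∀ x, ‖T x‖ ≤ η) ∧ WDF T ∧
      (∀ x, fderiv ℝ v x (ee 2) = T x 2) ∧ (∀ x, dvg T x = 0) ∧
      ∀ x ∈ ball a (r / 2), w x + v x = w a + inner ℝ (∇ w a) (x - a) ∧ J x + T x = J a)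

include flatten

theorem exists_loc {c C : ℝ} {L Nb : ℝ≥0} {δ0 δ' μ δ1 δ2 N1 N2 ε : ℝ} {η : ℝ≥0}
    (hT : ∀ p j : E3, HEll δ0 p j → p 2 = j 2 →
      ∃ A : E3 →L[ℝ] E3, Ell δ' A ∧ A (ee 2) = ee 2 ∧ A p = j)
    (hR : ∀ M A : E3 →L[ℝ] E3, Ell μ M → Ell δ' A → ResolvesM c C L M A)
    (h21 : δ2 < δ1) (h01 : δ0 ≤ δ1) (hN : N1 < N2) (hNb : N1 ≤ Nb)
    {Ω : Set E3} {w : E3 → ℝ} {J : E3 → E3} (hS : Sys Ω w J)
    {M : E3 → (E3 →L[ℝ] E3)} (hM1 : ∀ x ∈ Ω, ∀ᶠ y in 𝓝 x, M y = M x)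
    (hM2 : ∀ x ∈ Ω, Ell μ (M x)) (hE : ∀ x ∈ Ω, HEll δ1 (∇ w x) (J x))
    (hN1 : ∀ x ∈ Ω, ‖∇ w x‖ ≤ N1) (hε : 0 < ε) (hη : 0 < η) {a : E3} (ha : a ∈ Ω) :
    ∃ ρ : ℝ, 0 < ρ ∧ ∀ r, 0 < r → r < ρ → Nonempty (Loc c C L Nb δ2 N2 ε η M Ω w J a r) := by
  obtain ⟨κ, hκ, hκ'⟩ := HEll_near h21 (hE a ha)
  have hη' : (0 : ℝ) < η := hη
  have he1 : 0 < min (min (η : ℝ) ε) (min (κ / 2) (N2 - N1)) :=
    lt_min (lt_min hη' hε) (lt_min (by positivity) (by linarith))
  obtain ⟨η1, hη1⟩ : ∃ η1 : ℝ≥0, (η1 : ℝ) = min (min (η : ℝ) ε) (min (κ / 2) (N2 - N1)) :=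
    ⟨⟨_, he1.le⟩, rfl⟩
  have hη1pos : 0 < η1 := by
    have : (0 : ℝ) < η1 := by rw [hη1]; exact he1
    exact_mod_cast this
  have hη1η : (η1 : ℝ) ≤ η := by
    rw [hη1]; exact (min_le_left _ _).trans (min_le_left _ _)
  have hη1ε : (η1 : ℝ) ≤ ε := by
    rw [hη1]; exact (min_le_left _ _).trans (min_le_right _ _)
  have hη1κ : (η1 : ℝ) ≤ κ / 2 := by
    rw [hη1]; exact (min_le_right _ _).trans (min_le_left _ _)
  have hη1N : (η1 : ℝ) ≤ N2 - N1 := by
    rw [hη1]; exact (min_le_right _ _).trans (min_le_right _ _)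
  obtain ⟨r0, hr0, hfl⟩ := flatten Ω w J hS a ha η1 hη1pos
  have hev : ∀ᶠ y in 𝓝 a, y ∈ Ω ∧ M y = M a ∧ ‖∇ w y - ∇ w a‖ < κ / 2 ∧ ‖J y - J a‖ < κ / 2 := by
    have e1 : ∀ᶠ y in 𝓝 a, y ∈ Ω := hS.op.mem_nhds ha
    have e2 := hM1 a ha
    have e3 : ∀ᶠ y in 𝓝 a, ‖∇ w y - ∇ w a‖ < κ / 2 := by
      have h1 := grad_continuousAt hS.op hS.hw ha
      have h2 : Tendsto (fun y => ‖∇ w y - ∇ w a‖) (𝓝 a) (𝓝 0) := by
        have := (h1.tendsto.sub_const (∇ w a)).norm
        simpa using this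
      exact h2.eventually (gt_mem_nhds (by positivity))
    have e4 : ∀ᶠ y in 𝓝 a, ‖J y - J a‖ < κ / 2 := by
      have h1 : ContinuousAt J a := hS.hJ.continuousOn.continuousAt (hS.op.mem_nhds ha)
      have h2 : Tendsto (fun y => ‖J y - J a‖) (𝓝 a) (𝓝 0) := by
        have := (h1.tendsto.sub_const (J a)).norm
        simpa using this
      exact h2.eventually (gt_mem_nhds (by positivity))
    filter_upwards [e1, e2, e3, e4] with y h1 h2 h3 h4 using ⟨h1, h2, h3, h4⟩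
  obtain ⟨ρ1, hρ1, hball⟩ := Metric.eventually_nhds_iff.1 hev
  refine ⟨min r0 ρ1, lt_min hr0 hρ1, fun r hr hrρ => ?_⟩
  have hrr0 : r < r0 := lt_of_lt_of_le hrρ (min_le_left _ _)
  have hrρ1 : r < ρ1 := lt_of_lt_of_le hrρ (min_le_right _ _)
  obtain ⟨v, T, hvs, hTs, hz, hvL, hvb, hTb, hTW, hpde, hdv, haff⟩ := hfl r hr hrr0
  obtain ⟨A, hA, hA2, hAp⟩ := hT (∇ w a) (J a) (HEll_mono h01 (hE a ha))
    (by rw [grad_apply_two]; exact hS.h2 a ha)
  obtain ⟨γ, hγm, hγb, hγ⟩ := hR (M a) A (hM2 a ha) hA (ball a (r / 2)) isOpen_ball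
    isBounded_ball ε (max 1 ‖∇ w a‖) hε
  obtain ⟨u, R, huL, hu0, hub, hRm, hRb, hR0, hRW, hRrel⟩ := hγ (ee 2) (by
    rw [norm_ee]; exact le_max_left _ _)
  obtain ⟨v2, T2, hv2L, hv20, hv2b, hT2m, hT2b, hT20, hT2W, hT2rel⟩ := hγ (∇ w a)
    (le_max_right _ _)
  have hNa : ‖∇ w a‖ ≤ Nb := (hN1 a ha).trans hNb
  have hin : ∀ y ∈ closedBall a r, y ∈ Ω ∧ M y = M a ∧ ‖∇ w y - ∇ w a‖ < κ / 2 ∧
      ‖J y - J a‖ < κ / 2 := fun y hy => hball (lt_of_le_of_lt (mem_closedBall.1 hy) hrρ1)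
  have hgr : ∀ y ∈ ball a r, ∇ (fun x => w x + v x) y = ∇ w y + ∇ v y := by
    intro y hy
    have hyΩ := (hin y (ball_subset_closedBall hy)).1
    refine grad_add ?_ ?_
    · exact (hS.hw.contDiffAt (hS.op.mem_nhds hyΩ)).differentiableAt (by simp)
    · exact (hvs.contDiffAt).differentiableAt (by simp)
  have hgv : ∀ y, ‖∇ v y‖ ≤ η1 := fun y => norm_grad_le hvL y
  refine ⟨{ γ := γ, u := u, v1 := v, v2 := v2, R := R, T1 := T, T2 := T2,
            cb := fun y hy => (hin y hy).1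
            v1s := hvs, T1s := hTs, pde := hpde, dv := hdv
            ell := ?_, bd := ?_, γm := hγm, γb := hγb, uL := ?_, v1L := ?_, v2L := ?_
            z1 := hz
            z2 := fun x hx => ⟨hu0 x hx, hv20 x hx, hR0 x hx, hT20 x hx⟩
            small := fun x => ⟨hub x, (hvb x).trans hη1ε, hv2b x⟩
            Rm := hRm, T1m := hTs.continuous.measurable, T2m := hT2m
            bds := ?_, RW := hRW, T1W := hTW, T2W := hT2W, rel := ?_ }⟩
  · intro x hx
    obtain ⟨_, _, h3, h4⟩ := hin x (ball_subset_closedBall hx)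
    refine hκ' _ _ ?_ ?_
    · rw [hgr x hx]
      have : ∇ w x + ∇ v x - ∇ w a = (∇ w x - ∇ w a) + ∇ v x := by abel
      rw [this]
      refine (norm_add_le _ _).trans ?_
      have := hgv x
      linarith
    · have : J x + T x - J a = (J x - J a) + T x := by abel
      rw [this]
      refine (norm_add_le _ _).trans ?_
      have := hTb x
      linarith
  · intro x hx
    rw [hgr x hx]
    refine (norm_add_le _ _).trans ?_
    have h1 := hgv x
    have h2 := hN1 x (hin x (ball_subset_closedBall hx)).1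
    linarith
  · have : ‖ee 2‖₊ = 1 := by
      apply NNReal.coe_injective
      rw [coe_nnnorm, norm_ee]; rfl
    rw [this, mul_one] at huL
    exact huL
  · exact hvL.weaken hη1η
  · refine hv2L.weaken ?_
    gcongr
    exact_mod_cast hNa
  · intro x
    refine ⟨?_, (hTb x).trans hη1η, (hT2b x).trans ?_⟩
    · have := hRb x
      rwa [norm_ee, mul_one] at this
    · gcongr
  · have hsub : ball a (r / 2) ⊆ ball a r := ball_subset_ball (by linarith)
    filter_upwards [hRrel, hT2rel, ae_restrict_mem measurableSet_ball] with x h1 h2 hx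
    have hMx : M x = M a := (hin x (ball_subset_closedBall (hsub hx))).2.1
    have hJx : J x + T x = J a := (haff x hx).2
    have hgx : ∇ (fun x => w x + v x) x = ∇ w a := by
      have : (fun x => w x + v x) =ᶠ[𝓝 x] fun y => w a + inner ℝ (∇ w a) (y - a) := by
        filter_upwards [isOpen_ball.mem_nhds hx] with y hy using (haff y hy).1
      rw [grad_congr this, grad_affine]
    refine ⟨?_, ?_⟩
    · rw [hMx, ← h1, hA2]
    · rw [hMx, hgx, hJx, ← h2, hAp]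

end

end Crest.Agent.R083.Iso
end

-- ▼ part R083/IsoStep
section

/-!
Row 83 (S0111), ISO group: one global step of the isotropisation (helper771).
-/

set_option autoImplicit false

namespace Crest.Agent.R083.Iso

open MeasureTheory Set Filter Metric
open scoped Gradient ENNReal NNReal Topology ContDiff

section Sums

variable {ι : Type*} {F : Type*}

theorem vtsum_of_mem [AddCommMonoid F] [TopologicalSpace F] (f : ι → E3 → F) (U : ι → Set E3)
    (hU : Pairwise (Function.onFun Disjoint U))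
    (h0 : ∀ i x, x ∉ U i → f i x = 0) {i : ι} {x : E3} (hx : x ∈ U i) :
    ∑' j, f j x = f i x := by
  refine tsum_eq_single i fun j hj => h0 j x fun hxj => ?_
  exact Set.disjoint_left.1 (hU hj) hxj hx

theorem vtsum_of_notMem [AddCommMonoid F] [TopologicalSpace F] (f : ι → E3 → F) (U : ι → Set E3)
    (h0 : ∀ i x, x ∉ U i → f i x = 0) {x : E3} (hx : ∀ i, x ∉ U i) :
    ∑' j, f j x = 0 := by
  have : (fun j => f j x) = fun _ => 0 := funext fun j => h0 j x (hx j)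
  rw [this, tsum_zero]

/-- A property of the value of a disjoint sum. -/
theorem vtsum_prop [AddCommMonoid F] [TopologicalSpace F] (f : ι → E3 → F) (U : ι → Set E3)
    (hU : Pairwise (Function.onFun Disjoint U))
    (h0 : ∀ i x, x ∉ U i → f i x = 0) (P : F → Prop) (hP0 : P 0) (x : E3)
    (hP : ∀ i, P (f i x)) : P (∑' j, f j x) := by
  by_cases h : ∃ i, x ∈ U i
  · obtain ⟨i, hi⟩ := h
    rw [vtsum_of_mem f U hU h0 hi]
    exact hP i
  · push Not at h
    rw [vtsum_of_notMem f U h0 h]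
    exact hP0

theorem vtsum_measurable [Countable ι] [NormedAddCommGroup F]
    [MeasurableSpace F] [BorelSpace F] [SecondCountableTopology F]
    (f : ι → E3 → F) (U : ι → Set E3)
    (hU : Pairwise (Function.onFun Disjoint U))
    (h0 : ∀ i x, x ∉ U i → f i x = 0) (hf : ∀ i, Measurable (f i)) :
    Measurable fun x => ∑' j, f j x := by
  classical
  have hs : ∀ x, HasSum (fun j => f j x) (∑' j, f j x) := by
    intro x
    by_cases h : ∃ i, x ∈ U i
    · obtain ⟨i, hi⟩ := h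
      rw [vtsum_of_mem f U hU h0 hi]
      refine hasSum_single i fun j hj => h0 j x fun hxj => ?_
      exact Set.disjoint_left.1 (hU hj) hxj hi
    · push Not at h
      rw [vtsum_of_notMem f U h0 h]
      have : (fun j => f j x) = fun _ => 0 := funext fun j => h0 j x (h j)
      rw [this]
      exact hasSum_zero
  refine measurable_of_tendsto_metrizable' (u := (atTop : Filter (Finset ι)))
    (f := fun s x => ∑ j ∈ s, f j x) (fun s => ?_) ?_
  · exact Finset.measurable_fun_sum s fun i _ => hf i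
  · rw [tendsto_pi_nhds]
    intro x
    exact hs x

/-- Integrals of bounded fields with disjoint bounded supports are summable. -/
theorem vsummable_integral [Countable ι] [NormedAddCommGroup F] (f : ι → E3 → F) (U : ι → Set E3)
    (hU : Pairwise (Function.onFun Disjoint U)) (hUm : ∀ i, MeasurableSet (U i))
    {Ω : Set E3} (hΩ : volume Ω ≠ ⊤) (hUΩ : ∀ i, U i ⊆ Ω)
    (h0 : ∀ i x, x ∉ U i → f i x = 0) (K : ℝ) (hK : ∀ i x, ‖f i x‖ ≤ K) :
    Summable fun i => ∫ x, ‖f i x‖ := by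
  have hfin : ∑' i, volume (U i) ≠ ⊤ := by
    rw [← measure_iUnion hU hUm]
    exact ne_top_of_le_ne_top hΩ (measure_mono (iUnion_subset hUΩ))
  have hs : Summable fun i => K * volume.real (U i) :=
    (ENNReal.summable_toReal hfin).mul_left K
  refine Summable.of_nonneg_of_le (fun i => integral_nonneg fun x => norm_nonneg _) ?_ hs
  intro i
  have h1 : (∫ x, ‖f i x‖) = ∫ x in U i, ‖f i x‖ := by
    rw [setIntegral_eq_integral_of_forall_compl_eq_zero]
    intro x hx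
    rw [h0 i x hx, norm_zero]
  rw [h1]
  have h2 : ‖∫ x in U i, ‖f i x‖‖ ≤ K * volume.real (U i) := by
    refine norm_setIntegral_le_of_norm_le_const ?_ fun x _ => ?_
    · exact lt_of_le_of_lt (measure_mono (hUΩ i)) hΩ.lt_top
    · rw [norm_norm]; exact hK i x
  exact (le_abs_self _).trans h2

end Sums

/-- The output of one global step. -/
structure StepOut (c C : ℝ) (L Nb : ℝ≥0) (δ2 N2 ε : ℝ) (η : ℝ≥0) (M : E3 → (E3 →L[ℝ] E3))
    (Ω : Set E3) (w : E3 → ℝ) (J : E3 → E3) where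
  Ω' : Set E3
  G : Set E3
  γ : E3 → ℝ
  u : E3 → ℝ
  v1 : E3 → ℝ
  v2 : E3 → ℝ
  R : E3 → E3
  T1 : E3 → E3
  T2 : E3 → E3
  sub : Ω' ⊆ Ω
  Gop : IsOpen G
  Gsub : G ⊆ Ω
  disj : Disjoint G Ω'
  null : volume (Ω \ (G ∪ Ω')) = 0
  vol : volume Ω' ≤ ENNReal.ofReal (7 / 8) * volume Ω
  sys : Sys Ω' (fun x => w x + v1 x) (fun x => J x + T1 x)
  ell : ∀ x ∈ Ω', HEll δ2 (∇ (fun x => w x + v1 x) x) (J x + T1 x)
  bd : ∀ x ∈ Ω', ‖∇ (fun x => w x + v1 x) x‖ ≤ N2
  γm : Measurable γ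
  γb : ∀ x, c ≤ γ x ∧ γ x ≤ C
  uL : LipschitzWith (2 * L) u
  v1L : LipschitzWith (2 * η) v1
  v2L : LipschitzWith (2 * (L * Nb)) v2
  zG : ∀ x, x ∉ G → u x = 0 ∧ v2 x = 0 ∧ R x = 0 ∧ T2 x = 0
  zΩ : ∀ x, x ∉ Ω → v1 x = 0 ∧ T1 x = 0
  small : ∀ x, |u x| ≤ ε ∧ |v1 x| ≤ ε ∧ |v2 x| ≤ ε
  Rm : Measurable R
  T1m : Measurable T1
  T2m : Measurable T2
  bds : ∀ x, ‖R x‖ ≤ L ∧ ‖T1 x‖ ≤ η ∧ ‖T2 x‖ ≤ L * Nb
  RW : WDF R
  T1W : WDF T1
  T2W : WDF T2
  rel : ∀ᵐ x ∂(volume.restrict G),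
    ee 2 + R x = γ x • M x (ee 2 + ∇ u x) ∧
    J x + T1 x + T2 x = γ x • M x (∇ (fun x => w x + v1 x) x + ∇ v2 x)

theorem volume_annulus (a : E3) {r : ℝ} (hr : 0 < r) :
    volume (ball a r \ closedBall a (r / 2)) = ENNReal.ofReal (7 / 8) * volume (ball a r) := by
  have hfr : Module.finrank ℝ E3 = 3 := by simp [E3]
  have h1 : volume (closedBall a (r / 2)) = ENNReal.ofReal (1 / 8) * volume (ball a r) := by
    rw [Measure.addHaar_closedBall volume a (by positivity : 0 ≤ r / 2),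
      Measure.addHaar_ball volume a hr.le, hfr, ← mul_assoc,
      ← ENNReal.ofReal_mul (by norm_num)]
    congr 2
    ring
  have hfin : volume (ball a r) ≠ ⊤ := measure_ball_lt_top.ne
  have hsub : closedBall a (r / 2) ⊆ ball a r := closedBall_subset_ball (by linarith)
  rw [measure_diff hsub isClosed_closedBall.measurableSet.nullMeasurableSet
    (ne_top_of_le_ne_top hfin (measure_mono hsub)), h1]
  have h2 : volume (ball a r) = ENNReal.ofReal 1 * volume (ball a r) := by simp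
  conv_lhs => rw [h2]
  rw [ENNReal.ofReal_one, one_mul]
  refine ENNReal.sub_eq_of_eq_add ?_ ?_
  · exact ENNReal.mul_ne_top ENNReal.ofReal_ne_top hfin
  · rw [← add_mul, ← ENNReal.ofReal_add (by norm_num) (by norm_num)]
    norm_num

theorem iso_step
    {c C : ℝ} {L Nb : ℝ≥0} {δ2 N2 ε : ℝ} {η : ℝ≥0} (hcC : c ≤ C) (hε : 0 ≤ ε)
    {Ω : Set E3} {w : E3 → ℝ} {J : E3 → E3} (hS : Sys Ω w J) (hΩb : Bornology.IsBounded Ω)
    {M : E3 → (E3 →L[ℝ] E3)}
    (hloc : ∀ a ∈ Ω, ∃ ρ : ℝ, 0 < ρ ∧ ∀ r, 0 < r → r < ρ →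
      Nonempty (Loc c C L Nb δ2 N2 ε η M Ω w J a r)) :
    Nonempty (StepOut c C L Nb δ2 N2 ε η M Ω w J) := by
  classical
  have hvolΩ : volume Ω ≠ ⊤ := hΩb.measure_lt_top.ne
  choose! ρ hρ hL using hloc
  obtain ⟨t, r, htc, htΩ, hr, hnull, hdis⟩ :=
    Besicovitch.exists_disjoint_closedBall_covering_ae (volume : Measure E3) (fun _ => univ) Ω
      (fun x _ δ hδ => ⟨δ / 2, mem_univ _, by constructor <;> linarith⟩) ρ hρ
  haveI : Countable t := htc.to_subtype
  have hr0 : ∀ i : t, 0 < r i := fun i => (hr i i.2).2.1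
  let D : ∀ i : t, Loc c C L Nb δ2 N2 ε η M Ω w J i (r i) := fun i =>
    (hL i (htΩ i.2) (r i) (hr0 i) (hr i i.2).2.2).some
  let B : t → Set E3 := fun i => ball i (r i)
  let Bh : t → Set E3 := fun i => ball i (r i / 2)
  have hBhB : ∀ i, Bh i ⊆ B i := fun i => ball_subset_ball (by have := hr0 i; linarith)
  have hcd : Pairwise (Function.onFun Disjoint fun i : t => closedBall (i : E3) (r i)) := by
    intro i j hij
    exact hdis i.2 j.2 (fun h => hij (Subtype.ext h))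
  have hBd : Pairwise (Function.onFun Disjoint B) := fun i j hij =>
    (hcd hij).mono ball_subset_closedBall ball_subset_closedBall
  have hBhd : Pairwise (Function.onFun Disjoint Bh) := fun i j hij =>
    (hBd hij).mono (hBhB i) (hBhB j)
  have hBΩ : ∀ i, B i ⊆ Ω := fun i => ball_subset_closedBall.trans (D i).cb
  have z1v : ∀ i x, x ∉ B i → (D i).v1 x = 0 := fun i x hx => ((D i).z1 x hx).1
  have z1T : ∀ i x, x ∉ B i → (D i).T1 x = 0 := fun i x hx => ((D i).z1 x hx).2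
  have z2u : ∀ i x, x ∉ Bh i → (D i).u x = 0 := fun i x hx => ((D i).z2 x hx).1
  have z2v : ∀ i x, x ∉ Bh i → (D i).v2 x = 0 := fun i x hx => ((D i).z2 x hx).2.1
  have z2R : ∀ i x, x ∉ Bh i → (D i).R x = 0 := fun i x hx => ((D i).z2 x hx).2.2.1
  have z2T : ∀ i x, x ∉ Bh i → (D i).T2 x = 0 := fun i x hx => ((D i).z2 x hx).2.2.2
  -- the sums
  let u : E3 → ℝ := fun x => ∑' i, (D i).u x
  let v1 : E3 → ℝ := fun x => ∑' i, (D i).v1 x
  let v2 : E3 → ℝ := fun x => ∑' i, (D i).v2 x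
  let R : E3 → E3 := fun x => ∑' i, (D i).R x
  let T1 : E3 → E3 := fun x => ∑' i, (D i).T1 x
  let T2 : E3 → E3 := fun x => ∑' i, (D i).T2 x
  have ev1 : ∀ i, ∀ x ∈ B i, v1 x = (D i).v1 x := fun i x hx =>
    vtsum_of_mem (fun i => (D i).v1) B hBd z1v hx
  have eT1 : ∀ i, ∀ x ∈ B i, T1 x = (D i).T1 x := fun i x hx =>
    vtsum_of_mem (fun i => (D i).T1) B hBd z1T hx
  have eu : ∀ i, ∀ x ∈ Bh i, u x = (D i).u x := fun i x hx =>
    vtsum_of_mem (fun i => (D i).u) Bh hBhd z2u hx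
  have ev2 : ∀ i, ∀ x ∈ Bh i, v2 x = (D i).v2 x := fun i x hx =>
    vtsum_of_mem (fun i => (D i).v2) Bh hBhd z2v hx
  have eR : ∀ i, ∀ x ∈ Bh i, R x = (D i).R x := fun i x hx =>
    vtsum_of_mem (fun i => (D i).R) Bh hBhd z2R hx
  have eT2 : ∀ i, ∀ x ∈ Bh i, T2 x = (D i).T2 x := fun i x hx =>
    vtsum_of_mem (fun i => (D i).T2) Bh hBhd z2T hx
  -- the medium
  let f : t → E3 → ℝ := fun i => (Bh i).indicator (fun x => (D i).γ x - c)
  have hf0 : ∀ i x, x ∉ Bh i → f i x = 0 := fun i x hx => indicator_of_notMem hx _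
  let γ : E3 → ℝ := fun x => c + ∑' i, f i x
  have eγ : ∀ i, ∀ x ∈ Bh i, γ x = (D i).γ x := by
    intro i x hx
    have : ∑' i, f i x = f i x := vtsum_of_mem f Bh hBhd hf0 hx
    simp only [γ, this, f, indicator_of_mem hx]
    ring
  have hγm : Measurable γ := by
    refine measurable_const.add (vtsum_measurable f Bh hBhd hf0 fun i => ?_)
    exact ((D i).γm.sub_const c).indicator measurableSet_ball
  have hγb : ∀ x, c ≤ γ x ∧ γ x ≤ C := by
    intro x
    by_cases h : ∃ i, x ∈ Bh i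
    · obtain ⟨i, hi⟩ := h
      rw [eγ i x hi]
      exact (D i).γb x
    · push Not at h
      have : ∑' i, f i x = 0 := vtsum_of_notMem f Bh hf0 h
      simp only [γ, this, add_zero]
      exact ⟨le_rfl, hcC⟩
  -- gradients near points of the balls
  have ew : ∀ i, ∀ x ∈ B i, (fun y => w y + v1 y) =ᶠ[𝓝 x] fun y => w y + (D i).v1 y := by
    intro i x hx
    filter_upwards [isOpen_ball.mem_nhds hx] with y hy
    rw [ev1 i y hy]
  have eJ : ∀ i, ∀ x ∈ B i, (fun y => J y + T1 y) =ᶠ[𝓝 x] fun y => J y + (D i).T1 y := by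
    intro i x hx
    filter_upwards [isOpen_ball.mem_nhds hx] with y hy
    rw [eT1 i y hy]
  let Ω' : Set E3 := ⋃ i : t, (B i \ closedBall (i : E3) (r i / 2))
  let G : Set E3 := ⋃ i : t, Bh i
  have hΩ'B : ∀ x ∈ Ω', ∃ i, x ∈ B i := fun x hx => by
    obtain ⟨i, hi⟩ := mem_iUnion.1 hx
    exact ⟨i, hi.1⟩
  have hΩ'op : IsOpen Ω' := isOpen_iUnion fun i => isOpen_ball.sdiff isClosed_closedBall
  have hGn : ∀ x, x ∉ G → ∀ i, x ∉ Bh i := fun x hx i hi => hx (mem_iUnion.2 ⟨i, hi⟩)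
  have hsum : ∀ (g : t → E3 → E3) (U : t → Set E3), (∀ i, U i ⊆ B i) →
      (∀ i, MeasurableSet (U i)) → Pairwise (Function.onFun Disjoint U) →
      (∀ i x, x ∉ U i → g i x = 0) → ∀ K : ℝ, (∀ i x, ‖g i x‖ ≤ K) → (∀ i, WDF (g i)) →
      WDF fun x => ∑' i, g i x := by
    intro g U hUB hUm hUd h0 K hK hW
    exact wdf_tsum g hW (vsummable_integral g U hUd hUm hvolΩ (fun i => (hUB i).trans (hBΩ i))
      h0 K hK)
  refine ⟨{ Ω' := Ω', G := G, γ := γ, u := u, v1 := v1, v2 := v2, R := R, T1 := T1, T2 := T2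
            sub := ?_, Gop := isOpen_iUnion fun i => isOpen_ball, Gsub := ?_, disj := ?_
            null := ?_, vol := ?_, sys := ?_, ell := ?_, bd := ?_, γm := hγm, γb := hγb
            uL := ?_, v1L := ?_, v2L := ?_, zG := ?_, zΩ := ?_, small := ?_
            Rm := ?_, T1m := ?_, T2m := ?_, bds := ?_, RW := ?_, T1W := ?_, T2W := ?_
            rel := ?_ }⟩
  · exact iUnion_subset fun i => diff_subset.trans (hBΩ i)
  · exact iUnion_subset fun i => (hBhB i).trans (hBΩ i)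
  · rw [disjoint_iUnion_left]
    intro i
    rw [disjoint_iUnion_right]
    intro j
    by_cases hij : i = j
    · subst hij
      exact disjoint_left.2 fun x hx hx' => hx'.2 (ball_subset_closedBall hx)
    · exact (hBd hij).mono (hBhB i) diff_subset
  · -- null set
    have hsub : Ω \ (G ∪ Ω') ⊆ (Ω \ ⋃ x ∈ t, closedBall x (r x)) ∪
        ⋃ i : t, (sphere (i : E3) (r i) ∪ sphere (i : E3) (r i / 2)) := by
      intro x hx
      by_cases h : x ∈ ⋃ x ∈ t, closedBall x (r x)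
      · right
        rw [mem_iUnion₂] at h
        obtain ⟨a, ha, hxa⟩ := h
        refine mem_iUnion.2 ⟨⟨a, ha⟩, ?_⟩
        by_contra hns
        rw [mem_union, not_or] at hns
        apply hx.2
        have h1 : dist x a < r a := lt_of_le_of_ne (mem_closedBall.1 hxa) hns.1
        rcases lt_trichotomy (dist x a) (r a / 2) with h2 | h2 | h2
        · exact Or.inl (mem_iUnion.2 ⟨⟨a, ha⟩, h2⟩)
        · exact absurd h2 hns.2
        · refine Or.inr (mem_iUnion.2 ⟨⟨a, ha⟩, h1, fun h3 => ?_⟩)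
          exact absurd (mem_closedBall.1 h3) (not_le.2 h2)
      · exact Or.inl ⟨hx.1, h⟩
    refine measure_mono_null hsub (measure_union_null hnull (measure_iUnion_null fun i => ?_))
    exact measure_union_null (Measure.addHaar_sphere _ _ _) (Measure.addHaar_sphere _ _ _)
  · -- volume
    calc volume Ω' ≤ ∑' i : t, volume (B i \ closedBall (i : E3) (r i / 2)) :=
          measure_iUnion_le _
      _ = ∑' i : t, ENNReal.ofReal (7 / 8) * volume (B i) := by
          congr 1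
          ext i
          exact volume_annulus _ (hr0 i)
      _ = ENNReal.ofReal (7 / 8) * ∑' i : t, volume (B i) := ENNReal.tsum_mul_left
      _ = ENNReal.ofReal (7 / 8) * volume (⋃ i, B i) := by
          rw [measure_iUnion hBd fun i => measurableSet_ball]
      _ ≤ ENNReal.ofReal (7 / 8) * volume Ω := by
          gcongr
          exact iUnion_subset hBΩ
  · -- the system
    refine ⟨hΩ'op, ?_, ?_, ?_, ?_⟩
    · intro x hx
      obtain ⟨i, hi⟩ := hΩ'B x hx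
      have h1 : ContDiffAt ℝ ∞ (fun y => w y + (D i).v1 y) x :=
        (hS.hw.contDiffAt (hS.op.mem_nhds (hBΩ i hi))).add (D i).v1s.contDiffAt
      exact (h1.congr_of_eventuallyEq (ew i x hi)).contDiffWithinAt
    · intro x hx
      obtain ⟨i, hi⟩ := hΩ'B x hx
      have h1 : ContDiffAt ℝ ∞ (fun y => J y + (D i).T1 y) x :=
        (hS.hJ.contDiffAt (hS.op.mem_nhds (hBΩ i hi))).add (D i).T1s.contDiffAt
      exact (h1.congr_of_eventuallyEq (eJ i x hi)).contDiffWithinAt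
    · intro x hx
      obtain ⟨i, hi⟩ := hΩ'B x hx
      have hd1 : DifferentiableAt ℝ w x :=
        (hS.hw.contDiffAt (hS.op.mem_nhds (hBΩ i hi))).differentiableAt (by simp)
      have hd2 : DifferentiableAt ℝ (D i).v1 x :=
        ((D i).v1s.contDiffAt).differentiableAt (by simp)
      rw [(ew i x hi).fderiv_eq, fderiv_fun_add hd1 hd2]
      have h1 := hS.h2 x (hBΩ i hi)
      have h2 := (D i).pde x
      simp only [ContinuousLinearMap.add_apply, h1, h2, eT1 i x hi, PiLp.add_apply]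
    · intro x hx
      obtain ⟨i, hi⟩ := hΩ'B x hx
      have hd1 : DifferentiableAt ℝ J x :=
        (hS.hJ.contDiffAt (hS.op.mem_nhds (hBΩ i hi))).differentiableAt (by simp)
      have hd2 : DifferentiableAt ℝ (D i).T1 x :=
        ((D i).T1s.contDiffAt).differentiableAt (by simp)
      have h1 := hS.hd x (hBΩ i hi)
      have h2 := (D i).dv x
      unfold dvg at h1 h2 ⊢
      rw [(eJ i x hi).fderiv_eq, fderiv_fun_add hd1 hd2]
      simp only [ContinuousLinearMap.add_apply, PiLp.add_apply, Finset.sum_add_distrib]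
      rw [h1, h2, add_zero]
  · intro x hx
    obtain ⟨i, hi⟩ := hΩ'B x hx
    rw [grad_congr (ew i x hi), eT1 i x hi]
    exact (D i).ell x hi
  · intro x hx
    obtain ⟨i, hi⟩ := hΩ'B x hx
    rw [grad_congr (ew i x hi)]
    exact (D i).bd x hi
  · exact lip_tsum _ _ (fun i => (D i).uL) Bh hBhd z2u
  · exact lip_tsum _ _ (fun i => (D i).v1L) B hBd z1v
  · exact lip_tsum _ _ (fun i => (D i).v2L) Bh hBhd z2v
  · intro x hx
    have h := hGn x hx
    exact ⟨vtsum_of_notMem _ Bh z2u h, vtsum_of_notMem _ Bh z2v h, vtsum_of_notMem _ Bh z2R h,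
      vtsum_of_notMem _ Bh z2T h⟩
  · intro x hx
    have h : ∀ i, x ∉ B i := fun i hi => hx (hBΩ i hi)
    exact ⟨vtsum_of_notMem _ B z1v h, vtsum_of_notMem _ B z1T h⟩
  · intro x
    refine ⟨?_, ?_, ?_⟩
    · exact vtsum_prop (fun i => (D i).u) Bh hBhd z2u (fun s => |s| ≤ ε) (by simpa using hε) x
        fun i => ((D i).small x).1
    · exact vtsum_prop (fun i => (D i).v1) B hBd z1v (fun s => |s| ≤ ε) (by simpa using hε) x
        fun i => ((D i).small x).2.1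
    · exact vtsum_prop (fun i => (D i).v2) Bh hBhd z2v (fun s => |s| ≤ ε) (by simpa using hε) x
        fun i => ((D i).small x).2.2
  · exact vtsum_measurable _ Bh hBhd z2R fun i => (D i).Rm
  · exact vtsum_measurable _ B hBd z1T fun i => (D i).T1m
  · exact vtsum_measurable _ Bh hBhd z2T fun i => (D i).T2m
  · intro x
    refine ⟨?_, ?_, ?_⟩
    · exact vtsum_prop (fun i => (D i).R) Bh hBhd z2R (fun s => ‖s‖ ≤ L) (by simp) x
        fun i => ((D i).bds x).1
    · exact vtsum_prop (fun i => (D i).T1) B hBd z1T (fun s => ‖s‖ ≤ η) (by simp) x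
        fun i => ((D i).bds x).2.1
    · exact vtsum_prop (fun i => (D i).T2) Bh hBhd z2T (fun s => ‖s‖ ≤ L * Nb)
        (by simp only [norm_zero]; positivity) x fun i => ((D i).bds x).2.2
  · exact hsum _ Bh hBhB (fun i => measurableSet_ball) hBhd z2R _
      (fun i x => ((D i).bds x).1) fun i => (D i).RW
  · exact hsum _ B (fun i => Subset.rfl) (fun i => measurableSet_ball) hBd z1T _
      (fun i x => ((D i).bds x).2.1) fun i => (D i).T1W
  · exact hsum _ Bh hBhB (fun i => measurableSet_ball) hBhd z2T _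
      (fun i x => ((D i).bds x).2.2) fun i => (D i).T2W
  · refine (ae_restrict_iUnion_iff _ _).2 fun i => ?_
    filter_upwards [(D i).rel, ae_restrict_mem measurableSet_ball] with x hx hxi
    have hxB : x ∈ B i := hBhB i hxi
    have g1 : ∇ u x = ∇ (D i).u x := grad_congr (by
      filter_upwards [isOpen_ball.mem_nhds hxi] with y hy using eu i y hy)
    have g2 : ∇ v2 x = ∇ (D i).v2 x := grad_congr (by
      filter_upwards [isOpen_ball.mem_nhds hxi] with y hy using ev2 i y hy)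
    rw [g1, g2, grad_congr (ew i x hxB), eγ i x hxi, eR i x hxi, eT1 i x hxB, eT2 i x hxi]
    exact hx

end Crest.Agent.R083.Iso
end

-- ▼ part R083/IsoIter

/-!
Row 83 (S0111), ISO group: the iteration of the global step (helper771).
-/

set_option autoImplicit false

namespace Crest.Agent.R083.Iso

open MeasureTheory Set Filter Metric
open scoped Gradient ENNReal NNReal Topology ContDiff

/-- A sequence of steps. -/
structure Sq (c C : ℝ) (L Nb : ℝ≥0) (δ N ε : ℕ → ℝ) (η : ℕ → ℝ≥0)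
    (M : E3 → (E3 →L[ℝ] E3)) (V : Set E3) (w : E3 → ℝ) (J : E3 → E3) where
  Ω : ℕ → Set E3
  wk : ℕ → E3 → ℝ
  Jk : ℕ → E3 → E3
  O : ∀ k, StepOut c C L Nb (δ (k + 1)) (N (k + 1)) (ε k) (η k) M (Ω k) (wk k) (Jk k)
  Ω0 : Ω 0 = V
  w0 : wk 0 = w
  J0 : Jk 0 = J
  Ωs : ∀ k, Ω (k + 1) = (O k).Ω'
  ws : ∀ k, wk (k + 1) = fun x => wk k x + (O k).v1 x
  Js : ∀ k, Jk (k + 1) = fun x => Jk k x + (O k).T1 x

section

variable {c C : ℝ} {L Nb : ℝ≥0} {δ N ε : ℕ → ℝ} {η : ℕ → ℝ≥0}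
    {M : E3 → (E3 →L[ℝ] E3)} {V : Set E3} {w : E3 → ℝ} {J : E3 → E3}

theorem exists_sq
    (hstep : ∀ k (Ω : Set E3) (w : E3 → ℝ) (J : E3 → E3), Ω ⊆ V → Sys Ω w J →
      (∀ x ∈ Ω, HEll (δ k) (∇ w x) (J x)) → (∀ x ∈ Ω, ‖∇ w x‖ ≤ N k) →
      Nonempty (StepOut c C L Nb (δ (k + 1)) (N (k + 1)) (ε k) (η k) M Ω w J))
    (hS : Sys V w J) (hE : ∀ x ∈ V, HEll (δ 0) (∇ w x) (J x))
    (hN : ∀ x ∈ V, ‖∇ w x‖ ≤ N 0) :
    Nonempty (Sq c C L Nb δ N ε η M V w J) := by
  classical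
  let Inv : ℕ → Set E3 × (E3 → ℝ) × (E3 → E3) → Prop := fun k s =>
    s.1 ⊆ V ∧ Sys s.1 s.2.1 s.2.2 ∧ (∀ x ∈ s.1, HEll (δ k) (∇ s.2.1 x) (s.2.2 x)) ∧
      (∀ x ∈ s.1, ‖∇ s.2.1 x‖ ≤ N k)
  let out : ∀ k (s : {s // Inv k s}),
      StepOut c C L Nb (δ (k + 1)) (N (k + 1)) (ε k) (η k) M s.1.1 s.1.2.1 s.1.2.2 :=
    fun k s => (hstep k _ _ _ s.2.1 s.2.2.1 s.2.2.2.1 s.2.2.2.2).some
  let st : ∀ k, {s // Inv k s} := fun k => Nat.rec (motive := fun k => {s // Inv k s})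
    ⟨(V, w, J), Subset.rfl, hS, hE, hN⟩
    (fun k s => ⟨((out k s).Ω', fun x => s.1.2.1 x + (out k s).v1 x,
      fun x => s.1.2.2 x + (out k s).T1 x),
      (out k s).sub.trans s.2.1, (out k s).sys, (out k s).ell, (out k s).bd⟩) k
  exact ⟨{ Ω := fun k => (st k).1.1, wk := fun k => (st k).1.2.1, Jk := fun k => (st k).1.2.2
           O := fun k => out k (st k), Ω0 := rfl, w0 := rfl, J0 := rfl, Ωs := fun k => rfl
           ws := fun k => rfl, Js := fun k => rfl }⟩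

variable (S : Sq c C L Nb δ N ε η M V w J)

theorem Sq.anti : Antitone S.Ω :=
  antitone_nat_of_succ_le fun k => by
    rw [S.Ωs]
    exact (S.O k).sub

theorem Sq.subV (k : ℕ) : S.Ω k ⊆ V := by
  have := S.anti (Nat.zero_le k)
  rwa [S.Ω0] at this

theorem Sq.GV (k : ℕ) : (S.O k).G ⊆ V := (S.O k).Gsub.trans (S.subV k)

theorem Sq.GΩ {j k : ℕ} (h : j < k) : Disjoint (S.O j).G (S.Ω k) :=
  (S.O j).disj.mono_right (by rw [← S.Ωs]; exact S.anti h)

theorem Sq.Gd : Pairwise (Function.onFun Disjoint fun k => (S.O k).G) := by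
  intro i j hij
  rcases lt_or_gt_of_ne hij with h | h
  · exact (S.GΩ h).mono_right (S.O j).Gsub
  · exact ((S.GΩ h).mono_right (S.O i).Gsub).symm

theorem Sq.vol (k : ℕ) : volume (S.Ω k) ≤ ENNReal.ofReal (7 / 8) ^ k * volume V := by
  induction k with
  | zero => simp [S.Ω0]
  | succ k ih =>
    rw [S.Ωs, pow_succ', mul_assoc]
    exact (S.O k).vol.trans (by gcongr)

theorem Sq.null (hV : volume V ≠ ⊤) : volume (V \ ⋃ k, (S.O k).G) = 0 := by
  classical
  have h1 : V \ ⋃ k, (S.O k).G ⊆ (⋃ k, S.Ω k \ ((S.O k).G ∪ S.Ω (k + 1))) ∪ ⋂ k, S.Ω k := by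
    intro x hx
    by_cases h : x ∈ ⋂ k, S.Ω k
    · exact Or.inr h
    · left
      rw [mem_iInter] at h
      push Not at h
      have hk := Nat.find_spec h
      have hmin : ∀ m < Nat.find h, x ∈ S.Ω m := fun m hm => by
        by_contra hc
        exact Nat.find_min h hm hc
      have hk0 : Nat.find h ≠ 0 := by
        intro h0
        rw [h0, S.Ω0] at hk
        exact hk hx.1
      obtain ⟨m, hm⟩ := Nat.exists_eq_succ_of_ne_zero hk0
      refine mem_iUnion.2 ⟨m, hmin m (by omega), ?_⟩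
      rintro (h2 | h2)
      · exact hx.2 (mem_iUnion.2 ⟨m, h2⟩)
      · rw [hm] at hk
        exact hk h2
  refine measure_mono_null h1 (measure_union_null (measure_iUnion_null fun k => ?_) ?_)
  · rw [S.Ωs]
    exact (S.O k).null
  · have h2 : Tendsto (fun k => ENNReal.ofReal (7 / 8) ^ k * volume V) atTop (𝓝 0) := by
      have h3 : Tendsto (fun k : ℕ => ENNReal.ofReal (7 / 8) ^ k) atTop (𝓝 0) := by
        apply ENNReal.tendsto_pow_atTop_nhds_zero_of_lt_one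
        rw [ENNReal.ofReal_lt_one]
        norm_num
      simpa using ENNReal.Tendsto.mul_const h3 (Or.inr hV)
    have h4 : volume (⋂ k, S.Ω k) ≤ 0 :=
      ge_of_tendsto' h2 fun k => (measure_mono (iInter_subset _ k)).trans (S.vol k)
    exact le_antisymm h4 bot_le

theorem Sq.wsum (k : ℕ) (x : E3) :
    S.wk k x = w x + ∑ j ∈ Finset.range k, (S.O j).v1 x := by
  induction k with
  | zero => simp [S.w0]
  | succ k ih =>
    rw [S.ws, Finset.sum_range_succ, ← add_assoc, ← ih]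

theorem Sq.Jsum (k : ℕ) (x : E3) :
    S.Jk k x = J x + ∑ j ∈ Finset.range k, (S.O j).T1 x := by
  induction k with
  | zero => simp [S.J0]
  | succ k ih =>
    rw [S.Js, Finset.sum_range_succ, ← add_assoc, ← ih]

theorem measurable_vtsum {F : Type*} [NormedAddCommGroup F]
    [MeasurableSpace F] [BorelSpace F] [SecondCountableTopology F]
    (f : ℕ → E3 → F) (hs : ∀ x, Summable fun j => f j x) (hf : ∀ i, Measurable (f i)) :
    Measurable fun x => ∑' j, f j x := by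
  refine measurable_of_tendsto_metrizable' (u := (atTop : Filter (Finset ℕ)))
    (f := fun s x => ∑ j ∈ s, f j x) (fun s => ?_) ?_
  · exact Finset.measurable_fun_sum s fun i _ => hf i
  · rw [tendsto_pi_nhds]
    intro x
    exact (hs x).hasSum

include S in
theorem Sq.final (hcC : c ≤ C) (hVo : IsOpen V) (hVb : Bornology.IsBounded V)
    (hw : ContDiffOn ℝ ∞ w V) {N' : ℝ≥0} {ε' : ℝ} (hε : ∀ k, 0 ≤ ε k)
    (hεs : HasSum ε (ε' / 2)) (hηs : HasSum (fun k => 2 * (η k : ℝ)) N') :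
    ∃ (γ : E3 → ℝ) (u v : E3 → ℝ) (R T : E3 → E3),
      Measurable γ ∧ (∀ x, c ≤ γ x ∧ γ x ≤ C) ∧
      LipschitzWith (4 * L) u ∧ LipschitzWith (N' + 4 * (L * Nb)) v ∧
      (∀ x, x ∉ V → u x = 0 ∧ v x = 0 ∧ R x = 0 ∧ T x = 0) ∧
      (∀ x, |u x| ≤ ε' ∧ |v x| ≤ ε') ∧ Measurable R ∧ Measurable T ∧
      (∀ x, ‖R x‖ ≤ L ∧ ‖T x‖ ≤ N' + L * Nb) ∧ WDF R ∧ WDF T ∧
      ∀ᵐ x ∂(volume.restrict V),
        ee 2 + R x = γ x • M x (ee 2 + ∇ u x) ∧
        J x + T x = γ x • M x (∇ w x + ∇ v x) := by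
  classical
  have hvolV : volume V ≠ ⊤ := hVb.measure_lt_top.ne
  let G : ℕ → Set E3 := fun k => (S.O k).G
  have hGd : Pairwise (Function.onFun Disjoint G) := S.Gd
  have hGm : ∀ k, MeasurableSet (G k) := fun k => (S.O k).Gop.measurableSet
  have zu : ∀ k x, x ∉ G k → (S.O k).u x = 0 := fun k x hx => ((S.O k).zG x hx).1
  have zv : ∀ k x, x ∉ G k → (S.O k).v2 x = 0 := fun k x hx => ((S.O k).zG x hx).2.1
  have zR : ∀ k x, x ∉ G k → (S.O k).R x = 0 := fun k x hx => ((S.O k).zG x hx).2.2.1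
  have zT : ∀ k x, x ∉ G k → (S.O k).T2 x = 0 := fun k x hx => ((S.O k).zG x hx).2.2.2
  have z1v : ∀ k x, x ∉ S.Ω k → (S.O k).v1 x = 0 := fun k x hx => ((S.O k).zΩ x hx).1
  have z1T : ∀ k x, x ∉ S.Ω k → (S.O k).T1 x = 0 := fun k x hx => ((S.O k).zΩ x hx).2
  have hεs' : Summable ε := hεs.summable
  have hεk : ∀ k, ε k ≤ ε' / 2 := fun k => le_hasSum hεs k fun j _ => hε j
  have hε'0 : 0 ≤ ε' / 2 := (hε 0).trans (hεk 0)
  have hηs' : Summable (fun k => 2 * (η k : ℝ)) := hηs.summable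
  have hηs1 : Summable (fun k => (η k : ℝ)) := by
    have := hηs'.mul_left (1 / 2)
    simpa using this
  have sv1 : ∀ x, Summable fun k => (S.O k).v1 x := fun x =>
    Summable.of_norm_bounded hεs' fun k => ((S.O k).small x).2.1
  have sT1 : ∀ x, Summable fun k => (S.O k).T1 x := fun x =>
    Summable.of_norm_bounded hηs1 fun k => ((S.O k).bds x).2.1
  -- the sums
  let u : E3 → ℝ := fun x => ∑' k, (S.O k).u x
  let V1 : E3 → ℝ := fun x => ∑' k, (S.O k).v1 x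
  let V2 : E3 → ℝ := fun x => ∑' k, (S.O k).v2 x
  let R : E3 → E3 := fun x => ∑' k, (S.O k).R x
  let T1 : E3 → E3 := fun x => ∑' k, (S.O k).T1 x
  let T2 : E3 → E3 := fun x => ∑' k, (S.O k).T2 x
  have eu : ∀ k, ∀ x ∈ G k, u x = (S.O k).u x := fun k x hx =>
    vtsum_of_mem (fun k => (S.O k).u) G hGd zu hx
  have eV2 : ∀ k, ∀ x ∈ G k, V2 x = (S.O k).v2 x := fun k x hx =>
    vtsum_of_mem (fun k => (S.O k).v2) G hGd zv hx
  have eR : ∀ k, ∀ x ∈ G k, R x = (S.O k).R x := fun k x hx =>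
    vtsum_of_mem (fun k => (S.O k).R) G hGd zR hx
  have eT2 : ∀ k, ∀ x ∈ G k, T2 x = (S.O k).T2 x := fun k x hx =>
    vtsum_of_mem (fun k => (S.O k).T2) G hGd zT hx
  have hlate : ∀ k, ∀ x ∈ G k, ∀ j, j ∉ Finset.range (k + 1) → x ∉ S.Ω j := by
    intro k x hx j hj hxj
    have hkj : k < j := by
      rw [Finset.mem_range] at hj
      omega
    exact disjoint_left.1 (S.GΩ hkj) hx hxj
  have eV1 : ∀ k, ∀ x ∈ G k, w x + V1 x = S.wk k x + (S.O k).v1 x := by
    intro k x hx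
    have h1 : V1 x = ∑ j ∈ Finset.range (k + 1), (S.O j).v1 x :=
      tsum_eq_sum fun j hj => z1v j x (hlate k x hx j hj)
    rw [h1, S.wsum, Finset.sum_range_succ, add_assoc]
  have eT1 : ∀ k, ∀ x ∈ G k, J x + T1 x = S.Jk k x + (S.O k).T1 x := by
    intro k x hx
    have h1 : T1 x = ∑ j ∈ Finset.range (k + 1), (S.O j).T1 x :=
      tsum_eq_sum fun j hj => z1T j x (hlate k x hx j hj)
    rw [h1, S.Jsum, Finset.sum_range_succ, add_assoc]
  -- the medium
  let f : ℕ → E3 → ℝ := fun k => (G k).indicator (fun x => (S.O k).γ x - c)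
  have hf0 : ∀ k x, x ∉ G k → f k x = 0 := fun k x hx => indicator_of_notMem hx _
  let γ : E3 → ℝ := fun x => c + ∑' k, f k x
  have eγ : ∀ k, ∀ x ∈ G k, γ x = (S.O k).γ x := by
    intro k x hx
    have : ∑' k, f k x = f k x := vtsum_of_mem f G hGd hf0 hx
    simp only [γ, this, f, indicator_of_mem hx]
    ring
  have hγm : Measurable γ := by
    refine measurable_const.add (vtsum_measurable f G hGd hf0 fun k => ?_)
    exact ((S.O k).γm.sub_const c).indicator (hGm k)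
  have hγb : ∀ x, c ≤ γ x ∧ γ x ≤ C := by
    intro x
    by_cases h : ∃ k, x ∈ G k
    · obtain ⟨k, hk⟩ := h
      rw [eγ k x hk]
      exact (S.O k).γb x
    · push Not at h
      have : ∑' k, f k x = 0 := vtsum_of_notMem f G hf0 h
      simp only [γ, this, add_zero]
      exact ⟨le_rfl, hcC⟩
  -- Lipschitz bounds
  have uL : LipschitzWith (4 * L) u := by
    have h := lip_tsum _ _ (fun k => (S.O k).uL) G hGd zu
    have e : (2 : ℝ≥0) * (2 * L) = 4 * L := by ring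
    rwa [e] at h
  have V2L : LipschitzWith (4 * (L * Nb)) V2 := by
    have h := lip_tsum _ _ (fun k => (S.O k).v2L) G hGd zv
    have e : (2 : ℝ≥0) * (2 * (L * Nb)) = 4 * (L * Nb) := by ring
    rwa [e] at h
  have V1L : LipschitzWith N' V1 := by
    refine LipschitzWith.of_dist_le_mul fun x y => ?_
    have h1 : dist (V1 x) (V1 y) = ‖∑' k, ((S.O k).v1 x - (S.O k).v1 y)‖ := by
      rw [dist_eq_norm, Summable.tsum_sub (sv1 x) (sv1 y)]
    have h2 : HasSum (fun k => 2 * (η k : ℝ) * dist x y) (N' * dist x y) := hηs.mul_right _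
    rw [h1]
    refine tsum_of_norm_bounded h2 fun k => ?_
    have h3 := (S.O k).v1L.dist_le_mul x y
    rw [dist_eq_norm] at h3
    simpa using h3
  -- weak divergence
  have hW : ∀ g : ℕ → E3 → E3, (∀ k x, x ∉ G k → g k x = 0) → ∀ K : ℝ,
      (∀ k x, ‖g k x‖ ≤ K) → (∀ k, WDF (g k)) → WDF fun x => ∑' k, g k x := by
    intro g h0 K hK hWg
    exact wdf_tsum g hWg (vsummable_integral g G hGd hGm hvolV S.GV h0 K hK)
  have RW : WDF R := hW _ zR _ (fun k x => ((S.O k).bds x).1) fun k => (S.O k).RW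
  have T2W : WDF T2 := hW _ zT _ (fun k x => ((S.O k).bds x).2.2) fun k => (S.O k).T2W
  have T1W : WDF T1 := by
    refine wdf_tsum _ (fun k => (S.O k).T1W) ?_
    have hs : Summable fun k => (η k : ℝ) * volume.real V := hηs1.mul_right _
    refine Summable.of_nonneg_of_le (fun k => integral_nonneg fun x => norm_nonneg _) ?_ hs
    intro k
    have h1 : (∫ x, ‖(S.O k).T1 x‖) = ∫ x in V, ‖(S.O k).T1 x‖ := by
      rw [setIntegral_eq_integral_of_forall_compl_eq_zero]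
      intro x hx
      rw [z1T k x fun h => hx (S.subV k h), norm_zero]
    rw [h1]
    have h2 : ‖∫ x in V, ‖(S.O k).T1 x‖‖ ≤ η k * volume.real V := by
      refine norm_setIntegral_le_of_norm_le_const ?_ fun x _ => ?_
      · exact hvolV.lt_top
      · rw [norm_norm]; exact ((S.O k).bds x).2.1
    exact (le_abs_self _).trans h2
  have hRm : Measurable R := vtsum_measurable _ G hGd zR fun k => (S.O k).Rm
  have hT2m : Measurable T2 := vtsum_measurable _ G hGd zT fun k => (S.O k).T2m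
  have hT1m : Measurable T1 := measurable_vtsum _ sT1 fun k => (S.O k).T1m
  refine ⟨γ, u, fun x => V1 x + V2 x, R, fun x => T1 x + T2 x, hγm, hγb, uL, ?_, ?_, ?_, hRm,
    hT1m.add hT2m, ?_, RW, T1W.add T2W, ?_⟩
  · exact V1L.add V2L
  · intro x hx
    have hG : ∀ k, x ∉ G k := fun k h => hx (S.GV k h)
    have hΩ : ∀ k, x ∉ S.Ω k := fun k h => hx (S.subV k h)
    have e1 : V1 x = 0 := vtsum_of_notMem _ S.Ω z1v hΩ
    have e2 : V2 x = 0 := vtsum_of_notMem _ G zv hG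
    have e3 : T1 x = 0 := vtsum_of_notMem _ S.Ω z1T hΩ
    have e4 : T2 x = 0 := vtsum_of_notMem _ G zT hG
    refine ⟨vtsum_of_notMem _ G zu hG, ?_, vtsum_of_notMem _ G zR hG, ?_⟩
    · simp only [e1, e2, add_zero]
    · simp only [e3, e4, add_zero]
  · intro x
    have h1 : |u x| ≤ ε' / 2 :=
      vtsum_prop (fun k => (S.O k).u) G hGd zu (fun s => |s| ≤ ε' / 2) (by simpa using hε'0) x
        fun k => ((S.O k).small x).1.trans (hεk k)
    have h2 : |V2 x| ≤ ε' / 2 :=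
      vtsum_prop (fun k => (S.O k).v2) G hGd zv (fun s => |s| ≤ ε' / 2) (by simpa using hε'0) x
        fun k => ((S.O k).small x).2.2.trans (hεk k)
    have h3 : |V1 x| ≤ ε' / 2 := by
      rw [← Real.norm_eq_abs]
      exact tsum_of_norm_bounded hεs fun k => ((S.O k).small x).2.1
    refine ⟨by linarith, (abs_add_le _ _).trans (by linarith)⟩
  · intro x
    have h1 : ‖R x‖ ≤ L :=
      vtsum_prop (fun k => (S.O k).R) G hGd zR (fun s => ‖s‖ ≤ L) (by simp) x
        fun k => ((S.O k).bds x).1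
    have h2 : ‖T2 x‖ ≤ L * Nb :=
      vtsum_prop (fun k => (S.O k).T2) G hGd zT (fun s => ‖s‖ ≤ L * Nb)
        (by simp only [norm_zero]; positivity) x fun k => ((S.O k).bds x).2.2
    have h3 : ‖T1 x‖ ≤ N' := by
      refine tsum_of_norm_bounded hηs fun k => ?_
      have := ((S.O k).bds x).2.1
      have h0 : (0 : ℝ) ≤ η k := (η k).2
      linarith
    exact ⟨h1, (norm_add_le _ _).trans (add_le_add h3 h2)⟩
  · -- the relation
    have hd1 : ∀ᵐ x, DifferentiableAt ℝ V1 x := V1L.ae_differentiableAt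
    have hd2 : ∀ᵐ x, DifferentiableAt ℝ V2 x := V2L.ae_differentiableAt
    have hG : ∀ᵐ x ∂(volume.restrict (⋃ k, G k)),
        ee 2 + R x = γ x • M x (ee 2 + ∇ u x) ∧
        J x + (T1 x + T2 x) = γ x • M x (∇ w x + ∇ (fun x => V1 x + V2 x) x) := by
      refine (ae_restrict_iUnion_iff _ _).2 fun k => ?_
      filter_upwards [(S.O k).rel, ae_restrict_mem (hGm k), ae_restrict_of_ae hd1,
        ae_restrict_of_ae hd2] with x hx hxk hx1 hx2
      have hxV : x ∈ V := S.GV k hxk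
      have hwd : DifferentiableAt ℝ w x :=
        (hw.contDiffAt (hVo.mem_nhds hxV)).differentiableAt (by simp)
      have hnh : G k ∈ 𝓝 x := (S.O k).Gop.mem_nhds hxk
      have g1 : ∇ u x = ∇ (S.O k).u x := grad_congr (by
        filter_upwards [hnh] with y hy using eu k y hy)
      have g2 : ∇ V2 x = ∇ (S.O k).v2 x := grad_congr (by
        filter_upwards [hnh] with y hy using eV2 k y hy)
      have g3 : ∇ (fun y => w y + V1 y) x = ∇ (fun y => S.wk k y + (S.O k).v1 y) x :=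
        grad_congr (by filter_upwards [hnh] with y hy using eV1 k y hy)
      rw [grad_add hwd hx1] at g3
      have g4 : ∇ (fun x => V1 x + V2 x) x = ∇ V1 x + ∇ V2 x := grad_add hx1 hx2
      refine ⟨?_, ?_⟩
      · rw [g1, eγ k x hxk, eR k x hxk]
        exact hx.1
      · rw [g4, ← add_assoc, ← add_assoc, g3, g2, eγ k x hxk, eT1 k x hxk, eT2 k x hxk]
        exact hx.2
    have hdiff : ∀ᵐ x ∂(volume.restrict V), x ∈ ⋃ k, G k := by
      rw [ae_restrict_iff' hVo.measurableSet, ae_iff]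
      have : {x | ¬(x ∈ V → x ∈ ⋃ k, G k)} = V \ ⋃ k, G k := by
        ext x
        exact Classical.not_imp
      rw [this]
      exact S.null hvolV
    have hmU : MeasurableSet (⋃ k, G k) := MeasurableSet.iUnion hGm
    rw [ae_restrict_iff' hmU] at hG
    filter_upwards [ae_restrict_of_ae hG, hdiff] with x h1 h2 using h1 h2

end

end Crest.Agent.R083.Iso
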