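import Crest.Agent.R083.BoxFubini
import Crest.Agent.R083.ModelOutDef

-- ▼ part R083/IsoUnb
section

/-!
Row 83 (S0111): `iso` for a square integrable, possibly unbounded gradient.
-/

set_option autoImplicit false

namespace Crest.Agent.R083

open MeasureTheory Set Filter
open scoped Gradient ENNReal NNReal Topology ContDiff

/-- Convergence in `L²` from convergence of the integrals of squares. -/
theorem tendsto_eLpNorm_two_of_integral {ν : Measure E3} (g : ℕ → E3 → E3)
    (hg : ∀ n, MemLp (g n) 2 ν)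
    (h : Tendsto (fun n => ∫ x, ‖g n x‖ ^ 2 ∂ν) atTop (𝓝 0)) :
    Tendsto (fun n => eLpNorm (g n) 2 ν) atTop (𝓝 0) := by
  have h1 : ∀ n, eLpNorm (g n) 2 ν = ENNReal.ofReal ((∫ x, ‖g n x‖ ^ 2 ∂ν) ^ (2⁻¹ : ℝ)) := by
    intro n
    have := (hg n).eLpNorm_eq_integral_rpow_norm two_ne_zero ENNReal.ofNat_ne_top
    simpa using this
  simp_rw [h1]
  have h2 : Tendsto (fun n => (∫ x, ‖g n x‖ ^ 2 ∂ν) ^ (2⁻¹ : ℝ)) atTop (𝓝 ((0:ℝ) ^ (2⁻¹ : ℝ))) :=
    h.rpow_const (Or.inr (by norm_num))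
  rw [Real.zero_rpow (by norm_num)] at h2
  simpa using ENNReal.tendsto_ofReal h2

section pick

variable {F : Type*} [NormedAddCommGroup F] (A : ℕ → Set E3)

theorem pick_tsum (hA : Pairwise (Function.onFun Disjoint A)) (g : ℕ → E3 → F)
    (hg : ∀ m x, x ∉ A m → g m x = 0) (m : ℕ) (x : E3) (hx : x ∈ A m) :
    ∑' k, g k x = g m x := by
  refine tsum_eq_single m fun k hk => hg k x fun hxk => ?_
  exact Set.disjoint_left.1 (hA hk) hxk hx

theorem pick_tsum_zero (g : ℕ → E3 → F)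
    (hg : ∀ m x, x ∉ A m → g m x = 0) (x : E3) (hx : ∀ m, x ∉ A m) :
    ∑' k, g k x = 0 := by
  have : ∀ k, g k x = 0 := fun k => hg k x (hx k)
  simp [this]

theorem pick_sum (hA : Pairwise (Function.onFun Disjoint A)) (g : ℕ → E3 → F)
    (hg : ∀ m x, x ∉ A m → g m x = 0) (n m : ℕ) (x : E3) (hx : x ∈ A m) :
    ∑ k ∈ Finset.range n, g k x = if m < n then g m x else 0 := by
  have h0 : ∀ k, k ≠ m → g k x = 0 := fun k hk => hg k x fun hxk =>
    Set.disjoint_left.1 (hA hk) hxk hx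
  split_ifs with h
  · rw [Finset.sum_eq_single m (fun k _ hk => h0 k hk)]
    intro h'
    exact absurd (Finset.mem_range.2 h) h'
  · refine Finset.sum_eq_zero fun k hk => h0 k ?_
    have := Finset.mem_range.1 hk
    omega

theorem pick_tendsto (hA : Pairwise (Function.onFun Disjoint A)) (g : ℕ → E3 → F)
    (hg : ∀ m x, x ∉ A m → g m x = 0) (x : E3) :
    Tendsto (fun n => ∑ k ∈ Finset.range n, g k x) atTop (𝓝 (∑' k, g k x)) := by
  by_cases hx : ∃ m, x ∈ A m
  · obtain ⟨m, hm⟩ := hx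
    rw [pick_tsum A hA g hg m x hm]
    refine tendsto_const_nhds.congr' ?_
    filter_upwards [eventually_gt_atTop m] with n hn
    rw [pick_sum A hA g hg n m x hm, if_pos hn]
  · push Not at hx
    rw [pick_tsum_zero A g hg x hx]
    refine tendsto_const_nhds.congr' ?_
    filter_upwards with n
    exact (Finset.sum_eq_zero fun k _ => hg k x (hx k)).symm

theorem pick_measurable [MeasurableSpace F] [BorelSpace F] [SecondCountableTopology F]
    (hA : Pairwise (Function.onFun Disjoint A)) (g : ℕ → E3 → F)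
    (hg : ∀ m x, x ∉ A m → g m x = 0) (hm : ∀ m, Measurable (g m)) :
    Measurable (fun x => ∑' k, g k x) := by
  refine measurable_of_tendsto_metrizable (f := fun n x => ∑ k ∈ Finset.range n, g k x)
    (fun n => ?_) ?_
  · exact Finset.measurable_fun_sum _ fun k _ => hm k
  · rw [tendsto_pi_nhds]
    exact fun x => pick_tendsto A hA g hg x

end pick

theorem lip_sum_range (g : ℕ → E3 → ℝ) (hg : ∀ m, ∃ K : ℝ≥0, LipschitzWith K (g m)) (n : ℕ) :
    ∃ K : ℝ≥0, LipschitzWith K (fun x => ∑ k ∈ Finset.range n, g k x) := by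
  induction n with
  | zero => exact ⟨0, by simp [LipschitzWith.const (0:ℝ)]⟩
  | succ n ih =>
    obtain ⟨K, hK⟩ := ih
    obtain ⟨K', hK'⟩ := hg n
    refine ⟨K + K', ?_⟩
    simp_rw [Finset.sum_range_succ]
    exact hK.add hK'

/-- A generic scale: no level set of `f` at a positive multiple of `t` has positive measure. -/
theorem generic_scale {ν : Measure E3} [SFinite ν] (f : E3 → ℝ) (hf : Measurable f) :
    ∃ t : ℝ, 1 < t ∧ t < 2 ∧ ∀ m : ℕ, ν {x | f x = t * ((m : ℝ) + 1)} = 0 := by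
  have h0 := Measure.countable_meas_level_set_pos (μ := ν) hf
  have h1 : (⋃ m : ℕ, (fun t : ℝ => t * ((m : ℝ) + 1)) ⁻¹' {t | 0 < ν {x | f x = t}}).Countable := by
    refine countable_iUnion fun m => h0.preimage_of_injOn ?_
    intro a _ b _ hab
    have : ((m : ℝ) + 1) ≠ 0 := by positivity
    exact mul_right_cancel₀ this hab
  obtain ⟨t, ht, ht'⟩ := (h1.dense_compl ℝ).exists_mem_open isOpen_Ioo
    (nonempty_Ioo.2 (by norm_num : (1:ℝ) < 2))
  refine ⟨t, ht'.1, ht'.2, fun m => ?_⟩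
  simp only [mem_compl_iff, mem_iUnion, not_exists, mem_preimage] at ht
  have := ht m
  simpa using this

/-- The conclusion of `iso` with all constants fixed. -/
def IsoStmt (δ μ c C : ℝ) (L : ℝ≥0) : Prop :=
  ∀ (V : Set E3), IsOpen V → Bornology.IsBounded V →
      ∀ (M : E3 → (E3 →L[ℝ] E3)), (∀ x ∈ V, ∀ᶠ y in 𝓝 x, M y = M x) →
        (∀ x ∈ V, Ell μ (M x)) →
      ∀ (w : E3 → ℝ) (J : E3 → E3) (N : ℝ≥0), ContDiffOn ℝ ∞ w V → ContDiffOn ℝ ∞ J V →
        (∀ x ∈ V, fderiv ℝ w x (ee 2) = J x 2) → (∀ x ∈ V, dvg J x = 0) →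
        (∀ x ∈ V, HEll δ (∇ w x) (J x)) → (∀ x ∈ V, ‖∇ w x‖ ≤ N) →
      ∀ ε : ℝ, 0 < ε →
      ∃ (γ : E3 → ℝ) (u v : E3 → ℝ) (R T : E3 → E3),
        Measurable γ ∧ (∀ x, c ≤ γ x ∧ γ x ≤ C) ∧
        LipschitzWith L u ∧ LipschitzWith (L * N) v ∧
        (∀ x, x ∉ V → u x = 0 ∧ v x = 0 ∧ R x = 0 ∧ T x = 0) ∧
        (∀ x, |u x| ≤ ε ∧ |v x| ≤ ε) ∧ Measurable R ∧ Measurable T ∧
        (∀ x, ‖R x‖ ≤ L ∧ ‖T x‖ ≤ L * N) ∧ WDF R ∧ WDF T ∧
        ∀ᵐ x ∂(volume.restrict V),
          ee 2 + R x = γ x • M x (ee 2 + ∇ u x) ∧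
          J x + T x = γ x • M x (∇ w x + ∇ v x)

/-- The statement of `lip_tsum` for sequences. -/
def LipStmt : Prop := ∀ (f : ℕ → E3 → ℝ) (K : ℝ≥0), (∀ i, LipschitzWith K (f i)) →
  ∀ U : ℕ → Set E3, Pairwise (Function.onFun Disjoint U) → (∀ i x, x ∉ U i → f i x = 0) →
    LipschitzWith (2 * K) (fun x => ∑' i, f i x)

/-- The statement of `wdf_tsum` for sequences. -/
def WdfStmt : Prop := ∀ (R : ℕ → E3 → E3), (∀ i, WDF (R i)) →
  Summable (fun i => ∫ x, ‖R i x‖) → WDF (fun x => ∑' i, R i x)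

theorem gradient_congr_nhds (f g : E3 → ℝ) (x : E3) (h : f =ᶠ[𝓝 x] g) : ∇ f x = ∇ g x := by
  unfold gradient
  rw [h.fderiv_eq]

set_option maxHeartbeats 1000000 in
theorem iso_unb (hlip : LipStmt) (hwdf : WdfStmt) (δ μ c C : ℝ) (L : ℝ≥0)
    (hiso : IsoStmt δ μ c C L) (V : Set E3) (hV : IsOpen V) (hVb : Bornology.IsBounded V)
    (M : E3 → (E3 →L[ℝ] E3)) (hM1 : ∀ x ∈ V, ∀ᶠ y in 𝓝 x, M y = M x)
    (hM2 : ∀ x ∈ V, Ell μ (M x)) (w : E3 → ℝ) (J : E3 → E3)
    (hw : ContDiffOn ℝ ∞ w V) (hJ : ContDiffOn ℝ ∞ J V)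
    (h1 : ∀ x ∈ V, fderiv ℝ w x (ee 2) = J x 2) (h2 : ∀ x ∈ V, dvg J x = 0)
    (h3 : ∀ x ∈ V, HEll δ (∇ w x) (J x)) (hint : IntegrableOn (fun x => ‖∇ w x‖ ^ 2) V volume) :
    ∃ (γ u : E3 → ℝ) (v : ℕ → E3 → ℝ) (v' : E3 → ℝ) (R T H : E3 → E3),
      Measurable γ ∧ (∀ x, c ≤ γ x ∧ γ x ≤ C) ∧ LipschitzWith (2 * L) u ∧
      (∀ x, x ∉ V → u x = 0) ∧ (∀ m, ∃ K : ℝ≥0, LipschitzWith K (v m)) ∧
      (∀ m x, x ∉ V → v m x = 0) ∧
      (∀ m x, |v m x - v' x| ≤ (1/2) ^ m) ∧
      Measurable H ∧ MemLp H 2 (volume.restrict V) ∧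
      Tendsto (fun m => eLpNorm (fun x => ∇ (v m) x - H x) 2 (volume.restrict V)) atTop (𝓝 0) ∧
      WDF R ∧ WDF T ∧ (∀ x, x ∉ V → R x = 0 ∧ T x = 0) ∧
      ∀ᵐ x ∂(volume.restrict V), ee 2 + R x = γ x • M x (ee 2 + ∇ u x) ∧
        J x + T x = γ x • M x (∇ w x + H x) := by
  classical
  have hVfin : volume V < ⊤ := hVb.measure_lt_top
  have : IsFiniteMeasure (volume.restrict V) := ⟨by simpa using hVfin⟩
  set f : E3 → ℝ := fun x => ‖∇ w x‖ with hf
  have hfm : Measurable f := (measurable_gradient w).norm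
  have hf0 : ∀ x ∈ V, 0 < f x := by
    intro x hx
    have h4 := (h3 x hx).1
    refine norm_pos_iff.2 fun h => ?_
    rw [h] at h4
    simp at h4
  have hfc : ContinuousOn f V := by
    have h5 : ContinuousOn (fderiv ℝ w) V := hw.continuousOn_fderiv_of_isOpen hV (by simp)
    have h6 : ContinuousOn (fun x => ‖fderiv ℝ w x‖) V := h5.norm
    refine h6.congr fun x _ => ?_
    simp only [hf, norm_gradient]
  obtain ⟨t, ht1, ht2, htm⟩ := generic_scale (ν := volume.restrict V) f hfm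
  have ht0 : 0 < t := by linarith
  set A : ℕ → Set E3 := fun m => V ∩ {x | t * m < f x ∧ f x < t * (m + 1)} with hA
  have hAV : ∀ m, A m ⊆ V := fun m => inter_subset_left
  have hAo : ∀ m, IsOpen (A m) := by
    intro m
    exact hfc.isOpen_inter_preimage hV (isOpen_Ioo (a := t * m) (b := t * (m + 1)))
  have hAm : ∀ m, MeasurableSet (A m) := fun m => (hAo m).measurableSet
  have hAd : Pairwise (Function.onFun Disjoint A) := by
    have key : ∀ m k : ℕ, m < k → Disjoint (A m) (A k) := by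
      intro m k hmk
      rw [Set.disjoint_left]
      intro x hx hx'
      have h4 : f x < t * (m + 1) := hx.2.2
      have h5 : t * k < f x := hx'.2.1
      have h6 : ((m : ℝ) + 1) ≤ k := by exact_mod_cast hmk
      have h7 : t * (m + 1) ≤ t * k := mul_le_mul_of_nonneg_left h6 ht0.le
      linarith
    intro m k hmk
    rcases lt_or_gt_of_ne hmk with h | h
    · exact key m k h
    · exact (key k m h).symm
  have hcov : ∀ᵐ x ∂(volume.restrict V), ∃ m, x ∈ A m := by
    have h4 : ∀ᵐ x ∂(volume.restrict V), ∀ m : ℕ, f x ≠ t * ((m : ℝ) + 1) :=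
      ae_all_iff.2 fun m => by
        rw [ae_iff]; simpa using htm m
    filter_upwards [h4, ae_restrict_mem hV.measurableSet] with x hx hxV
    refine ⟨⌊f x / t⌋₊, hxV, ?_, ?_⟩
    · have h5 : ((⌊f x / t⌋₊ : ℕ) : ℝ) ≤ f x / t := Nat.floor_le (div_nonneg (norm_nonneg _) ht0.le)
      have h6 : t * (⌊f x / t⌋₊ : ℕ) ≤ f x := by
        have := mul_le_mul_of_nonneg_left h5 ht0.le
        rwa [mul_div_cancel₀ _ ht0.ne'] at this
      refine lt_of_le_of_ne h6 fun h7 => ?_
      rcases Nat.eq_zero_or_pos ⌊f x / t⌋₊ with h8 | h8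
      · rw [h8] at h7
        have := hf0 x hxV
        simp at h7
        linarith
      · obtain ⟨n, hn⟩ := Nat.exists_eq_succ_of_ne_zero h8.ne'
        apply hx n
        rw [← h7, hn]
        push_cast
        ring
    · have h5 : f x / t < ⌊f x / t⌋₊ + 1 := Nat.lt_floor_add_one _
      have := mul_lt_mul_of_pos_left h5 ht0
      rwa [mul_div_cancel₀ _ ht0.ne'] at this
  set N : ℕ → ℝ≥0 := fun m => ⟨t * (m + 1), by positivity⟩ with hN
  have hNle : ∀ m, ∀ x ∈ A m, ((N m : ℝ≥0) : ℝ) ≤ f x + 2 := by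
    intro m x hx
    have h4 : t * m < f x := hx.2.1
    show t * ((m:ℝ) + 1) ≤ f x + 2
    nlinarith
  choose γ u v R T hγm hγb hu hv h0 hsm hRm hTm hRT hWR hWT hrel using fun m : ℕ =>
    hiso (A m) (hAo m) (hVb.subset (hAV m)) M (fun x hx => hM1 x (hAV m hx))
      (fun x hx => hM2 x (hAV m hx)) w J (N m) (hw.mono (hAV m)) (hJ.mono (hAV m))
      (fun x hx => h1 x (hAV m hx)) (fun x hx => h2 x (hAV m hx)) (fun x hx => h3 x (hAV m hx))
      (fun x hx => hx.2.2.le) ((1/2) ^ m) (by positivity)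
  have hcC : c ≤ C := (hγb 0 0).1.trans (hγb 0 0).2
  have hu0 : ∀ m x, x ∉ A m → u m x = 0 := fun m x hx => (h0 m x hx).1
  have hv0 : ∀ m x, x ∉ A m → v m x = 0 := fun m x hx => (h0 m x hx).2.1
  have hR0 : ∀ m x, x ∉ A m → R m x = 0 := fun m x hx => (h0 m x hx).2.2.1
  have hT0 : ∀ m x, x ∉ A m → T m x = 0 := fun m x hx => (h0 m x hx).2.2.2
  have hg0 : ∀ m x, x ∉ A m → (A m).indicator (fun x => γ m x - c) x = 0 := fun m x hx =>
    indicator_of_notMem hx _
  have hH0 : ∀ m x, x ∉ A m → (A m).indicator (∇ (v m)) x = 0 := fun m x hx =>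
    indicator_of_notMem hx _
  set H : E3 → E3 := fun x => ∑' m, (A m).indicator (∇ (v m)) x with hH
  have hHpick : ∀ m, ∀ x ∈ A m, H x = ∇ (v m) x := by
    intro m x hx
    have := pick_tsum A hAd (fun m => (A m).indicator (∇ (v m))) hH0 m x hx
    simp only [hH]
    rw [this, indicator_of_mem hx]
  have hHm : Measurable H :=
    pick_measurable A hAd (fun m => (A m).indicator (∇ (v m))) hH0
      (fun m => (measurable_gradient (v m)).indicator (hAm m))
  have hHb : ∀ m, ∀ x ∈ A m, ‖H x‖ ≤ L * (f x + 2) := by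
    intro m x hx
    rw [hHpick m x hx]
    refine (norm_gradient_le (v m) _ (hv m) x).trans ?_
    rw [NNReal.coe_mul]
    exact mul_le_mul_of_nonneg_left (hNle m x hx) L.coe_nonneg
  have hHbae : ∀ᵐ x ∂(volume.restrict V), ‖H x‖ ≤ L * (f x + 2) := by
    filter_upwards [hcov] with x ⟨m, hm⟩
    exact hHb m x hm
  have hf2 : MemLp f 2 (volume.restrict V) := by
    rw [memLp_two_iff_integrable_sq hfm.aestronglyMeasurable]
    exact hint
  have hbd2 : MemLp (fun x => (L:ℝ) * (f x + 2)) 2 (volume.restrict V) :=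
    (hf2.add (memLp_const (2:ℝ))).const_mul (L:ℝ)
  have hH2 : MemLp H 2 (volume.restrict V) := by
    refine hbd2.mono hHm.aestronglyMeasurable ?_
    filter_upwards [hHbae] with x hx
    exact hx.trans (le_abs_self _)
  have hbd1 : Integrable (fun x => (L:ℝ) * (f x + 2)) (volume.restrict V) :=
    hbd2.integrable one_le_two
  have hUV : (⋃ m, A m) ⊆ V := iUnion_subset hAV
  have hbdU : IntegrableOn (fun x => (L:ℝ) * (f x + 2)) (⋃ m, A m) volume :=
    IntegrableOn.mono_set hbd1 hUV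
  have hsumb : Summable fun m => ∫ x in A m, (L:ℝ) * (f x + 2) :=
    (hasSum_integral_iUnion hAm hAd hbdU).summable
  have hsummable : ∀ Q : ℕ → E3 → E3, (∀ m, Measurable (Q m)) → (∀ m x, x ∉ A m → Q m x = 0) →
      (∀ m, ∀ x ∈ A m, ‖Q m x‖ ≤ L * (f x + 2)) → Summable fun m => ∫ x, ‖Q m x‖ := by
    intro Q hQm hQ0 hQb
    refine Summable.of_nonneg_of_le (fun m => integral_nonneg fun x => norm_nonneg _)
      (fun m => ?_) hsumb
    rw [← setIntegral_eq_integral_of_forall_compl_eq_zero (s := A m)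
      (fun x hx => by rw [hQ0 m x hx, norm_zero])]
    have hi2 : IntegrableOn (fun x => (L:ℝ) * (f x + 2)) (A m) volume :=
      IntegrableOn.mono_set hbd1 (hAV m)
    refine setIntegral_mono_on ?_ hi2 (hAm m) (hQb m)
    refine Integrable.mono' hi2 (hQm m).norm.aestronglyMeasurable ?_
    filter_upwards [ae_restrict_mem (hAm m)] with x hx
    rw [norm_norm]
    exact hQb m x hx
  have hgradS : ∀ n m, ∀ x ∈ A m, ∇ (fun x => ∑ k ∈ Finset.range n, v k x) x =
      if m < n then ∇ (v m) x else 0 := by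
    intro n m x hx
    split_ifs with h
    · refine gradient_congr_nhds _ _ x ?_
      filter_upwards [(hAo m).mem_nhds hx] with y hy
      rw [pick_sum A hAd v hv0 n m y hy, if_pos h]
    · have h4 : ∇ (fun x => ∑ k ∈ Finset.range n, v k x) x = ∇ (fun _ : E3 => (0:ℝ)) x := by
        refine gradient_congr_nhds _ _ x ?_
        filter_upwards [(hAo m).mem_nhds hx] with y hy
        rw [pick_sum A hAd v hv0 n m y hy, if_neg h]
      rw [h4]
      simp [gradient]
  have hgH : ∀ n m, ∀ x ∈ A m, ∇ (fun x => ∑ k ∈ Finset.range n, v k x) x - H x =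
      if m < n then 0 else - H x := by
    intro n m x hx
    rw [hgradS n m x hx]
    split_ifs with h
    · rw [hHpick m x hx, sub_self]
    · rw [zero_sub]
  have hgHle : ∀ n, ∀ᵐ x ∂(volume.restrict V),
      ‖∇ (fun x => ∑ k ∈ Finset.range n, v k x) x - H x‖ ≤ ‖H x‖ := by
    intro n
    filter_upwards [hcov] with x ⟨m, hm⟩
    rw [hgH n m x hm]
    split_ifs
    · simp
    · rw [norm_neg]
  have hgHm : ∀ n, Measurable fun x => ∇ (fun x => ∑ k ∈ Finset.range n, v k x) x - H x :=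
    fun n => (measurable_gradient _).sub hHm
  refine ⟨fun x => c + ∑' m, (A m).indicator (fun x => γ m x - c) x, fun x => ∑' m, u m x,
    fun n x => ∑ k ∈ Finset.range n, v k x, fun x => ∑' m, v m x, fun x => ∑' m, R m x,
    fun x => ∑' m, T m x, H, ?_, ?_, ?_, ?_, ?_, ?_, ?_, hHm, hH2, ?_, ?_, ?_, ?_, ?_⟩
  · exact measurable_const.add (pick_measurable A hAd (fun m => (A m).indicator (fun x => γ m x - c))
      hg0 (fun m => ((hγm m).sub measurable_const).indicator (hAm m)))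
  · intro x
    by_cases hx : ∃ m, x ∈ A m
    · obtain ⟨m, hm⟩ := hx
      have := pick_tsum A hAd (fun m => (A m).indicator (fun x => γ m x - c)) hg0 m x hm
      simp only [this, indicator_of_mem hm]
      have h4 := hγb m x
      constructor <;> linarith [h4.1, h4.2]
    · push Not at hx
      have := pick_tsum_zero A (fun m => (A m).indicator (fun x => γ m x - c)) hg0 x hx
      simp only [this]
      constructor <;> linarith
  · exact hlip u L hu A hAd hu0
  · intro x hx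
    exact pick_tsum_zero A u hu0 x fun m hm => hx (hAV m hm)
  · exact fun n => lip_sum_range v (fun m => ⟨_, hv m⟩) n
  · intro n x hx
    exact Finset.sum_eq_zero fun k _ => hv0 k x fun hm => hx (hAV k hm)
  · intro n x
    by_cases hx : ∃ m, x ∈ A m
    · obtain ⟨m, hm⟩ := hx
      simp only
      rw [pick_tsum A hAd v hv0 m x hm, pick_sum A hAd v hv0 n m x hm]
      split_ifs with h
      · simp
      · rw [zero_sub, abs_neg]
        refine (hsm m x).2.trans ?_
        exact pow_le_pow_of_le_one (by norm_num) (by norm_num) (not_lt.1 h)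
    · push Not at hx
      simp only
      rw [pick_tsum_zero A v hv0 x hx, Finset.sum_eq_zero fun k _ => hv0 k x (hx k)]
      simp
  · refine tendsto_eLpNorm_two_of_integral _ (fun n => ?_) ?_
    · exact hH2.mono (hgHm n).aestronglyMeasurable (hgHle n)
    · have hH2i : Integrable (fun x => ‖H x‖ ^ 2) (volume.restrict V) :=
        hH2.integrable_norm_pow two_ne_zero
      have h4 : Tendsto (fun n => ∫ x, ‖∇ (fun x => ∑ k ∈ Finset.range n, v k x) x - H x‖ ^ 2
          ∂(volume.restrict V)) atTop (𝓝 (∫ x, (0:ℝ) ∂(volume.restrict V))) := by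
        refine tendsto_integral_of_dominated_convergence (fun x => ‖H x‖ ^ 2)
          (fun n => ((hgHm n).norm.pow_const 2).aestronglyMeasurable) hH2i (fun n => ?_) ?_
        · filter_upwards [hgHle n] with x hx
          rw [Real.norm_of_nonneg (by positivity)]
          exact pow_le_pow_left₀ (norm_nonneg _) hx 2
        · filter_upwards [hcov] with x ⟨m, hm⟩
          refine tendsto_const_nhds.congr' ?_
          filter_upwards [eventually_gt_atTop m] with n hn
          rw [hgH n m x hm, if_pos hn]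
          simp
      simpa using h4
  · refine hwdf R hWR (hsummable R hRm hR0 fun m x hx => ?_)
    refine (hRT m x).1.trans ?_
    have h4 := (norm_nonneg (∇ w x))
    have h5 : (1:ℝ) ≤ f x + 2 := by simp only [hf]; linarith
    exact le_mul_of_one_le_right L.coe_nonneg h5
  · refine hwdf T hWT (hsummable T hTm hT0 fun m x hx => ?_)
    refine (hRT m x).2.trans ?_
    exact mul_le_mul_of_nonneg_left (hNle m x hx) L.coe_nonneg
  · intro x hx
    exact ⟨pick_tsum_zero A R hR0 x fun m hm => hx (hAV m hm),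
      pick_tsum_zero A T hT0 x fun m hm => hx (hAV m hm)⟩
  · have h4 : ∀ᵐ x ∂(volume.restrict V), ∀ m, x ∈ A m →
        (ee 2 + R m x = γ m x • M x (ee 2 + ∇ (u m) x) ∧
          J x + T m x = γ m x • M x (∇ w x + ∇ (v m) x)) := by
      refine ae_restrict_of_ae (ae_all_iff.2 fun m => ?_)
      exact (ae_restrict_iff' (hAm m)).1 (hrel m)
    filter_upwards [h4, hcov] with x hx ⟨m, hm⟩
    obtain ⟨h5, h6⟩ := hx m hm
    have hgu : ∇ (fun x => ∑' m, u m x) x = ∇ (u m) x := by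
      refine gradient_congr_nhds _ _ x ?_
      filter_upwards [(hAo m).mem_nhds hm] with y hy
      exact pick_tsum A hAd u hu0 m y hy
    have hgg := pick_tsum A hAd (fun m => (A m).indicator (fun x => γ m x - c)) hg0 m x hm
    rw [indicator_of_mem hm] at hgg
    rw [hgu, hgg, hHpick m x hm, pick_tsum A hAd R hR0 m x hm, pick_tsum A hAd T hT0 m x hm,
      add_sub_cancel]
    exact ⟨h5, h6⟩

end Crest.Agent.R083
end

-- ▼ part R083/ModelIsoAux

/-!
Row 83 (S0111): `model_out` from the statements of `iso` and `tensor_model`.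
-/

set_option autoImplicit false

namespace Crest.Agent.R083

open MeasureTheory Set Filter
open scoped Gradient ENNReal NNReal Topology ContDiff

theorem bx_O : bx Box.O = cbox (-(32/25)) (32/25) (-(22/25)) (22/25) (7/10) 1 := by
  ext p; simp only [bx, cbox, mem_ofPred_eq, mem_Icc, abs_le]

theorem bx_P : bx Box.P = cbox 0 (32/25) (-(22/25)) (22/25) (3/5) (7/10) := by
  ext p; simp only [bx, cbox, mem_ofPred_eq, mem_Icc, abs_le]; tauto

theorem bx_N : bx Box.N = cbox (-(32/25)) 0 (-(22/25)) (22/25) (3/5) (7/10) := by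
  ext p; simp only [bx, cbox, mem_ofPred_eq, mem_Icc, abs_le]; tauto


theorem volume_bx_lt_top (b : Box) : volume (bx b) < ⊤ := by
  cases b
  · rw [bx_O]; exact volume_cbox_lt_top _ _ _ _ _ _
  · rw [bx_P]; exact volume_cbox_lt_top _ _ _ _ _ _
  · rw [bx_N]; exact volume_cbox_lt_top _ _ _ _ _ _

theorem mo_bxo_subset_bx (b : Box) : bxo b ⊆ bx b := by
  cases b <;> intro p hp
  · exact ⟨hp.1.le, hp.2.1.le, hp.2.2.1.le, hp.2.2.2.le⟩
  · exact ⟨hp.1.le, hp.2.1.le, hp.2.2.1.le, hp.2.2.2.1.le, hp.2.2.2.2.le⟩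
  · exact ⟨hp.1.le, hp.2.1.le, hp.2.2.1.le, hp.2.2.2.1.le, hp.2.2.2.2.le⟩

theorem bx_bounded (b : Box) : Bornology.IsBounded (bx b) := by
  refine (Metric.isBounded_closedBall (x := (0 : E3)) (r := 4)).subset fun p hp => ?_
  have h0 : |p 0| ≤ 2 ∧ |p 1| ≤ 2 ∧ |p 2| ≤ 1 := by
    cases b
    · obtain ⟨h1, h2, h3, h4⟩ := hp
      refine ⟨by linarith, by linarith, ?_⟩
      rw [abs_le]; constructor <;> linarith
    · obtain ⟨h1, h2, h3, h4, h5⟩ := hp
      refine ⟨?_, by linarith, ?_⟩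
      · rw [abs_le]; constructor <;> linarith
      · rw [abs_le]; constructor <;> linarith
    · obtain ⟨h1, h2, h3, h4, h5⟩ := hp
      refine ⟨?_, by linarith, ?_⟩
      · rw [abs_le]; constructor <;> linarith
      · rw [abs_le]; constructor <;> linarith
  obtain ⟨h1, h2, h3⟩ := h0
  rw [mem_closedBall_zero_iff, EuclideanSpace.norm_eq, Real.sqrt_le_left (by norm_num)]
  rw [Fin.sum_univ_three]
  have h4 : ‖p 0‖ ^ 2 ≤ 2 ^ 2 := pow_le_pow_left₀ (norm_nonneg _) (by rwa [Real.norm_eq_abs]) 2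
  have h5 : ‖p 1‖ ^ 2 ≤ 2 ^ 2 := pow_le_pow_left₀ (norm_nonneg _) (by rwa [Real.norm_eq_abs]) 2
  have h6 : ‖p 2‖ ^ 2 ≤ 1 ^ 2 := pow_le_pow_left₀ (norm_nonneg _) (by rwa [Real.norm_eq_abs]) 2
  linarith

theorem continuous_face (f : E3 → ℝ) (hf : Continuous f) (c a b : ℝ) :
    Continuous fun X : ℝ => ∫ Y in a..b, f (pt X Y c) := by
  refine intervalIntegral.continuous_parametric_intervalIntegral_of_continuous' ?_ a b
  refine hf.comp ?_
  refine (PiLp.continuous_toLp 2 _).comp ?_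
  refine continuous_pi fun i => ?_
  fin_cases i
  · exact continuous_fst
  · exact continuous_snd
  · exact continuous_const

theorem continuous_face1 (f : E3 → ℝ) (hf : Continuous f) (X c : ℝ) :
    Continuous fun Y : ℝ => f (pt X Y c) := by
  refine hf.comp ?_
  refine (PiLp.continuous_toLp 2 _).comp ?_
  refine continuous_pi fun i => ?_
  fin_cases i
  · exact continuous_const
  · exact continuous_id
  · exact continuous_const

theorem face_sub (f : E3 → ℝ) (hf : Continuous f) (a₀ b₀ a₁ b₁ c d : ℝ) :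
    ∫ X in a₀..b₀, ∫ Y in a₁..b₁, (f (pt X Y c) - f (pt X Y d)) =
      (∫ X in a₀..b₀, ∫ Y in a₁..b₁, f (pt X Y c)) -
        ∫ X in a₀..b₀, ∫ Y in a₁..b₁, f (pt X Y d) := by
  rw [← intervalIntegral.integral_sub ((continuous_face f hf c a₁ b₁).intervalIntegrable _ _)
    ((continuous_face f hf d a₁ b₁).intervalIntegrable _ _)]
  refine intervalIntegral.integral_congr fun X _ => ?_
  exact intervalIntegral.integral_sub ((continuous_face1 f hf X c).intervalIntegrable _ _)
    ((continuous_face1 f hf X d).intervalIntegrable _ _)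

/-- Integrating the level derivative over the three boxes. -/
theorem level_identity (χ : Box → E3 → ℝ) (hχ : ∀ b, ∃ K : ℝ≥0, LipschitzWith K (χ b))
    (hm : Matching χ) :
    (∫ x in bx Box.O, inner ℝ (ee 2) (∇ (χ Box.O) x)) +
    (∫ x in bx Box.P, inner ℝ (ee 2) (∇ (χ Box.P) x)) +
    (∫ x in bx Box.N, inner ℝ (ee 2) (∇ (χ Box.N) x)) =
      faceO (χ Box.O) - faceP (χ Box.P) - faceN (χ Box.N) := by
  obtain ⟨KO, hO⟩ := hχ Box.O
  obtain ⟨KP, hP⟩ := hχ Box.P
  obtain ⟨KN, hN⟩ := hχ Box.N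
  rw [bx_O, bx_P, bx_N,
    ftc_cbox _ _ _ _ _ _ (by norm_num) (by norm_num) (by norm_num) _ KO hO,
    ftc_cbox _ _ _ _ _ _ (by norm_num) (by norm_num) (by norm_num) _ KP hP,
    ftc_cbox _ _ _ _ _ _ (by norm_num) (by norm_num) (by norm_num) _ KN hN,
    face_sub _ hO.continuous, face_sub _ hP.continuous, face_sub _ hN.continuous]
  have h1 : (∫ X in (-(32/25:ℝ))..(32/25), ∫ Y in (-(22/25:ℝ))..(22/25), χ Box.O (pt X Y (7/10))) =
      (∫ X in (-(32/25:ℝ))..0, ∫ Y in (-(22/25:ℝ))..(22/25), χ Box.O (pt X Y (7/10))) +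
      (∫ X in (0:ℝ)..(32/25), ∫ Y in (-(22/25:ℝ))..(22/25), χ Box.O (pt X Y (7/10))) :=
    (intervalIntegral.integral_add_adjacent_intervals
      ((continuous_face _ hO.continuous _ _ _).intervalIntegrable _ _)
      ((continuous_face _ hO.continuous _ _ _).intervalIntegrable _ _)).symm
  have h2 : (∫ X in (-(32/25:ℝ))..0, ∫ Y in (-(22/25:ℝ))..(22/25), χ Box.O (pt X Y (7/10))) =
      ∫ X in (-(32/25:ℝ))..0, ∫ Y in (-(22/25:ℝ))..(22/25), χ Box.N (pt X Y (7/10)) := by
    refine intervalIntegral.integral_congr fun X hX => ?_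
    refine intervalIntegral.integral_congr fun Y hY => ?_
    rw [uIcc_of_le (by norm_num)] at hX hY
    refine hm.2 _ ⟨hX.1, hX.2, ?_, ?_, ?_⟩ rfl
    · rw [abs_le]; exact hY
    · simp only [pt_two]; norm_num
    · simp only [pt_two]; norm_num
  have h3 : (∫ X in (0:ℝ)..(32/25), ∫ Y in (-(22/25:ℝ))..(22/25), χ Box.O (pt X Y (7/10))) =
      ∫ X in (0:ℝ)..(32/25), ∫ Y in (-(22/25:ℝ))..(22/25), χ Box.P (pt X Y (7/10)) := by
    refine intervalIntegral.integral_congr fun X hX => ?_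
    refine intervalIntegral.integral_congr fun Y hY => ?_
    rw [uIcc_of_le (by norm_num)] at hX hY
    refine hm.1 _ ⟨hX.1, hX.2, ?_, ?_, ?_⟩ rfl
    · rw [abs_le]; exact hY
    · simp only [pt_two]; norm_num
    · simp only [pt_two]; norm_num
  rw [h1, h2, h3]
  unfold faceO faceP faceN
  ring

/-- The statement of `tensor_model`. -/
def TensorStmt : Prop :=
    ∃ (δ e θ N0 : ℝ) (w : Box → E3 → ℝ) (J : Box → E3 → E3) (V : Box → Set E3)
      (wj : ℕ → Box → E3 → ℝ), 0 < δ ∧ 0 < e ∧ 0 < θ ∧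
      (∀ b, IsOpen (V b) ∧ V b ⊆ bxo b ∧ volume (bx b \ V b) = 0) ∧
      (∀ b, ContDiffOn ℝ ∞ (w b) (V b) ∧ ContDiffOn ℝ ∞ (J b) (V b)) ∧
      (∀ b, ∀ x ∈ V b, fderiv ℝ (w b) x (ee 2) = J b x 2 ∧ dvg (J b) x = 0 ∧
        HEll δ (∇ (w b) x) (J b x) ∧ ‖∇ (w b) x‖ ^ 2 * √(tip2 x) ≤ N0) ∧
      -- Lipschitz approximants
      (∀ j b, ∃ K : ℝ≥0, LipschitzWith K (wj j b)) ∧
      (∀ ε : ℝ, 0 < ε → ∃ j0, ∀ j ≥ j0, ∀ b, ∀ x ∈ bx b, |wj j b x - w b x| ≤ ε) ∧
      (∀ b, IntegrableOn (fun x => ‖∇ (w b) x‖ ^ 2) (bx b) volume) ∧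
      (∀ b, Tendsto (fun j => ∫ x in bx b, ‖∇ (wj j b) x - ∇ (w b) x‖ ^ 2) atTop (𝓝 0)) ∧
      (∀ j, Matching (wj j)) ∧
      (∀ j, ∀ x ∈ bx Box.O, x 2 = 1 → wj j Box.O x = 0) ∧
      (∀ j, ∀ x ∈ bx Box.P, x 2 = 3/5 → wj j Box.P x = e) ∧
      (∀ j, ∀ x ∈ bx Box.N, x 2 = 3/5 → wj j Box.N x = -e) ∧
      -- weak equation with the boundary fluxes
      (∀ χ : Box → E3 → ℝ, (∀ b, ∃ K : ℝ≥0, LipschitzWith K (χ b)) → Matching χ →
        (∫ x in bx Box.O, inner ℝ (J Box.O x) (∇ (χ Box.O) x)) +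
        (∫ x in bx Box.P, inner ℝ (J Box.P x) (∇ (χ Box.P) x)) +
        (∫ x in bx Box.N, inner ℝ (J Box.N x) (∇ (χ Box.N) x)) =
          θ * (faceP (χ Box.P) - faceN (χ Box.N)))

theorem gradient_eq_ee (f : E3 → ℝ) (x : E3) (i : Fin 3) : (∇ f x) i = fderiv ℝ f x (ee i) := by
  rw [← inner_gradient, ee, EuclideanSpace.inner_single_left]
  simp

theorem norm_sq_E3 (x : E3) : ‖x‖ ^ 2 = x 0 ^ 2 + x 1 ^ 2 + x 2 ^ 2 := by
  rw [EuclideanSpace.norm_sq_eq, Fin.sum_univ_three]
  simp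

theorem flux_bound (δ : ℝ) (hδ : 0 < δ) (p j : E3) (h : HEll δ p j) (h2 : p 2 = j 2) :
    ‖j‖ ^ 2 ≤ (1 + 1 / δ ^ 2) * ‖p‖ ^ 2 := by
  rw [norm_sq_E3, norm_sq_E3, ← h2]
  have h3 := h.2
  have h4 : j 0 ^ 2 + j 1 ^ 2 ≤ (1 / δ ^ 2) * (p 0 ^ 2 + p 1 ^ 2) := by
    rw [div_mul_eq_mul_div, one_mul, le_div_iff₀ (by positivity)]
    nlinarith [sq_nonneg (δ * j 0 - p 0), sq_nonneg (δ * j 1 - p 1), sq_nonneg (p 0),
      sq_nonneg (p 1), mul_nonneg hδ.le (sq_nonneg (p 0)), mul_nonneg hδ.le (sq_nonneg (p 1))]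
  have h5 : 0 ≤ (1 / δ ^ 2) * p 2 ^ 2 := by positivity
  nlinarith

theorem restrict_bx (b : Box) (V : Set E3) (hVs : V ⊆ bx b) (hV0 : volume (bx b \ V) = 0) :
    (volume.restrict (bx b) : Measure E3) = volume.restrict V := by
  refine Measure.restrict_congr_set ?_
  have h1 : bx b \ V =ᵐ[volume] (∅ : Set E3) := ae_eq_empty.2 hV0
  have h2 : V ∪ (bx b \ V) = (bx b : Set E3) := union_sdiff_cancel hVs
  have h3 : (V ∪ (bx b \ V) : Set E3) =ᵐ[volume] (V ∪ ∅ : Set E3) := (ae_eq_refl V).union h1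
  rwa [h2, union_empty] at h3

/-- Integration of the flux relation over one box. -/
theorem box_flux (b : Box) (V : Set E3) (hVs : V ⊆ bx b)
    (hV0 : volume (bx b \ V) = 0) (Φ J R : E3 → E3) (χ : E3 → ℝ) (K : ℝ≥0)
    (hχ : LipschitzWith K χ) (hR : WDF R) (hR0 : ∀ x, x ∉ V → R x = 0)
    (hJ : Integrable J (volume.restrict V))
    (hrel : ∀ᵐ x ∂(volume.restrict V), J x + R x = Φ x) :
    ∫ x in bx b, inner ℝ (Φ x) (∇ χ x) = ∫ x in bx b, inner ℝ (J x) (∇ χ x) := by
  rw [restrict_bx b V hVs hV0]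
  have hin : ∀ Q : E3 → E3, Integrable Q (volume.restrict V) →
      Integrable (fun x => inner ℝ (Q x) (∇ χ x)) (volume.restrict V) := by
    intro Q hQ
    refine (hQ.norm.mul_const (K : ℝ)).mono'
      (hQ.aestronglyMeasurable.inner (measurable_gradient χ).aestronglyMeasurable) ?_
    filter_upwards with x
    exact (norm_inner_le_norm _ _).trans
      (mul_le_mul_of_nonneg_left (norm_gradient_le χ K hχ x) (norm_nonneg _))
  have h3 : ∫ x in V, inner ℝ (Φ x) (∇ χ x) =
      ∫ x in V, (inner ℝ (J x) (∇ χ x) + inner ℝ (R x) (∇ χ x)) := by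
    refine integral_congr_ae ?_
    filter_upwards [hrel] with x hx
    rw [← hx, inner_add_left]
  rw [h3, integral_add (hin J hJ) (hin R hR.1.integrableOn)]
  have h4 : ∫ x in V, inner ℝ (R x) (∇ χ x) = 0 := by
    rw [setIntegral_eq_integral_of_forall_compl_eq_zero, hR.2 χ K hχ]
    intro x hx
    rw [hR0 x hx, inner_zero_left]
  rw [h4, add_zero]

theorem lipschitz_coord (i : Fin 3) : LipschitzWith 1 (fun x : E3 => x i) :=
  LipschitzWith.of_dist_le_mul fun x y => by
    rw [NNReal.coe_one, one_mul, Real.dist_eq, dist_eq_norm, ← Real.norm_eq_abs]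
    exact PiLp.norm_apply_le (x - y) i

theorem gradient_add_of (f g : E3 → ℝ) (x : E3) (hf : DifferentiableAt ℝ f x)
    (hg : DifferentiableAt ℝ g x) : ∇ (fun y => f y + g y) x = ∇ f x + ∇ g x := by
  unfold gradient
  rw [fderiv_fun_add hf hg, map_add]

theorem gradient_coord (x : E3) : ∇ (fun y : E3 => y 2) x = ee 2 := by
  have h : HasFDerivAt (fun y : E3 => y 2) (EuclideanSpace.proj (𝕜 := ℝ) (2 : Fin 3)) x :=
    (EuclideanSpace.proj (𝕜 := ℝ) (2 : Fin 3)).hasFDerivAt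
  unfold gradient
  rw [h.fderiv, LinearIsometryEquiv.symm_apply_eq]
  ext y
  simp [ee, EuclideanSpace.inner_single_left]

set_option maxHeartbeats 1000000 in
theorem model_out_of (hlip : LipStmt) (hwdf : WdfStmt) (htensor : TensorStmt)
    (hiso : ∀ δ μ : ℝ, 0 < δ → 0 < μ → ∃ (c C : ℝ) (L : ℝ≥0), 0 < c ∧ IsoStmt δ μ c C L)
    (μ : ℝ) (hμ : 0 < μ) (M : Box → E3 → (E3 →L[ℝ] E3))
    (hM : ∀ b, ∃ U : Set E3, IsOpen U ∧ U ⊆ bxo b ∧ volume (bx b \ U) = 0 ∧
      (∀ x ∈ U, ∀ᶠ y in 𝓝 x, M b y = M b x) ∧ (∀ x ∈ U, Ell μ (M b x))) :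
    Nonempty (ModelOut M) := by
  obtain ⟨δ, e, θ, N0, w, J, V, wj, hδ, he, hθ, hV, hsm, hpt, hwjL, hwju, hwint, hwjt, hwjM, hwjO,
    hwjP, hwjN, hweak⟩ := htensor
  obtain ⟨c, C, L, hc, hiso⟩ := hiso δ μ hδ hμ
  choose U hUo hUs hU0 hUM hUE using hM
  set W : Box → Set E3 := fun b => V b ∩ U b with hW
  have hWo : ∀ b, IsOpen (W b) := fun b => (hV b).1.inter (hUo b)
  have hWs : ∀ b, W b ⊆ bxo b := fun b => inter_subset_left.trans (hV b).2.1
  have hWs' : ∀ b, W b ⊆ bx b := fun b => (hWs b).trans (mo_bxo_subset_bx b)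
  have hW0 : ∀ b, volume (bx b \ W b) = 0 := by
    intro b
    have h1 : bx b \ W b ⊆ (bx b \ V b) ∪ (bx b \ U b) := by
      intro x hx
      by_cases h : x ∈ V b
      · exact Or.inr ⟨hx.1, fun h' => hx.2 ⟨h, h'⟩⟩
      · exact Or.inl ⟨hx.1, h⟩
    exact measure_mono_null h1 (measure_union_null (hV b).2.2 (hU0 b))
  have hrestr : ∀ b, (volume.restrict (bx b) : Measure E3) = volume.restrict (W b) :=
    fun b => restrict_bx b (W b) (hWs' b) (hW0 b)
  have hWint : ∀ b, IntegrableOn (fun x => ‖∇ (w b) x‖ ^ 2) (W b) volume :=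
    fun b => (hwint b).mono_set (hWs' b)
  choose γ u v v' R T H hγm hγb hu hu0 hv hv0 hvv hHm hH2 hvH hWR hWT hRT0 hrel using fun b : Box =>
    iso_unb hlip hwdf δ μ c C L hiso (W b) (hWo b) ((bx_bounded b).subset (hWs' b)) (M b)
      (fun x hx => hUM b x hx.2) (fun x hx => hUE b x hx.2) (w b) (J b)
      ((hsm b).1.mono inter_subset_left) ((hsm b).2.mono inter_subset_left)
      (fun x hx => (hpt b x hx.1).1) (fun x hx => (hpt b x hx.1).2.1)
      (fun x hx => (hpt b x hx.1).2.2.1) (hWint b)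
  have hwm : ∀ b, Measurable (∇ (w b)) := fun b => measurable_gradient _
  have hw2 : ∀ b, MemLp (∇ (w b)) 2 (volume.restrict (bx b)) := by
    intro b
    rw [memLp_two_iff_integrable_sq_norm (hwm b).aestronglyMeasurable]
    exact hwint b
  have hH2' : ∀ b, MemLp (H b) 2 (volume.restrict (bx b)) := by
    intro b; rw [hrestr b]; exact hH2 b
  have hfin : ∀ b, IsFiniteMeasure (volume.restrict (bx b) : Measure E3) := fun b =>
    ⟨by simpa using volume_bx_lt_top b⟩
  have hwj2 : ∀ j b, MemLp (∇ (wj j b)) 2 (volume.restrict (bx b)) := by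
    intro j b
    have := hfin b
    obtain ⟨K, hK⟩ := hwjL j b
    exact MemLp.of_bound (measurable_gradient _).aestronglyMeasurable (K : ℝ)
      (Eventually.of_forall fun x => norm_gradient_le _ K hK x)
  have hnotO : ∀ x : E3, x 2 ≤ 7/10 → x ∉ W Box.O := fun x hx h => by
    have := (hWs _ h).2.2.1; linarith
  have hnotP : ∀ x : E3, 7/10 ≤ x 2 → x ∉ W Box.P := fun x hx h => by
    have := (hWs _ h).2.2.2.2; linarith
  have hnotN : ∀ x : E3, 7/10 ≤ x 2 → x ∉ W Box.N := fun x hx h => by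
    have := (hWs _ h).2.2.2.2; linarith
  have hJi : ∀ b, Integrable (J b) (volume.restrict (W b)) := by
    intro b
    have hfinW : IsFiniteMeasure (volume.restrict (W b) : Measure E3) := by
      rw [← hrestr b]; exact hfin b
    have h1 : AEStronglyMeasurable (J b) (volume.restrict (W b)) :=
      (((hsm b).2.continuousOn).mono inter_subset_left).aestronglyMeasurable (hWo b).measurableSet
    have h2 : MemLp (fun x => √(1 + 1 / δ ^ 2) * ‖∇ (w b) x‖) 2 (volume.restrict (W b)) := by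
      have h3 := hw2 b
      rw [hrestr b] at h3
      exact h3.norm.const_mul _
    have h3 : MemLp (J b) 2 (volume.restrict (W b)) := by
      refine h2.mono h1 ?_
      filter_upwards [ae_restrict_mem (hWo b).measurableSet] with x hx
      have h4 := flux_bound δ hδ (∇ (w b) x) (J b x) (hpt b x hx.1).2.2.1
        (by rw [gradient_eq_ee]; exact (hpt b x hx.1).1)
      rw [Real.norm_of_nonneg (by positivity)]
      refine (sq_le_sq₀ (norm_nonneg _) (by positivity)).1 ?_
      rw [mul_pow, Real.sq_sqrt (by positivity)]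
      exact h4
    exact h3.integrable one_le_two
  have hconst : ∀ b, Integrable (fun _ : E3 => ee 2) (volume.restrict (W b)) := by
    intro b
    have hfinW : IsFiniteMeasure (volume.restrict (W b) : Measure E3) := by
      rw [← hrestr b]; exact hfin b
    exact integrable_const _
  refine ⟨{
    c := c, C := C, e := e, θ := θ, γ := γ
    h := fun b x => x 2 + u b x
    G := fun b x => ∇ (w b) x + H b x
    wj := fun j b x => wj j b x + v b j x
    w := fun b x => w b x + v' b x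
    hc := hc, he := he, hθ := hθ, γm := hγm, γb := hγb
    hL := ?_, h0 := ?_, wjL := ?_, wju := ?_, Gi := ?_, wjG := ?_, wjM := ?_
    wjO := ?_, wjP := ?_, wjN := ?_, hE := ?_, wE := ?_ }⟩
  · intro b
    exact ⟨1 + 2 * L, (lipschitz_coord 2).add (hu b)⟩
  · intro b x hx
    rw [hu0 b x fun h => hx (hWs b h), add_zero]
  · intro j b
    obtain ⟨K, hK⟩ := hwjL j b
    obtain ⟨K', hK'⟩ := hv b j
    exact ⟨K + K', hK.add hK'⟩
  · intro ε hε
    obtain ⟨j0, hj0⟩ := hwju (ε / 2) (by positivity)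
    obtain ⟨j1, hj1⟩ := exists_pow_lt_of_lt_one (show (0:ℝ) < ε / 2 by positivity)
      (show (1/2 : ℝ) < 1 by norm_num)
    refine ⟨max j0 j1, fun j hj b x hx => ?_⟩
    have h1 := hj0 j ((le_max_left _ _).trans hj) b x hx
    have h2 := hvv b j x
    have h3 : (1/2 : ℝ) ^ j ≤ (1/2) ^ j1 :=
      pow_le_pow_of_le_one (by norm_num) (by norm_num) ((le_max_right _ _).trans hj)
    calc |wj j b x + v b j x - (w b x + v' b x)|
        = |(wj j b x - w b x) + (v b j x - v' b x)| := by congr 1; ring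
      _ ≤ |wj j b x - w b x| + |v b j x - v' b x| := abs_add_le _ _
      _ ≤ ε := by linarith
  · intro b
    exact (hw2 b).add (hH2' b)
  · intro b
    have h1 : Tendsto (fun j => eLpNorm (fun x => ∇ (wj j b) x - ∇ (w b) x) 2
        (volume.restrict (bx b))) atTop (𝓝 0) :=
      tendsto_eLpNorm_two_of_integral _ (fun j => (hwj2 j b).sub (hw2 b)) (hwjt b)
    have h2 : Tendsto (fun j => eLpNorm (fun x => ∇ (v b j) x - H b x) 2
        (volume.restrict (bx b))) atTop (𝓝 0) := by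
      rw [hrestr b]; exact hvH b
    have h3 := h1.add h2
    rw [add_zero] at h3
    refine tendsto_of_tendsto_of_tendsto_of_le_of_le tendsto_const_nhds h3
      (fun j => zero_le) (fun j => ?_)
    obtain ⟨K, hK⟩ := hwjL j b
    obtain ⟨K', hK'⟩ := hv b j
    have h4 : eLpNorm (fun x => ∇ (fun y => wj j b y + v b j y) x - (∇ (w b) x + H b x)) 2
        (volume.restrict (bx b)) =
        eLpNorm ((fun x => ∇ (wj j b) x - ∇ (w b) x) + fun x => ∇ (v b j) x - H b x) 2
        (volume.restrict (bx b)) := by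
      refine eLpNorm_congr_ae ?_
      refine ae_restrict_of_ae ?_
      filter_upwards [hK.ae_differentiableAt, hK'.ae_differentiableAt] with x hx hx'
      rw [gradient_add_of _ _ _ hx hx', Pi.add_apply]
      abel
    rw [h4]
    refine eLpNorm_add_le ?_ ?_ one_le_two
    · exact ((measurable_gradient _).sub (hwm b)).aestronglyMeasurable
    · exact ((measurable_gradient _).sub (hHm b)).aestronglyMeasurable
  · intro j
    constructor
    · intro p hp hp2
      simp only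
      rw [(hwjM j).1 p hp hp2, hv0 Box.O j p (hnotO p hp2.le), hv0 Box.P j p (hnotP p hp2.ge)]
    · intro p hp hp2
      simp only
      rw [(hwjM j).2 p hp hp2, hv0 Box.O j p (hnotO p hp2.le), hv0 Box.N j p (hnotN p hp2.ge)]
  · intro j x hx hx2
    rw [hwjO j x hx hx2, hv0 Box.O j x, add_zero]
    intro h
    have := (hWs _ h).2.2.2
    linarith
  · intro j x hx hx2
    rw [hwjP j x hx hx2, hv0 Box.P j x, add_zero]
    intro h
    have := (hWs _ h).2.2.2.1
    linarith
  · intro j x hx hx2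
    rw [hwjN j x hx hx2, hv0 Box.N j x, add_zero]
    intro h
    have := (hWs _ h).2.2.2.1
    linarith
  · intro χ hχ hm
    rw [← level_identity χ hχ hm]
    have key : ∀ b, ∫ x in bx b, γ b x * inner ℝ (M b x (∇ (fun y => y 2 + u b y) x)) (∇ (χ b) x) =
        ∫ x in bx b, inner ℝ (ee 2) (∇ (χ b) x) := by
      intro b
      obtain ⟨K, hK⟩ := hχ b
      rw [← box_flux b (W b) (hWs' b) (hW0 b)
        (fun x => γ b x • M b x (∇ (fun y => y 2 + u b y) x)) (fun _ => ee 2) (R b) (χ b) K hK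
        (hWR b) (fun x hx => (hRT0 b x hx).1) (hconst b) ?_]
      · refine integral_congr_ae (Eventually.of_forall fun x => ?_)
        simp only [real_inner_smul_left]
      · have h1 : ∀ᵐ x ∂(volume.restrict (W b)), DifferentiableAt ℝ (u b) x :=
          ae_restrict_of_ae (hu b).ae_differentiableAt
        filter_upwards [hrel b, h1] with x hx hx1
        have h2 : DifferentiableAt ℝ (fun y : E3 => y 2) x :=
          (EuclideanSpace.proj (𝕜 := ℝ) (2 : Fin 3)).differentiableAt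
        rw [hx.1, gradient_add_of (fun y : E3 => y 2) (u b) x h2 hx1, gradient_coord]
    rw [key, key, key]
  · intro χ hχ hm
    rw [← hweak χ hχ hm]
    have key : ∀ b, ∫ x in bx b, γ b x * inner ℝ (M b x (∇ (w b) x + H b x)) (∇ (χ b) x) =
        ∫ x in bx b, inner ℝ (J b x) (∇ (χ b) x) := by
      intro b
      obtain ⟨K, hK⟩ := hχ b
      rw [← box_flux b (W b) (hWs' b) (hW0 b)
        (fun x => γ b x • M b x (∇ (w b) x + H b x)) (J b) (T b) (χ b) K hK
        (hWT b) (fun x hx => (hRT0 b x hx).2) (hJi b) ?_]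
      · refine integral_congr_ae (Eventually.of_forall fun x => ?_)
        simp only [real_inner_smul_left]
      · filter_upwards [hrel b] with x hx
        exact hx.2
    rw [key, key, key]

end Crest.Agent.R083
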