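import Crest.Agent.R083.MetricField
import Crest.Agent.R083.TreeGeom
import Crest.Agent.R083.ChartDefs

/-!
Row 83 (S0111), MOD-d: transport of energies through a locally affine chart, the reflection
`rfl2`, null images.
-/

set_option autoImplicit false

namespace Crest.Agent.R083

open MeasureTheory Set Filter
open scoped Gradient ENNReal NNReal Topology

/-! ### gradients -/

theorem tr_measurable_grad (f : E3 → ℝ) : Measurable (fun x => ∇ f x) := by
  have h : (fun x => ∇ f x) = fun x => (InnerProductSpace.toDual ℝ E3).symm (fderiv ℝ f x) := rfl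
  rw [h]
  exact (InnerProductSpace.toDual ℝ E3).symm.continuous.measurable.comp (measurable_fderiv ℝ f)

theorem tr_norm_grad_le {f : E3 → ℝ} {K : ℝ≥0} (hf : LipschitzWith K f) (x : E3) : ‖∇ f x‖ ≤ K := by
  have h : ∇ f x = (InnerProductSpace.toDual ℝ E3).symm (fderiv ℝ f x) := rfl
  rw [h, LinearIsometryEquiv.norm_map]
  exact norm_fderiv_le_of_lipschitz ℝ hf

theorem grad_congr {f g : E3 → ℝ} {x : E3} (h : f =ᶠ[𝓝 x] g) : ∇ f x = ∇ g x := by
  show (InnerProductSpace.toDual ℝ E3).symm (fderiv ℝ f x) =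
    (InnerProductSpace.toDual ℝ E3).symm (fderiv ℝ g x)
  rw [h.fderiv_eq]

theorem grad_const (c : ℝ) (x : E3) : ∇ (fun _ : E3 => c) x = 0 := by
  show (InnerProductSpace.toDual ℝ E3).symm (fderiv ℝ (fun _ : E3 => c) x) = 0
  simp

theorem grad_mul_const (c : ℝ) (f : E3 → ℝ) (x : E3) : ∇ (fun y => c * f y) x = c • ∇ f x := by
  show (InnerProductSpace.toDual ℝ E3).symm (fderiv ℝ (fun y => c * f y) x) =
    c • (InnerProductSpace.toDual ℝ E3).symm (fderiv ℝ f x)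
  have h : fderiv ℝ (fun y => c * f y) x = c • fderiv ℝ f x := by
    by_cases hc : c = 0
    · subst hc; simp
    · have := congrFun (fderiv_const_smul_field (𝕜 := ℝ) (R := ℝ) (f := f) c) x
      simpa [smul_eq_mul, Pi.smul_def] using this
  rw [h, map_smul]

theorem grad_sub_const (c : ℝ) (f : E3 → ℝ) (x : E3) : ∇ (fun y => c - f y) x = - ∇ f x := by
  show (InnerProductSpace.toDual ℝ E3).symm (fderiv ℝ (fun y => c - f y) x) =
    - (InnerProductSpace.toDual ℝ E3).symm (fderiv ℝ f x)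
  rw [fderiv_const_sub, map_neg]

theorem grad_sub_ae {f g : E3 → ℝ} {K K' : ℝ≥0} (hf : LipschitzWith K f)
    (hg : LipschitzWith K' g) : ∀ᵐ x, ∇ (fun y => f y - g y) x = ∇ f x - ∇ g x := by
  filter_upwards [hf.ae_differentiableAt, hg.ae_differentiableAt] with x h1 h2
  show (InnerProductSpace.toDual ℝ E3).symm (fderiv ℝ (fun y => f y - g y) x) =
    (InnerProductSpace.toDual ℝ E3).symm (fderiv ℝ f x) -
    (InnerProductSpace.toDual ℝ E3).symm (fderiv ℝ g x)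
  rw [fderiv_fun_sub h1 h2, map_sub]

/-- The gradient under a local affine isomorphism (no differentiability needed). -/
theorem grad_comp_affine {Θ : E3 → E3} {A : E3 ≃L[ℝ] E3} {P : E3}
    (h : ∀ᶠ Q in 𝓝 P, Θ Q = Θ P + A (Q - P)) (f : E3 → ℝ) :
    ∇ (fun Q => f (Θ Q)) P = ContinuousLinearMap.adjoint (A : E3 →L[ℝ] E3) (∇ f (Θ P)) := by
  have h1 : (fun Q => f (Θ Q)) =ᶠ[𝓝 P] (fun y => f (y + (Θ P - A P))) ∘ A := by
    filter_upwards [h] with Q hQ
    simp only [Function.comp]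
    rw [hQ, map_sub]
    congr 1
    abel
  have h2 : fderiv ℝ (fun Q => f (Θ Q)) P = (fderiv ℝ f (Θ P)).comp (A : E3 →L[ℝ] E3) := by
    rw [h1.fderiv_eq, ContinuousLinearEquiv.comp_right_fderiv, fderiv_comp_add_right]
    congr 2
    abel
  refine ext_inner_right ℝ (fun v => ?_)
  rw [inner_gradient_left, ContinuousLinearMap.adjoint_inner_left, inner_gradient_left, h2]
  rfl

/-! ### locally affine pieces -/

/-- `Θ` is injective and locally affine on the open set `U`, with bounds. -/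
structure Piece (Θ : E3 → E3) (U : Set E3) (L : ℝ≥0) : Prop where
  op : IsOpen U
  inj : InjOn Θ U
  aff : ∀ P ∈ U, ∃ A : E3 ≃L[ℝ] E3, (∀ᶠ Q in 𝓝 P, Θ Q = Θ P + A (Q - P)) ∧
      ‖(A : E3 →L[ℝ] E3)‖ ≤ L ∧ ‖(A.symm : E3 →L[ℝ] E3)‖ ≤ L

theorem hasFDerivAt_of_affine {Θ : E3 → E3} {A : E3 ≃L[ℝ] E3} {P : E3}
    (h : ∀ᶠ Q in 𝓝 P, Θ Q = Θ P + A (Q - P)) : HasFDerivAt Θ (A : E3 →L[ℝ] E3) P := by
  have h1 : HasFDerivAt (fun Q => Θ P + A (Q - P)) (A : E3 →L[ℝ] E3) P := by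
    have h2 := ((A : E3 →L[ℝ] E3).hasFDerivAt (x := P)).add_const (Θ P - A P)
    refine h2.congr_of_eventuallyEq (Eventually.of_forall fun Q => ?_)
    simp only [map_sub, ContinuousLinearEquiv.coe_coe]
    abel
  exact h1.congr_of_eventuallyEq h

theorem Piece.hasFDerivAt {Θ : E3 → E3} {U : Set E3} {L : ℝ≥0} (h : Piece Θ U L) {P : E3}
    (hP : P ∈ U) : HasFDerivAt Θ (fderiv ℝ Θ P) P := by
  obtain ⟨A, hA, -, -⟩ := h.aff P hP
  exact (hasFDerivAt_of_affine hA).differentiableAt.hasFDerivAt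

/-- Pointwise transport of the energy density. -/
theorem inner_pullM {Θ : E3 → E3} {A : E3 ≃L[ℝ] E3} {P : E3}
    (h : ∀ᶠ Q in 𝓝 P, Θ Q = Θ P + A (Q - P)) (f k : E3 → ℝ) :
    inner ℝ (pullM (fderiv ℝ Θ P) (∇ (fun Q => f (Θ Q)) P)) (∇ (fun Q => k (Θ Q)) P) =
      |(fderiv ℝ Θ P).det| * inner ℝ (∇ f (Θ P)) (∇ k (Θ P)) := by
  rw [grad_comp_affine h f, grad_comp_affine h k, (hasFDerivAt_of_affine h).fderiv]
  have h1 : (A : E3 →L[ℝ] E3).inverse = (A.symm : E3 →L[ℝ] E3) := by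
    simp
  unfold pullM
  rw [h1]
  have h2 : ContinuousLinearMap.adjoint (A.symm : E3 →L[ℝ] E3)
      (ContinuousLinearMap.adjoint (A : E3 →L[ℝ] E3) (∇ f (Θ P))) = ∇ f (Θ P) := by
    refine ext_inner_right ℝ (fun v => ?_)
    rw [ContinuousLinearMap.adjoint_inner_left, ContinuousLinearMap.adjoint_inner_left]
    simp
  rw [smul_apply, ContinuousLinearMap.comp_apply, h2, inner_smul_left,
    ContinuousLinearMap.adjoint_inner_right]
  simp

/-- Change of variables for the energy. -/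
theorem Piece.energy {Θ : E3 → E3} {U : Set E3} {L : ℝ≥0} (h : Piece Θ U L)
    (γ f k : E3 → ℝ) :
    ∫ x in Θ '' U, γ x * inner ℝ (∇ f x) (∇ k x) =
      ∫ X in U, γ (Θ X) * inner ℝ (pullM (fderiv ℝ Θ X) (∇ (fun Q => f (Θ Q)) X))
        (∇ (fun Q => k (Θ Q)) X) := by
  rw [integral_image_eq_integral_abs_det_fderiv_smul volume h.op.measurableSet
    (fun P hP => (h.hasFDerivAt hP).hasFDerivWithinAt) h.inj]
  refine setIntegral_congr_fun h.op.measurableSet (fun P hP => ?_)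
  obtain ⟨A, hA, -, -⟩ := h.aff P hP
  show |(fderiv ℝ Θ P).det| • (γ (Θ P) * inner ℝ (∇ f (Θ P)) (∇ k (Θ P))) = _
  rw [inner_pullM hA, smul_eq_mul]
  ring

/-- Change of variables bound for the Dirichlet energy. -/
theorem Piece.dirichlet {Θ : E3 → E3} {U : Set E3} {L : ℝ≥0} (h : Piece Θ U L)
    (f : E3 → ℝ) :
    ∫⁻ x in Θ '' U, ‖∇ f x‖ₑ ^ 2 ≤
      ENNReal.ofReal (L ^ 5) * ∫⁻ X in U, ‖∇ (fun Q => f (Θ Q)) X‖ₑ ^ 2 := by
  rw [lintegral_image_eq_lintegral_abs_det_fderiv_mul volume h.op.measurableSet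
    (fun P hP => (h.hasFDerivAt hP).hasFDerivWithinAt) h.inj,
    ← lintegral_const_mul' _ _ ENNReal.ofReal_ne_top]
  refine setLIntegral_mono' h.op.measurableSet (fun P hP => ?_)
  obtain ⟨A, hA, hA1, hA2⟩ := h.aff P hP
  have hdet : |(fderiv ℝ Θ P).det| ≤ (L : ℝ) ^ 3 := by
    rw [(hasFDerivAt_of_affine hA).fderiv]
    refine abs_det_le _ _ L.2 (fun x => ?_)
    exact (ContinuousLinearMap.le_opNorm _ x).trans (by gcongr)
  have hgr : ‖∇ f (Θ P)‖ ≤ L * ‖∇ (fun Q => f (Θ Q)) P‖ := by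
    have h2 : ContinuousLinearMap.adjoint (A.symm : E3 →L[ℝ] E3) (∇ (fun Q => f (Θ Q)) P) =
        ∇ f (Θ P) := by
      rw [grad_comp_affine hA f]
      refine ext_inner_right ℝ (fun v => ?_)
      rw [ContinuousLinearMap.adjoint_inner_left, ContinuousLinearMap.adjoint_inner_left]
      simp
    rw [← h2]
    refine (ContinuousLinearMap.le_opNorm _ _).trans ?_
    gcongr
    rw [LinearIsometryEquiv.norm_map]
    exact hA2
  have e1 : ‖∇ f (Θ P)‖ₑ = ENNReal.ofReal ‖∇ f (Θ P)‖ := (ofReal_norm _).symm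
  have e2 : ‖∇ (fun Q => f (Θ Q)) P‖ₑ = ENNReal.ofReal ‖∇ (fun Q => f (Θ Q)) P‖ :=
    (ofReal_norm _).symm
  rw [e1, e2, ← ENNReal.ofReal_pow (norm_nonneg _), ← ENNReal.ofReal_pow (norm_nonneg _),
    ← ENNReal.ofReal_mul (abs_nonneg _), ← ENNReal.ofReal_mul (by positivity)]
  apply ENNReal.ofReal_le_ofReal
  calc |(fderiv ℝ Θ P).det| * ‖∇ f (Θ P)‖ ^ 2
      ≤ (L : ℝ) ^ 3 * (L * ‖∇ (fun Q => f (Θ Q)) P‖) ^ 2 := by gcongr
    _ = L ^ 5 * ‖∇ (fun Q => f (Θ Q)) P‖ ^ 2 := by ring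

/-! ### null images -/

theorem null_image {f : E3 → E3} {K : ℝ≥0} (hf : LipschitzWith K f) {s : Set E3}
    (hs : volume s = 0) : volume (f '' s) = 0 := by
  have hH : (Measure.hausdorffMeasure (3 : ℝ) : Measure E3).IsAddHaarMeasure := by
    have := isAddHaarMeasure_hausdorffMeasure (E := E3)
    simpa using this
  have h1 : (volume : Measure E3) ≪ Measure.hausdorffMeasure (3 : ℝ) :=
    Measure.absolutelyContinuous_isAddHaarMeasure _ _
  have h2 : Measure.hausdorffMeasure (3 : ℝ) ≪ (volume : Measure E3) :=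
    Measure.absolutelyContinuous_isAddHaarMeasure _ _
  refine h1 ?_
  have h3 := hf.hausdorffMeasure_image_le (d := 3) (by norm_num) s
  rw [h2 hs, mul_zero] at h3
  exact le_antisymm h3 bot_le

/-! ### the reflection -/

@[simp] theorem rfl2_zero (p : E3) : rfl2 p 0 = p 0 := rfl
@[simp] theorem rfl2_one (p : E3) : rfl2 p 1 = p 1 := rfl
@[simp] theorem rfl2_two (p : E3) : rfl2 p 2 = - p 2 := rfl

theorem rfl2_rfl2 (p : E3) : rfl2 (rfl2 p) = p := by
  apply tg_ext <;> simp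

/-- The reflection as a linear isometry. -/
noncomputable def rflL : E3 ≃ₗᵢ[ℝ] E3 where
  toFun := rfl2
  invFun := rfl2
  map_add' x y := by apply tg_ext <;> simp; ring
  map_smul' c x := by apply tg_ext <;> simp
  left_inv := rfl2_rfl2
  right_inv := rfl2_rfl2
  norm_map' x := by
    have h : ‖rfl2 x‖ ^ 2 = ‖x‖ ^ 2 := by
      rw [tg_norm_sq, tg_norm_sq]; simp
    have := Real.sqrt_inj (by positivity) (by positivity) |>.2 h
    simpa using this


theorem rfl2_lip : LipschitzWith 1 rfl2 := rflL.isometry.lipschitz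

theorem rfl2_mp : MeasurePreserving rfl2 (volume : Measure E3) volume :=
  rflL.measurePreserving

theorem inner_rfl2 (x y : E3) : inner ℝ (rfl2 x) (rfl2 y) = inner ℝ x y :=
  rflL.inner_map_map x y

theorem grad_comp_rfl2 (ψ : E3 → ℝ) (x : E3) :
    ∇ (fun y => ψ (rfl2 y)) x = rfl2 (∇ ψ (rfl2 x)) := by
  have h2 : fderiv ℝ (fun y => ψ (rfl2 y)) x =
      (fderiv ℝ ψ (rfl2 x)).comp (rflL.toContinuousLinearEquiv : E3 →L[ℝ] E3) := by
    have : (fun y => ψ (rfl2 y)) = ψ ∘ rflL.toContinuousLinearEquiv := rfl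
    rw [this, ContinuousLinearEquiv.comp_right_fderiv]
    rfl
  refine ext_inner_right ℝ (fun v => ?_)
  have h3 : inner ℝ (rfl2 (∇ ψ (rfl2 x))) v = inner ℝ (∇ ψ (rfl2 x)) (rfl2 v) := by
    rw [← inner_rfl2 (∇ ψ (rfl2 x)) (rfl2 v), rfl2_rfl2]
  rw [inner_gradient_left, h3, inner_gradient_left, h2]
  rfl

end Crest.Agent.R083
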