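import Crest.Agent.R083.MetricField
import Crest.Agent.R083.ChartDefs
import Crest.Agent.R083.Defs
import Crest.Agent.R083.TreeGeom
import Crest.Agent.R083.Transport
import Crest.Agent.R083.Glue
import Crest.Agent.R083.ModelOutDef
import Crest.Agent.R083.ModelIsoAux

-- ▼ part R083/ChartCov
section

/-!
Row 83 (S0111): change of variables under a locally affine bi-Lipschitz map; null faces of the
boxes; `hM` of `model_out` for the metric field of a locally affine chart.
-/

set_option autoImplicit false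

namespace Crest.Agent.R083

open MeasureTheory Set Filter
open scoped Gradient ENNReal NNReal Topology





/-- Coordinate hyperplanes are null. -/
theorem hyper_null (i : Fin 3) (c : ℝ) : volume {p : E3 | p i = c} = 0 := by
  refine measure_mono_null ?_ (touch_null (fun p : E3 => p i) (fun _ => c))
  intro x hx
  let f : E3 →ₗ[ℝ] ℝ := ((EuclideanSpace.proj i : E3 →L[ℝ] ℝ) : E3 →ₗ[ℝ] ℝ)
  refine ⟨⟨f.toAffineMap, Eventually.of_forall fun _ => rfl⟩,
    ⟨AffineMap.const ℝ E3 c, Eventually.of_forall fun _ => rfl⟩, hx, ?_⟩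
  intro h
  have h0 : x i = c := hx
  have hlim : Tendsto (fun t : ℝ => x + t • ee i) (𝓝[>] 0) (𝓝 x) := by
    have : Continuous (fun t : ℝ => x + t • ee i) := by fun_prop
    have h1 := this.tendsto 0
    simp only [zero_smul, add_zero] at h1
    exact h1.mono_left nhdsWithin_le_nhds
  obtain ⟨t, h1, h2⟩ := ((hlim.eventually h).and self_mem_nhdsWithin).exists
  have ht : (0 : ℝ) < t := h2
  have h3 : (x + t • ee i) i = x i + t := by simp [ee]
  have h4 : (x + t • ee i) i = c := h1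
  linarith

theorem isOpen_bxo (b : Box) : IsOpen (bxo b) := by
  have hc : ∀ i : Fin 3, Continuous fun p : E3 => p i := fun i => by fun_prop
  cases b <;> simp only [bxo, ofPred_and]
  · exact (isOpen_lt (hc 0).abs continuous_const).inter
      ((isOpen_lt (hc 1).abs continuous_const).inter
        ((isOpen_lt continuous_const (hc 2)).inter (isOpen_lt (hc 2) continuous_const)))
  · exact (isOpen_lt continuous_const (hc 0)).inter ((isOpen_lt (hc 0) continuous_const).inter
      ((isOpen_lt (hc 1).abs continuous_const).inter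
        ((isOpen_lt continuous_const (hc 2)).inter (isOpen_lt (hc 2) continuous_const))))
  · exact (isOpen_lt continuous_const (hc 0)).inter ((isOpen_lt (hc 0) continuous_const).inter
      ((isOpen_lt (hc 1).abs continuous_const).inter
        ((isOpen_lt continuous_const (hc 2)).inter (isOpen_lt (hc 2) continuous_const))))


theorem bxo_subset_bx (b : Box) : bxo b ⊆ bx b := by
  cases b <;> rintro p hp
  · exact ⟨hp.1.le, hp.2.1.le, hp.2.2.1.le, hp.2.2.2.le⟩
  · exact ⟨hp.1.le, hp.2.1.le, hp.2.2.1.le, hp.2.2.2.1.le, hp.2.2.2.2.le⟩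
  · exact ⟨hp.1.le, hp.2.1.le, hp.2.2.1.le, hp.2.2.2.1.le, hp.2.2.2.2.le⟩

/-- The faces of the boxes are null. -/
theorem bx_diff_bxo_null (b : Box) : volume (bx b \ bxo b) = 0 := by
  have h : bx b \ bxo b ⊆ (⋃ i : Fin 3, ⋃ c ∈ ({0, 32/25, -(32/25), 22/25, -(22/25), 7/10, 3/5, 1} :
      Finset ℝ), {p : E3 | p i = c}) := by
    rintro p ⟨hp, hpo⟩
    simp only [mem_iUnion, mem_ofPred_eq]
    by_contra hc
    push Not at hc
    have hc' : ∀ (i : Fin 3) (c : ℝ), c ∈ ({0, 32/25, -(32/25), 22/25, -(22/25), 7/10, 3/5, 1} :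
      Finset ℝ) → p i ≠ c := fun i c h => hc i c h
    apply hpo
    have h01 := hc' 0 (32/25) (by simp)
    have h02 := hc' 0 (-(32/25)) (by simp)
    have h03 := hc' 0 0 (by simp)
    have h11 := hc' 1 (22/25) (by simp)
    have h12 := hc' 1 (-(22/25)) (by simp)
    have h21 := hc' 2 (7/10) (by simp)
    have h22 := hc' 2 (3/5) (by simp)
    have h23 := hc' 2 1 (by simp)
    cases b
    · obtain ⟨a1, a2, a3, a4⟩ := hp
      rw [abs_le] at a1 a2
      exact ⟨abs_lt.2 ⟨lt_of_le_of_ne a1.1 h02.symm, lt_of_le_of_ne a1.2 h01⟩,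
        abs_lt.2 ⟨lt_of_le_of_ne a2.1 h12.symm, lt_of_le_of_ne a2.2 h11⟩,
        lt_of_le_of_ne a3 h21.symm, lt_of_le_of_ne a4 h23⟩
    · obtain ⟨a0, a1, a2, a3, a4⟩ := hp
      rw [abs_le] at a2
      exact ⟨lt_of_le_of_ne a0 h03.symm, lt_of_le_of_ne a1 h01,
        abs_lt.2 ⟨lt_of_le_of_ne a2.1 h12.symm, lt_of_le_of_ne a2.2 h11⟩,
        lt_of_le_of_ne a3 h22.symm, lt_of_le_of_ne a4 h21⟩
    · obtain ⟨a0, a1, a2, a3, a4⟩ := hp
      rw [abs_le] at a2
      exact ⟨lt_of_le_of_ne a0 h02.symm, lt_of_le_of_ne a1 h03,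
        abs_lt.2 ⟨lt_of_le_of_ne a2.1 h12.symm, lt_of_le_of_ne a2.2 h11⟩,
        lt_of_le_of_ne a3 h22.symm, lt_of_le_of_ne a4 h21⟩
  refine measure_mono_null h (measure_iUnion_null fun i => ?_)
  exact (measure_biUnion_null_iff (Finset.countable_toSet _)).2 fun c _ => hyper_null i c


end Crest.Agent.R083
end

-- ▼ part R083/ModDefs
section

/-!
Row 83 (S0111), MOD group: assembling functions on the boxes to functions on space.
-/

set_option autoImplicit false

namespace Crest.Agent.R083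

open MeasureTheory Set Filter
open scoped Gradient ENNReal NNReal Topology

/-- Assemble a family of functions on the boxes to a function on space. -/
noncomputable def pull (f : Box → E3 → ℝ) (p : E3) : ℝ :=
  if 7/10 ≤ lev p then f Box.O (phi Box.O p)
  else if 0 ≤ p 0 then f Box.P (phi Box.P p) else f Box.N (phi Box.N p)

/-- The normalisation factor. -/
noncomputable def Nf : ℝ := 32 * 22 / 875 * (56 / 5)

end Crest.Agent.R083
end

-- ▼ part R083/L2Lim
section

/-!
Row 83 (S0111), MOD-d: abstract `L²` limits.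
-/

set_option autoImplicit false

namespace Crest.Agent.R083

open MeasureTheory Set Filter
open scoped Gradient ENNReal NNReal Topology

/-- Bounded linear integrands are continuous in `L²` over a finite measure. -/
theorem tendsto_integral_L2 {μ : Measure E3} [IsFiniteMeasure μ] (T : E3 → (E3 →L[ℝ] ℝ))
    (hT : AEStronglyMeasurable T μ) (C : ℝ) (hC : ∀ᵐ x ∂μ, ‖T x‖ ≤ C)
    (V : ℕ → E3 → E3) (V' : E3 → E3) (hV : ∀ j, MemLp (V j) 2 μ) (hV' : MemLp V' 2 μ)
    (h : Tendsto (fun j => eLpNorm (fun x => V j x - V' x) 2 μ) atTop (𝓝 0)) :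
    Tendsto (fun j => ∫ x, T x (V j x) ∂μ) atTop (𝓝 (∫ x, T x (V' x) ∂μ)) := by
  have hm : ∀ W : E3 → E3, MemLp W 2 μ → Integrable (fun x => T x (W x)) μ := by
    intro W hW
    have hW1 : Integrable W μ := hW.integrable (by norm_num)
    refine Integrable.mono' (hW1.norm.const_mul C) ?_ ?_
    · exact (isBoundedBilinearMap_apply (𝕜 := ℝ) (E := E3) (F := ℝ)).continuous.comp_aestronglyMeasurable
        (hT.prodMk hW.1)
    · filter_upwards [hC] with x hx
      exact (ContinuousLinearMap.le_opNorm _ _).trans (by gcongr)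
  refine tendsto_integral_of_L1 _ (hm V' hV').1 (Eventually.of_forall fun j => hm _ (hV j)) ?_
  have hb : ∀ j, ∫⁻ x, ‖T x (V j x) - T x (V' x)‖ₑ ∂μ ≤
      ENNReal.ofReal C * (eLpNorm (fun x => V j x - V' x) 2 μ *
        μ Set.univ ^ (1 / (1 : ℝ≥0∞).toReal - 1 / (2 : ℝ≥0∞).toReal)) := by
    intro j
    have h1 : eLpNorm (fun x => V j x - V' x) 1 μ ≤ eLpNorm (fun x => V j x - V' x) 2 μ *
        μ Set.univ ^ (1 / (1 : ℝ≥0∞).toReal - 1 / (2 : ℝ≥0∞).toReal) :=
      eLpNorm_le_eLpNorm_mul_rpow_measure_univ (by norm_num) ((hV j).1.sub hV'.1)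
    refine le_trans ?_ (mul_le_mul_right h1 _)
    rw [eLpNorm_one_eq_lintegral_enorm, ← lintegral_const_mul' _ _ ENNReal.ofReal_ne_top]
    refine lintegral_mono_ae ?_
    filter_upwards [hC] with x hx
    rw [← map_sub, ← ofReal_norm, ← ofReal_norm,
      ← ENNReal.ofReal_mul (le_trans (norm_nonneg _) hx)]
    apply ENNReal.ofReal_le_ofReal
    exact (ContinuousLinearMap.le_opNorm _ _).trans (by gcongr)
  refine tendsto_of_tendsto_of_tendsto_of_le_of_le tendsto_const_nhds ?_ (fun j => bot_le) hb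
  have hfin : μ Set.univ ^ (1 / (1 : ℝ≥0∞).toReal - 1 / (2 : ℝ≥0∞).toReal) ≠ ∞ := by
    apply ENNReal.rpow_ne_top_of_nonneg
    · norm_num
    · exact measure_ne_top μ _
  have h2 := ENNReal.Tendsto.mul_const (b := μ Set.univ ^ (1 / (1 : ℝ≥0∞).toReal -
    1 / (2 : ℝ≥0∞).toReal)) h (Or.inr hfin)
  have h3 := ENNReal.Tendsto.const_mul (a := ENNReal.ofReal C) h2 (Or.inr ENNReal.ofReal_ne_top)
  simpa using h3

/-- Completeness of `L²` in terms of `eLpNorm`. -/
theorem exists_L2_limit {μ : Measure E3} (V : ℕ → E3 → E3) (hV : ∀ j, MemLp (V j) 2 μ)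
    (η : ℕ → ℝ≥0∞) (hη : Tendsto η atTop (𝓝 0))
    (h : ∀ j k, eLpNorm (fun x => V j x - V k x) 2 μ ≤ η j + η k) :
    ∃ G : E3 → E3, MemLp G 2 μ ∧
      Tendsto (fun j => eLpNorm (fun x => V j x - G x) 2 μ) atTop (𝓝 0) := by
  let a : ℕ → Lp E3 2 μ := fun j => (hV j).toLp (V j)
  have hc : CauchySeq a := by
    rw [EMetric.cauchySeq_iff]
    intro ε hε
    have h1 : ∀ᶠ j in atTop, η j < ε / 2 := hη.eventually (gt_mem_nhds (ENNReal.half_pos hε.ne'))
    obtain ⟨N, hN⟩ := eventually_atTop.1 h1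
    refine ⟨N, fun m hm n hn => ?_⟩
    rw [Lp.edist_toLp_toLp]
    calc eLpNorm (V m - V n) 2 μ ≤ η m + η n := h m n
      _ < ε / 2 + ε / 2 := ENNReal.add_lt_add (hN m hm) (hN n hn)
      _ = ε := ENNReal.add_halves ε
  obtain ⟨G, hG⟩ := cauchySeq_tendsto_of_complete hc
  refine ⟨G, Lp.memLp G, ?_⟩
  have h2 := (Lp.tendsto_Lp_iff_tendsto_eLpNorm' a G).1 hG
  refine h2.congr (fun j => ?_)
  refine eLpNorm_congr_ae ?_
  filter_upwards [(hV j).coeFn_toLp] with x hx
  simp only [Pi.sub_apply]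
  rw [show (a j : E3 → E3) x = V j x from hx]

end Crest.Agent.R083
end

-- ▼ part R083/Chart
section

/-!
Row 83 (S0111), task MOD-b: the piecewise linear chart of the module (helper552).

Proofs of the statements of the section `Chart.lean` of `ModIface.lean`.  Auxiliary lemmas are in the
namespace `Crest.Agent.R083.Ch`.
-/

set_option autoImplicit false

namespace Crest.Agent.R083

open MeasureTheory Set Filter
open scoped Gradient ENNReal NNReal Topology

namespace Ch

/-! ### One-dimensional lemmas -/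

/-- Shifted height from the level. -/
noncomputable def lev0 (l v : ℝ) : ℝ := max (l - 5/2 * v) (min l (5 * l - 7/2))

/-- Level from the shifted height. -/
noncomputable def lev1 (l0 v : ℝ) : ℝ := l0 + min (5/2 * v) (max 0 (7/10 - 4/5 * l0))

theorem lev_eq (p : E3) : lev p = lev1 (lv0 p) (v0 (p 0) (p 1)) := rfl

theorem zlev_eq (x y l : ℝ) : zlev x y l = lev0 l (v0 x y) - 5/2 * d0 x y := rfl

theorem roof_eq (x y : ℝ) : roof x y = 1 - 5/2 * d0 x y := rfl

theorem v0_nonneg (x y : ℝ) : 0 ≤ v0 x y := le_max_left _ _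
theorem d0_nonneg (x y : ℝ) : 0 ≤ d0 x y := le_max_left _ _

@[simp] theorem v0_neg_left (x y : ℝ) : v0 (-x) y = v0 x y := by simp [v0]
@[simp] theorem v0_neg_right (x y : ℝ) : v0 x (-y) = v0 x y := by simp [v0]
@[simp] theorem d0_neg_left (x y : ℝ) : d0 (-x) y = d0 x y := by simp [d0]
@[simp] theorem d0_neg_right (x y : ℝ) : d0 x (-y) = d0 x y := by simp [d0]
@[simp] theorem zlev_neg_left (x y l : ℝ) : zlev (-x) y l = zlev x y l := by simp [zlev]
@[simp] theorem zlev_neg_right (x y l : ℝ) : zlev x (-y) l = zlev x y l := by simp [zlev]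

theorem clp_zero (lam x : ℝ) : clp 0 lam x = x := by
  rw [clp, sub_zero, add_zero]
  exact max_eq_left (min_le_left _ _)

theorem clm_self {a b x : ℝ} (h1 : a ≤ x) (h2 : x ≤ b) : clm a b x = x := by
  rw [clm, min_eq_right h2, max_eq_right h1]

theorem clm_mem {a b : ℝ} (x : ℝ) (h : a ≤ b) : a ≤ clm a b x ∧ clm a b x ≤ b :=
  ⟨le_max_left _ _, max_le h (min_le_left _ _)⟩

theorem clm_top {a b x : ℝ} (h : a ≤ b) (hx : b ≤ x) : clm a b x = b := by
  rw [clm, min_eq_left hx, max_eq_right h]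

theorem clm_bot {a b x : ℝ} (hx : x ≤ a) : clm a b x = a := by
  rw [clm]
  exact max_eq_left ((min_le_right _ _).trans hx)


theorem lev0_lev1 (l0 v : ℝ) (hv : 0 ≤ v) : lev0 (lev1 l0 v) v = l0 := by
  simp only [lev0, lev1, max_def, min_def]; split_ifs <;> linarith

theorem lev1_lev0 (l v : ℝ) (hv : 0 ≤ v) : lev1 (lev0 l v) v = l := by
  simp only [lev0, lev1, max_def, min_def]; split_ifs <;> linarith

theorem lev0_le (l v : ℝ) (hv : 0 ≤ v) : lev0 l v ≤ l := by
  simp only [lev0, max_def, min_def]; split_ifs <;> linarith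

/-- the coordinate changes -/
theorem inv_a (t x : ℝ) (ht : 0 ≤ t) : clp t (35/32) (clp t (32/35) x) = x := by
  simp only [clp, max_def, min_def]; split_ifs <;> linarith
theorem inv_a' (t x : ℝ) (ht : 0 ≤ t) : clp t (32/35) (clp t (35/32) x) = x := by
  simp only [clp, max_def, min_def]; split_ifs <;> linarith
theorem inv_b (t x : ℝ) (ht : 0 ≤ t) : clp t (25/22) (clp t (22/25) x) = x := by
  simp only [clp, max_def, min_def]; split_ifs <;> linarith
theorem inv_b' (t x : ℝ) (ht : 0 ≤ t) : clp t (22/25) (clp t (25/22) x) = x := by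
  simp only [clp, max_def, min_def]; split_ifs <;> linarith
theorem inv_c (t x : ℝ) (ht : 0 ≤ t) : clp t (15/16) (clp t (16/15) x) = x := by
  simp only [clp, max_def, min_def]; split_ifs <;> linarith
theorem inv_c' (t x : ℝ) (ht : 0 ≤ t) : clp t (16/15) (clp t (15/16) x) = x := by
  simp only [clp, max_def, min_def]; split_ifs <;> linarith
theorem inv_d (t x : ℝ) (ht : 0 ≤ t) : clp t (21/22) (clp t (22/21) x) = x := by
  simp only [clp, max_def, min_def]; split_ifs <;> linarith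
theorem inv_d' (t x : ℝ) (ht : 0 ≤ t) : clp t (22/21) (clp t (21/22) x) = x := by
  simp only [clp, max_def, min_def]; split_ifs <;> linarith

/-- bounds for the new coordinates -/
theorem bd_a (t x : ℝ) (h0 : 0 ≤ t) (h1 : t ≤ 3/25) :
    |clp t (32/35) x| ≤ 32/25 ↔ |x| ≤ 32/25 + t := by
  rw [abs_le, abs_le]
  constructor
  · intro h
    simp only [clp, max_def, min_def] at h
    split_ifs at h <;> constructor <;> linarith
  · intro h
    simp only [clp, max_def, min_def]
    split_ifs <;> constructor <;> linarith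

theorem bd_a' (t x : ℝ) (h0 : 0 ≤ t) (h1 : t ≤ 3/25) :
    |clp t (32/35) x| < 32/25 ↔ |x| < 32/25 + t := by
  rw [abs_lt, abs_lt]
  constructor
  · intro h
    simp only [clp, max_def, min_def] at h
    split_ifs at h <;> constructor <;> linarith
  · intro h
    simp only [clp, max_def, min_def]
    split_ifs <;> constructor <;> linarith

theorem bd_b (t x : ℝ) (h0 : 0 ≤ t) (h1 : t ≤ 3/25) :
    |clp t (22/25) x| ≤ 22/25 ↔ |x| ≤ 22/25 + t := by
  rw [abs_le, abs_le]
  constructor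
  · intro h
    simp only [clp, max_def, min_def] at h
    split_ifs at h <;> constructor <;> linarith
  · intro h
    simp only [clp, max_def, min_def]
    split_ifs <;> constructor <;> linarith

theorem bd_b' (t x : ℝ) (h0 : 0 ≤ t) (h1 : t ≤ 3/25) :
    |clp t (22/25) x| < 22/25 ↔ |x| < 22/25 + t := by
  rw [abs_lt, abs_lt]
  constructor
  · intro h
    simp only [clp, max_def, min_def] at h
    split_ifs at h <;> constructor <;> linarith
  · intro h
    simp only [clp, max_def, min_def]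
    split_ifs <;> constructor <;> linarith

theorem bd_c (t x : ℝ) (h0 : 0 ≤ t) (h1 : t ≤ 1/25) :
    |clp t (16/15) x| ≤ 16/25 ↔ |x| ≤ 16/25 - t := by
  rw [abs_le, abs_le]
  constructor
  · intro h
    simp only [clp, max_def, min_def] at h
    split_ifs at h <;> constructor <;> linarith
  · intro h
    simp only [clp, max_def, min_def]
    split_ifs <;> constructor <;> linarith

theorem bd_c' (t x : ℝ) (h0 : 0 ≤ t) (h1 : t ≤ 1/25) :
    |clp t (16/15) x| < 16/25 ↔ |x| < 16/25 - t := by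
  rw [abs_lt, abs_lt]
  constructor
  · intro h
    simp only [clp, max_def, min_def] at h
    split_ifs at h <;> constructor <;> linarith
  · intro h
    simp only [clp, max_def, min_def]
    split_ifs <;> constructor <;> linarith

theorem bd_d (t x : ℝ) (h0 : 0 ≤ t) (h1 : t ≤ 1/25) :
    |clp t (22/21) x| ≤ 22/25 ↔ |x| ≤ 22/25 - t := by
  rw [abs_le, abs_le]
  constructor
  · intro h
    simp only [clp, max_def, min_def] at h
    split_ifs at h <;> constructor <;> linarith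
  · intro h
    simp only [clp, max_def, min_def]
    split_ifs <;> constructor <;> linarith

theorem bd_d' (t x : ℝ) (h0 : 0 ≤ t) (h1 : t ≤ 1/25) :
    |clp t (22/21) x| < 22/25 ↔ |x| < 22/25 - t := by
  rw [abs_lt, abs_lt]
  constructor
  · intro h
    simp only [clp, max_def, min_def] at h
    split_ifs at h <;> constructor <;> linarith
  · intro h
    simp only [clp, max_def, min_def]
    split_ifs <;> constructor <;> linarith

/-! ### Height of the sections -/

theorem v0_cases (x y : ℝ) :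
    (v0 x y = 0 ∧ (7/25 - |x|) - max 0 (|y| - 3/5) ≤ 0) ∨
      (v0 x y = (7/25 - |x|) - max 0 (|y| - 3/5) ∧ 0 ≤ (7/25 - |x|) - max 0 (|y| - 3/5)) := by
  rcases le_total ((7/25 - |x|) - max 0 (|y| - 3/5)) 0 with h | h
  · left; exact ⟨max_eq_left h, h⟩
  · right; exact ⟨max_eq_right h, h⟩

theorem le_v0 (x y : ℝ) : (7/25 - |x|) - max 0 (|y| - 3/5) ≤ v0 x y := le_max_right _ _
theorem le_d0_x (x y : ℝ) : |x| - 1 ≤ d0 x y := (le_max_left _ _).trans (le_max_right _ _)
theorem le_d0_y (x y : ℝ) : |y| - 3/5 ≤ d0 x y := (le_max_right _ _).trans (le_max_right _ _)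
theorem max_le_d0 (x y : ℝ) : max 0 (|y| - 3/5) ≤ d0 x y :=
  max_le (d0_nonneg x y) (le_d0_y x y)
theorem d0_le {x y L : ℝ} (h0 : 0 ≤ L) (h1 : |x| - 1 ≤ L) (h2 : |y| - 3/5 ≤ L) : d0 x y ≤ L :=
  max_le h0 (max_le h1 h2)
theorem d0_lt {x y L : ℝ} (h0 : 0 < L) (h1 : |x| - 1 < L) (h2 : |y| - 3/5 < L) : d0 x y < L :=
  max_lt h0 (max_lt h1 h2)

/-- distance to the flat tops of the children -/
theorem d0_add_v0 (x y : ℝ) :
    d0 x y + v0 x y = max 0 (max (max (|x| - 1) (7/25 - |x|)) (|y| - 3/5)) := by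
  apply le_antisymm
  · rcases v0_cases x y with ⟨h, h'⟩ | ⟨h, h'⟩
    · rw [h, add_zero]
      refine d0_le (le_max_left _ _) ?_ ?_
      · exact ((le_max_left _ _).trans (le_max_left _ _)).trans (le_max_right _ _)
      · exact (le_max_right _ _).trans (le_max_right _ _)
    · have hm : 0 ≤ max 0 (|y| - 3/5) := le_max_left _ _
      have hd : d0 x y = max 0 (|y| - 3/5) := by
        apply le_antisymm _ (max_le_d0 x y)
        refine d0_le hm ?_ (le_max_right _ _)
        linarith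
      rw [h, hd]
      have : (7/25 : ℝ) - |x| ≤ max 0 (max (max (|x| - 1) (7/25 - |x|)) (|y| - 3/5)) :=
        ((le_max_right _ _).trans (le_max_left _ _)).trans (le_max_right _ _)
      linarith
  · have h1 := v0_nonneg x y
    have h2 := d0_nonneg x y
    have h3 := le_d0_x x y
    have h4 := le_d0_y x y
    have h5 := le_v0 x y
    have h6 := max_le_d0 x y
    refine max_le ?_ (max_le (max_le ?_ ?_) ?_) <;> linarith

theorem zlev_nonneg_iff (x y l : ℝ) : 0 ≤ zlev x y l ↔ 5/2 * d0 x y ≤ lev0 l (v0 x y) := by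
  rw [zlev_eq, sub_nonneg]

theorem zlev_pos_iff (x y l : ℝ) : 0 < zlev x y l ↔ 5/2 * d0 x y < lev0 l (v0 x y) := by
  rw [zlev_eq, sub_pos]

theorem zlev_nonneg_O (x y l : ℝ) (hl : 7/10 ≤ l) :
    0 ≤ zlev x y l ↔ |x| ≤ 1 + 2/5 * l ∧ |y| ≤ 3/5 + 2/5 * l := by
  have hx := abs_nonneg x
  rw [zlev_nonneg_iff]
  constructor
  · intro h
    have h1 := le_d0_x x y
    have h2 := le_d0_y x y
    have h3 := lev0_le l _ (v0_nonneg x y)
    constructor <;> linarith
  · rintro ⟨h1, h2⟩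
    rcases v0_cases x y with ⟨h, h'⟩ | ⟨h, h'⟩
    · have hL : l ≤ lev0 l (v0 x y) := by
        rw [h, lev0]; exact le_trans (by linarith) (le_max_left _ _)
      have : d0 x y ≤ 2/5 * l := d0_le (by linarith) (by linarith) (by linarith)
      linarith
    · have hL : l - 5/2 * v0 x y ≤ lev0 l (v0 x y) := le_max_left _ _
      have hm : 0 ≤ max 0 (|y| - 3/5) := le_max_left _ _
      have hd : d0 x y ≤ max 0 (|y| - 3/5) := d0_le hm (by linarith) (le_max_right _ _)
      linarith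

theorem zlev_pos_O (x y l : ℝ) (hl : 7/10 < l) :
    0 < zlev x y l ↔ |x| < 1 + 2/5 * l ∧ |y| < 3/5 + 2/5 * l := by
  have hx := abs_nonneg x
  rw [zlev_pos_iff]
  constructor
  · intro h
    have h1 := le_d0_x x y
    have h2 := le_d0_y x y
    have h3 := lev0_le l _ (v0_nonneg x y)
    constructor <;> linarith
  · rintro ⟨h1, h2⟩
    rcases v0_cases x y with ⟨h, h'⟩ | ⟨h, h'⟩
    · have hL : l ≤ lev0 l (v0 x y) := by
        rw [h, lev0]; exact le_trans (by linarith) (le_max_left _ _)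
      have : d0 x y < 2/5 * l := d0_lt (by linarith) (by linarith) (by linarith)
      linarith
    · have hL : l - 5/2 * v0 x y ≤ lev0 l (v0 x y) := le_max_left _ _
      have hm : 0 ≤ max 0 (|y| - 3/5) := le_max_left _ _
      have hd : d0 x y ≤ max 0 (|y| - 3/5) := d0_le hm (by linarith) (le_max_right _ _)
      linarith

theorem lev0_P {l v : ℝ} (_h0 : 0 ≤ l) (hl : l ≤ 7/10) (h : 0 ≤ lev0 l v) :
    lev0 l v = l - 5/2 * v ∨ (l = 7/10 ∧ lev0 l v = 0) := by
  have hm : min l (5 * l - 7/2) ≤ 5 * l - 7/2 := min_le_right _ _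
  rcases le_total (min l (5 * l - 7/2)) (l - 5/2 * v) with h' | h'
  · left; exact max_eq_left h'
  · right
    have h2 : lev0 l v = min l (5 * l - 7/2) := max_eq_right h'
    rw [h2] at h ⊢
    have h3 : l = 7/10 := by linarith
    refine ⟨h3, le_antisymm (by linarith) h⟩

theorem zlev_nonneg_P (x y l : ℝ) (h0 : 0 ≤ l) (hl : l ≤ 7/10) (hx : 0 ≤ x) :
    0 ≤ zlev x y l ↔ |x - 16/25| ≤ 9/25 + 2/5 * l ∧ |y| ≤ 3/5 + 2/5 * l := by
  rw [zlev_nonneg_iff, abs_le (a := x - 16/25)]
  have hax := abs_of_nonneg hx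
  have hs := d0_add_v0 x y
  have hd0 := d0_nonneg x y
  have h1 := le_d0_x x y
  have h2 := le_d0_y x y
  constructor
  · intro h
    rcases lev0_P (v := v0 x y) h0 hl (le_trans (by linarith) h) with h3 | ⟨h3, h4⟩
    · rw [h3] at h
      have h5 : (7/25 : ℝ) - |x| ≤ d0 x y + v0 x y := by
        rw [hs]
        exact ((le_max_right _ _).trans (le_max_left _ _)).trans (le_max_right _ _)
      have h6 := v0_nonneg x y
      rw [hax] at h1 h5
      refine ⟨⟨?_, ?_⟩, ?_⟩ <;> linarith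
    · rw [h4] at h
      rw [hax] at h1
      refine ⟨⟨?_, ?_⟩, ?_⟩ <;> linarith
  · rintro ⟨⟨h3, h4⟩, h5⟩
    have hL : l - 5/2 * v0 x y ≤ lev0 l (v0 x y) := le_max_left _ _
    have : d0 x y + v0 x y ≤ 2/5 * l := by
      rw [hs, hax]
      refine max_le ?_ (max_le (max_le ?_ ?_) ?_) <;> linarith
    linarith

theorem zlev_pos_P (x y l : ℝ) (h0 : 0 < l) (hl : l < 7/10) (hx : 0 ≤ x) :
    0 < zlev x y l ↔ |x - 16/25| < 9/25 + 2/5 * l ∧ |y| < 3/5 + 2/5 * l := by
  rw [zlev_pos_iff, abs_lt (a := x - 16/25)]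
  have hax := abs_of_nonneg hx
  have hs := d0_add_v0 x y
  have hd0 := d0_nonneg x y
  have h1 := le_d0_x x y
  have h2 := le_d0_y x y
  constructor
  · intro h
    rcases lev0_P (v := v0 x y) h0.le hl.le (le_trans (by linarith) h.le) with h3 | ⟨h3, h4⟩
    · rw [h3] at h
      have h5 : (7/25 : ℝ) - |x| ≤ d0 x y + v0 x y := by
        rw [hs]
        exact ((le_max_right _ _).trans (le_max_left _ _)).trans (le_max_right _ _)
      have h6 := v0_nonneg x y
      rw [hax] at h1 h5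
      refine ⟨⟨?_, ?_⟩, ?_⟩ <;> linarith
    · exact absurd h3 hl.ne
  · rintro ⟨⟨h3, h4⟩, h5⟩
    have hL : l - 5/2 * v0 x y ≤ lev0 l (v0 x y) := le_max_left _ _
    have : d0 x y + v0 x y < 2/5 * l := by
      rw [hs, hax]
      refine max_lt ?_ (max_lt (max_lt ?_ ?_) ?_) <;> linarith
    linarith

/-! ### The level -/


theorem lev1_lt_one (l0 v : ℝ) (hv : 0 ≤ v) : lev1 l0 v < 1 ↔ l0 < 1 := by
  constructor
  · intro h
    have : 0 ≤ min (5/2 * v) (max 0 (7/10 - 4/5 * l0)) :=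
      le_min (by positivity) (le_max_left _ _)
    rw [lev1] at h; linarith
  · intro h
    rw [lev1]
    rcases le_total (7/10 - 4/5 * l0) 0 with h' | h'
    · rw [max_eq_left h']
      have := min_le_right (5/2 * v) (0:ℝ)
      linarith
    · rw [max_eq_right h']
      have := min_le_right (5/2 * v) (7/10 - 4/5 * l0)
      linarith

theorem v0_le (x y : ℝ) : v0 x y ≤ 7/25 := by
  have := abs_nonneg x
  have hm : 0 ≤ max 0 (|y| - 3/5) := le_max_left _ _
  exact max_le (by norm_num) (by linarith)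

theorem lev1_le_iff (l0 v t : ℝ) (h0 : 0 ≤ l0) (hv' : v ≤ 7/25) (ht : t ≤ 7/10) :
    lev1 l0 v ≤ t ↔ l0 + 5/2 * v ≤ t := by
  constructor
  · intro h
    rcases le_total (5/2 * v) (max 0 (7/10 - 4/5 * l0)) with h' | h'
    · rwa [lev1, min_eq_left h'] at h
    · rw [lev1, min_eq_right h'] at h
      have := le_max_right 0 (7/10 - 4/5 * l0)
      have h1 : l0 = 0 := by linarith
      subst h1
      linarith
  · intro h
    have := min_le_left (5/2 * v) (max 0 (7/10 - 4/5 * l0))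
    rw [lev1]; linarith

theorem lev1_lt_iff (l0 v t : ℝ) (h0 : 0 ≤ l0) (ht : t ≤ 7/10) :
    lev1 l0 v < t ↔ l0 + 5/2 * v < t := by
  constructor
  · intro h
    rcases le_total (5/2 * v) (max 0 (7/10 - 4/5 * l0)) with h' | h'
    · rwa [lev1, min_eq_left h'] at h
    · rw [lev1, min_eq_right h'] at h
      have := le_max_right 0 (7/10 - 4/5 * l0)
      exfalso
      linarith
  · intro h
    have := min_le_left (5/2 * v) (max 0 (7/10 - 4/5 * l0))
    rw [lev1]; linarith

theorem lv0_nonneg (p : E3) : 0 ≤ lv0 p := by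
  have h1 := abs_nonneg (p 2)
  have h2 := d0_nonneg (p 0) (p 1)
  rw [lv0]; linarith


theorem mem_cellB_iff (q : E3) : q ∈ cellB ↔ lev q < 1 := by
  rw [lev_eq, lev1_lt_one _ _ (v0_nonneg _ _), lv0]
  change |q 2| < roof (q 0) (q 1) ↔ _
  rw [roof_eq]
  constructor <;> intro h <;> linarith

/-- horizontal distance to the flat top of the child centred at `c` -/
noncomputable def dc (c x y : ℝ) : ℝ := max 0 (max (|x - c| - 9/25) (|y| - 3/5))

theorem dc_pos (x y : ℝ) (hx : 0 ≤ x) : dc (16/25) x y = d0 x y + v0 x y := by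
  rw [d0_add_v0, dc, abs_of_nonneg hx]
  congr 2
  rcases le_total (16/25) x with h | h
  · rw [abs_of_nonneg (by linarith)]
    rw [max_eq_left (by linarith)]; ring
  · rw [abs_of_nonpos (by linarith), max_eq_right (by linarith : x - 1 ≤ 7/25 - x)]
    ring

theorem dc_neg (x y : ℝ) (hx : x ≤ 0) : dc (-(16/25)) x y = d0 x y + v0 x y := by
  have h := dc_pos (-x) y (by linarith)
  rw [d0_neg_left, v0_neg_left] at h
  rw [← h, dc, dc]
  congr 3
  rw [← abs_neg]; congr 1; ring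

theorem le_dc (c x y : ℝ) (hc : c = 16/25 ∨ c = -(16/25)) : d0 x y + v0 x y ≤ dc c x y := by
  rw [d0_add_v0, dc]
  refine max_le (le_max_left _ _) (max_le (max_le ?_ ?_) ?_)
  · refine le_trans ?_ ((le_max_left _ _).trans (le_max_right _ _))
    rcases hc with rfl | rfl
    · have := abs_sub_abs_le_abs_sub x (16/25)
      rw [abs_of_nonneg (by norm_num : (0:ℝ) ≤ 16/25)] at this
      linarith
    · have := abs_sub_abs_le_abs_sub x (-(16/25))
      rw [abs_neg, abs_of_nonneg (by norm_num : (0:ℝ) ≤ 16/25)] at this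
      linarith
  · refine le_trans ?_ ((le_max_left _ _).trans (le_max_right _ _))
    rcases hc with rfl | rfl
    · have := abs_sub_abs_le_abs_sub (16/25) x
      rw [abs_of_nonneg (by norm_num : (0:ℝ) ≤ 16/25), abs_sub_comm] at this
      linarith
    · have := abs_sub_abs_le_abs_sub (-(16/25)) x
      rw [abs_neg, abs_of_nonneg (by norm_num : (0:ℝ) ≤ 16/25), abs_sub_comm] at this
      linarith
  · exact (le_max_right _ _).trans (le_max_right _ _)

theorem roof_scale (x y c : ℝ) :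
    3/5 * roof (5/3 * y) (5/3 * (x - c)) = 3/5 - 5/2 * dc c x y := by
  have h1 : |5/3 * y| = 5/3 * |y| := by rw [abs_mul, abs_of_pos (by norm_num : (0:ℝ) < 5/3)]
  have h2 : |5/3 * (x - c)| = 5/3 * |x - c| := by
    rw [abs_mul, abs_of_pos (by norm_num : (0:ℝ) < 5/3)]
  rw [roof, h1, h2, dc]
  have h3 : (5/3 : ℝ) * |y| - 1 = 5/3 * (|y| - 3/5) := by ring
  have h4 : (5/3 : ℝ) * |x - c| - 3/5 = 5/3 * (|x - c| - 9/25) := by ring
  rw [h3, h4, ← mul_max_of_nonneg _ _ (by norm_num : (0:ℝ) ≤ 5/3)]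
  have h5 : (0:ℝ) = 5/3 * 0 := by norm_num
  conv_lhs => rw [h5]
  rw [← mul_max_of_nonneg _ _ (by norm_num : (0:ℝ) ≤ 5/3), max_comm (|y| - 3/5)]
  ring

theorem mem_sim_cellBc_iff (b : Bool) (q : E3) :
    q ∈ sim b '' cellBc ↔ |q 2| + 5/2 * dc (sg b * (16/25)) (q 0) (q 1) ≤ 3/5 := by
  rw [mem_sim_image]
  have h := roof_scale (q 0) (q 1) (sg b * (16/25))
  have h1 : |5/3 * q 2| = 5/3 * |q 2| := by rw [abs_mul, abs_of_pos (by norm_num : (0:ℝ) < 5/3)]
  change |5/3 * q 2| ≤ roof (5/3 * q 1) (5/3 * (q 0 - sg b * (16/25))) ↔ _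
  rw [h1]
  constructor <;> intro h' <;> linarith

theorem lev_le_iff (q : E3) (t : ℝ) (ht : t ≤ 7/10) :
    lev q ≤ t ↔ |q 2| + 5/2 * (d0 (q 0) (q 1) + v0 (q 0) (q 1)) ≤ t := by
  rw [lev_eq, lev1_le_iff _ _ t (lv0_nonneg q) (v0_le _ _) ht, lv0]
  constructor <;> intro h <;> linarith

theorem lev_lt_iff (q : E3) (t : ℝ) (ht : t ≤ 7/10) :
    lev q < t ↔ |q 2| + 5/2 * (d0 (q 0) (q 1) + v0 (q 0) (q 1)) < t := by
  rw [lev_eq, lev1_lt_iff _ _ t (lv0_nonneg q) ht, lv0]
  constructor <;> intro h <;> linarith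

end Ch

open Ch

/-! ### Description of the cells by the level -/

theorem cellB_eq : cellB = {p | lev p < 1} := by
  ext p; exact mem_cellB_iff p

theorem child_true_eq : sim true '' cellBc = {p | lev p ≤ 3/5 ∧ 0 ≤ p 0} := by
  ext q
  rw [mem_sim_cellBc_iff, Set.mem_ofPred_eq, lev_le_iff q _ (by norm_num)]
  simp only [sg, if_true, one_mul]
  constructor
  · intro h
    have h1 := le_dc (16/25) (q 0) (q 1) (Or.inl rfl)
    refine ⟨by linarith, ?_⟩
    have h2 : |q 0 - 16/25| - 9/25 ≤ dc (16/25) (q 0) (q 1) :=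
      (le_max_left _ _).trans (le_max_right _ _)
    have h3 := neg_abs_le (q 0 - 16/25)
    have h4 := abs_nonneg (q 2)
    linarith
  · rintro ⟨h, hx⟩
    rw [dc_pos _ _ hx]; exact h

theorem child_false_eq : sim false '' cellBc = {p | lev p ≤ 3/5 ∧ p 0 ≤ 0} := by
  ext q
  rw [mem_sim_cellBc_iff, Set.mem_ofPred_eq, lev_le_iff q _ (by norm_num)]
  simp only [sg, Bool.false_eq_true, if_false, neg_mul, one_mul]
  constructor
  · intro h
    have h1 := le_dc (-(16/25)) (q 0) (q 1) (Or.inr rfl)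
    refine ⟨by linarith, ?_⟩
    have h2 : |q 0 - -(16/25)| - 9/25 ≤ dc (-(16/25)) (q 0) (q 1) :=
      (le_max_left _ _).trans (le_max_right _ _)
    have h3 := le_abs_self (q 0 - -(16/25))
    have h4 := abs_nonneg (q 2)
    linarith
  · rintro ⟨h, hx⟩
    rw [dc_neg _ _ hx]; exact h

theorem modQ_eq : modQ = {p | 3/5 < lev p ∧ lev p < 1} := by
  ext q
  rw [modQ, child_true_eq, child_false_eq, cellB_eq]
  simp only [Set.mem_sdiff, Set.mem_union, Set.mem_ofPred_eq]
  constructor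
  · rintro ⟨h1, h2⟩
    refine ⟨?_, h1⟩
    by_contra h
    push Not at h h2
    rcases le_total 0 (q 0) with hx | hx
    · exact absurd hx (not_le.mpr (h2.1 h))
    · exact absurd hx (not_le.mpr (h2.2 h))
  · rintro ⟨h1, h2⟩
    refine ⟨h2, ?_⟩
    rintro (⟨h, -⟩ | ⟨h, -⟩) <;> linarith

theorem lev_of_zero (p : E3) (h : p 0 = 0) : 7/10 ≤ lev p := by
  by_contra h'
  rw [not_le, lev_lt_iff p _ le_rfl, d0_add_v0, h] at h'
  have h1 : (7/25 : ℝ) - |(0:ℝ)| ≤ max 0 (max (max (|(0:ℝ)| - 1) (7/25 - |(0:ℝ)|)) (|p 1| - 3/5)) :=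
    ((le_max_right _ _).trans (le_max_left _ _)).trans (le_max_right _ _)
  rw [abs_zero] at h1 h'
  have h2 := abs_nonneg (p 2)
  linarith

/-! ### Lipschitz bounds -/

namespace Ch

/-- Lipschitz real functions on space. -/
def LR (f : E3 → ℝ) : Prop := ∃ K : ℝ≥0, LipschitzWith K f

theorem LR.const (c : ℝ) : LR (fun _ => c) := ⟨0, LipschitzWith.const c⟩
theorem LR.coord (i : Fin 3) : LR (fun p => p i) := by
  refine ⟨1, LipschitzWith.of_dist_le_mul fun x y => ?_⟩
  rw [NNReal.coe_one, one_mul, dist_eq_norm, dist_eq_norm, ← PiLp.sub_apply]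
  exact PiLp.norm_apply_le (x - y) i
theorem LR.add {f g : E3 → ℝ} (hf : LR f) (hg : LR g) : LR (fun p => f p + g p) := by
  obtain ⟨K, hK⟩ := hf; obtain ⟨L, hL⟩ := hg
  exact ⟨K + L, hK.add hL⟩
theorem LR.neg {f : E3 → ℝ} (hf : LR f) : LR (fun p => -f p) := by
  obtain ⟨K, hK⟩ := hf
  exact ⟨K, hK.neg⟩
theorem LR.sub {f g : E3 → ℝ} (hf : LR f) (hg : LR g) : LR (fun p => f p - g p) := by
  obtain ⟨K, hK⟩ := hf; obtain ⟨L, hL⟩ := hg
  exact ⟨K + L, hK.sub hL⟩
theorem LR.max {f g : E3 → ℝ} (hf : LR f) (hg : LR g) : LR (fun p => Max.max (f p) (g p)) := by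
  obtain ⟨K, hK⟩ := hf; obtain ⟨L, hL⟩ := hg
  exact ⟨Max.max K L, hK.max hL⟩
theorem LR.min {f g : E3 → ℝ} (hf : LR f) (hg : LR g) : LR (fun p => Min.min (f p) (g p)) := by
  obtain ⟨K, hK⟩ := hf; obtain ⟨L, hL⟩ := hg
  exact ⟨Max.max K L, hK.min hL⟩
theorem LR.abs {f : E3 → ℝ} (hf : LR f) : LR (fun p => |f p|) := hf.max hf.neg
theorem LR.mul (c : ℝ) {f : E3 → ℝ} (hf : LR f) : LR (fun p => c * f p) := by
  obtain ⟨K, hK⟩ := hf
  refine ⟨‖c‖₊ * K, LipschitzWith.of_dist_le_mul fun x y => ?_⟩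
  rw [Real.dist_eq, ← mul_sub, abs_mul, NNReal.coe_mul, coe_nnnorm, Real.norm_eq_abs, mul_assoc]
  exact mul_le_mul_of_nonneg_left (hK.dist_le_mul x y) (abs_nonneg c)
theorem LR.pt {f g h : E3 → ℝ} (hf : LR f) (hg : LR g) (hh : LR h) :
    ∃ K : ℝ≥0, LipschitzWith K (fun p => pt (f p) (g p) (h p)) := by
  obtain ⟨K, hK⟩ := hf; obtain ⟨L, hL⟩ := hg; obtain ⟨M, hM⟩ := hh
  refine ⟨K + L + M, LipschitzWith.of_dist_le_mul fun x y => ?_⟩
  have hd := dist_nonneg (x := x) (y := y)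
  have e1 := hK.dist_le_mul x y
  have e2 := hL.dist_le_mul x y
  have e3 := hM.dist_le_mul x y
  rw [Real.dist_eq] at e1 e2 e3
  rw [dist_eq_norm]
  have hn := tg_norm_sq (Crest.Agent.R083.pt (f x) (g x) (h x) - Crest.Agent.R083.pt (f y) (g y) (h y))
  simp only [PiLp.sub_apply, tg_pt_zero, tg_pt_one, tg_pt_two] at hn
  have a1 := abs_nonneg (f x - f y)
  have a2 := abs_nonneg (g x - g y)
  have a3 := abs_nonneg (h x - h y)
  rw [← sq_abs (f x - f y), ← sq_abs (g x - g y), ← sq_abs (h x - h y)] at hn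
  have hb : ‖Crest.Agent.R083.pt (f x) (g x) (h x) - Crest.Agent.R083.pt (f y) (g y) (h y)‖ ≤
      |f x - f y| + |g x - g y| + |h x - h y| := by
    apply le_of_sq_le_sq _ (by positivity)
    rw [hn]; nlinarith [mul_nonneg a1 a2, mul_nonneg a1 a3, mul_nonneg a2 a3]
  refine hb.trans ?_
  push_cast
  linarith

theorem LR.clp {t f : E3 → ℝ} (lam : ℝ) (ht : LR t) (hf : LR f) :
    LR (fun p => Crest.Agent.R083.clp (t p) lam (f p)) :=
  (hf.sub ht).max ((hf.add ht).min (hf.mul lam))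
theorem LR.clm {f : E3 → ℝ} (a b : ℝ) (hf : LR f) : LR (fun p => Crest.Agent.R083.clm a b (f p)) :=
  (LR.const a).max ((LR.const b).min hf)
theorem LR.d0 {f g : E3 → ℝ} (hf : LR f) (hg : LR g) :
    LR (fun p => Crest.Agent.R083.d0 (f p) (g p)) :=
  (LR.const 0).max ((hf.abs.sub (LR.const 1)).max (hg.abs.sub (LR.const (3/5))))
theorem LR.v0 {f g : E3 → ℝ} (hf : LR f) (hg : LR g) :
    LR (fun p => Crest.Agent.R083.v0 (f p) (g p)) :=
  (LR.const 0).max (((LR.const (7/25)).sub hf.abs).sub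
    ((LR.const 0).max (hg.abs.sub (LR.const (3/5)))))
theorem LR.lv0 : LR lv0 := (LR.coord 2).abs.add (((LR.coord 0).d0 (LR.coord 1)).mul (5/2))
theorem LR.lev : LR lev :=
  LR.lv0.add ((((LR.coord 0).v0 (LR.coord 1)).mul (5/2)).min
    ((LR.const 0).max ((LR.const (7/10)).sub (LR.lv0.mul (4/5)))))
theorem LR.zlev {f g h : E3 → ℝ} (hf : LR f) (hg : LR g) (hh : LR h) :
    LR (fun p => Crest.Agent.R083.zlev (f p) (g p) (h p)) :=
  ((hh.sub ((hf.v0 hg).mul (5/2))).max (hh.min ((hh.mul 5).sub (LR.const (7/2))))).sub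
    ((hf.d0 hg).mul (5/2))

end Ch

theorem lev_lip : ∃ K : ℝ≥0, LipschitzWith K lev := LR.lev

theorem phi_lip (b : Box) : ∃ K : ℝ≥0, LipschitzWith K (phi b) := by
  cases b
  · have h : LR (fun p => clm (7/10) 1 (lev p)) := LR.lev.clm _ _
    have ht : LR (fun p => 2/5 * (clm (7/10) 1 (lev p) - 7/10)) := (h.sub (LR.const _)).mul (2/5)
    have hX : LR (fun p => clm (-(32/25)) (32/25)
        (clp (2/5 * (clm (7/10) 1 (lev p) - 7/10)) (32/35) (p 0))) :=
      (LR.clp _ ht (LR.coord 0)).clm _ _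
    have hY : LR (fun p => clm (-(22/25)) (22/25)
        (clp (2/5 * (clm (7/10) 1 (lev p) - 7/10)) (22/25) (p 1))) :=
      (LR.clp _ ht (LR.coord 1)).clm _ _
    exact LR.pt hX hY h
  · have h : LR (fun p => clm (3/5) (7/10) (lev p)) := LR.lev.clm _ _
    have ht : LR (fun p => 2/5 * (7/10 - clm (3/5) (7/10) (lev p))) :=
      ((LR.const _).sub h).mul (2/5)
    have hX : LR (fun p => clm 0 (32/25)
          (16/25 + clp (2/5 * (7/10 - clm (3/5) (7/10) (lev p))) (16/15) (p 0 - 16/25))) :=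
      ((LR.const _).add (LR.clp _ ht ((LR.coord 0).sub (LR.const _)))).clm _ _
    have hY : LR (fun p => clm (-(22/25)) (22/25)
          (clp (2/5 * (7/10 - clm (3/5) (7/10) (lev p))) (22/21) (p 1))) :=
      (LR.clp _ ht (LR.coord 1)).clm _ _
    exact LR.pt hX hY h
  · have h : LR (fun p => clm (3/5) (7/10) (lev p)) := LR.lev.clm _ _
    have ht : LR (fun p => 2/5 * (7/10 - clm (3/5) (7/10) (lev p))) :=
      ((LR.const _).sub h).mul (2/5)
    have hX : LR (fun p => clm (-(32/25)) 0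
          (-(16/25) + clp (2/5 * (7/10 - clm (3/5) (7/10) (lev p))) (16/15) (p 0 + 16/25))) :=
      ((LR.const _).add (LR.clp _ ht ((LR.coord 0).add (LR.const _)))).clm _ _
    have hY : LR (fun p => clm (-(22/25)) (22/25)
          (clp (2/5 * (7/10 - clm (3/5) (7/10) (lev p))) (22/21) (p 1))) :=
      (LR.clp _ ht (LR.coord 1)).clm _ _
    exact LR.pt hX hY h

namespace Ch

theorem LR.thx (b : Box) : LR (thx b) := by
  cases b
  · have ht : LR (fun P => 2/5 * (P 2 - 7/10)) := ((LR.coord 2).sub (LR.const _)).mul (2/5)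
    exact LR.clp _ ht (LR.coord 0)
  · have ht : LR (fun P => 2/5 * (7/10 - P 2)) := ((LR.const _).sub (LR.coord 2)).mul (2/5)
    exact (LR.const _).add (LR.clp _ ht ((LR.coord 0).sub (LR.const _)))
  · have ht : LR (fun P => 2/5 * (7/10 - P 2)) := ((LR.const _).sub (LR.coord 2)).mul (2/5)
    exact (LR.const _).add (LR.clp _ ht ((LR.coord 0).add (LR.const _)))

theorem LR.thy (b : Box) : LR (thy b) := by
  cases b
  · have ht : LR (fun P => 2/5 * (P 2 - 7/10)) := ((LR.coord 2).sub (LR.const _)).mul (2/5)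
    exact LR.clp _ ht (LR.coord 1)
  · have ht : LR (fun P => 2/5 * (7/10 - P 2)) := ((LR.const _).sub (LR.coord 2)).mul (2/5)
    exact LR.clp _ ht (LR.coord 1)
  · have ht : LR (fun P => 2/5 * (7/10 - P 2)) := ((LR.const _).sub (LR.coord 2)).mul (2/5)
    exact LR.clp _ ht (LR.coord 1)

end Ch

theorem theta_lip (b : Box) : ∃ K : ℝ≥0, LipschitzWith K (theta b) :=
  LR.pt (LR.thx b) (LR.thy b) ((LR.thx b).zlev (LR.thy b) (LR.coord 2))

theorem lev_rfl2 (p : E3) : lev (rfl2 p) = lev p := by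
  simp only [lev, lv0, rfl2, tg_pt_zero, tg_pt_one, tg_pt_two, abs_neg]

theorem phi_rfl2 (b : Box) (p : E3) : phi b (rfl2 p) = phi b p := by
  cases b <;> simp only [phi, lev_rfl2] <;> rfl

theorem phi_mem (b : Box) (p : E3) : phi b p ∈ bx b := by
  cases b
  · have h1 := clm_mem (a := -(32/25)) (b := 32/25)
      (clp (2/5 * (clm (7/10) 1 (lev p) - 7/10)) (32/35) (p 0)) (by norm_num)
    have h2 := clm_mem (a := -(22/25)) (b := 22/25)
      (clp (2/5 * (clm (7/10) 1 (lev p) - 7/10)) (22/25) (p 1)) (by norm_num)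
    have h3 := clm_mem (a := 7/10) (b := 1) (lev p) (by norm_num)
    exact ⟨abs_le.2 h1, abs_le.2 h2, h3.1, h3.2⟩
  · have h1 := clm_mem (a := 0) (b := 32/25)
      (16/25 + clp (2/5 * (7/10 - clm (3/5) (7/10) (lev p))) (16/15) (p 0 - 16/25)) (by norm_num)
    have h2 := clm_mem (a := -(22/25)) (b := 22/25)
      (clp (2/5 * (7/10 - clm (3/5) (7/10) (lev p))) (22/21) (p 1)) (by norm_num)
    have h3 := clm_mem (a := 3/5) (b := 7/10) (lev p) (by norm_num)
    exact ⟨h1.1, h1.2, abs_le.2 h2, h3.1, h3.2⟩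
  · have h1 := clm_mem (a := -(32/25)) (b := 0)
      (-(16/25) + clp (2/5 * (7/10 - clm (3/5) (7/10) (lev p))) (16/15) (p 0 + 16/25))
      (by norm_num)
    have h2 := clm_mem (a := -(22/25)) (b := 22/25)
      (clp (2/5 * (7/10 - clm (3/5) (7/10) (lev p))) (22/21) (p 1)) (by norm_num)
    have h3 := clm_mem (a := 3/5) (b := 7/10) (lev p) (by norm_num)
    exact ⟨h1.1, h1.2, abs_le.2 h2, h3.1, h3.2⟩

theorem continuous_lev : Continuous lev := by
  obtain ⟨K, hK⟩ := lev_lip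
  exact hK.continuous

theorem reg_closed (b : Box) : IsClosed (reg b) := by
  have h0 := tg_continuous_coord 0
  cases b
  · exact isClosed_le continuous_const continuous_lev
  · exact (isClosed_le continuous_lev continuous_const).inter (isClosed_le continuous_const h0)
  · exact (isClosed_le continuous_lev continuous_const).inter (isClosed_le h0 continuous_const)

theorem reg_cover : (⋃ b, reg b) = univ := by
  rw [Set.eq_univ_iff_forall]
  intro p
  rw [Set.mem_iUnion]
  rcases le_total (7/10) (lev p) with h | h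
  · exact ⟨Box.O, h⟩
  · rcases le_total 0 (p 0) with h' | h'
    · exact ⟨Box.P, h, h'⟩
    · exact ⟨Box.N, h, h'⟩

theorem om_open (b : Box) : IsOpen (om b) := by
  have h0 := tg_continuous_coord 0
  have h2 := tg_continuous_coord 2
  cases b
  · exact (isOpen_lt continuous_const h2).inter
      ((isOpen_lt continuous_const continuous_lev).inter (isOpen_lt continuous_lev continuous_const))
  · exact (isOpen_lt continuous_const h2).inter ((isOpen_lt continuous_const h0).inter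
      ((isOpen_lt continuous_const continuous_lev).inter (isOpen_lt continuous_lev continuous_const)))
  · exact (isOpen_lt continuous_const h2).inter ((isOpen_lt h0 continuous_const).inter
      ((isOpen_lt continuous_const continuous_lev).inter (isOpen_lt continuous_lev continuous_const)))

/-! ### Matching -/


theorem phi_OP (p : E3) (hO : p ∈ reg Box.O) (hP : p ∈ reg Box.P) :
    phi Box.O p = phi Box.P p ∧ (phi Box.P p) 2 = 7/10 := by
  have h : lev p = 7/10 := le_antisymm hP.1 hO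
  have hx : 0 ≤ p 0 := hP.2
  have e1 : clm (7/10) 1 (lev p) = 7/10 := clm_bot h.le
  have e2 : clm (3/5) (7/10) (lev p) = 7/10 := clm_top (by norm_num) h.ge
  refine ⟨?_, e2⟩
  simp only [phi, e1, e2, sub_self, mul_zero, clp_zero]
  congr 1
  rw [add_sub_cancel, clm, clm]
  rw [max_eq_right (le_min (by norm_num) hx), max_eq_right (le_min (by norm_num) (by linarith))]

theorem phi_ON (p : E3) (hO : p ∈ reg Box.O) (hN : p ∈ reg Box.N) :
    phi Box.O p = phi Box.N p ∧ (phi Box.N p) 2 = 7/10 := by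
  have h : lev p = 7/10 := le_antisymm hN.1 hO
  have hx : p 0 ≤ 0 := hN.2
  have e1 : clm (7/10) 1 (lev p) = 7/10 := clm_bot h.le
  have e2 : clm (3/5) (7/10) (lev p) = 7/10 := clm_top (by norm_num) h.ge
  refine ⟨?_, e2⟩
  simp only [phi, e1, e2, sub_self, mul_zero, clp_zero]
  congr 1
  rw [neg_add_cancel_comm_assoc, clm, clm, min_eq_right (by linarith : p 0 ≤ 32/25),
    min_eq_right hx]

theorem phi_out (p : E3) (h : 1 ≤ lev p) : (phi Box.O p) 2 = 1 := clm_top (by norm_num) h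
theorem phi_inP (p : E3) (h : lev p ≤ 3/5) : (phi Box.P p) 2 = 3/5 := clm_bot h
theorem phi_inN (p : E3) (h : lev p ≤ 3/5) : (phi Box.N p) 2 = 3/5 := clm_bot h

/-! ### The charts are inverse to each other -/

namespace Ch

theorem zlev_nonneg_N (x y l : ℝ) (h0 : 0 ≤ l) (hl : l ≤ 7/10) (hx : x ≤ 0) :
    0 ≤ zlev x y l ↔ |x + 16/25| ≤ 9/25 + 2/5 * l ∧ |y| ≤ 3/5 + 2/5 * l := by
  rw [← zlev_neg_left, zlev_nonneg_P (-x) y l h0 hl (by linarith), ← abs_neg (x + 16/25)]
  have : -x - 16/25 = -(x + 16/25) := by ring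
  rw [this]

theorem zlev_pos_N (x y l : ℝ) (h0 : 0 < l) (hl : l < 7/10) (hx : x ≤ 0) :
    0 < zlev x y l ↔ |x + 16/25| < 9/25 + 2/5 * l ∧ |y| < 3/5 + 2/5 * l := by
  rw [← zlev_neg_left, zlev_pos_P (-x) y l h0 hl (by linarith), ← abs_neg (x + 16/25)]
  have : -x - 16/25 = -(x + 16/25) := by ring
  rw [this]

theorem lev_pt (x y l : ℝ) (h : 0 ≤ zlev x y l) : lev (pt x y (zlev x y l)) = l := by
  rw [lev_eq, lv0, tg_pt_zero, tg_pt_one, tg_pt_two, abs_of_nonneg h, zlev_eq, sub_add_cancel,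
    lev1_lev0 _ _ (v0_nonneg x y)]

theorem zlev_lev_abs (p : E3) : zlev (p 0) (p 1) (lev p) = |p 2| := by
  rw [zlev_eq, lev_eq, lev0_lev1 _ _ (v0_nonneg _ _), lv0]; ring

theorem zlev_lev (p : E3) (h : 0 ≤ p 2) : zlev (p 0) (p 1) (lev p) = p 2 := by
  rw [zlev_lev_abs, abs_of_nonneg h]

theorem pt_eta' (p : E3) : pt (p 0) (p 1) (p 2) = p := tg_ext rfl rfl rfl

theorem phi_O_eq (p : E3) (h1 : 7/10 ≤ lev p) (h2 : lev p ≤ 1) (hx : |p 0| ≤ 1 + 2/5 * lev p)
    (hy : |p 1| ≤ 3/5 + 2/5 * lev p) :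
    phi Box.O p = pt (clp (2/5 * (lev p - 7/10)) (32/35) (p 0))
      (clp (2/5 * (lev p - 7/10)) (22/25) (p 1)) (lev p) := by
  have e1 : clm (7/10) 1 (lev p) = lev p := clm_self h1 h2
  have hX := (bd_a (2/5 * (lev p - 7/10)) (p 0) (by linarith) (by linarith)).2 (by linarith)
  have hY := (bd_b (2/5 * (lev p - 7/10)) (p 1) (by linarith) (by linarith)).2 (by linarith)
  rw [abs_le] at hX hY
  simp only [phi, e1]
  rw [clm_self hX.1 hX.2, clm_self hY.1 hY.2]

theorem phi_P_eq (p : E3) (h1 : 3/5 ≤ lev p) (h2 : lev p ≤ 7/10)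
    (hx : |p 0 - 16/25| ≤ 9/25 + 2/5 * lev p) (hy : |p 1| ≤ 3/5 + 2/5 * lev p) :
    phi Box.P p = pt (16/25 + clp (2/5 * (7/10 - lev p)) (16/15) (p 0 - 16/25))
      (clp (2/5 * (7/10 - lev p)) (22/21) (p 1)) (lev p) := by
  have e1 : clm (3/5) (7/10) (lev p) = lev p := clm_self h1 h2
  have hX := (bd_c (2/5 * (7/10 - lev p)) (p 0 - 16/25) (by linarith) (by linarith)).2
    (by linarith)
  have hY := (bd_d (2/5 * (7/10 - lev p)) (p 1) (by linarith) (by linarith)).2 (by linarith)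
  rw [abs_le] at hX hY
  simp only [phi, e1]
  rw [clm_self (by linarith [hX.1]) (by linarith [hX.2]), clm_self hY.1 hY.2]

theorem phi_N_eq (p : E3) (h1 : 3/5 ≤ lev p) (h2 : lev p ≤ 7/10)
    (hx : |p 0 + 16/25| ≤ 9/25 + 2/5 * lev p) (hy : |p 1| ≤ 3/5 + 2/5 * lev p) :
    phi Box.N p = pt (-(16/25) + clp (2/5 * (7/10 - lev p)) (16/15) (p 0 + 16/25))
      (clp (2/5 * (7/10 - lev p)) (22/21) (p 1)) (lev p) := by
  have e1 : clm (3/5) (7/10) (lev p) = lev p := clm_self h1 h2
  have hX := (bd_c (2/5 * (7/10 - lev p)) (p 0 + 16/25) (by linarith) (by linarith)).2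
    (by linarith)
  have hY := (bd_d (2/5 * (7/10 - lev p)) (p 1) (by linarith) (by linarith)).2 (by linarith)
  rw [abs_le] at hX hY
  simp only [phi, e1]
  rw [clm_self (by linarith [hX.1]) (by linarith [hX.2]), clm_self hY.1 hY.2]

/-- bounds for the physical point over the box `O` -/
theorem th_O {X Y l : ℝ} (hX : |X| ≤ 32/25) (hY : |Y| ≤ 22/25) (h1 : 7/10 ≤ l) (h2 : l ≤ 1) :
    |clp (2/5 * (l - 7/10)) (35/32) X| ≤ 1 + 2/5 * l ∧
      |clp (2/5 * (l - 7/10)) (25/22) Y| ≤ 3/5 + 2/5 * l := by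
  have e1 := bd_a (2/5 * (l - 7/10)) (clp (2/5 * (l - 7/10)) (35/32) X) (by linarith) (by linarith)
  have e2 := bd_b (2/5 * (l - 7/10)) (clp (2/5 * (l - 7/10)) (25/22) Y) (by linarith) (by linarith)
  rw [inv_a' _ _ (by linarith)] at e1
  rw [inv_b' _ _ (by linarith)] at e2
  have f1 := e1.1 hX
  have f2 := e2.1 hY
  constructor <;> linarith

theorem th_O' {X Y l : ℝ} (hX : |X| < 32/25) (hY : |Y| < 22/25) (h1 : 7/10 ≤ l) (h2 : l ≤ 1) :
    |clp (2/5 * (l - 7/10)) (35/32) X| < 1 + 2/5 * l ∧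
      |clp (2/5 * (l - 7/10)) (25/22) Y| < 3/5 + 2/5 * l := by
  have e1 := bd_a' (2/5 * (l - 7/10)) (clp (2/5 * (l - 7/10)) (35/32) X) (by linarith)
    (by linarith)
  have e2 := bd_b' (2/5 * (l - 7/10)) (clp (2/5 * (l - 7/10)) (25/22) Y) (by linarith)
    (by linarith)
  rw [inv_a' _ _ (by linarith)] at e1
  rw [inv_b' _ _ (by linarith)] at e2
  have f1 := e1.1 hX
  have f2 := e2.1 hY
  constructor <;> linarith

theorem th_P {X Y l : ℝ} (hX : |X| ≤ 16/25) (hY : |Y| ≤ 22/25) (h1 : 3/5 ≤ l) (h2 : l ≤ 7/10) :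
    |clp (2/5 * (7/10 - l)) (15/16) X| ≤ 9/25 + 2/5 * l ∧
      |clp (2/5 * (7/10 - l)) (21/22) Y| ≤ 3/5 + 2/5 * l := by
  have e1 := bd_c (2/5 * (7/10 - l)) (clp (2/5 * (7/10 - l)) (15/16) X) (by linarith) (by linarith)
  have e2 := bd_d (2/5 * (7/10 - l)) (clp (2/5 * (7/10 - l)) (21/22) Y) (by linarith) (by linarith)
  rw [inv_c' _ _ (by linarith)] at e1
  rw [inv_d' _ _ (by linarith)] at e2
  have f1 := e1.1 hX
  have f2 := e2.1 hY
  constructor <;> linarith

theorem th_P' {X Y l : ℝ} (hX : |X| < 16/25) (hY : |Y| < 22/25) (h1 : 3/5 ≤ l) (h2 : l ≤ 7/10) :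
    |clp (2/5 * (7/10 - l)) (15/16) X| < 9/25 + 2/5 * l ∧
      |clp (2/5 * (7/10 - l)) (21/22) Y| < 3/5 + 2/5 * l := by
  have e1 := bd_c' (2/5 * (7/10 - l)) (clp (2/5 * (7/10 - l)) (15/16) X) (by linarith)
    (by linarith)
  have e2 := bd_d' (2/5 * (7/10 - l)) (clp (2/5 * (7/10 - l)) (21/22) Y) (by linarith)
    (by linarith)
  rw [inv_c' _ _ (by linarith)] at e1
  rw [inv_d' _ _ (by linarith)] at e2
  have f1 := e1.1 hX
  have f2 := e2.1 hY
  constructor <;> linarith

/-- the inverse chart on the closed boxes: height, sign of the first coordinate -/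
theorem theta_closed (b : Box) (P : E3) (h : P ∈ bx b) :
    0 ≤ zlev (thx b P) (thy b P) (P 2) ∧ phi b (theta b P) = P := by
  cases b
  · obtain ⟨hX, hY, h1, h2⟩ := h
    obtain ⟨b1, b2⟩ := th_O hX hY h1 h2
    have hz : 0 ≤ zlev (thx Box.O P) (thy Box.O P) (P 2) :=
      (zlev_nonneg_O _ _ _ h1).2 ⟨b1, b2⟩
    refine ⟨hz, ?_⟩
    have hl : lev (theta Box.O P) = P 2 := lev_pt _ _ _ hz
    rw [phi_O_eq _ (by rw [hl]; exact h1) (by rw [hl]; exact h2) (by rw [hl]; exact b1)
      (by rw [hl]; exact b2), hl]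
    refine tg_ext ?_ ?_ rfl
    · exact inv_a' _ _ (by linarith)
    · exact inv_b' _ _ (by linarith)
  · obtain ⟨hX0, hX, hY, h1, h2⟩ := h
    obtain ⟨b1, b2⟩ := th_P (X := P 0 - 16/25) (abs_le.2 ⟨by linarith, by linarith⟩) hY h1 h2
    have b1' : |thx Box.P P - 16/25| ≤ 9/25 + 2/5 * P 2 := by
      change |16/25 + clp (2/5 * (7/10 - P 2)) (15/16) (P 0 - 16/25) - 16/25| ≤ _
      rwa [add_sub_cancel_left]
    have hx : 0 ≤ thx Box.P P := by
      have := (abs_le.1 b1').1
      linarith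
    have hz : 0 ≤ zlev (thx Box.P P) (thy Box.P P) (P 2) :=
      (zlev_nonneg_P _ _ _ (by linarith) h2 hx).2 ⟨b1', b2⟩
    refine ⟨hz, ?_⟩
    have hl : lev (theta Box.P P) = P 2 := lev_pt _ _ _ hz
    rw [phi_P_eq _ (by rw [hl]; exact h1) (by rw [hl]; exact h2) (by rw [hl]; exact b1')
      (by rw [hl]; exact b2), hl]
    refine tg_ext ?_ ?_ rfl
    · change 16/25 + clp (2/5 * (7/10 - P 2)) (16/15)
        (16/25 + clp (2/5 * (7/10 - P 2)) (15/16) (P 0 - 16/25) - 16/25) = P 0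
      rw [add_sub_cancel_left, inv_c' _ _ (by linarith)]; ring
    · exact inv_d' _ _ (by linarith)
  · obtain ⟨hX0, hX, hY, h1, h2⟩ := h
    obtain ⟨b1, b2⟩ := th_P (X := P 0 + 16/25) (abs_le.2 ⟨by linarith, by linarith⟩) hY h1 h2
    have b1' : |thx Box.N P + 16/25| ≤ 9/25 + 2/5 * P 2 := by
      change |-(16/25) + clp (2/5 * (7/10 - P 2)) (15/16) (P 0 + 16/25) + 16/25| ≤ _
      rwa [neg_add_cancel_comm]
    have hx : thx Box.N P ≤ 0 := by
      have := (abs_le.1 b1').2
      linarith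
    have hz : 0 ≤ zlev (thx Box.N P) (thy Box.N P) (P 2) :=
      (zlev_nonneg_N _ _ _ (by linarith) h2 hx).2 ⟨b1', b2⟩
    refine ⟨hz, ?_⟩
    have hl : lev (theta Box.N P) = P 2 := lev_pt _ _ _ hz
    rw [phi_N_eq _ (by rw [hl]; exact h1) (by rw [hl]; exact h2) (by rw [hl]; exact b1')
      (by rw [hl]; exact b2), hl]
    refine tg_ext ?_ ?_ rfl
    · change -(16/25) + clp (2/5 * (7/10 - P 2)) (16/15)
        (-(16/25) + clp (2/5 * (7/10 - P 2)) (15/16) (P 0 + 16/25) + 16/25) = P 0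
      rw [neg_add_cancel_comm, inv_c' _ _ (by linarith)]; ring
    · exact inv_d' _ _ (by linarith)

end Ch

theorem phi_theta (b : Box) (P : E3) (h : P ∈ bx b) : phi b (theta b P) = P :=
  (theta_closed b P h).2

theorem lev_theta (b : Box) (P : E3) (h : P ∈ bx b) : lev (theta b P) = P 2 :=
  lev_pt _ _ _ (theta_closed b P h).1


theorem theta_phi_closed (b : Box) (p : E3) (h : p ∈ reg b) (h0 : 0 ≤ p 2) (h1 : 3/5 ≤ lev p)
    (h2 : lev p ≤ 1) : theta b (phi b p) = p := by
  have hz := zlev_lev p h0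
  have hz0 : 0 ≤ zlev (p 0) (p 1) (lev p) := by rw [hz]; exact h0
  cases b
  · have h1' : 7/10 ≤ lev p := h
    obtain ⟨b1, b2⟩ := (zlev_nonneg_O _ _ _ h1').1 hz0
    rw [phi_O_eq p h1' h2 b1 b2]
    have e1 : thx Box.O (pt (clp (2/5 * (lev p - 7/10)) (32/35) (p 0))
      (clp (2/5 * (lev p - 7/10)) (22/25) (p 1)) (lev p)) = p 0 := inv_a _ _ (by linarith)
    have e2 : thy Box.O (pt (clp (2/5 * (lev p - 7/10)) (32/35) (p 0))
      (clp (2/5 * (lev p - 7/10)) (22/25) (p 1)) (lev p)) = p 1 := inv_b _ _ (by linarith)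
    rw [theta, e1, e2, tg_pt_two, hz, pt_eta']
  · have h2' : lev p ≤ 7/10 := h.1
    have hx : 0 ≤ p 0 := h.2
    obtain ⟨b1, b2⟩ := (zlev_nonneg_P _ _ _ (by linarith) h2' hx).1 hz0
    rw [phi_P_eq p h1 h2' b1 b2]
    have e1 : thx Box.P (pt (16/25 + clp (2/5 * (7/10 - lev p)) (16/15) (p 0 - 16/25))
      (clp (2/5 * (7/10 - lev p)) (22/21) (p 1)) (lev p)) = p 0 := by
      change 16/25 + clp (2/5 * (7/10 - lev p)) (15/16)
        (16/25 + clp (2/5 * (7/10 - lev p)) (16/15) (p 0 - 16/25) - 16/25) = p 0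
      rw [add_sub_cancel_left, inv_c _ _ (by linarith)]; ring
    have e2 : thy Box.P (pt (16/25 + clp (2/5 * (7/10 - lev p)) (16/15) (p 0 - 16/25))
      (clp (2/5 * (7/10 - lev p)) (22/21) (p 1)) (lev p)) = p 1 := inv_d _ _ (by linarith)
    rw [theta, e1, e2, tg_pt_two, hz, pt_eta']
  · have h2' : lev p ≤ 7/10 := h.1
    have hx : p 0 ≤ 0 := h.2
    obtain ⟨b1, b2⟩ := (zlev_nonneg_N _ _ _ (by linarith) h2' hx).1 hz0
    rw [phi_N_eq p h1 h2' b1 b2]
    have e1 : thx Box.N (pt (-(16/25) + clp (2/5 * (7/10 - lev p)) (16/15) (p 0 + 16/25))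
      (clp (2/5 * (7/10 - lev p)) (22/21) (p 1)) (lev p)) = p 0 := by
      change -(16/25) + clp (2/5 * (7/10 - lev p)) (15/16)
        (-(16/25) + clp (2/5 * (7/10 - lev p)) (16/15) (p 0 + 16/25) + 16/25) = p 0
      rw [neg_add_cancel_comm, inv_c _ _ (by linarith)]; ring
    have e2 : thy Box.N (pt (-(16/25) + clp (2/5 * (7/10 - lev p)) (16/15) (p 0 + 16/25))
      (clp (2/5 * (7/10 - lev p)) (22/21) (p 1)) (lev p)) = p 1 := inv_d _ _ (by linarith)
    rw [theta, e1, e2, tg_pt_two, hz, pt_eta']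

theorem om_subset_reg (b : Box) : om b ⊆ reg b := by
  intro p hp
  cases b
  · exact hp.2.1.le
  · exact ⟨hp.2.2.2.le, hp.2.1.le⟩
  · exact ⟨hp.2.2.2.le, hp.2.1.le⟩

theorem om_lev (b : Box) (p : E3) (h : p ∈ om b) : 0 < p 2 ∧ 3/5 < lev p ∧ lev p < 1 := by
  cases b
  · exact ⟨h.1, by linarith [h.2.1], h.2.2⟩
  · exact ⟨h.1, h.2.2.1, by linarith [h.2.2.2]⟩
  · exact ⟨h.1, h.2.2.1, by linarith [h.2.2.2]⟩

theorem theta_phi (b : Box) (p : E3) (h : p ∈ om b) : theta b (phi b p) = p := by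
  obtain ⟨h0, h1, h2⟩ := om_lev b p h
  exact theta_phi_closed b p (om_subset_reg b h) h0.le h1.le h2.le

theorem phi_maps (b : Box) (p : E3) (h : p ∈ om b) : phi b p ∈ bxo b := by
  have h0 : 0 < p 2 := (om_lev b p h).1
  have hz0 : 0 < zlev (p 0) (p 1) (lev p) := by rw [zlev_lev p h0.le]; exact h0
  cases b
  · obtain ⟨-, h1, h2⟩ := h
    obtain ⟨b1, b2⟩ := (zlev_pos_O _ _ _ h1).1 hz0
    rw [phi_O_eq p h1.le h2.le b1.le b2.le]
    exact ⟨(bd_a' _ _ (by linarith) (by linarith)).2 (by linarith),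
      (bd_b' _ _ (by linarith) (by linarith)).2 (by linarith), h1, h2⟩
  · obtain ⟨-, hx, h1, h2⟩ := h
    obtain ⟨b1, b2⟩ := (zlev_pos_P _ _ _ (by linarith) h2 hx.le).1 hz0
    rw [phi_P_eq p h1.le h2.le b1.le b2.le]
    have c1 := abs_lt.1 ((bd_c' (2/5 * (7/10 - lev p)) (p 0 - 16/25) (by linarith)
      (by linarith)).2 (by linarith))
    have c2 := (bd_d' (2/5 * (7/10 - lev p)) (p 1) (by linarith) (by linarith)).2 (by linarith)
    refine ⟨?_, ?_, c2, h1, h2⟩
    · rw [tg_pt_zero]; linarith [c1.1]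
    · rw [tg_pt_zero]; linarith [c1.2]
  · obtain ⟨-, hx, h1, h2⟩ := h
    obtain ⟨b1, b2⟩ := (zlev_pos_N _ _ _ (by linarith) h2 hx.le).1 hz0
    rw [phi_N_eq p h1.le h2.le b1.le b2.le]
    have c1 := abs_lt.1 ((bd_c' (2/5 * (7/10 - lev p)) (p 0 + 16/25) (by linarith)
      (by linarith)).2 (by linarith))
    have c2 := (bd_d' (2/5 * (7/10 - lev p)) (p 1) (by linarith) (by linarith)).2 (by linarith)
    refine ⟨?_, ?_, c2, h1, h2⟩
    · rw [tg_pt_zero]; linarith [c1.1]
    · rw [tg_pt_zero]; linarith [c1.2]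

theorem bxo_subset (b : Box) : bxo b ⊆ bx b := by
  intro P hP
  cases b
  · exact ⟨hP.1.le, hP.2.1.le, hP.2.2.1.le, hP.2.2.2.le⟩
  · exact ⟨hP.1.le, hP.2.1.le, hP.2.2.1.le, hP.2.2.2.1.le, hP.2.2.2.2.le⟩
  · exact ⟨hP.1.le, hP.2.1.le, hP.2.2.1.le, hP.2.2.2.1.le, hP.2.2.2.2.le⟩

theorem theta_maps (b : Box) (P : E3) (h : P ∈ bxo b) : theta b P ∈ om b := by
  have hl := lev_theta b P (bxo_subset b h)
  cases b
  · obtain ⟨hX, hY, h1, h2⟩ := h
    obtain ⟨b1, b2⟩ := th_O' hX hY h1.le h2.le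
    refine ⟨(zlev_pos_O _ _ _ h1).2 ⟨b1, b2⟩, ?_, ?_⟩
    · rw [hl]; exact h1
    · rw [hl]; exact h2
  · obtain ⟨hX0, hX, hY, h1, h2⟩ := h
    obtain ⟨b1, b2⟩ := th_P' (X := P 0 - 16/25) (abs_lt.2 ⟨by linarith, by linarith⟩) hY h1.le h2.le
    have b1' : |thx Box.P P - 16/25| < 9/25 + 2/5 * P 2 := by
      change |16/25 + clp (2/5 * (7/10 - P 2)) (15/16) (P 0 - 16/25) - 16/25| < _
      rwa [add_sub_cancel_left]
    have hx : 0 < thx Box.P P := by
      have := (abs_lt.1 b1').1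
      linarith
    refine ⟨(zlev_pos_P _ _ _ (by linarith) h2 hx.le).2 ⟨b1', b2⟩, hx, ?_, ?_⟩
    · rw [hl]; exact h1
    · rw [hl]; exact h2
  · obtain ⟨hX0, hX, hY, h1, h2⟩ := h
    obtain ⟨b1, b2⟩ := th_P' (X := P 0 + 16/25) (abs_lt.2 ⟨by linarith, by linarith⟩) hY h1.le h2.le
    have b1' : |thx Box.N P + 16/25| < 9/25 + 2/5 * P 2 := by
      change |-(16/25) + clp (2/5 * (7/10 - P 2)) (15/16) (P 0 + 16/25) + 16/25| < _
      rwa [neg_add_cancel_comm]
    have hx : thx Box.N P < 0 := by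
      have := (abs_lt.1 b1').2
      linarith
    refine ⟨(zlev_pos_N _ _ _ (by linarith) h2 hx.le).2 ⟨b1', b2⟩, hx, ?_, ?_⟩
    · rw [hl]; exact h1
    · rw [hl]; exact h2

/-! ### Matching and faces of the inverse charts -/

theorem theta_OP (P : E3) (_h : P ∈ bx Box.P) (h2 : P 2 = 7/10) :
    theta Box.O P = theta Box.P P := by
  simp only [theta, thx, thy, h2, sub_self, mul_zero, clp_zero, add_sub_cancel]

theorem theta_ON (P : E3) (_h : P ∈ bx Box.N) (h2 : P 2 = 7/10) :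
    theta Box.O P = theta Box.N P := by
  simp only [theta, thx, thy, h2, sub_self, mul_zero, clp_zero, neg_add_cancel_comm_assoc]

/-- faces -/
theorem theta_faceO (X Y : ℝ) (hX : |X| ≤ 32/25) (hY : |Y| ≤ 22/25) :
    theta Box.O (pt X Y 1) = pt (35/32 * X) (25/22 * Y) (roof (35/32 * X) (25/22 * Y)) := by
  rw [abs_le] at hX hY
  have e1 : thx Box.O (pt X Y 1) = 35/32 * X := by
    simp only [thx, clp, tg_pt_zero, tg_pt_two]
    rw [min_eq_right (by linarith), max_eq_right (by linarith)]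
  have e2 : thy Box.O (pt X Y 1) = 25/22 * Y := by
    simp only [thy, clp, tg_pt_one, tg_pt_two]
    rw [min_eq_right (by linarith), max_eq_right (by linarith)]
  have e3 : ∀ x y : ℝ, zlev x y 1 = roof x y := by
    intro x y
    have hv := v0_nonneg x y
    rw [zlev_eq, roof_eq, lev0, min_eq_left (by norm_num), max_eq_right (by linarith)]
  rw [theta, e1, e2, tg_pt_two, e3]

namespace Ch

theorem zlev_inner (x y : ℝ) : zlev x y (3/5) = 3/5 - 5/2 * (d0 x y + v0 x y) := by
  have hv := v0_le x y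
  rw [zlev_eq, lev0, min_eq_right (by norm_num), max_eq_left (by linarith)]
  ring

end Ch

theorem theta_faceP (X Y : ℝ) (hX0 : 0 ≤ X) (hX : X ≤ 32/25) (hY : |Y| ≤ 22/25) :
    theta Box.P (pt X Y (3/5)) =
      sim true (pt (35/22 * Y) (25/16 * (X - 16/25))
        (roof (35/22 * Y) (25/16 * (X - 16/25)))) := by
  rw [abs_le] at hY
  have e1 : thx Box.P (pt X Y (3/5)) = 16/25 + 15/16 * (X - 16/25) := by
    simp only [thx, clp, tg_pt_zero, tg_pt_two]
    rw [min_eq_right (by linarith), max_eq_right (by linarith)]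
  have e2 : thy Box.P (pt X Y (3/5)) = 21/22 * Y := by
    simp only [thy, clp, tg_pt_one, tg_pt_two]
    rw [min_eq_right (by linarith), max_eq_right (by linarith)]
  rw [theta, e1, e2, tg_pt_two, zlev_inner, ← dc_pos _ _ (by linarith), ← roof_scale]
  have e3 : (5/3 : ℝ) * (21/22 * Y) = 35/22 * Y := by ring
  have e4 : (5/3 : ℝ) * (16/25 + 15/16 * (X - 16/25) - 16/25) = 25/16 * (X - 16/25) := by ring
  rw [e3, e4]
  refine tg_ext ?_ ?_ rfl
  · simp only [sim, sg, tg_pt_zero, tg_pt_one, if_true]; ring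
  · simp only [sim, tg_pt_zero, tg_pt_one]; ring

theorem theta_faceN (X Y : ℝ) (hX0 : X ≤ 0) (hX : -(32/25) ≤ X) (hY : |Y| ≤ 22/25) :
    theta Box.N (pt X Y (3/5)) =
      sim false (pt (35/22 * Y) (25/16 * (X + 16/25))
        (roof (35/22 * Y) (25/16 * (X + 16/25)))) := by
  rw [abs_le] at hY
  have e1 : thx Box.N (pt X Y (3/5)) = -(16/25) + 15/16 * (X + 16/25) := by
    simp only [thx, clp, tg_pt_zero, tg_pt_two]
    rw [min_eq_right (by linarith), max_eq_right (by linarith)]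
  have e2 : thy Box.N (pt X Y (3/5)) = 21/22 * Y := by
    simp only [thy, clp, tg_pt_one, tg_pt_two]
    rw [min_eq_right (by linarith), max_eq_right (by linarith)]
  rw [theta, e1, e2, tg_pt_two, zlev_inner, ← dc_neg _ _ (by linarith), ← roof_scale]
  have e3 : (5/3 : ℝ) * (21/22 * Y) = 35/22 * Y := by ring
  have e4 : (5/3 : ℝ) * (-(16/25) + 15/16 * (X + 16/25) - -(16/25)) = 25/16 * (X + 16/25) := by
    ring
  rw [e3, e4]
  refine tg_ext ?_ ?_ rfl
  · simp only [sim, sg, tg_pt_zero, tg_pt_one, Bool.false_eq_true, if_false]; ring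
  · simp only [sim, tg_pt_zero, tg_pt_one]; ring

/-! ### Null sets -/

namespace Ch

theorem mp_pt : MeasurePreserving (fun p : ℝ × ℝ × ℝ => pt p.1 p.2.1 p.2.2) volume volume := by
  have h1 : MeasurePreserving (MeasurableEquiv.finTwoArrow (α := ℝ)).symm volume volume :=
    (volume_preserving_finTwoArrow ℝ).symm _
  have h2 : MeasurePreserving (Prod.map (id : ℝ → ℝ) (MeasurableEquiv.finTwoArrow (α := ℝ)).symm)
      volume volume := (MeasurePreserving.id volume).prod h1
  have h3 : MeasurePreserving (MeasurableEquiv.piFinSuccAbove (fun _ : Fin 3 => ℝ) 0).symm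
      volume volume := (volume_preserving_piFinSuccAbove (fun _ : Fin 3 => ℝ) 0).symm _
  have h4 := (PiLp.volume_preserving_toLp (Fin 3)).comp (h3.comp h2)
  have h5 : (fun p : ℝ × ℝ × ℝ => pt p.1 p.2.1 p.2.2) = (WithLp.toLp 2 ∘
      ⇑(MeasurableEquiv.piFinSuccAbove (fun _ : Fin 3 => ℝ) 0).symm ∘
        Prod.map id ⇑(MeasurableEquiv.finTwoArrow (α := ℝ)).symm) := by
    funext p
    simp only [pt, Function.comp_apply]
    congr 1
    funext i
    fin_cases i <;> rfl
  rw [h5]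
  exact h4

/-- Graphs over the horizontal coordinates are null. -/
theorem graph_null (h : ℝ → ℝ → ℝ) (hh : Measurable (Function.uncurry h)) :
    volume {p : E3 | p 2 = h (p 0) (p 1)} = 0 := by
  have hm : MeasurableSet {p : E3 | p 2 = h (p 0) (p 1)} := by
    apply measurableSet_eq_fun (tg_continuous_coord 2).measurable
    exact hh.comp ((tg_continuous_coord 0).measurable.prodMk (tg_continuous_coord 1).measurable)
  rw [← mp_pt.measure_preimage hm.nullMeasurableSet]
  have hm2 : MeasurableSet ((fun p : ℝ × ℝ × ℝ => pt p.1 p.2.1 p.2.2) ⁻¹'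
      {p : E3 | p 2 = h (p 0) (p 1)}) := mp_pt.measurable hm
  rw [Measure.volume_eq_prod, Measure.measure_prod_null hm2]
  refine Eventually.of_forall fun x => ?_
  have hm3 := measurable_prodMk_left (x := x) hm2
  change (volume.prod volume) _ = 0
  rw [Measure.measure_prod_null hm3]
  refine Eventually.of_forall fun y => ?_
  have : (Prod.mk y ⁻¹' (Prod.mk x ⁻¹' ((fun p : ℝ × ℝ × ℝ => pt p.1 p.2.1 p.2.2) ⁻¹'
      {p : E3 | p 2 = h (p 0) (p 1)}))) = {h x y} := by
    ext z; rfl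
  change volume (Prod.mk y ⁻¹' (Prod.mk x ⁻¹' ((fun p : ℝ × ℝ × ℝ => pt p.1 p.2.1 p.2.2) ⁻¹'
      {p : E3 | p 2 = h (p 0) (p 1)}))) = 0
  rw [this]
  exact Real.volume_singleton

end Ch

theorem volume_plane : volume {p : E3 | p 2 = 0} = 0 :=
  graph_null (fun _ _ => 0) measurable_const

theorem volume_level' (l : ℝ) : volume {p : E3 | lev p = l} = 0 := by
  have hz : Continuous (Function.uncurry fun x y : ℝ => zlev x y l) := by
    unfold Function.uncurry zlev v0 d0
    fun_prop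
  have h1 := graph_null (fun x y => zlev x y l) hz.measurable
  have h2 := graph_null (fun x y => -zlev x y l) hz.neg.measurable
  refine measure_mono_null ?_ (measure_union_null h1 h2)
  intro p hp
  have hp' : lev p = l := hp
  have := zlev_lev_abs p
  rw [hp'] at this
  rcases abs_choice (p 2) with h | h
  · left; rw [h] at this; exact this.symm
  · right
    change p 2 = -zlev (p 0) (p 1) l
    rw [this, h, neg_neg]

theorem volume_level (l : ℝ) (_h : 3/5 ≤ l) (_h' : l ≤ 1) : volume {p : E3 | lev p = l} = 0 :=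
  volume_level' l

end Crest.Agent.R083
end

-- ▼ part R083/Chart2
section

/-!
Row 83 (S0111), MOD-c: the inverse chart `theta` is locally affine almost everywhere; the metric
field `Mf` satisfies the hypothesis of `model_out`; Jacobian bounds.
-/

set_option autoImplicit false

namespace Crest.Agent.R083

open MeasureTheory Set Filter
open scoped Gradient ENNReal NNReal Topology

theorem LA_clp {t f : E3 → ℝ} (ht : LA t) (hf : LA f) (lam : ℝ) :
    LA (fun p => clp (t p) lam (f p)) :=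
  (hf.sub ht).max ((hf.add ht).min (hf.const_mul lam))

theorem LA_d0 {f g : E3 → ℝ} (hf : LA f) (hg : LA g) : LA (fun p => d0 (f p) (g p)) :=
  (LA_const 0).max ((hf.abs.sub (LA_const 1)).max (hg.abs.sub (LA_const (3/5))))

theorem LA_v0 {f g : E3 → ℝ} (hf : LA f) (hg : LA g) : LA (fun p => v0 (f p) (g p)) :=
  (LA_const 0).max (((LA_const (7/25)).sub hf.abs).sub
    ((LA_const 0).max (hg.abs.sub (LA_const (3/5)))))

theorem LA_zlev {f g l : E3 → ℝ} (hf : LA f) (hg : LA g) (hl : LA l) :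
    LA (fun p => zlev (f p) (g p) (l p)) :=
  ((hl.sub ((LA_v0 hf hg).const_mul (5/2))).max
    (hl.min ((hl.const_mul 5).sub (LA_const (7/2))))).sub ((LA_d0 hf hg).const_mul (5/2))

theorem LA_thx (b : Box) : LA (thx b) := by
  cases b
  · exact LA_clp (((LA_coord 2).sub (LA_const (7/10))).const_mul (2/5)) (LA_coord 0) _
  · exact (LA_const (16/25)).add (LA_clp (((LA_const (7/10)).sub (LA_coord 2)).const_mul (2/5))
      ((LA_coord 0).sub (LA_const (16/25))) _)
  · exact (LA_const (-(16/25))).add (LA_clp (((LA_const (7/10)).sub (LA_coord 2)).const_mul (2/5))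
      ((LA_coord 0).add (LA_const (16/25))) _)

theorem LA_thy (b : Box) : LA (thy b) := by
  cases b
  · exact LA_clp (((LA_coord 2).sub (LA_const (7/10))).const_mul (2/5)) (LA_coord 1) _
  · exact LA_clp (((LA_const (7/10)).sub (LA_coord 2)).const_mul (2/5)) (LA_coord 1) _
  · exact LA_clp (((LA_const (7/10)).sub (LA_coord 2)).const_mul (2/5)) (LA_coord 1) _

theorem LA_theta (b : Box) (i : Fin 3) : LA (fun P => theta b P i) := by
  fin_cases i
  · exact LA_thx b
  · exact LA_thy b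
  · exact LA_zlev (LA_thx b) (LA_thy b) (LA_coord 2)


/-- The inverse chart is bi-Lipschitz on the boxes, with a uniform constant. -/
theorem theta_bilip : ∃ K : ℝ, 1 ≤ K ∧ (∀ b, ∀ x y, ‖theta b x - theta b y‖ ≤ K * ‖x - y‖) ∧
    (∀ b, ∀ x y, ‖phi b x - phi b y‖ ≤ K * ‖x - y‖) ∧
    (∀ b, ∀ x ∈ bx b, ∀ y ∈ bx b, ‖x - y‖ ≤ K * ‖theta b x - theta b y‖) := by
  choose Kt hKt using theta_lip
  choose Kp hKp using phi_lip
  let K : ℝ := 1 + (Kt Box.O + Kt Box.P + Kt Box.N + Kp Box.O + Kp Box.P + Kp Box.N)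
  have ht : ∀ b, (Kt b : ℝ) ≤ K := by
    intro b
    cases b <;> simp only [K] <;> linarith [(Kt Box.O).2, (Kt Box.P).2, (Kt Box.N).2,
      (Kp Box.O).2, (Kp Box.P).2, (Kp Box.N).2]
  have hp : ∀ b, (Kp b : ℝ) ≤ K := by
    intro b
    cases b <;> simp only [K] <;> linarith [(Kt Box.O).2, (Kt Box.P).2, (Kt Box.N).2,
      (Kp Box.O).2, (Kp Box.P).2, (Kp Box.N).2]
  have hp' : ∀ b, ∀ x y, ‖phi b x - phi b y‖ ≤ K * ‖x - y‖ := by
    intro b x y
    have := (hKp b).dist_le_mul x y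
    rw [dist_eq_norm, dist_eq_norm] at this
    exact this.trans (by gcongr; exact hp b)
  refine ⟨K, ?_, ?_, hp', ?_⟩
  · simp only [K]
    linarith [(Kt Box.O).2, (Kt Box.P).2, (Kt Box.N).2, (Kp Box.O).2, (Kp Box.P).2, (Kp Box.N).2]
  · intro b x y
    have := (hKt b).dist_le_mul x y
    rw [dist_eq_norm, dist_eq_norm] at this
    exact this.trans (by gcongr; exact ht b)
  · intro b x hx y hy
    have := hp' b (theta b x) (theta b y)
    rwa [phi_theta b x hx, phi_theta b y hy] at this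

/-- Full local structure of the inverse chart. -/
theorem theta_struct : ∃ K : ℝ, 1 ≤ K ∧ ∀ b : Box, ∃ U : Set E3, IsOpen U ∧ U ⊆ bxo b ∧
    volume (bx b \ U) = 0 ∧
    ∀ x ∈ U, ∃ A : E3 ≃L[ℝ] E3, (∃ c, ∀ᶠ y in 𝓝 x, theta b y = A y + c) ∧
        HasFDerivAt (theta b) (A : E3 →L[ℝ] E3) x ∧
        (∀ v, ‖A v‖ ≤ K * ‖v‖) ∧ (∀ v, ‖A.symm v‖ ≤ K * ‖v‖) ∧
        (∀ᶠ y in 𝓝 x, fderiv ℝ (theta b) y = (A : E3 →L[ℝ] E3)) ∧
        (∀ᶠ y in 𝓝 x, Mf b y = Mf b x) ∧
        Ell (((K * K) ^ 3)⁻¹) (Mf b x) := by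
  obtain ⟨K, hK, h1, -, h2⟩ := theta_bilip
  refine ⟨K, hK, fun b => ?_⟩
  obtain ⟨U, hU, hUS, hn, hx⟩ := metric_field (theta b) (LA_theta b) (bxo b) (isOpen_bxo b) K K
    hK hK (fun x _ y _ => h1 b x y)
    (fun x hx y hy => h2 b x (bxo_subset_bx b hx) y (bxo_subset_bx b hy))
  refine ⟨U, hU, hUS, ?_, hx⟩
  have : bx b \ U ⊆ (bx b \ bxo b) ∪ (bxo b \ U) := by
    intro x hx
    by_cases h : x ∈ bxo b
    · exact Or.inr ⟨h, hx.2⟩
    · exact Or.inl ⟨hx.1, h⟩
  exact measure_mono_null this (measure_union_null (bx_diff_bxo_null b) hn)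

/-- locally affine almost everywhere, with uniform bounds -/
theorem chart_affine : ∃ L : ℝ≥0, ∀ b : Box, ∃ U : Set E3, IsOpen U ∧ U ⊆ bxo b ∧
    volume (bx b \ U) = 0 ∧ ∀ P ∈ U, ∃ A : E3 ≃L[ℝ] E3,
      (∀ᶠ Q in 𝓝 P, theta b Q = theta b P + A (Q - P)) ∧
      ‖(A : E3 →L[ℝ] E3)‖ ≤ L ∧ ‖(A.symm : E3 →L[ℝ] E3)‖ ≤ L := by
  obtain ⟨K, hK, h⟩ := theta_struct
  lift K to ℝ≥0 using (by linarith)
  refine ⟨K, fun b => ?_⟩
  obtain ⟨U, hU, hUS, hn, hx⟩ := h b
  refine ⟨U, hU, hUS, hn, fun P hP => ?_⟩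
  obtain ⟨A, ⟨c, hc⟩, -, hA, hA', -⟩ := hx P hP
  refine ⟨A, ?_, ?_, ?_⟩
  · filter_upwards [hc] with Q hQ
    rw [hQ, hc.self_of_nhds, map_sub]
    abel
  · exact ContinuousLinearMap.opNorm_le_bound _ K.2 hA
  · exact ContinuousLinearMap.opNorm_le_bound _ K.2 hA'

/-- the metric field satisfies the hypothesis of `model_out` -/
theorem chart_metric : ∃ μ : ℝ, 0 < μ ∧ ∀ b : Box, ∃ U : Set E3, IsOpen U ∧ U ⊆ bxo b ∧
    volume (bx b \ U) = 0 ∧ (∀ x ∈ U, ∀ᶠ y in 𝓝 x, Mf b y = Mf b x) ∧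
    (∀ x ∈ U, Ell μ (Mf b x)) := by
  obtain ⟨K, hK, h⟩ := theta_struct
  refine ⟨((K * K) ^ 3)⁻¹, by positivity, fun b => ?_⟩
  obtain ⟨U, hU, hUS, hn, hx⟩ := h b
  refine ⟨U, hU, hUS, hn, fun x hxU => ?_, fun x hxU => ?_⟩
  · obtain ⟨A, -, -, -, -, -, h, -⟩ := hx x hxU
    exact h
  · obtain ⟨A, -, -, -, -, -, -, h⟩ := hx x hxU
    exact h


end Crest.Agent.R083
end

-- ▼ part R083/ModPart
section

/-!
Row 83 (S0111), MOD: partition of the module region into the six physical pieces.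
-/

set_option autoImplicit false

namespace Crest.Agent.R083

open MeasureTheory Set Filter
open scoped Gradient ENNReal NNReal Topology

theorem om_ae (b : Box) (U : Set E3) (hU : U ⊆ bxo b) (h0 : volume (bx b \ U) = 0) :
    (om b : Set E3) =ᵐ[volume] (theta b '' U : Set E3) := by
  obtain ⟨K, hK⟩ := theta_lip b
  have h1 : theta b '' U ⊆ om b := by
    rintro _ ⟨P, hP, rfl⟩
    exact theta_maps b P (hU hP)
  have h2 : om b \ theta b '' U ⊆ theta b '' (bx b \ U) := by
    rintro p ⟨hp, hpU⟩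
    refine ⟨phi b p, ⟨bxo_subset_bx b (phi_maps b p hp), fun hc => hpU ⟨_, hc, theta_phi b p hp⟩⟩,
      theta_phi b p hp⟩
  have h3 : volume (om b \ theta b '' U) = 0 := measure_mono_null h2 (null_image hK h0)
  refine (Filter.EventuallyLE.antisymm ?_ ?_)
  · exact ae_le_set.2 h3
  · exact (LE.le.eventuallyLE h1)

/-- Upper part of the module region. -/
theorem upper_ae : ((om Box.O ∪ om Box.P) ∪ om Box.N : Set E3) =ᵐ[volume]
    ({p | p ∈ modQ ∧ 0 < p 2} : Set E3) := by
  refine (Filter.EventuallyLE.antisymm ?_ ?_)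
  · refine LE.le.eventuallyLE ?_
    rw [modQ_eq]
    rintro p ((⟨h1, h2, h3⟩ | ⟨h1, h2, h3, h4⟩) | ⟨h1, h2, h3, h4⟩)
    · exact ⟨⟨by linarith, h3⟩, h1⟩
    · exact ⟨⟨h3, by linarith⟩, h1⟩
    · exact ⟨⟨h3, by linarith⟩, h1⟩
  · refine ae_le_set.2 (measure_mono_null ?_ (volume_level (7/10) (by norm_num) (by norm_num)))
    rw [modQ_eq]
    rintro p ⟨⟨⟨h1, h2⟩, h3⟩, h4⟩
    by_contra hc
    have hc' : lev p ≠ 7/10 := hc
    apply h4
    rcases lt_or_gt_of_ne hc' with h | h
    · rcases lt_trichotomy (p 0) 0 with h5 | h5 | h5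
      · exact Or.inr ⟨h3, h5, h1, h⟩
      · exact absurd (lev_of_zero p h5) (by linarith)
      · exact Or.inl (Or.inr ⟨h3, h5, h1, h⟩)
    · exact Or.inl (Or.inl ⟨h3, h, h2⟩)

theorem om_measurable (b : Box) : MeasurableSet (om b) := (om_open b).measurableSet

theorem rfl2_emb : MeasurableEmbedding rfl2 :=
  rflL.toHomeomorph.measurableEmbedding

/-- The restricted measure on the upper half. -/
noncomputable def muUp : Measure E3 :=
  (volume.restrict (om Box.O) + volume.restrict (om Box.P)) + volume.restrict (om Box.N)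

theorem restrict_upper : volume.restrict ({p | p ∈ modQ ∧ 0 < p 2} : Set E3) = muUp := by
  rw [← Measure.restrict_congr_set upper_ae, Measure.restrict_union _ (om_measurable _),
    Measure.restrict_union _ (om_measurable _), muUp]
  · rw [Set.disjoint_left]
    rintro p ⟨-, h1, -⟩ ⟨-, -, -, h2⟩
    linarith
  · rw [Set.disjoint_left]
    rintro p (⟨-, h1, -⟩ | ⟨-, h1, -⟩) ⟨-, h2, -, h3⟩ <;> linarith

theorem modQ_measurable : MeasurableSet modQ := by
  obtain ⟨K, hK⟩ := lev_lip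
  rw [modQ_eq]
  exact (measurableSet_lt measurable_const hK.continuous.measurable).inter
    (measurableSet_lt hK.continuous.measurable measurable_const)

theorem restrict_modQ : volume.restrict modQ = muUp + muUp.map rfl2 := by
  have hm : Measurable fun p : E3 => p 2 := by fun_prop
  have hA : MeasurableSet ({p | p ∈ modQ ∧ 0 < p 2} : Set E3) :=
    modQ_measurable.inter (measurableSet_lt measurable_const hm)
  have hB : MeasurableSet ({p | p ∈ modQ ∧ p 2 < 0} : Set E3) :=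
    modQ_measurable.inter (measurableSet_lt hm measurable_const)
  have h1 : (modQ : Set E3) =ᵐ[volume] (({p | p ∈ modQ ∧ 0 < p 2} : Set E3) ∪
      ({p | p ∈ modQ ∧ p 2 < 0} : Set E3) : Set E3) := by
    refine (Filter.EventuallyLE.antisymm ?_ ?_)
    · refine ae_le_set.2 (measure_mono_null ?_ volume_plane)
      rintro p ⟨h1, h2⟩
      by_contra hc
      have hc' : p 2 ≠ 0 := hc
      rcases lt_or_gt_of_ne hc' with h | h
      · exact h2 (Or.inr ⟨h1, h⟩)
      · exact h2 (Or.inl ⟨h1, h⟩)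
    · refine LE.le.eventuallyLE ?_
      rintro p (⟨h1, -⟩ | ⟨h1, -⟩) <;> exact h1
  have h2 : volume.restrict ({p | p ∈ modQ ∧ p 2 < 0} : Set E3) = muUp.map rfl2 := by
    rw [← restrict_upper]
    have h3 : ({p | p ∈ modQ ∧ 0 < p 2} : Set E3) = rfl2 ⁻¹' {p | p ∈ modQ ∧ p 2 < 0} := by
      ext p
      simp only [mem_ofPred_eq, mem_preimage, rfl2_two, modQ_eq, lev_rfl2]
      constructor
      · rintro ⟨h, h'⟩; exact ⟨h, by linarith⟩
      · rintro ⟨h, h'⟩; exact ⟨h, by linarith⟩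
    rw [h3]
    exact (rfl2_mp.restrict_preimage hB).map_eq.symm
  rw [Measure.restrict_congr_set h1, Measure.restrict_union _ hB, restrict_upper, h2]
  rw [Set.disjoint_left]
  rintro p ⟨-, h1⟩ ⟨-, h2⟩
  have h1' : 0 < p 2 := h1
  have h2' : p 2 < 0 := h2
  linarith

theorem integral_muUp (f : E3 → ℝ) (hf : Integrable f muUp) :
    ∫ x, f x ∂muUp = (∫ x in om Box.O, f x) + (∫ x in om Box.P, f x) + (∫ x in om Box.N, f x) := by
  have h1 : Integrable f (volume.restrict (om Box.O) + volume.restrict (om Box.P)) :=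
    hf.left_of_add_measure
  have h2 : Integrable f (volume.restrict (om Box.N)) := hf.right_of_add_measure
  rw [muUp, integral_add_measure h1 h2,
    integral_add_measure h1.left_of_add_measure h1.right_of_add_measure]

theorem integral_modQ (f : E3 → ℝ) (hf : IntegrableOn f modQ volume) :
    ∫ x in modQ, f x = (∫ x in om Box.O, f x) + (∫ x in om Box.P, f x) + (∫ x in om Box.N, f x) +
      ((∫ x in om Box.O, f (rfl2 x)) + (∫ x in om Box.P, f (rfl2 x)) +
        (∫ x in om Box.N, f (rfl2 x))) := by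
  rw [IntegrableOn, restrict_modQ] at hf
  have h1 : Integrable f muUp := hf.left_of_add_measure
  have h2 : Integrable f (muUp.map rfl2) := hf.right_of_add_measure
  have h3 : Integrable (fun x => f (rfl2 x)) muUp := (rfl2_emb.integrable_map_iff).1 h2
  rw [restrict_modQ, integral_add_measure h1 h2, rfl2_emb.integral_map, integral_muUp f h1,
    integral_muUp _ h3]

theorem lintegral_muUp (f : E3 → ℝ≥0∞) :
    ∫⁻ x, f x ∂muUp = (∫⁻ x in om Box.O, f x) + (∫⁻ x in om Box.P, f x) +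
      (∫⁻ x in om Box.N, f x) := by
  rw [muUp, lintegral_add_measure, lintegral_add_measure]

theorem lintegral_modQ_eq (f : E3 → ℝ≥0∞) (he : ∀ x, f (rfl2 x) = f x) :
    ∫⁻ x in modQ, f x = 2 * ((∫⁻ x in om Box.O, f x) + (∫⁻ x in om Box.P, f x) +
      (∫⁻ x in om Box.N, f x)) := by
  rw [restrict_modQ, lintegral_add_measure, rfl2_emb.lintegral_map]
  simp only [he]
  rw [lintegral_muUp, two_mul]

theorem lintegral_modQ (f : E3 → ℝ≥0∞) (he : ∀ x, f (rfl2 x) = f x) :
    ∫⁻ x in modQ, f x ≤ 2 * ((∫⁻ x in om Box.O, f x) + (∫⁻ x in om Box.P, f x) +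
      (∫⁻ x in om Box.N, f x)) := (lintegral_modQ_eq f he).le

end Crest.Agent.R083
end

-- ▼ part R083/ModPull
section

/-!
Row 83 (S0111), MOD group: pulling functions on the boxes back to functions on space.
-/

set_option autoImplicit false

namespace Crest.Agent.R083

open MeasureTheory Set Filter
open scoped Gradient ENNReal NNReal Topology

theorem pull_eq (f : Box → E3 → ℝ) (hm : Matching f) (b : Box) (p : E3) (hp : p ∈ reg b) :
    pull f p = f b (phi b p) := by
  unfold pull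
  by_cases h : 7/10 ≤ lev p
  · rw [if_pos h]
    have hO : p ∈ reg Box.O := h
    cases b with
    | O => rfl
    | P =>
      obtain ⟨h1, h2⟩ := phi_OP p hO hp
      rw [h1]
      exact hm.1 _ (phi_mem Box.P p) h2
    | N =>
      obtain ⟨h1, h2⟩ := phi_ON p hO hp
      rw [h1]
      exact hm.2 _ (phi_mem Box.N p) h2
  · rw [if_neg h]
    cases b with
    | O => exact absurd hp h
    | P => rw [if_pos hp.2]
    | N =>
      have h0 : ¬ 0 ≤ p 0 := fun h0 => h (lev_of_zero p (le_antisymm hp.2 h0))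
      rw [if_neg h0]

/-- without matching, in the open pieces -/
theorem pull_theta (f : Box → E3 → ℝ) (b : Box) (P : E3) (hP : P ∈ bxo b) :
    pull f (theta b P) = f b P := by
  have hm := theta_maps b P hP
  cases b with
  | O =>
    have hb : P ∈ bx Box.O :=
      ⟨hP.1.le, hP.2.1.le, hP.2.2.1.le, hP.2.2.2.le⟩
    unfold pull
    rw [if_pos hm.2.1.le, phi_theta Box.O P hb]
  | P =>
    have hb : P ∈ bx Box.P :=
      ⟨hP.1.le, hP.2.1.le, hP.2.2.1.le, hP.2.2.2.1.le, hP.2.2.2.2.le⟩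
    unfold pull
    rw [if_neg (not_le.2 hm.2.2.2), if_pos hm.2.1.le, phi_theta Box.P P hb]
  | N =>
    have hb : P ∈ bx Box.N :=
      ⟨hP.1.le, hP.2.1.le, hP.2.2.1.le, hP.2.2.2.1.le, hP.2.2.2.2.le⟩
    unfold pull
    rw [if_neg (not_le.2 hm.2.2.2), if_neg (not_le.2 hm.2.1), phi_theta Box.N P hb]

theorem pull_exists (f : Box → E3 → ℝ) (p : E3) : ∃ b, p ∈ reg b ∧ pull f p = f b (phi b p) := by
  unfold pull
  by_cases h : 7/10 ≤ lev p
  · exact ⟨Box.O, h, by rw [if_pos h]⟩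
  · by_cases h0 : 0 ≤ p 0
    · exact ⟨Box.P, ⟨(not_le.1 h).le, h0⟩, by rw [if_neg h, if_pos h0]⟩
    · exact ⟨Box.N, ⟨(not_le.1 h).le, (not_le.1 h0).le⟩, by rw [if_neg h, if_neg h0]⟩

theorem pull_rfl2 (f : Box → E3 → ℝ) (p : E3) : pull f (rfl2 p) = pull f p := by
  unfold pull
  have h0 : (rfl2 p) 0 = p 0 := by simp [rfl2, pt]
  simp only [lev_rfl2, phi_rfl2, h0]

theorem pull_measurable (f : Box → E3 → ℝ) (hf : ∀ b, Measurable (f b)) :
    Measurable (pull f) := by
  have hlev : Continuous lev := by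
    obtain ⟨K, hK⟩ := lev_lip
    exact hK.continuous
  have hphi : ∀ b, Continuous (phi b) := fun b => by
    obtain ⟨K, hK⟩ := phi_lip b
    exact hK.continuous
  have h0 : Continuous fun p : E3 => p 0 := by fun_prop
  unfold pull
  refine Measurable.ite ?_ ((hf Box.O).comp (hphi Box.O).measurable) (Measurable.ite ?_ ?_ ?_)
  · exact (isClosed_le continuous_const hlev).measurableSet
  · exact (isClosed_le continuous_const h0).measurableSet
  · exact (hf Box.P).comp (hphi Box.P).measurable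
  · exact (hf Box.N).comp (hphi Box.N).measurable

theorem finite_box_pull : Finite Box := by
  have : Function.Surjective (fun i : Fin 3 => (![Box.O, Box.P, Box.N] : Fin 3 → Box) i) := by
    intro b
    cases b
    · exact ⟨0, rfl⟩
    · exact ⟨1, rfl⟩
    · exact ⟨2, rfl⟩
  exact Finite.of_surjective _ this

theorem pull_lip (f : Box → E3 → ℝ) (hm : Matching f)
    (hL : ∀ b, ∃ K : ℝ≥0, LipschitzWith K (f b)) : ∃ K : ℝ≥0, LipschitzWith K (pull f) := by
  haveI := finite_box_pull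
  choose K hK using hL
  choose L hL using phi_lip
  -- a common constant
  obtain ⟨M, hM⟩ : ∃ M : ℝ≥0, ∀ b, K b * L b ≤ M :=
    ⟨K Box.O * L Box.O + K Box.P * L Box.P + K Box.N * L Box.N, fun b => by
      cases b
      · rw [add_assoc]; exact le_self_add
      · rw [add_right_comm]; exact le_add_self
      · exact le_add_self⟩
  have hOn : ∀ b, LipschitzOnWith M (pull f) (reg b) := by
    intro b
    have h1 : LipschitzWith M (fun p => f b (phi b p)) := ((hK b).comp (hL b)).weaken (hM b)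
    intro p hp q hq
    rw [pull_eq f hm b p hp, pull_eq f hm b q hq]
    exact h1 p q
  have hcont : Continuous (pull f) := by
    refine LocallyFinite.continuous (f := reg) (locallyFinite_of_finite _) reg_cover reg_closed ?_
    exact fun b => (hOn b).continuousOn
  exact ⟨M, lip_cover (pull f) hcont M reg reg_closed reg_cover hOn⟩

end Crest.Agent.R083
end

-- ▼ part R083/ModCore
section

/-!
Row 83 (S0111), MOD-d: the physical module from the isotropised model.
-/

set_option autoImplicit false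

namespace Crest.Agent.R083

open MeasureTheory Set Filter
open scoped Gradient ENNReal NNReal Topology

/-! ### the affine pieces -/

theorem Mf_eq (b : Box) (P : E3) : Mf b P = pullM (fderiv ℝ (theta b) P) := rfl

theorem theta_inj (b : Box) : InjOn (theta b) (bx b) := by
  intro P hP Q hQ h
  rw [← phi_theta b P hP, ← phi_theta b Q hQ, h]

theorem exists_pieces : ∃ L : ℝ≥0, ∀ b : Box, ∃ U : Set E3, U ⊆ bxo b ∧ volume (bx b \ U) = 0 ∧
    Piece (theta b) U L := by
  obtain ⟨L, hL⟩ := chart_affine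
  refine ⟨L, fun b => ?_⟩
  obtain ⟨U, h1, h2, h3, h4⟩ := hL b
  exact ⟨U, h2, h3, h1, (theta_inj b).mono (h2.trans (bxo_subset_bx b)), h4⟩

theorem piece_ae {b : Box} {U : Set E3} (hU : U ⊆ bxo b) (h0 : volume (bx b \ U) = 0) :
    (U : Set E3) =ᵐ[volume] (bx b : Set E3) := by
  refine ((hU.trans (bxo_subset_bx b)).eventuallyLE).antisymm ?_
  exact ae_le_set.2 h0

/-! ### volume of the module -/

theorem modQ_open_meas : MeasurableSet modQ := by
  unfold modQ
  refine cellB_open.measurableSet.diff ?_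
  exact (measurableSet_sim_image true cellBc_closed.measurableSet).union
    (measurableSet_sim_image false cellBc_closed.measurableSet)

theorem modQ_vol : volume modQ < ∞ :=
  lt_of_le_of_lt (measure_mono (sdiff_subset.trans cellB_subset)) cellBc_compact.measure_lt_top

theorem om_meas (b : Box) : MeasurableSet (om b) := (om_open b).measurableSet

/-! ### energies -/

/-- The energy pairing on the boxes for a family of fields. -/
noncomputable def EB (γ : Box → E3 → ℝ) (V : Box → E3 → E3) (ψ : E3 → ℝ) (b : Box) : ℝ :=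
  ∫ X in bx b, γ b X * inner ℝ (Mf b X (V b X)) (∇ (fun Q => ψ (theta b Q)) X)

theorem om_energy (γ g : Box → E3 → ℝ) (ψ : E3 → ℝ) (b : Box) :
    ∫ x in om b, pull γ x * inner ℝ (∇ (pull g) x) (∇ ψ x) =
      EB γ (fun b => ∇ (g b)) ψ b := by
  obtain ⟨L, hL⟩ := exists_pieces
  obtain ⟨U, hU, h0, hp⟩ := hL b
  rw [setIntegral_congr_set (om_ae b U hU h0), hp.energy, EB,
    ← setIntegral_congr_set (piece_ae hU h0)]
  refine setIntegral_congr_fun hp.op.measurableSet (fun X hX => ?_)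
  have h1 : pull γ (theta b X) = γ b X := pull_theta γ b X (hU hX)
  have h2 : ∇ (fun Q => pull g (theta b Q)) X = ∇ (g b) X := by
    refine grad_congr ?_
    filter_upwards [hp.op.mem_nhds hX] with Q hQ
    exact pull_theta g b Q (hU hQ)
  simp only [Mf_eq]
  rw [h1, h2]

theorem grad_even {u : E3 → ℝ} (hu : ∀ x, u (rfl2 x) = u x) (x : E3) :
    ∇ u (rfl2 x) = rfl2 (∇ u x) := by
  have h1 := grad_comp_rfl2 u x
  have h2 : (fun y => u (rfl2 y)) = u := funext hu
  rw [h2] at h1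
  rw [h1, rfl2_rfl2]

theorem comp_rfl2_lip {ψ : E3 → ℝ} {K : ℝ≥0} (hψ : LipschitzWith K ψ) :
    LipschitzWith K (fun x => ψ (rfl2 x)) := by
  have := hψ.comp rfl2_lip
  rw [mul_one] at this
  exact this

theorem modQ_energy (γ : Box → E3 → ℝ) (hγ : ∀ b, Measurable (γ b)) (C : ℝ)
    (hC : ∀ b x, |γ b x| ≤ C) (g : Box → E3 → ℝ)
    (hm : Matching g) (hg : ∀ b, ∃ K : ℝ≥0, LipschitzWith K (g b)) (ψ : E3 → ℝ) (K : ℝ≥0)
    (hψ : LipschitzWith K ψ) :
    ∫ x in modQ, pull γ x * inner ℝ (∇ (pull g) x) (∇ ψ x) =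
      (EB γ (fun b => ∇ (g b)) ψ Box.O + EB γ (fun b => ∇ (g b)) ψ Box.P +
        EB γ (fun b => ∇ (g b)) ψ Box.N) +
      (EB γ (fun b => ∇ (g b)) (fun x => ψ (rfl2 x)) Box.O +
        EB γ (fun b => ∇ (g b)) (fun x => ψ (rfl2 x)) Box.P +
        EB γ (fun b => ∇ (g b)) (fun x => ψ (rfl2 x)) Box.N) := by
  obtain ⟨K', hK'⟩ := pull_lip g hm hg
  have hint : IntegrableOn (fun x => pull γ x * inner ℝ (∇ (pull g) x) (∇ ψ x)) modQ volume := by
    refine Measure.integrableOn_of_bounded (M := C * (K' * K)) modQ_vol.ne ?_ ?_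
    · exact ((pull_measurable γ hγ).mul
        ((tr_measurable_grad _).inner (tr_measurable_grad _))).aestronglyMeasurable
    · refine Eventually.of_forall fun x => ?_
      obtain ⟨b, -, hb⟩ := pull_exists γ x
      have h1 : |pull γ x| ≤ C := by rw [hb]; exact hC b _
      rw [norm_mul, Real.norm_eq_abs]
      have h2 : ‖inner ℝ (∇ (pull g) x) (∇ ψ x)‖ ≤ K' * K :=
        (norm_inner_le_norm _ _).trans (mul_le_mul (tr_norm_grad_le hK' x) (tr_norm_grad_le hψ x)
          (norm_nonneg _) K'.2)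
      exact mul_le_mul h1 h2 (norm_nonneg _) ((abs_nonneg _).trans h1)
  rw [integral_modQ _ hint]
  have hr : ∀ b, ∫ x in om b, pull γ (rfl2 x) * inner ℝ (∇ (pull g) (rfl2 x)) (∇ ψ (rfl2 x)) =
      EB γ (fun b => ∇ (g b)) (fun x => ψ (rfl2 x)) b := by
    intro b
    rw [← om_energy]
    refine setIntegral_congr_fun (om_meas b) (fun x _ => ?_)
    have e1 : ∇ (pull g) (rfl2 x) = rfl2 (∇ (pull g) x) := grad_even (pull_rfl2 g) x
    have e2 : ∇ ψ (rfl2 x) = rfl2 (∇ (fun y => ψ (rfl2 y)) x) := by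
      rw [grad_comp_rfl2, rfl2_rfl2]
    simp only [pull_rfl2]
    rw [e1, e2, inner_rfl2]
  rw [om_energy, om_energy, om_energy, hr, hr, hr]

/-! ### the Dirichlet energy -/

theorem om_dirichlet (L : ℝ≥0) (hL : ∀ b : Box, ∃ U : Set E3, U ⊆ bxo b ∧
    volume (bx b \ U) = 0 ∧ Piece (theta b) U L) (g : Box → E3 → ℝ) (b : Box) :
    ∫⁻ x in om b, ‖∇ (pull g) x‖ₑ ^ 2 ≤
      ENNReal.ofReal (L ^ 5) * ∫⁻ X in bx b, ‖∇ (g b) X‖ₑ ^ 2 := by
  obtain ⟨U, hU, h0, hp⟩ := hL b
  rw [setLIntegral_congr (om_ae b U hU h0), ← setLIntegral_congr (piece_ae hU h0)]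
  refine (hp.dirichlet _).trans (le_of_eq ?_)
  congr 1
  refine setLIntegral_congr_fun hp.op.measurableSet (fun X hX => ?_)
  have h2 : ∇ (fun Q => pull g (theta b Q)) X = ∇ (g b) X := by
    refine grad_congr ?_
    filter_upwards [hp.op.mem_nhds hX] with Q hQ
    exact pull_theta g b Q (hU hQ)
  rw [h2]

/-- Vanishing outside the module gives vanishing gradient almost everywhere. -/
theorem grad_outside {u : E3 → ℝ} (hO : ∀ x, 1 ≤ lev x → u x = 0)
    (hI : ∀ x, lev x ≤ 3/5 → u x = 0) : ∀ᵐ x, x ∉ modQ → ∇ u x = 0 := by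
  obtain ⟨K, hK⟩ := lev_lip
  have h1 : ∀ᵐ x : E3, lev x ≠ 1 := by
    rw [ae_iff]; simpa using volume_level 1 (by norm_num) le_rfl
  have h2 : ∀ᵐ x : E3, lev x ≠ 3/5 := by
    rw [ae_iff]; simpa using volume_level (3/5) le_rfl (by norm_num)
  filter_upwards [h1, h2] with x hx1 hx2 hxQ
  rw [modQ_eq] at hxQ
  have hz : ∀ᶠ y in 𝓝 x, u y = 0 := by
    by_cases h : 3/5 < lev x
    · have h3 : 1 < lev x := by
        rcases lt_trichotomy (lev x) 1 with h4 | h4 | h4
        · exact absurd ⟨h, h4⟩ hxQ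
        · exact absurd h4 hx1
        · exact h4
      filter_upwards [hK.continuous.continuousAt.eventually (lt_mem_nhds h3)] with y hy
      exact hO y hy.le
    · have h3 : lev x < 3/5 := lt_of_le_of_ne (not_lt.1 h) hx2
      filter_upwards [hK.continuous.continuousAt.eventually (gt_mem_nhds h3)] with y hy
      exact hI y hy.le
  have := grad_congr (f := u) (g := fun _ => (0 : ℝ)) hz
  rw [this, grad_const]

theorem dirichlet_pull (L : ℝ≥0) (hL : ∀ b : Box, ∃ U : Set E3, U ⊆ bxo b ∧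
    volume (bx b \ U) = 0 ∧ Piece (theta b) U L) (g : Box → E3 → ℝ)
    (hO : ∀ x, 1 ≤ lev x → pull g x = 0) (hI : ∀ x, lev x ≤ 3/5 → pull g x = 0) :
    ∫⁻ x, ‖∇ (pull g) x‖ₑ ^ 2 ≤ 2 * (ENNReal.ofReal (L ^ 5) *
      ((∫⁻ X in bx Box.O, ‖∇ (g Box.O) X‖ₑ ^ 2) + (∫⁻ X in bx Box.P, ‖∇ (g Box.P) X‖ₑ ^ 2) +
        (∫⁻ X in bx Box.N, ‖∇ (g Box.N) X‖ₑ ^ 2))) := by
  have h1 : ∫⁻ x, ‖∇ (pull g) x‖ₑ ^ 2 = ∫⁻ x in modQ, ‖∇ (pull g) x‖ₑ ^ 2 := by
    rw [← lintegral_indicator modQ_open_meas]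
    refine lintegral_congr_ae ?_
    filter_upwards [grad_outside hO hI] with x hx
    by_cases h : x ∈ modQ
    · rw [indicator_of_mem h]
    · rw [indicator_of_notMem h, hx h]; simp
  rw [h1]
  refine (lintegral_modQ _ (fun x => ?_)).trans ?_
  · rw [grad_even (pull_rfl2 g) x]
    have : ‖rfl2 (∇ (pull g) x)‖ₑ = ‖∇ (pull g) x‖ₑ := by
      rw [← ofReal_norm, ← ofReal_norm]
      congr 1
      exact rflL.norm_map _
    rw [this]
  · gcongr
    rw [mul_add, mul_add]
    exact add_le_add (add_le_add (om_dirichlet L hL g _) (om_dirichlet L hL g _))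
      (om_dirichlet L hL g _)

end Crest.Agent.R083
end

-- ▼ part R083/ModBuild
section

/-!
Row 83 (S0111), MOD-d: the physical module from the isotropised model: the structure `ModData`.
-/

set_option autoImplicit false

namespace Crest.Agent.R083

open MeasureTheory Set Filter
open scoped Gradient ENNReal NNReal Topology

theorem eLpNorm_sq {μ : Measure E3} (f : E3 → E3) :
    eLpNorm f 2 μ ^ 2 = ∫⁻ x, ‖f x‖ₑ ^ 2 ∂μ := by
  rw [eLpNorm_eq_lintegral_rpow_enorm_toReal two_ne_zero ENNReal.ofNat_ne_top,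
    ← ENNReal.rpow_natCast, ← ENNReal.rpow_mul]
  simp

theorem le_of_sq_le_const_mul {a s A : ℝ≥0∞} (h : a ^ 2 ≤ A * s ^ 2) (hA : 1 ≤ A) :
    a ≤ A * s := by
  rw [← ENNReal.pow_le_pow_left_iff two_ne_zero, mul_pow]
  refine h.trans ?_
  gcongr
  calc A = A * 1 := (mul_one A).symm
    _ ≤ A * A := by gcongr
    _ = A ^ 2 := by ring

/-! ### the metric field -/

theorem Mf_aesm (b : Box) : AEStronglyMeasurable (Mf b) (volume.restrict (bx b)) := by
  obtain ⟨μ, -, h⟩ := chart_metric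
  obtain ⟨U, h1, h2, h3, h4, -⟩ := h b
  rw [← Measure.restrict_congr_set (piece_ae h2 h3)]
  refine ContinuousOn.aestronglyMeasurable (fun x hx => ?_) h1.measurableSet
  refine ContinuousAt.continuousWithinAt ?_
  exact (continuousAt_const (y := Mf b x)).congr ((h4 x hx).mono fun y hy => hy.symm)

theorem Mf_bound : ∃ C : ℝ, 0 ≤ C ∧ ∀ b : Box, ∀ᵐ X ∂(volume.restrict (bx b)), ‖Mf b X‖ ≤ C := by
  obtain ⟨L, hL⟩ := exists_pieces
  refine ⟨(L : ℝ) ^ 3 * (L * L), by positivity, fun b => ?_⟩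
  obtain ⟨U, hU, h0, hp⟩ := hL b
  rw [← Measure.restrict_congr_set (piece_ae hU h0)]
  refine (ae_restrict_iff' hp.op.measurableSet).2 (Eventually.of_forall fun X hX => ?_)
  obtain ⟨A, hA, hA1, hA2⟩ := hp.aff X hX
  have h1 : (A : E3 →L[ℝ] E3).inverse = (A.symm : E3 →L[ℝ] E3) := by simp
  rw [Mf_eq, (hasFDerivAt_of_affine hA).fderiv, pullM, h1, norm_smul, Real.norm_eq_abs, abs_abs]
  have hdet : |(A : E3 →L[ℝ] E3).det| ≤ (L : ℝ) ^ 3 := by
    refine abs_det_le _ _ L.2 (fun x => ?_)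
    exact (ContinuousLinearMap.le_opNorm _ x).trans (by gcongr)
  have h2 : ‖(A.symm : E3 →L[ℝ] E3).comp (ContinuousLinearMap.adjoint (A.symm : E3 →L[ℝ] E3))‖ ≤
      L * L := by
    refine (ContinuousLinearMap.opNorm_comp_le _ _).trans ?_
    rw [LinearIsometryEquiv.norm_map]
    gcongr
  gcongr


theorem bx_vol (b : Box) : volume (bx b) < ∞ := by
  have h : bx b ⊆ Metric.closedBall 0 3 := by
    intro p hp
    rw [mem_closedBall_zero_iff]
    have h1 : ‖p‖ ^ 2 ≤ 3 ^ 2 := by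
      rw [tg_norm_sq]
      cases b <;> simp only [bx, mem_setOf_eq] at hp
      · obtain ⟨h0, h1, h2, h3⟩ := hp
        rw [abs_le] at h0 h1
        nlinarith
      · obtain ⟨h0, h0', h1, h2, h3⟩ := hp
        rw [abs_le] at h1
        nlinarith
      · obtain ⟨h0, h0', h1, h2, h3⟩ := hp
        rw [abs_le] at h1
        nlinarith
    exact le_of_sq_le_sq h1 (by norm_num)
  exact lt_of_le_of_lt (measure_mono h) (isCompact_closedBall _ _).measure_lt_top

theorem memLp_grad {f : E3 → ℝ} {K : ℝ≥0} (hf : LipschitzWith K f) {s : Set E3}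
    (hs : volume s < ∞) : MemLp (fun x => ∇ f x) 2 (volume.restrict s) := by
  have : IsFiniteMeasure (volume.restrict s) := ⟨by simpa using hs⟩
  exact MemLp.of_bound (tr_measurable_grad f).aestronglyMeasurable K
    (Eventually.of_forall fun x => tr_norm_grad_le hf x)

/-- Continuity of the box energy in the field. -/
theorem EB_tendsto (γ : Box → E3 → ℝ) (hγ : ∀ b, Measurable (γ b)) (C : ℝ)
    (hC : ∀ b x, |γ b x| ≤ C) (V : ℕ → Box → E3 → E3) (V' : Box → E3 → E3)
    (hV : ∀ j b, MemLp (V j b) 2 (volume.restrict (bx b)))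
    (hV' : ∀ b, MemLp (V' b) 2 (volume.restrict (bx b)))
    (h : ∀ b, Tendsto (fun j => eLpNorm (fun x => V j b x - V' b x) 2 (volume.restrict (bx b)))
      atTop (𝓝 0)) (ψ : E3 → ℝ) (K : ℝ≥0) (hψ : LipschitzWith K ψ) (b : Box) :
    Tendsto (fun j => EB γ (V j) ψ b) atTop (𝓝 (EB γ V' ψ b)) := by
  have : IsFiniteMeasure (volume.restrict (bx b)) := ⟨by simpa using bx_vol b⟩
  obtain ⟨C', hC'0, hC'⟩ := Mf_bound
  obtain ⟨K', hK'⟩ := theta_lip b
  have hχ : LipschitzWith (K * K') (fun Q => ψ (theta b Q)) := hψ.comp hK'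
  have := tendsto_integral_L2 (μ := volume.restrict (bx b))
    (fun X => γ b X • (innerSL ℝ (∇ (fun Q => ψ (theta b Q)) X)).comp (Mf b X)) ?_
    (C * ((K * K' : ℝ≥0) * C')) ?_ (fun j => V j b) (V' b) (fun j => hV j b) (hV' b) (h b)
  · refine (this.congr fun j => ?_).trans (le_of_eq ?_)
    · rw [EB]
      refine integral_congr_ae (Eventually.of_forall fun X => ?_)
      simp only [smul_apply, ContinuousLinearMap.comp_apply, innerSL_apply_apply, smul_eq_mul]
      rw [real_inner_comm]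
    · rw [EB]
      congr 1
      refine integral_congr_ae (Eventually.of_forall fun X => ?_)
      simp only [smul_apply, ContinuousLinearMap.comp_apply, innerSL_apply_apply, smul_eq_mul]
      rw [real_inner_comm]
  · refine AEStronglyMeasurable.smul (hγ b).aestronglyMeasurable ?_
    have h1 : AEStronglyMeasurable (fun X => innerSL ℝ (∇ (fun Q => ψ (theta b Q)) X))
        (volume.restrict (bx b)) :=
      (innerSL ℝ (E := E3)).continuous.comp_aestronglyMeasurable
        (tr_measurable_grad _).aestronglyMeasurable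
    exact (isBoundedBilinearMap_comp (𝕜 := ℝ) (E := E3) (F := E3)
      (G := ℝ)).continuous.comp_aestronglyMeasurable (h1.prodMk (Mf_aesm b))
  · filter_upwards [hC' b] with X hX
    rw [norm_smul, Real.norm_eq_abs]
    have h1 : ‖(innerSL ℝ (∇ (fun Q => ψ (theta b Q)) X)).comp (Mf b X)‖ ≤
        (K * K' : ℝ≥0) * C' := by
      refine (ContinuousLinearMap.opNorm_comp_le _ _).trans ?_
      rw [innerSL_apply_norm]
      exact mul_le_mul (tr_norm_grad_le hχ X) hX (norm_nonneg _) (NNReal.coe_nonneg _)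
    exact mul_le_mul (hC b X) h1 (norm_nonneg _) ((abs_nonneg _).trans (hC b X))

/-! ### pulled back families -/

theorem pull_out (g : Box → E3 → ℝ) (x : E3) (h : 1 ≤ lev x) :
    pull g x = g Box.O (phi Box.O x) := by
  unfold pull
  rw [if_pos (by linarith)]

theorem pull_in (g : Box → E3 → ℝ) (x : E3) (h : lev x ≤ 3/5) :
    pull g x = if 0 ≤ x 0 then g Box.P (phi Box.P x) else g Box.N (phi Box.N x) := by
  unfold pull
  rw [if_neg (by linarith)]

theorem pull_sub (g k : Box → E3 → ℝ) (x : E3) :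
    pull (fun b X => g b X - k b X) x = pull g x - pull k x := by
  unfold pull
  split_ifs <;> rfl

variable (O : ModelOut Mf)

theorem h_matching : Matching O.h := by
  constructor
  · intro p hp h
    rw [O.h0 Box.O p, O.h0 Box.P p]
    · simp only [bxo, mem_setOf_eq]; rintro ⟨-, -, -, -, h'⟩; linarith
    · simp only [bxo, mem_setOf_eq]; rintro ⟨-, -, h', -⟩; linarith
  · intro p hp h
    rw [O.h0 Box.O p, O.h0 Box.N p]
    · simp only [bxo, mem_setOf_eq]; rintro ⟨-, -, -, -, h'⟩; linarith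
    · simp only [bxo, mem_setOf_eq]; rintro ⟨-, -, h', -⟩; linarith

theorem h_out (x : E3) (h : 1 ≤ lev x) : pull O.h x = 1 := by
  rw [pull_out _ _ h, O.h0, phi_out x h]
  simp only [bxo, mem_setOf_eq]
  rintro ⟨-, -, -, h'⟩
  rw [phi_out x h] at h'
  exact lt_irrefl _ h'

theorem h_in (x : E3) (h : lev x ≤ 3/5) : pull O.h x = 3/5 := by
  rw [pull_in _ _ h]
  split_ifs
  · rw [O.h0, phi_inP x h]
    simp only [bxo, mem_setOf_eq]
    rintro ⟨-, -, -, h', -⟩
    rw [phi_inP x h] at h'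
    exact lt_irrefl _ h'
  · rw [O.h0, phi_inN x h]
    simp only [bxo, mem_setOf_eq]
    rintro ⟨-, -, -, h', -⟩
    rw [phi_inN x h] at h'
    exact lt_irrefl _ h'

theorem wj_out (j : ℕ) (x : E3) (h : 1 ≤ lev x) : pull (O.wj j) x = 0 := by
  rw [pull_out _ _ h]
  exact O.wjO j _ (phi_mem _ _) (phi_out x h)

theorem wj_in (j : ℕ) (x : E3) (h : lev x ≤ 3/5) :
    pull (O.wj j) x = if 0 ≤ x 0 then O.e else -O.e := by
  rw [pull_in _ _ h]
  split_ifs
  · exact O.wjP j _ (phi_mem _ _) (phi_inP x h)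
  · exact O.wjN j _ (phi_mem _ _) (phi_inN x h)

theorem lev_of_not_cellB {x : E3} (hx : x ∉ cellB) : 1 ≤ lev x := by
  rw [cellB_eq] at hx
  simpa using hx

theorem lev_of_child {b : Bool} {x : E3} (hx : x ∈ sim b '' cellBc) : lev x ≤ 3/5 := by
  cases b
  · rw [child_false_eq] at hx; exact hx.1
  · rw [child_true_eq] at hx; exact hx.1

theorem wj_child (j : ℕ) (b : Bool) (x : E3) (hx : x ∈ sim b '' cellBc) :
    pull (O.wj j) x = sg b * O.e := by
  rw [wj_in O j x (lev_of_child hx)]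
  cases b
  · rw [child_false_eq] at hx
    have h0 : ¬ (0 ≤ x 0) := by
      intro h
      have h1 : x 0 = 0 := le_antisymm hx.2 h
      have h2 := lev_of_zero x h1
      have h3 := hx.1
      linarith
    rw [if_neg h0]; simp [sg]
  · rw [child_true_eq] at hx
    rw [if_pos hx.2]; simp [sg]

/-- The approximants of the neutral potential are Cauchy in the Dirichlet norm. -/
theorem exists_G : ∃ G : E3 → E3, MemLp G 2 volume ∧
    Tendsto (fun j => eLpNorm (fun x => ∇ (pull (O.wj j)) x - G x) 2 volume) atTop (𝓝 0) := by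
  obtain ⟨L, hL⟩ := exists_pieces
  have hlip : ∀ j, ∃ K : ℝ≥0, LipschitzWith K (pull (O.wj j)) := fun j =>
    pull_lip _ (O.wjM j) (O.wjL j)
  let ε : ℕ → Box → ℝ≥0∞ := fun j b =>
    eLpNorm (fun x => ∇ (O.wj j b) x - O.G b x) 2 (volume.restrict (bx b))
  let s : ℕ → ℝ≥0∞ := fun j => ε j Box.O + ε j Box.P + ε j Box.N
  have hs : Tendsto s atTop (𝓝 0) := by
    have := ((O.wjG Box.O).add (O.wjG Box.P)).add (O.wjG Box.N)
    simpa using this
  let A : ℝ≥0∞ := 6 * ENNReal.ofReal (L ^ 5) + 1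
  have hA : A ≠ ∞ := by finiteness
  refine exists_L2_limit (fun j => ∇ (pull (O.wj j))) ?_ (fun j => A * s j) ?_ ?_
  · intro j
    obtain ⟨K, hK⟩ := hlip j
    have h1 : (fun x => ∇ (pull (O.wj j)) x) = cellBc.indicator (fun x => ∇ (pull (O.wj j)) x) := by
      funext x
      by_cases hx : x ∈ cellBc
      · rw [indicator_of_mem hx]
      · rw [indicator_of_notMem hx]
        have h2 : (pull (O.wj j)) =ᶠ[𝓝 x] fun _ => 0 := by
          filter_upwards [cellBc_closed.isOpen_compl.mem_nhds hx] with y hy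
          exact wj_out O j y (lev_of_not_cellB fun h => hy (cellB_subset h))
        rw [grad_congr h2, grad_const]
    show MemLp (fun x => ∇ (pull (O.wj j)) x) 2 volume
    rw [h1, memLp_indicator_iff_restrict cellBc_closed.measurableSet]
    exact memLp_grad hK cellBc_compact.measure_lt_top
  · have := ENNReal.Tendsto.const_mul (a := A) hs (Or.inr hA)
    simpa using this
  · intro j k
    obtain ⟨K, hK⟩ := hlip j
    obtain ⟨K', hK'⟩ := hlip k
    rw [← mul_add]
    refine le_of_sq_le_const_mul ?_ (by simp [A])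
    let g : Box → E3 → ℝ := fun b X => O.wj j b X - O.wj k b X
    have hg : pull g = fun x => pull (O.wj j) x - pull (O.wj k) x := funext (pull_sub _ _)
    rw [eLpNorm_sq]
    have h1 : ∫⁻ x, ‖∇ (pull (O.wj j)) x - ∇ (pull (O.wj k)) x‖ₑ ^ 2 =
        ∫⁻ x, ‖∇ (pull g) x‖ₑ ^ 2 := by
      refine lintegral_congr_ae ?_
      filter_upwards [grad_sub_ae hK hK'] with x hx
      rw [hg, hx]
    have h2 : ∀ b, ∫⁻ X in bx b, ‖∇ (g b) X‖ₑ ^ 2 ≤ (s j + s k) ^ 2 := by
      intro b
      obtain ⟨K1, hK1⟩ := O.wjL j b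
      obtain ⟨K2, hK2⟩ := O.wjL k b
      have h3 : ∫⁻ X in bx b, ‖∇ (g b) X‖ₑ ^ 2 =
          (eLpNorm (fun x => (∇ (O.wj j b) x - O.G b x) - (∇ (O.wj k b) x - O.G b x)) 2
            (volume.restrict (bx b))) ^ 2 := by
        rw [eLpNorm_sq]
        refine lintegral_congr_ae (ae_restrict_of_ae ?_)
        filter_upwards [grad_sub_ae hK1 hK2] with x hx
        rw [hx]
        congr 2
        abel
      rw [h3]
      gcongr
      refine (eLpNorm_sub_le ?_ ?_ (by norm_num)).trans ?_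
      · exact (tr_measurable_grad _).aestronglyMeasurable.sub (O.Gi b).1
      · exact (tr_measurable_grad _).aestronglyMeasurable.sub (O.Gi b).1
      · have e1 : ∀ i, ε i b ≤ s i := by
          intro i
          cases b
          · exact le_self_add.trans le_self_add
          · exact le_add_self.trans le_self_add
          · exact le_add_self
        exact add_le_add (e1 j) (e1 k)
    rw [h1]
    refine (dirichlet_pull L hL g ?_ ?_).trans ?_
    · intro x hx
      rw [hg]; simp only; rw [wj_out O j x hx, wj_out O k x hx, sub_zero]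
    · intro x hx
      rw [hg]; simp only; rw [wj_in O j x hx, wj_in O k x hx, sub_self]
    · calc 2 * (ENNReal.ofReal (L ^ 5) * ((∫⁻ X in bx Box.O, ‖∇ (g Box.O) X‖ₑ ^ 2) +
            (∫⁻ X in bx Box.P, ‖∇ (g Box.P) X‖ₑ ^ 2) + (∫⁻ X in bx Box.N, ‖∇ (g Box.N) X‖ₑ ^ 2)))
          ≤ 2 * (ENNReal.ofReal (L ^ 5) * ((s j + s k) ^ 2 + (s j + s k) ^ 2 + (s j + s k) ^ 2)) := by
            gcongr <;> exact h2 _
        _ = 6 * ENNReal.ofReal (L ^ 5) * (s j + s k) ^ 2 := by ring
        _ ≤ A * (s j + s k) ^ 2 := by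
            gcongr
            exact le_self_add

end Crest.Agent.R083
end

-- ▼ part R083/ChartFace
section

/-!
Row 83 (S0111), MOD: the face integrals of the model boxes are averages over the boundary of the
cells. The statements take the face values of the inverse chart as hypotheses, so that they only
depend on `ChartDefs.lean`.
-/

set_option autoImplicit false

namespace Crest.Agent.R083

open MeasureTheory Set Filter
open scoped Gradient ENNReal NNReal Topology

/-- Integral over the upper roof of the basic cell. -/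
noncomputable def roofInt (ψ : E3 → ℝ) : ℝ :=
  ∫ x in (-(7/5:ℝ))..(7/5), ∫ y in (-1:ℝ)..1, ψ (pt x y (roof x y))

theorem swap_interval (f : ℝ → ℝ → ℝ) (hf : Continuous (Function.uncurry f)) {a b c d : ℝ}
    (hab : a ≤ b) (hcd : c ≤ d) :
    ∫ x in a..b, ∫ y in c..d, f x y = ∫ y in c..d, ∫ x in a..b, f x y := by
  simp only [intervalIntegral.integral_of_le hab, intervalIntegral.integral_of_le hcd]
  refine integral_integral_swap ?_
  rw [Measure.prod_restrict]
  refine (hf.continuousOn.integrableOn_compact (μ := volume.prod volume)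
    (isCompact_Icc.prod isCompact_Icc) : IntegrableOn (Function.uncurry f) (Icc a b ×ˢ Icc c d)
      (volume.prod volume)).mono_set ?_
  exact prod_mono Ioc_subset_Icc_self Ioc_subset_Icc_self

theorem continuous_roof : Continuous fun p : ℝ × ℝ => roof p.1 p.2 := by
  unfold roof
  fun_prop

theorem cf_continuous_pt {X : Type*} [TopologicalSpace X] {f g h : X → ℝ} (hf : Continuous f)
    (hg : Continuous g) (hh : Continuous h) : Continuous fun x => pt (f x) (g x) (h x) := by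
  unfold pt
  refine (PiLp.continuous_toLp 2 _).comp ?_
  refine continuous_pi fun i => ?_
  fin_cases i
  · exact hf
  · exact hg
  · exact hh

/-- The upper and lower roofs. -/
theorem pavg_eq_roofInt (ψ : E3 → ℝ) (hψ : Continuous ψ) :
    pavg ψ = (roofInt ψ + roofInt (fun p => ψ (rfl2 p))) / (2 * (14/5) * 2) := by
  unfold pavg roofInt
  have hr : ∀ x y, ψ (rfl2 (pt x y (roof x y))) = ψ (pt x y (-roof x y)) := by
    intro x y
    simp [rfl2, pt]
  simp only [hr]
  have hc1 : Continuous fun p : ℝ × ℝ => ψ (pt p.1 p.2 (roof p.1 p.2)) :=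
    hψ.comp (cf_continuous_pt continuous_fst continuous_snd continuous_roof)
  have hc2 : Continuous fun p : ℝ × ℝ => ψ (pt p.1 p.2 (-roof p.1 p.2)) :=
    hψ.comp (cf_continuous_pt continuous_fst continuous_snd continuous_roof.neg)
  congr 1
  rw [← intervalIntegral.integral_add]
  · refine intervalIntegral.integral_congr fun x _ => ?_
    rw [← intervalIntegral.integral_add]
    · exact (hc1.comp (Continuous.prodMk_right x)).intervalIntegrable _ _
    · exact (hc2.comp (Continuous.prodMk_right x)).intervalIntegrable _ _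
  · exact (intervalIntegral.continuous_parametric_intervalIntegral_of_continuous' hc1 _ _).intervalIntegrable _ _
  · exact (intervalIntegral.continuous_parametric_intervalIntegral_of_continuous' hc2 _ _).intervalIntegrable _ _

/-- The outer face. -/
theorem faceO_eq (ψ : E3 → ℝ) (θ : E3 → E3)
    (hθ : ∀ X Y : ℝ, |X| ≤ 32/25 → |Y| ≤ 22/25 →
      θ (pt X Y 1) = pt (35/32 * X) (25/22 * Y) (roof (35/32 * X) (25/22 * Y))) :
    faceO (fun P => ψ (θ P)) = 32/35 * (22/25) * roofInt ψ := by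
  have h1 : faceO (fun P => ψ (θ P)) = ∫ X in (-(32/25:ℝ))..(32/25), ∫ Y in (-(22/25:ℝ))..(22/25),
      ψ (pt (35/32 * X) (25/22 * Y) (roof (35/32 * X) (25/22 * Y))) := by
    unfold faceO
    refine intervalIntegral.integral_congr fun X hX => ?_
    refine intervalIntegral.integral_congr fun Y hY => ?_
    rw [uIcc_of_le (by norm_num)] at hX hY
    simp only
    rw [hθ X Y (abs_le.2 hX) (abs_le.2 hY)]
  rw [h1]
  have h2 : ∀ X : ℝ, (∫ Y in (-(22/25:ℝ))..(22/25),
      ψ (pt (35/32 * X) (25/22 * Y) (roof (35/32 * X) (25/22 * Y)))) =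
      22/25 * ∫ y in (-1:ℝ)..1, ψ (pt (35/32 * X) y (roof (35/32 * X) y)) := by
    intro X
    rw [intervalIntegral.integral_comp_mul_left
      (fun y => ψ (pt (35/32 * X) y (roof (35/32 * X) y))) (by norm_num)]
    norm_num
  simp only [h2]
  rw [intervalIntegral.integral_comp_mul_left
      (fun x => 22/25 * ∫ y in (-1:ℝ)..1, ψ (pt x y (roof x y))) (by norm_num)]
  rw [intervalIntegral.integral_const_mul, roofInt]
  norm_num
  ring

/-- The right inner face. -/
theorem faceP_eq (ψ : E3 → ℝ) (hψ : Continuous ψ) (θ : E3 → E3)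
    (hθ : ∀ X Y : ℝ, 0 ≤ X → X ≤ 32/25 → |Y| ≤ 22/25 →
      θ (pt X Y (3/5)) =
        sim true (pt (35/22 * Y) (25/16 * (X - 16/25)) (roof (35/22 * Y) (25/16 * (X - 16/25))))) :
    faceP (fun P => ψ (θ P)) = 22/35 * (16/25) * roofInt (ψ ∘ sim true) := by
  have h1 : faceP (fun P => ψ (θ P)) = ∫ X in (0:ℝ)..(32/25), ∫ Y in (-(22/25:ℝ))..(22/25),
      (ψ ∘ sim true) (pt (35/22 * Y) (25/16 * (X - 16/25))
        (roof (35/22 * Y) (25/16 * (X - 16/25)))) := by
    unfold faceP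
    refine intervalIntegral.integral_congr fun X hX => ?_
    refine intervalIntegral.integral_congr fun Y hY => ?_
    rw [uIcc_of_le (by norm_num)] at hX hY
    simp only [Function.comp_apply]
    rw [hθ X Y hX.1 hX.2 (abs_le.2 hY)]
  rw [h1]
  have h2 : ∀ X : ℝ, (∫ Y in (-(22/25:ℝ))..(22/25),
      (ψ ∘ sim true) (pt (35/22 * Y) (25/16 * (X - 16/25))
        (roof (35/22 * Y) (25/16 * (X - 16/25))))) =
      22/35 * ∫ x in (-(7/5:ℝ))..(7/5), (ψ ∘ sim true) (pt x (25/16 * (X - 16/25))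
        (roof x (25/16 * (X - 16/25)))) := by
    intro X
    rw [intervalIntegral.integral_comp_mul_left
      (fun x => (ψ ∘ sim true) (pt x (25/16 * (X - 16/25)) (roof x (25/16 * (X - 16/25)))))
      (by norm_num)]
    norm_num
  simp only [h2]
  have h3 : (∫ X in (0:ℝ)..(32/25), 22/35 * ∫ x in (-(7/5:ℝ))..(7/5),
      (ψ ∘ sim true) (pt x (25/16 * (X - 16/25)) (roof x (25/16 * (X - 16/25))))) =
      16/25 * ∫ y in (-1:ℝ)..1, 22/35 * ∫ x in (-(7/5:ℝ))..(7/5),
        (ψ ∘ sim true) (pt x y (roof x y)) := by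
    have e1 : ∀ X : ℝ, (25/16 * (X - 16/25) : ℝ) = 25/16 * X - 1 := fun X => by ring
    simp only [e1]
    rw [intervalIntegral.integral_comp_mul_sub
      (fun y => 22/35 * ∫ x in (-(7/5:ℝ))..(7/5), (ψ ∘ sim true) (pt x y (roof x y)))
      (by norm_num) 1]
    norm_num
  rw [h3, intervalIntegral.integral_const_mul]
  have hc : Continuous (Function.uncurry fun y x : ℝ => (ψ ∘ sim true) (pt x y (roof x y))) := by
    refine (hψ.comp ?_).comp (cf_continuous_pt continuous_snd continuous_fst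
      (continuous_roof.comp (continuous_snd.prodMk continuous_fst)))
    refine cf_continuous_pt ?_ ?_ ?_ <;> fun_prop
  rw [swap_interval _ hc (by norm_num) (by norm_num), roofInt]
  ring

/-- The left inner face. -/
theorem faceN_eq (ψ : E3 → ℝ) (hψ : Continuous ψ) (θ : E3 → E3)
    (hθ : ∀ X Y : ℝ, X ≤ 0 → -(32/25) ≤ X → |Y| ≤ 22/25 →
      θ (pt X Y (3/5)) =
        sim false (pt (35/22 * Y) (25/16 * (X + 16/25)) (roof (35/22 * Y) (25/16 * (X + 16/25))))) :
    faceN (fun P => ψ (θ P)) = 22/35 * (16/25) * roofInt (ψ ∘ sim false) := by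
  have h1 : faceN (fun P => ψ (θ P)) = ∫ X in (-(32/25:ℝ))..0, ∫ Y in (-(22/25:ℝ))..(22/25),
      (ψ ∘ sim false) (pt (35/22 * Y) (25/16 * (X + 16/25))
        (roof (35/22 * Y) (25/16 * (X + 16/25)))) := by
    unfold faceN
    refine intervalIntegral.integral_congr fun X hX => ?_
    refine intervalIntegral.integral_congr fun Y hY => ?_
    rw [uIcc_of_le (by norm_num)] at hX hY
    simp only [Function.comp_apply]
    rw [hθ X Y hX.2 hX.1 (abs_le.2 hY)]
  rw [h1]
  have h2 : ∀ X : ℝ, (∫ Y in (-(22/25:ℝ))..(22/25),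
      (ψ ∘ sim false) (pt (35/22 * Y) (25/16 * (X + 16/25))
        (roof (35/22 * Y) (25/16 * (X + 16/25))))) =
      22/35 * ∫ x in (-(7/5:ℝ))..(7/5), (ψ ∘ sim false) (pt x (25/16 * (X + 16/25))
        (roof x (25/16 * (X + 16/25)))) := by
    intro X
    rw [intervalIntegral.integral_comp_mul_left
      (fun x => (ψ ∘ sim false) (pt x (25/16 * (X + 16/25)) (roof x (25/16 * (X + 16/25)))))
      (by norm_num)]
    norm_num
  simp only [h2]
  have h3 : (∫ X in (-(32/25:ℝ))..0, 22/35 * ∫ x in (-(7/5:ℝ))..(7/5),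
      (ψ ∘ sim false) (pt x (25/16 * (X + 16/25)) (roof x (25/16 * (X + 16/25))))) =
      16/25 * ∫ y in (-1:ℝ)..1, 22/35 * ∫ x in (-(7/5:ℝ))..(7/5),
        (ψ ∘ sim false) (pt x y (roof x y)) := by
    have e1 : ∀ X : ℝ, (25/16 * (X + 16/25) : ℝ) = 25/16 * X + 1 := fun X => by ring
    simp only [e1]
    rw [intervalIntegral.integral_comp_mul_add
      (fun y => 22/35 * ∫ x in (-(7/5:ℝ))..(7/5), (ψ ∘ sim false) (pt x y (roof x y)))
      (by norm_num) 1]
    norm_num
  rw [h3, intervalIntegral.integral_const_mul]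
  have hc : Continuous (Function.uncurry fun y x : ℝ => (ψ ∘ sim false) (pt x y (roof x y))) := by
    refine (hψ.comp ?_).comp (cf_continuous_pt continuous_snd continuous_fst
      (continuous_roof.comp (continuous_snd.prodMk continuous_fst)))
    refine cf_continuous_pt ?_ ?_ ?_ <;> fun_prop
  rw [swap_interval _ hc (by norm_num) (by norm_num), roofInt]
  ring

end Crest.Agent.R083
end

-- ▼ part R083/ModFace
section

/-!
Row 83 (S0111), MOD: sums of the face integrals over the upper and the lower half.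
-/

set_option autoImplicit false

namespace Crest.Agent.R083

open MeasureTheory Set Filter
open scoped Gradient ENNReal NNReal Topology

theorem rfl2_sim (b : Bool) (p : E3) : rfl2 (sim b p) = sim b (rfl2 p) := by
  apply tg_ext <;> simp [sim]

theorem facesum_O (ψ : E3 → ℝ) (hψ : Continuous ψ) :
    faceO (fun X => ψ (theta Box.O X)) + faceO (fun X => ψ (rfl2 (theta Box.O X))) =
      Nf * pavg ψ := by
  rw [faceO_eq ψ (theta Box.O) theta_faceO,
    faceO_eq (fun p => ψ (rfl2 p)) (theta Box.O) theta_faceO, pavg_eq_roofInt ψ hψ, Nf]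
  ring

theorem facesum_P (ψ : E3 → ℝ) (hψ : Continuous ψ) :
    faceP (fun X => ψ (theta Box.P X)) + faceP (fun X => ψ (rfl2 (theta Box.P X))) =
      Nf / 2 * pavg (ψ ∘ sim true) := by
  have hc : Continuous (ψ ∘ sim true) := hψ.comp (sim_continuous true)
  have hr : Continuous fun p => ψ (rfl2 p) := hψ.comp rfl2_lip.continuous
  have e : (fun p => ψ (rfl2 p)) ∘ sim true = fun p => (ψ ∘ sim true) (rfl2 p) := by
    funext p; simp only [Function.comp_apply, rfl2_sim]
  rw [faceP_eq ψ hψ (theta Box.P) theta_faceP,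
    faceP_eq (fun p => ψ (rfl2 p)) hr (theta Box.P) theta_faceP, pavg_eq_roofInt _ hc, e, Nf]
  ring

theorem facesum_N (ψ : E3 → ℝ) (hψ : Continuous ψ) :
    faceN (fun X => ψ (theta Box.N X)) + faceN (fun X => ψ (rfl2 (theta Box.N X))) =
      Nf / 2 * pavg (ψ ∘ sim false) := by
  have hc : Continuous (ψ ∘ sim false) := hψ.comp (sim_continuous false)
  have hr : Continuous fun p => ψ (rfl2 p) := hψ.comp rfl2_lip.continuous
  have e : (fun p => ψ (rfl2 p)) ∘ sim false = fun p => (ψ ∘ sim false) (rfl2 p) := by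
    funext p; simp only [Function.comp_apply, rfl2_sim]
  rw [faceN_eq ψ hψ (theta Box.N) theta_faceN,
    faceN_eq (fun p => ψ (rfl2 p)) hr (theta Box.N) theta_faceN, pavg_eq_roofInt _ hc, e, Nf]
  ring

end Crest.Agent.R083
end

-- ▼ part R083/ModFinal
section

/-!
Row 83 (S0111), MOD-d: the structure `ModData` from the isotropised model.
-/

set_option autoImplicit false

namespace Crest.Agent.R083

open MeasureTheory Set Filter
open scoped Gradient ENNReal NNReal Topology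

theorem Nf_pos : 0 < Nf := by unfold Nf; norm_num

/-- test families -/
theorem chi_lip {ψ : E3 → ℝ} {K : ℝ≥0} (hψ : LipschitzWith K ψ) (b : Box) :
    ∃ K' : ℝ≥0, LipschitzWith K' (fun Q => ψ (theta b Q)) := by
  obtain ⟨K', hK'⟩ := theta_lip b
  exact ⟨K * K', hψ.comp hK'⟩

theorem chi_matching (ψ : E3 → ℝ) : Matching (fun b Q => ψ (theta b Q)) := by
  constructor
  · intro p hp h; simp only; rw [theta_OP p hp h]
  · intro p hp h; simp only; rw [theta_ON p hp h]

variable (O : ModelOut Mf)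

theorem EB_h {ψ : E3 → ℝ} {K : ℝ≥0} (hψ : LipschitzWith K ψ) :
    EB O.γ (fun b => ∇ (O.h b)) ψ Box.O + EB O.γ (fun b => ∇ (O.h b)) ψ Box.P +
      EB O.γ (fun b => ∇ (O.h b)) ψ Box.N =
    faceO (fun Q => ψ (theta Box.O Q)) - faceP (fun Q => ψ (theta Box.P Q)) -
      faceN (fun Q => ψ (theta Box.N Q)) :=
  O.hE (fun b Q => ψ (theta b Q)) (chi_lip hψ) (chi_matching ψ)

theorem EB_w {ψ : E3 → ℝ} {K : ℝ≥0} (hψ : LipschitzWith K ψ) :
    EB O.γ O.G ψ Box.O + EB O.γ O.G ψ Box.P + EB O.γ O.G ψ Box.N =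
    O.θ * (faceP (fun Q => ψ (theta Box.P Q)) - faceN (fun Q => ψ (theta Box.N Q))) :=
  O.wE (fun b Q => ψ (theta b Q)) (chi_lip hψ) (chi_matching ψ)

theorem γ_abs (b : Box) (x : E3) : |O.γ b x| ≤ O.C := by
  have h := O.γb b x
  rw [abs_of_pos (lt_of_lt_of_le O.hc h.1)]
  exact h.2

/-- the charge identity -/
theorem h_energy {ψ : E3 → ℝ} {K : ℝ≥0} (hψ : LipschitzWith K ψ) :
    ∫ x in modQ, pull O.γ x * inner ℝ (∇ (pull O.h) x) (∇ ψ x) =
      Nf * pavg ψ - Nf / 2 * pavg (ψ ∘ sim true) - Nf / 2 * pavg (ψ ∘ sim false) := by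
  rw [modQ_energy O.γ O.γm O.C (γ_abs O) O.h (h_matching O) O.hL ψ K hψ, EB_h O hψ,
    EB_h O (comp_rfl2_lip hψ)]
  have h1 := facesum_O ψ hψ.continuous
  have h2 := facesum_P ψ hψ.continuous
  have h3 := facesum_N ψ hψ.continuous
  linarith

/-- the neutral identity -/
theorem w_energy {G : E3 → E3} (hG : MemLp G 2 volume)
    (hGt : Tendsto (fun j => eLpNorm (fun x => ∇ (pull (O.wj j)) x - G x) 2 volume) atTop (𝓝 0))
    {ψ : E3 → ℝ} {K : ℝ≥0} (hψ : LipschitzWith K ψ) :
    ∫ x in modQ, pull O.γ x * inner ℝ (G x) (∇ ψ x) =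
      O.θ * (Nf / 2 * pavg (ψ ∘ sim true) - Nf / 2 * pavg (ψ ∘ sim false)) := by
  have hfin : IsFiniteMeasure (volume.restrict modQ) := ⟨by simpa using modQ_vol⟩
  have hγb : ∀ x, |pull O.γ x| ≤ O.C := by
    intro x
    obtain ⟨b, -, hb⟩ := pull_exists O.γ x
    rw [hb]; exact γ_abs O b _
  -- physical side
  have h1 : Tendsto (fun j => ∫ x in modQ, pull O.γ x * inner ℝ (∇ (pull (O.wj j)) x) (∇ ψ x))
      atTop (𝓝 (∫ x in modQ, pull O.γ x * inner ℝ (G x) (∇ ψ x))) := by
    have := tendsto_integral_L2 (μ := volume.restrict modQ)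
      (fun x => pull O.γ x • innerSL ℝ (∇ ψ x)) ?_ (O.C * K) ?_
      (fun j => ∇ (pull (O.wj j))) G ?_ (hG.restrict _) ?_
    · refine (this.congr fun j => ?_).trans (le_of_eq ?_)
      · refine integral_congr_ae (Eventually.of_forall fun X => ?_)
        simp only [smul_apply, innerSL_apply_apply, smul_eq_mul]
        rw [real_inner_comm]
      · congr 1
        refine integral_congr_ae (Eventually.of_forall fun X => ?_)
        simp only [smul_apply, innerSL_apply_apply, smul_eq_mul]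
        rw [real_inner_comm]
    · refine AEStronglyMeasurable.smul (pull_measurable O.γ O.γm).aestronglyMeasurable ?_
      exact (innerSL ℝ (E := E3)).continuous.comp_aestronglyMeasurable
        (tr_measurable_grad _).aestronglyMeasurable
    · refine Eventually.of_forall fun x => ?_
      rw [norm_smul, Real.norm_eq_abs, innerSL_apply_norm]
      exact mul_le_mul (hγb x) (tr_norm_grad_le hψ x) (norm_nonneg _)
        ((abs_nonneg _).trans (hγb x))
    · intro j
      obtain ⟨K', hK'⟩ := pull_lip _ (O.wjM j) (O.wjL j)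
      exact memLp_grad hK' modQ_vol
    · refine tendsto_of_tendsto_of_tendsto_of_le_of_le tendsto_const_nhds hGt
        (fun j => bot_le) (fun j => ?_)
      exact eLpNorm_mono_measure _ Measure.restrict_le_self
  -- model side
  have h2 : ∀ (χ : E3 → ℝ), LipschitzWith K χ → Tendsto (fun j =>
      EB O.γ (fun b => ∇ (O.wj j b)) χ Box.O + EB O.γ (fun b => ∇ (O.wj j b)) χ Box.P +
        EB O.γ (fun b => ∇ (O.wj j b)) χ Box.N) atTop
      (𝓝 (EB O.γ O.G χ Box.O + EB O.γ O.G χ Box.P + EB O.γ O.G χ Box.N)) := by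
    intro χ hχ
    have hV : ∀ (j : ℕ) (b : Box), MemLp (∇ (O.wj j b)) 2 (volume.restrict (bx b)) := by
      intro j b
      obtain ⟨K', hK'⟩ := O.wjL j b
      exact memLp_grad hK' (bx_vol b)
    have := fun b => EB_tendsto O.γ O.γm O.C (γ_abs O) (fun j b => ∇ (O.wj j b)) O.G hV O.Gi
      O.wjG χ K hχ b
    exact ((this _).add (this _)).add (this _)
  have h3 := (h2 ψ hψ).add (h2 _ (comp_rfl2_lip hψ))
  have h4 : (fun j => ∫ x in modQ, pull O.γ x * inner ℝ (∇ (pull (O.wj j)) x) (∇ ψ x)) =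
      fun j => (EB O.γ (fun b => ∇ (O.wj j b)) ψ Box.O + EB O.γ (fun b => ∇ (O.wj j b)) ψ Box.P +
        EB O.γ (fun b => ∇ (O.wj j b)) ψ Box.N) +
      (EB O.γ (fun b => ∇ (O.wj j b)) (fun x => ψ (rfl2 x)) Box.O +
        EB O.γ (fun b => ∇ (O.wj j b)) (fun x => ψ (rfl2 x)) Box.P +
        EB O.γ (fun b => ∇ (O.wj j b)) (fun x => ψ (rfl2 x)) Box.N) := by
    funext j
    exact modQ_energy O.γ O.γm O.C (γ_abs O) (O.wj j) (O.wjM j) (O.wjL j) ψ K hψ
  rw [h4] at h1
  rw [tendsto_nhds_unique h1 h3, EB_w O hψ, EB_w O (comp_rfl2_lip hψ)]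
  have e2 := facesum_P ψ hψ.continuous
  have e3 := facesum_N ψ hψ.continuous
  rw [← e2, ← e3]
  ring

/-- uniform convergence of the approximants -/
theorem wj_unif : ∀ ε : ℝ, 0 < ε → ∀ᶠ j in atTop, ∀ x, |pull (O.wj j) x - pull O.w x| ≤ ε := by
  intro ε hε
  obtain ⟨j0, hj⟩ := O.wju ε hε
  filter_upwards [eventually_ge_atTop j0] with j hj' x
  unfold pull
  split_ifs
  · exact hj j hj' _ _ (phi_mem _ _)
  · exact hj j hj' _ _ (phi_mem _ _)
  · exact hj j hj' _ _ (phi_mem _ _)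

/-- The physical module. -/
theorem module_of_model (O : ModelOut Mf) : Nonempty ModData := by
  obtain ⟨G, hG, hGt⟩ := exists_G O
  have hN := Nf_pos
  have hθ := O.hθ
  obtain ⟨Kh, hKh⟩ := pull_lip O.h (h_matching O) O.hL
  have hκ : 0 < (O.θ * Nf)⁻¹ := by positivity
  refine ⟨{
    c := O.c
    C := O.C
    d := Nf⁻¹ * (1 - 3/5)
    e := (O.θ * Nf)⁻¹ * O.e
    γ := pull O.γ
    F := fun x => Nf⁻¹ * (1 - pull O.h x)
    W := fun x => (O.θ * Nf)⁻¹ * pull O.w x
    G := fun x => (O.θ * Nf)⁻¹ • G x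
    Wj := fun j x => (O.θ * Nf)⁻¹ * pull (O.wj j) x
    hc := O.hc
    he := by have := O.he; positivity
    γm := pull_measurable O.γ O.γm
    γb := ?_
    FL := ?_
    F0 := ?_
    Fd := ?_
    FE := ?_
    WjL := ?_
    Wj0 := ?_
    Wje := ?_
    Wju := ?_
    Gmem := hG.const_smul ((O.θ * Nf)⁻¹ : ℝ)
    WjG := ?_
    WE := ?_ }⟩
  · intro x
    obtain ⟨b, -, hb⟩ := pull_exists O.γ x
    rw [hb]; exact O.γb b _
  · have h1 : LipschitzWith (0 + Kh) (fun x => 1 - pull O.h x) :=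
      (LipschitzWith.const (1 : ℝ)).sub hKh
    exact ⟨_, (lipschitzWith_smul (Nf⁻¹ : ℝ)).comp h1⟩
  · intro x hx
    rw [h_out O x (lev_of_not_cellB hx), sub_self, mul_zero]
  · intro b x hx
    rw [h_in O x (lev_of_child hx)]
  · intro ψ K hψ
    have h1 : ∀ x, ∇ (fun x => Nf⁻¹ * (1 - pull O.h x)) x = - (Nf⁻¹ • ∇ (pull O.h) x) := by
      intro x
      rw [grad_mul_const, grad_sub_const, smul_neg]
    have h2 : ∀ x, pull O.γ x * inner ℝ (∇ (fun x => Nf⁻¹ * (1 - pull O.h x)) x) (∇ ψ x) =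
        - Nf⁻¹ * (pull O.γ x * inner ℝ (∇ (pull O.h) x) (∇ ψ x)) := by
      intro x
      rw [h1, inner_neg_left, real_inner_smul_left]
      ring
    simp only [h2]
    rw [integral_const_mul, h_energy O hψ]
    field_simp
    ring
  · intro j
    obtain ⟨K, hK⟩ := pull_lip _ (O.wjM j) (O.wjL j)
    exact ⟨_, (lipschitzWith_smul ((O.θ * Nf)⁻¹ : ℝ)).comp hK⟩
  · intro j x hx
    rw [wj_out O j x (lev_of_not_cellB hx), mul_zero]
  · intro j b x hx
    rw [wj_child O j b x hx]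
    ring
  · rw [Metric.tendstoUniformly_iff]
    intro ε hε
    have h1 : 0 < ε * (O.θ * Nf) / 2 := by positivity
    filter_upwards [wj_unif O _ h1] with j hj x
    rw [dist_comm, Real.dist_eq, ← mul_sub, abs_mul, abs_of_pos hκ]
    calc (O.θ * Nf)⁻¹ * |pull (O.wj j) x - pull O.w x|
        ≤ (O.θ * Nf)⁻¹ * (ε * (O.θ * Nf) / 2) := by gcongr; exact hj x
      _ = ε / 2 := by field_simp
      _ < ε := by linarith
  · have h1 : ∀ j, eLpNorm (fun x => ∇ (fun x => (O.θ * Nf)⁻¹ * pull (O.wj j) x) x -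
        (O.θ * Nf)⁻¹ • G x) 2 volume =
        ‖(O.θ * Nf)⁻¹‖ₑ * eLpNorm (fun x => ∇ (pull (O.wj j)) x - G x) 2 volume := by
      intro j
      rw [← eLpNorm_const_smul]
      congr 1
      funext x
      rw [grad_mul_const, Pi.smul_apply, smul_sub]
    simp only [h1]
    have := ENNReal.Tendsto.const_mul (a := ‖(O.θ * Nf)⁻¹‖ₑ) hGt (Or.inr enorm_ne_top)
    simpa using this
  · intro ψ K hψ
    have h2 : ∀ x, pull O.γ x * inner ℝ ((O.θ * Nf)⁻¹ • G x) (∇ ψ x) =
        (O.θ * Nf)⁻¹ * (pull O.γ x * inner ℝ (G x) (∇ ψ x)) := by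
      intro x
      rw [real_inner_smul_left]
      ring
    simp only [h2]
    rw [integral_const_mul, w_energy O hG hGt hψ]
    field_simp

end Crest.Agent.R083
end

-- ▼ part R083/ModExists

/-!
Row 83 (S0111), MOD: `module_exists`, with the results of the ISO and TM groups as hypotheses.
-/

set_option autoImplicit false

namespace Crest.Agent.R083

open MeasureTheory Set Filter
open scoped Gradient ENNReal NNReal Topology

theorem module_exists_of (hlip : LipStmt) (hwdf : WdfStmt) (htensor : TensorStmt)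
    (hiso : ∀ δ μ : ℝ, 0 < δ → 0 < μ → ∃ (c C : ℝ) (L : ℝ≥0), 0 < c ∧ IsoStmt δ μ c C L) :
    Nonempty ModData := by
  obtain ⟨μ, hμ, h⟩ := chart_metric
  obtain ⟨O⟩ := model_out_of hlip hwdf htensor hiso μ hμ Mf h
  exact module_of_model O

end Crest.Agent.R083
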