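import Crest.Agent.R083.TMDefs
import Crest.Agent.R083.BoxFubini
import Mathlib

-- ▼ part R083/TMBox
section

/-!
Row 83 (S0111), TM group: transport of a solution on the normalised box to a model box by a
diagonal affine map.
-/

set_option autoImplicit false

namespace Crest.Agent.R083

open MeasureTheory Set Filter
open scoped Gradient ENNReal NNReal Topology ContDiff

theorem tm_grad_coord (f : E3 → ℝ) (x : E3) (i : Fin 3) : (∇ f x) i = fderiv ℝ f x (ee i) := by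
  rw [← inner_gradient f x (ee i), ee, EuclideanSpace.inner_single_left]
  simp

/-- Diagonal linear map. -/
noncomputable def tdg (l : Fin 3 → ℝ) : E3 →L[ℝ] E3 := LinearMap.toContinuousLinearMap
  { toFun := fun v => pt (l 0 * v 0) (l 1 * v 1) (l 2 * v 2)
    map_add' := fun u v => by
      ext i; fin_cases i <;> simp [pt] <;> ring
    map_smul' := fun t v => by
      ext i; fin_cases i <;> simp [pt] <;> ring }

theorem tdg_apply (l : Fin 3 → ℝ) (v : E3) : tdg l v = pt (l 0 * v 0) (l 1 * v 1) (l 2 * v 2) := rfl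

theorem tdg_ee (l : Fin 3 → ℝ) (i : Fin 3) : tdg l (ee i) = l i • ee i := by
  ext j
  fin_cases i <;> fin_cases j <;> simp [tdg_apply, pt, ee]

theorem tdg_coord (l : Fin 3 → ℝ) (v : E3) (i : Fin 3) : (tdg l v) i = l i * v i := by
  fin_cases i <;> simp [tdg_apply, pt]

/-- Diagonal affine map. -/
noncomputable def afm (l c : Fin 3 → ℝ) (p : E3) : E3 :=
  tdg l p + pt (c 0) (c 1) (c 2)

@[simp] theorem afm_zero (l c : Fin 3 → ℝ) (p : E3) : afm l c p 0 = l 0 * p 0 + c 0 := by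
  simp [afm, tdg_apply, pt]
@[simp] theorem afm_one (l c : Fin 3 → ℝ) (p : E3) : afm l c p 1 = l 1 * p 1 + c 1 := by
  simp [afm, tdg_apply, pt]
@[simp] theorem afm_two (l c : Fin 3 → ℝ) (p : E3) : afm l c p 2 = l 2 * p 2 + c 2 := by
  simp [afm, tdg_apply, pt]

theorem hasFDerivAt_afm (l c : Fin 3 → ℝ) (p : E3) : HasFDerivAt (afm l c) (tdg l) p :=
  (tdg l).hasFDerivAt.add_const _

theorem contDiff_afm (l c : Fin 3 → ℝ) : ContDiff ℝ ∞ (afm l c) :=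
  (tdg l).contDiff.add contDiff_const

/-- Transported potential with an affine part. -/
noncomputable def bw (s α β : ℝ) (l c : Fin 3 → ℝ) (W : E3 → ℝ) (p : E3) : ℝ :=
  s * (α + β * (afm l c p 2) + W (afm l c p))

/-- Transported flux. -/
noncomputable def bJ (s β : ℝ) (l c : Fin 3 → ℝ) (Jn : E3 → E3) (p : E3) : E3 :=
  pt (s * (l 2 ^ 2 / l 0 * Jn (afm l c p) 0)) (s * (l 2 ^ 2 / l 1 * Jn (afm l c p) 1))
    (s * (l 2 * (β + Jn (afm l c p) 2)))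

/-- The scaled dual diagonal. -/
noncomputable def ddg (l : Fin 3 → ℝ) : Fin 3 → ℝ := ![l 2 ^ 2 / l 0, l 2 ^ 2 / l 1, l 2]

theorem bJ_eq (s β : ℝ) (l c : Fin 3 → ℝ) (Jn : E3 → E3) (p : E3) :
    bJ s β l c Jn p = s • (tdg (ddg l) (Jn (afm l c p)) + pt 0 0 (l 2 * β)) := by
  ext i
  fin_cases i <;> simp [bJ, tdg_apply, pt, ddg] <;> ring

theorem hasFDerivAt_bw (s α β : ℝ) (l c : Fin 3 → ℝ) (W : E3 → ℝ) (p : E3)
    (hW : DifferentiableAt ℝ W (afm l c p)) :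
    HasFDerivAt (bw s α β l c W)
      (s • (β • ((EuclideanSpace.proj (2 : Fin 3) : E3 →L[ℝ] ℝ).comp (tdg l)) +
        (fderiv ℝ W (afm l c p)).comp (tdg l))) p := by
  have h1 : HasFDerivAt (fun p => (afm l c p) 2)
      ((EuclideanSpace.proj (2 : Fin 3) : E3 →L[ℝ] ℝ).comp (tdg l)) p :=
    ((EuclideanSpace.proj (2 : Fin 3) : E3 →L[ℝ] ℝ).hasFDerivAt).comp p (hasFDerivAt_afm l c p)
  have h2 : HasFDerivAt (fun p => W (afm l c p)) ((fderiv ℝ W (afm l c p)).comp (tdg l)) p :=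
    hW.hasFDerivAt.comp p (hasFDerivAt_afm l c p)
  have h3 := (((h1.const_mul β).const_add α).add h2).const_mul s
  exact h3

theorem fderiv_bw (s α β : ℝ) (l c : Fin 3 → ℝ) (W : E3 → ℝ) (p : E3)
    (hW : DifferentiableAt ℝ W (afm l c p)) (i : Fin 3) :
    fderiv ℝ (bw s α β l c W) p (ee i) =
      s * (l i * ((if i = 2 then β else 0) + fderiv ℝ W (afm l c p) (ee i))) := by
  rw [(hasFDerivAt_bw s α β l c W p hW).fderiv]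
  have h2 : (l i • ee i : E3) 2 = if i = 2 then l i else 0 := by
    fin_cases i <;> simp [ee]
  simp only [smul_apply, add_apply,
    ContinuousLinearMap.comp_apply, tdg_ee, map_smul, smul_eq_mul]
  have h3 : (EuclideanSpace.proj (2 : Fin 3) : E3 →L[ℝ] ℝ) (ee i) = if i = 2 then 1 else 0 := by
    fin_cases i <;> simp [ee]
  rw [h3]
  split_ifs <;> ring

theorem dvg_bJ (s β : ℝ) (l c : Fin 3 → ℝ) (Jn : E3 → E3) (p : E3) (hl0 : l 0 ≠ 0) (hl1 : l 1 ≠ 0)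
    (hJ : DifferentiableAt ℝ Jn (afm l c p)) :
    dvg (bJ s β l c Jn) p = s * l 2 ^ 2 * dvg Jn (afm l c p) := by
  have h1 : HasFDerivAt (bJ s β l c Jn)
      (s • ((tdg (ddg l)).comp ((fderiv ℝ Jn (afm l c p)).comp (tdg l)))) p := by
    have h2 : bJ s β l c Jn = fun p => s • (tdg (ddg l) (Jn (afm l c p)) + pt 0 0 (l 2 * β)) := by
      funext p; exact bJ_eq s β l c Jn p
    rw [h2]
    have h3 : HasFDerivAt (fun p => Jn (afm l c p)) ((fderiv ℝ Jn (afm l c p)).comp (tdg l)) p :=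
      hJ.hasFDerivAt.comp p (hasFDerivAt_afm l c p)
    exact (((tdg (ddg l)).hasFDerivAt.comp p h3).add_const _).const_smul s
  unfold dvg
  rw [h1.fderiv]
  simp only [smul_apply, ContinuousLinearMap.comp_apply, tdg_ee, map_smul,
    PiLp.smul_apply, tdg_coord, smul_eq_mul, Fin.sum_univ_three]
  have d0 : ddg l 0 = l 2 ^ 2 / l 0 := rfl
  have d1 : ddg l 1 = l 2 ^ 2 / l 1 := rfl
  have d2 : ddg l 2 = l 2 := rfl
  rw [d0, d1, d2]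
  field_simp

theorem HEll_scale (δ lx ly lz s : ℝ) (hδ : 0 < δ) (hlx : lx ≠ 0) (hly : ly ≠ 0) (hlz : lz ≠ 0)
    (hs : s ^ 2 = 1) :
    ∃ δ' : ℝ, 0 < δ' ∧ ∀ a b u v : ℝ, δ * (a ^ 2 + b ^ 2 + u ^ 2 + v ^ 2) ≤ u * a + v * b →
      δ' * ((s * (lx * a)) ^ 2 + (s * (ly * b)) ^ 2 + (s * (lz ^ 2 / lx * u)) ^ 2 +
        (s * (lz ^ 2 / ly * v)) ^ 2) ≤
      (s * (lz ^ 2 / lx * u)) * (s * (lx * a)) + (s * (lz ^ 2 / ly * v)) * (s * (ly * b)) := by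
  have hx : 0 < lx ^ 2 := by positivity
  have hy : 0 < ly ^ 2 := by positivity
  have hz : 0 < lz ^ 2 := by positivity
  set Q : ℝ := lx ^ 2 + ly ^ 2 + (lz ^ 2 / lx) ^ 2 + (lz ^ 2 / ly) ^ 2 with hQ
  have hQx : 0 < (lz ^ 2 / lx) ^ 2 := by positivity
  have hQy : 0 < (lz ^ 2 / ly) ^ 2 := by positivity
  have hQ0 : 0 < Q := by positivity
  refine ⟨δ * lz ^ 2 / Q, by positivity, fun a b u v h => ?_⟩
  have e1 : (s * (lz ^ 2 / lx * u)) * (s * (lx * a)) + (s * (lz ^ 2 / ly * v)) * (s * (ly * b)) =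
      lz ^ 2 * (u * a + v * b) := by
    field_simp
    rw [hs]; ring
  rw [e1]
  have e2 : (s * (lx * a)) ^ 2 + (s * (ly * b)) ^ 2 + (s * (lz ^ 2 / lx * u)) ^ 2 +
        (s * (lz ^ 2 / ly * v)) ^ 2 ≤ Q * (a ^ 2 + b ^ 2 + u ^ 2 + v ^ 2) := by
    have : (s * (lx * a)) ^ 2 + (s * (ly * b)) ^ 2 + (s * (lz ^ 2 / lx * u)) ^ 2 +
        (s * (lz ^ 2 / ly * v)) ^ 2 = lx ^ 2 * a ^ 2 + ly ^ 2 * b ^ 2 +
        (lz ^ 2 / lx) ^ 2 * u ^ 2 + (lz ^ 2 / ly) ^ 2 * v ^ 2 := by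
      simp only [mul_pow, hs, one_mul]
    rw [this]
    have ha := sq_nonneg a
    have hb := sq_nonneg b
    have hu := sq_nonneg u
    have hv := sq_nonneg v
    have t1 : lx ^ 2 * a ^ 2 ≤ Q * a ^ 2 := mul_le_mul_of_nonneg_right (by rw [hQ]; linarith) ha
    have t2 : ly ^ 2 * b ^ 2 ≤ Q * b ^ 2 := mul_le_mul_of_nonneg_right (by rw [hQ]; linarith) hb
    have t3 : (lz ^ 2 / lx) ^ 2 * u ^ 2 ≤ Q * u ^ 2 :=
      mul_le_mul_of_nonneg_right (by rw [hQ]; linarith) hu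
    have t4 : (lz ^ 2 / ly) ^ 2 * v ^ 2 ≤ Q * v ^ 2 :=
      mul_le_mul_of_nonneg_right (by rw [hQ]; linarith) hv
    linarith
  calc δ * lz ^ 2 / Q * ((s * (lx * a)) ^ 2 + (s * (ly * b)) ^ 2 + (s * (lz ^ 2 / lx * u)) ^ 2 +
        (s * (lz ^ 2 / ly * v)) ^ 2)
      ≤ δ * lz ^ 2 / Q * (Q * (a ^ 2 + b ^ 2 + u ^ 2 + v ^ 2)) :=
        mul_le_mul_of_nonneg_left e2 (by positivity)
    _ = lz ^ 2 * (δ * (a ^ 2 + b ^ 2 + u ^ 2 + v ^ 2)) := by field_simp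
    _ ≤ lz ^ 2 * (u * a + v * b) := mul_le_mul_of_nonneg_left h hz.le

end Crest.Agent.R083
end

-- ▼ part R083/TMEst
section

/-!
Row 83 (S0111), TM group: real inequalities.
-/

set_option autoImplicit false

namespace Crest.Agent.R083

theorem tm_est_start (Λ lam C m K tt D A0 A1 A2 B0 B1 ux us β wv : ℝ)
    (hΛ : 0 ≤ Λ) (h0 : A0 ≤ Λ) (h2 : A2 ≤ Λ) (h3 : B0 ≤ Λ) (hm : 0 < m) (hD1 : m * tt ≤ D)
    (hD2 : D ≤ K * tt) (ht : 0 ≤ tt) (hC : 0 ≤ C) (hC1 : wv ^ 2 ≤ C * D)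
    (hC2 : (ux ^ 2 + (β + us) ^ 2) * D ≤ C) :
    (A0 * ux ^ 2 + A1 * 0 ^ 2 + A2 * (β + us) ^ 2) * tt ≤ Λ * (1 + lam ^ 2) * (C / m) ∧
    wv ^ 2 ≤ (C * K) * tt ∧
    (B0 * (lam * ux) ^ 2 + B1 * 0 ^ 2 + A2 * (β + us) ^ 2) * tt ≤
      Λ * (1 + lam ^ 2) * (C / m) := by
  have hq : 0 ≤ ux ^ 2 + (β + us) ^ 2 := by positivity
  have hl : 0 ≤ lam ^ 2 := sq_nonneg _
  have ha : 0 ≤ ux ^ 2 := sq_nonneg _
  have hb : 0 ≤ (β + us) ^ 2 := sq_nonneg _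
  rw [mul_pow lam ux 2]
  generalize ux ^ 2 = a at *
  generalize (β + us) ^ 2 = b at *
  generalize lam ^ 2 = L at *
  have key : (a + b) * tt ≤ C / m := by
    rw [le_div_iff₀ hm]
    calc (a + b) * tt * m = (a + b) * (m * tt) := by ring
      _ ≤ (a + b) * D := mul_le_mul_of_nonneg_left hD1 hq
      _ ≤ C := hC2
  have key2 : Λ * (1 + L) * (a + b) * tt ≤ Λ * (1 + L) * (C / m) := by
    calc Λ * (1 + L) * (a + b) * tt = Λ * (1 + L) * ((a + b) * tt) := by ring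
      _ ≤ _ := mul_le_mul_of_nonneg_left key (by positivity)
  have e2 : A2 * b ≤ Λ * b := mul_le_mul_of_nonneg_right h2 hb
  refine ⟨le_trans ?_ key2, ?_, le_trans ?_ key2⟩
  · apply mul_le_mul_of_nonneg_right _ ht
    have e1 : A0 * a ≤ Λ * a := mul_le_mul_of_nonneg_right h0 ha
    have e3 : 0 ≤ Λ * L * (a + b) := by positivity
    calc A0 * a + A1 * 0 ^ 2 + A2 * b = A0 * a + A2 * b := by ring
      _ ≤ Λ * a + Λ * b := add_le_add e1 e2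
      _ ≤ Λ * a + Λ * b + Λ * L * (a + b) := by linarith
      _ = Λ * (1 + L) * (a + b) := by ring
  · calc wv ^ 2 ≤ C * D := hC1
      _ ≤ C * (K * tt) := mul_le_mul_of_nonneg_left hD2 hC
      _ = (C * K) * tt := by ring
  · apply mul_le_mul_of_nonneg_right _ ht
    have e1 : B0 * (L * a) ≤ Λ * (L * a) := mul_le_mul_of_nonneg_right h3 (by positivity)
    have e3 : 0 ≤ Λ * a := by positivity
    have e4 : 0 ≤ Λ * L * b := by positivity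
    calc B0 * (L * a) + B1 * 0 ^ 2 + A2 * b = B0 * (L * a) + A2 * b := by ring
      _ ≤ Λ * (L * a) + Λ * b := add_le_add e1 e2
      _ ≤ Λ * (L * a) + Λ * b + (Λ * a + Λ * L * b) := by linarith
      _ = Λ * (1 + L) * (a + b) := by ring

theorem tm_est_far (Λ β N A0 A1 A2 a b d : ℝ) (hΛ : 0 ≤ Λ) (h0 : A0 ≤ Λ) (h1 : A1 ≤ Λ)
    (h2 : A2 ≤ Λ) (hN : a ^ 2 + b ^ 2 + d ^ 2 ≤ N ^ 2) :
    A0 * a ^ 2 + A1 * b ^ 2 + A2 * (β + d) ^ 2 ≤ Λ * (2 * (β ^ 2 + N ^ 2)) := by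
  have e0 := mul_le_mul_of_nonneg_right h0 (sq_nonneg a)
  have e1 := mul_le_mul_of_nonneg_right h1 (sq_nonneg b)
  have e2 := mul_le_mul_of_nonneg_right h2 (sq_nonneg (β + d))
  have e3 : (β + d) ^ 2 ≤ 2 * β ^ 2 + 2 * d ^ 2 := by nlinarith [sq_nonneg (β - d)]
  have e4 := mul_le_mul_of_nonneg_left e3 hΛ
  have e5 : a ^ 2 + b ^ 2 + (2 * β ^ 2 + 2 * d ^ 2) ≤ 2 * (β ^ 2 + N ^ 2) := by
    nlinarith [sq_nonneg a, sq_nonneg b]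
  have e6 := mul_le_mul_of_nonneg_left e5 hΛ
  linarith

/-- Sum of the squares of the scaling factors. -/
theorem tm_sum_le (a b c d e : ℝ) :
    a ^ 2 ≤ a ^ 2 + b ^ 2 + c ^ 2 + d ^ 2 + e ^ 2 ∧ b ^ 2 ≤ a ^ 2 + b ^ 2 + c ^ 2 + d ^ 2 + e ^ 2 ∧
    c ^ 2 ≤ a ^ 2 + b ^ 2 + c ^ 2 + d ^ 2 + e ^ 2 ∧ d ^ 2 ≤ a ^ 2 + b ^ 2 + c ^ 2 + d ^ 2 + e ^ 2 ∧
    e ^ 2 ≤ a ^ 2 + b ^ 2 + c ^ 2 + d ^ 2 + e ^ 2 := by
  have ha := sq_nonneg a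
  have hb := sq_nonneg b
  have hc := sq_nonneg c
  have hd := sq_nonneg d
  have he := sq_nonneg e
  refine ⟨by linarith, by linarith, by linarith, by linarith, by linarith⟩

theorem tm_far_low (l2 p2 q2 tt : ℝ) (h : q2 = l2 * (p2 - 7 / 10)) (hq : 1 / 4 ≤ q2)
    (ht : |p2 - 7 / 10| ≤ tt) : 1 ≤ 4 * |l2| * tt := by
  have h3 : q2 ≤ |l2| * |p2 - 7 / 10| := by
    rw [h, ← abs_mul]; exact le_abs_self _
  have h4 := mul_le_mul_of_nonneg_left ht (abs_nonneg l2)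
  linarith

theorem tm_far_val (α β N q2 Wq l2 tt : ℝ) (h0 : 0 ≤ q2) (h1 : q2 ≤ 1) (hW : |Wq| ≤ |N|)
    (ht : 1 ≤ 4 * |l2| * tt) :
    (α + β * q2 + Wq) ^ 2 ≤ ((|α| + |β| + |N|) ^ 2 * (4 * |l2|)) * tt := by
  have e1 : |β * q2| ≤ |β| := by
    rw [abs_mul, abs_of_nonneg h0]
    exact mul_le_of_le_one_right (abs_nonneg _) h1
  have e2 : |α + β * q2 + Wq| ≤ |α| + |β| + |N| := by
    calc |α + β * q2 + Wq| ≤ |α + β * q2| + |Wq| := abs_add_le _ _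
      _ ≤ |α| + |β * q2| + |Wq| := by linarith [abs_add_le α (β * q2)]
      _ ≤ _ := by linarith
  have h2 : (α + β * q2 + Wq) ^ 2 ≤ (|α| + |β| + |N|) ^ 2 := by
    rw [← sq_abs (α + β * q2 + Wq)]; exact pow_le_pow_left₀ (abs_nonneg _) e2 2
  calc (α + β * q2 + Wq) ^ 2 ≤ (|α| + |β| + |N|) ^ 2 := h2
    _ ≤ (|α| + |β| + |N|) ^ 2 * (4 * |l2| * tt) := le_mul_of_one_le_right (by positivity) ht
    _ = ((|α| + |β| + |N|) ^ 2 * (4 * |l2|)) * tt := by ring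

theorem tm_dist_le (x0 a b : ℝ) (ha : 0 ≤ a) (ha1 : a ≤ 1) (hb : 0 ≤ b) (hb1 : b ≤ 1) :
    √(a ^ 2 + (b - x0) ^ 2) ≤ 1 + (1 + |x0|) := by
  apply Real.sqrt_le_left (by positivity) |>.2
  have h3 : |b - x0| ≤ 1 + |x0| := by
    have h4 : |b| ≤ 1 := abs_le.2 ⟨by linarith, hb1⟩
    calc |b - x0| ≤ |b| + |x0| := abs_sub _ _
      _ ≤ 1 + |x0| := by linarith
  have h4 : (b - x0) ^ 2 ≤ (1 + |x0|) ^ 2 := by
    rw [← sq_abs (b - x0)]; exact pow_le_pow_left₀ (abs_nonneg _) h3 2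
  have h5 : a ^ 2 ≤ 1 := by nlinarith
  nlinarith [abs_nonneg x0]

end Crest.Agent.R083
end

-- ▼ part R083/TMNorm

/-!
Row 83 (S0111), TM group: from a normalised solution (output of the front lemma) to a solution on a
model box, with all pointwise estimates.
-/

set_option autoImplicit false

namespace Crest.Agent.R083

open MeasureTheory Set Filter
open scoped Gradient ENNReal NNReal Topology ContDiff

/-- Output of the front lemma. -/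
structure NSol (lam : ℝ) (U : ℝ × ℝ → ℝ) (δ N : ℝ) (w : E3 → ℝ) (J : E3 → E3) : Prop where
  δpos : 0 < δ
  smW : ContDiffOn ℝ ∞ w {p | 0 < p 2 ∧ p 2 < 1}
  smJ : ContDiffOn ℝ ∞ J {p | 0 < p 2 ∧ p 2 < 1}
  eqs : ∀ p : E3, 0 < p 2 → p 2 < 1 → fderiv ℝ w p (ee 2) = J p 2 ∧ dvg J p = 0
  start : ∀ p : E3, 0 < p 2 → p 2 ≤ 1 / 4 → w p = U (p 2, p 0) ∧
    J p = pt (lam * fderiv ℝ U (p 2, p 0) (0, 1)) 0 (fderiv ℝ U (p 2, p 0) (1, 0))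
  ell : ∀ p : E3, 0 ≤ p 0 → p 0 ≤ 1 → 0 ≤ p 1 → p 1 ≤ 1 → 0 < p 2 → p 2 < 1 →
    δ * ((∇ w p) 0 ^ 2 + (∇ w p) 1 ^ 2 + J p 0 ^ 2 + J p 1 ^ 2) ≤
      J p 0 * (∇ w p) 0 + J p 1 * (∇ w p) 1
  zer : ∀ p : E3, 0 ≤ p 0 → p 0 ≤ 1 → 0 ≤ p 1 → p 1 ≤ 1 → 0 < p 2 → p 2 < 1 →
    (∇ w p) 0 = 0 → (∇ w p) 1 = 0 →
      ∃ k : ℕ, Real.sin (Real.pi * 8 ^ k * p 0) = 0 ∨ Real.sin (Real.pi * 8 ^ k * p 1) = 0
  wall0 : ∀ p : E3, 0 < p 2 → p 2 < 1 → (p 0 = 0 ∨ p 0 = 1) → J p 0 = 0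
  wall1 : ∀ p : E3, 0 < p 2 → p 2 < 1 → (p 1 = 0 ∨ p 1 = 1) → J p 1 = 0
  bdd : ∀ p : E3, 0 ≤ p 0 → p 0 ≤ 1 → 0 ≤ p 1 → p 1 ≤ 1 → 1 / 4 ≤ p 2 → p 2 < 1 →
    ‖∇ w p‖ ≤ N ∧ ‖J p‖ ≤ N ∧ |w p| ≤ N * (1 - p 2)
  out : ∀ p : E3, 1 ≤ p 2 → w p = 0 ∧ J p = 0
  dies : ∀ ε : ℝ, 0 < ε → ∃ s : ℝ, s < 1 ∧ ∀ p : E3, s ≤ p 2 → |J p 2| ≤ ε

/-- A solution on a model box. -/
structure BoxSol (a₀ b₀ a₁ b₁ a₂ b₂ : ℝ) (δ N0 : ℝ) (w : E3 → ℝ) (J : E3 → E3) : Prop where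
  δpos : 0 < δ
  smw : ContDiffOn ℝ ∞ w {p | a₂ < p 2 ∧ p 2 < b₂}
  smJ : ContDiffOn ℝ ∞ J {p | a₂ < p 2 ∧ p 2 < b₂}
  eqs : ∀ p : E3, a₂ < p 2 → p 2 < b₂ → fderiv ℝ w p (ee 2) = J p 2 ∧ dvg J p = 0
  ell : ∀ p : E3, p 0 ∈ Icc a₀ b₀ → p 1 ∈ Icc a₁ b₁ → a₂ < p 2 → p 2 < b₂ →
    δ * ((∇ w p) 0 ^ 2 + (∇ w p) 1 ^ 2 + J p 0 ^ 2 + J p 1 ^ 2) ≤
      J p 0 * (∇ w p) 0 + J p 1 * (∇ w p) 1
  zer : ∃ l c l' c' : ℝ, l ≠ 0 ∧ l' ≠ 0 ∧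
    ∀ p : E3, p 0 ∈ Icc a₀ b₀ → p 1 ∈ Icc a₁ b₁ → a₂ < p 2 → p 2 < b₂ →
    (∇ w p) 0 = 0 → (∇ w p) 1 = 0 →
      ∃ k : ℕ, Real.sin (Real.pi * 8 ^ k * (l * p 0 + c)) = 0 ∨
        Real.sin (Real.pi * 8 ^ k * (l' * p 1 + c')) = 0
  wall0 : ∀ p : E3, a₂ < p 2 → p 2 < b₂ → (p 0 = a₀ ∨ p 0 = b₀) → J p 0 = 0
  wall1 : ∀ p : E3, a₂ < p 2 → p 2 < b₂ → (p 1 = a₁ ∨ p 1 = b₁) → J p 1 = 0
  est : ∀ p : E3, p 0 ∈ Icc a₀ b₀ → p 1 ∈ Icc a₁ b₁ → a₂ < p 2 → p 2 < b₂ →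
    ‖∇ w p‖ ^ 2 * √(tip2 p) ≤ N0 ∧ (w p) ^ 2 ≤ N0 * √(tip2 p) ∧ ‖J p‖ ^ 2 * √(tip2 p) ≤ N0

theorem tm_norm_sq (v : E3) : ‖v‖ ^ 2 = v 0 ^ 2 + v 1 ^ 2 + v 2 ^ 2 := by
  rw [EuclideanSpace.norm_sq_eq, Fin.sum_univ_three]
  simp

theorem tm_fderiv_start {W : E3 → ℝ} {U : ℝ × ℝ → ℝ} (hU : ContDiffOn ℝ ∞ U {q | 0 < q.1})
    (hst : ∀ p : E3, 0 < p 2 → p 2 ≤ 1 / 4 → W p = U (p 2, p 0)) (q : E3) (h0 : 0 < q 2)
    (h1 : q 2 < 1 / 4) (v : E3) :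
    fderiv ℝ W q v = fderiv ℝ U (q 2, q 0) (v 2, v 0) := by
  have hc : Continuous fun p : E3 => p 2 := (EuclideanSpace.proj (2 : Fin 3)).continuous
  have hopen : IsOpen {p : E3 | 0 < p 2 ∧ p 2 < 1 / 4} :=
    (isOpen_lt continuous_const hc).inter (isOpen_lt hc continuous_const)
  have hev : W =ᶠ[𝓝 q] fun p => U (p 2, p 0) := by
    filter_upwards [hopen.mem_nhds ⟨h0, h1⟩] with p hp
    exact hst p hp.1 hp.2.le
  rw [hev.fderiv_eq]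
  set P : E3 →L[ℝ] ℝ × ℝ := (EuclideanSpace.proj (2 : Fin 3) : E3 →L[ℝ] ℝ).prod
    (EuclideanSpace.proj (0 : Fin 3)) with hP
  have hopenU : IsOpen {q : ℝ × ℝ | 0 < q.1} := isOpen_lt continuous_const continuous_fst
  have hd : DifferentiableAt ℝ U (P q) :=
    (hU.contDiffAt (hopenU.mem_nhds h0)).differentiableAt (by simp)
  have := (hd.hasFDerivAt.comp q P.hasFDerivAt).fderiv
  have h2 : fderiv ℝ (fun p : E3 => U (p 2, p 0)) q = (fderiv ℝ U (P q)).comp P := this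
  rw [h2]
  rfl

theorem tm_isOpen_slab (a b : ℝ) : IsOpen {p : E3 | a < p 2 ∧ p 2 < b} := by
  have hc : Continuous fun p : E3 => p 2 := (EuclideanSpace.proj (2 : Fin 3)).continuous
  exact (isOpen_lt continuous_const hc).inter (isOpen_lt hc continuous_const)

theorem NSol.dW {lam : ℝ} {U : ℝ × ℝ → ℝ} {δ N : ℝ} {W : E3 → ℝ} {Jn : E3 → E3}
    (h : NSol lam U δ N W Jn) (q : E3) (h0 : 0 < q 2) (h1 : q 2 < 1) : DifferentiableAt ℝ W q :=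
  ((h.smW.contDiffAt ((tm_isOpen_slab 0 1).mem_nhds ⟨h0, h1⟩)).differentiableAt (by simp))

theorem NSol.dJ {lam : ℝ} {U : ℝ × ℝ → ℝ} {δ N : ℝ} {W : E3 → ℝ} {Jn : E3 → E3}
    (h : NSol lam U δ N W Jn) (q : E3) (h0 : 0 < q 2) (h1 : q 2 < 1) : DifferentiableAt ℝ Jn q :=
  ((h.smJ.contDiffAt ((tm_isOpen_slab 0 1).mem_nhds ⟨h0, h1⟩)).differentiableAt (by simp))

/-- Sum of the squares of the scaling factors. -/
noncomputable def lsum (l : Fin 3 → ℝ) : ℝ :=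
  (l 0) ^ 2 + (l 1) ^ 2 + (l 2) ^ 2 + (l 2 ^ 2 / l 0) ^ 2 + (l 2 ^ 2 / l 1) ^ 2

/-- The constant in the pointwise estimates. -/
noncomputable def bconst (l : Fin 3 → ℝ) (α β lam N C x0 : ℝ) : ℝ :=
  lsum l * (1 + lam ^ 2) * (C / min (|l 0|) (|l 2|)) + C * (|l 0| + |l 2|) +
    (|α| + |β| + |N|) ^ 2 * (4 * |l 2|) +
    lsum l * (2 * (β ^ 2 + N ^ 2)) * ((1 + (1 + |x0|)) / min (|l 0|) (|l 2|))

theorem NSol.grad {lam : ℝ} {U : ℝ × ℝ → ℝ} {δ N : ℝ} {W : E3 → ℝ} {Jn : E3 → E3}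
    (h : NSol lam U δ N W Jn) (s α β : ℝ) (l c : Fin 3 → ℝ) (p : E3)
    (h0 : 0 < afm l c p 2) (h1 : afm l c p 2 < 1) (i : Fin 3) :
    (∇ (bw s α β l c W) p) i = s * (l i * ((if i = 2 then β else 0) + (∇ W (afm l c p)) i)) := by
  rw [tm_grad_coord, fderiv_bw _ _ _ _ _ _ _ (h.dW _ h0 h1), tm_grad_coord]

theorem NSol.norms {lam : ℝ} {U : ℝ × ℝ → ℝ} {δ N : ℝ} {W : E3 → ℝ} {Jn : E3 → E3}
    (h : NSol lam U δ N W Jn) (s α β : ℝ) (l c : Fin 3 → ℝ) (hs : s ^ 2 = 1) (p q : E3)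
    (hq : afm l c p = q) (h0 : 0 < q 2) (h1 : q 2 < 1) :
    ‖∇ (bw s α β l c W) p‖ ^ 2 = (l 0) ^ 2 * (∇ W q) 0 ^ 2 + (l 1) ^ 2 * (∇ W q) 1 ^ 2 +
        (l 2) ^ 2 * (β + (∇ W q) 2) ^ 2 ∧
    ‖bJ s β l c Jn p‖ ^ 2 = (l 2 ^ 2 / l 0) ^ 2 * (Jn q 0) ^ 2 +
        (l 2 ^ 2 / l 1) ^ 2 * (Jn q 1) ^ 2 + (l 2) ^ 2 * (β + Jn q 2) ^ 2 ∧
    (bw s α β l c W p) ^ 2 = (α + β * q 2 + W q) ^ 2 := by
  subst hq
  refine ⟨?_, ?_, ?_⟩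
  · rw [tm_norm_sq, h.grad _ _ _ _ _ _ h0 h1, h.grad _ _ _ _ _ _ h0 h1, h.grad _ _ _ _ _ _ h0 h1]
    simp only [mul_pow, hs, one_mul]
    simp
  · rw [tm_norm_sq]
    simp only [bJ, pt_zero, pt_one, pt_two, mul_pow, hs, one_mul]
  · simp only [bw, mul_pow, hs, one_mul]

theorem tm_tip_compare (l : Fin 3 → ℝ) (hl : ∀ i, l i ≠ 0) (c : Fin 3 → ℝ)
    (hc2 : c 2 = -(7 / 10) * l 2) (p q : E3) (hq : afm l c p = q) :
    min (|l 0|) (|l 2|) * √(tip2 p) ≤ √((q 2) ^ 2 + (q 0 - c 0) ^ 2) ∧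
    √((q 2) ^ 2 + (q 0 - c 0) ^ 2) ≤ (|l 0| + |l 2|) * √(tip2 p) := by
  have htip : (q 2) ^ 2 + (q 0 - c 0) ^ 2 =
      (l 2) ^ 2 * (p 2 - 7 / 10) ^ 2 + (l 0) ^ 2 * (p 0) ^ 2 := by
    rw [← hq, afm_two, afm_zero, hc2]; ring
  have hm0 : 0 < min (|l 0|) (|l 2|) := lt_min (abs_pos.2 (hl 0)) (abs_pos.2 (hl 2))
  have hm_l0 : (min (|l 0|) (|l 2|)) ^ 2 ≤ (l 0) ^ 2 := by
    rw [← sq_abs (l 0)]; exact pow_le_pow_left₀ hm0.le (min_le_left _ _) 2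
  have hm_l2 : (min (|l 0|) (|l 2|)) ^ 2 ≤ (l 2) ^ 2 := by
    rw [← sq_abs (l 2)]; exact pow_le_pow_left₀ hm0.le (min_le_right _ _) 2
  have e0 : (l 0) ^ 2 ≤ (|l 0| + |l 2|) ^ 2 := by
    rw [← sq_abs (l 0)]; exact pow_le_pow_left₀ (abs_nonneg _) (by simp) 2
  have e2 : (l 2) ^ 2 ≤ (|l 0| + |l 2|) ^ 2 := by
    rw [← sq_abs (l 2)]; exact pow_le_pow_left₀ (abs_nonneg _) (by simp) 2
  have hK : 0 ≤ |l 0| + |l 2| := by positivity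
  rw [htip]
  have ht : 0 ≤ tip2 p := by unfold tip2; positivity
  constructor
  · apply Real.le_sqrt_of_sq_le
    rw [mul_pow, Real.sq_sqrt ht]
    unfold tip2
    have t1 := mul_le_mul_of_nonneg_right hm_l0 (sq_nonneg (p 0))
    have t2 := mul_le_mul_of_nonneg_right hm_l2 (sq_nonneg (p 2 - 7 / 10))
    rw [mul_add]; linarith
  · apply Real.sqrt_le_left (mul_nonneg hK (Real.sqrt_nonneg _)) |>.2
    rw [mul_pow, Real.sq_sqrt ht]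
    unfold tip2
    have t1 := mul_le_mul_of_nonneg_right e0 (sq_nonneg (p 0))
    have t2 := mul_le_mul_of_nonneg_right e2 (sq_nonneg (p 2 - 7 / 10))
    rw [mul_add]; linarith

theorem NSol.est {lam : ℝ} {U : ℝ × ℝ → ℝ} {δ N : ℝ} {W : E3 → ℝ} {Jn : E3 → E3}
    (h : NSol lam U δ N W Jn) (hU : ContDiffOn ℝ ∞ U {q | 0 < q.1})
    (s α β : ℝ) (l c : Fin 3 → ℝ) (hs : s ^ 2 = 1) (hl : ∀ i, l i ≠ 0)
    (hc2 : c 2 = -(7 / 10) * l 2)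
    (C : ℝ) (hC : ∀ σ x : ℝ, 0 < σ → σ ≤ 1 / 4 → 0 ≤ x → x ≤ 1 →
      (α + β * σ + U (σ, x)) ^ 2 ≤ C * √(σ ^ 2 + (x - c 0) ^ 2) ∧
      ((fderiv ℝ U (σ, x) (0, 1)) ^ 2 + (β + fderiv ℝ U (σ, x) (1, 0)) ^ 2) *
        √(σ ^ 2 + (x - c 0) ^ 2) ≤ C) (p q : E3) (hq : afm l c p = q)
    (q0 : 0 < q 2) (q1 : q 2 < 1) (hqx : q 0 ∈ Icc (0:ℝ) 1) (hqy : q 1 ∈ Icc (0:ℝ) 1) :
    ‖∇ (bw s α β l c W) p‖ ^ 2 * √(tip2 p) ≤ bconst l α β lam N C (c 0) ∧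
    (bw s α β l c W p) ^ 2 ≤ bconst l α β lam N C (c 0) * √(tip2 p) ∧
    ‖bJ s β l c Jn p‖ ^ 2 * √(tip2 p) ≤ bconst l α β lam N C (c 0) := by
  have hm0 : 0 < min (|l 0|) (|l 2|) := lt_min (abs_pos.2 (hl 0)) (abs_pos.2 (hl 2))
  have hC0 : 0 ≤ C :=
    le_trans (by positivity) (hC (1 / 4) 0 (by norm_num) le_rfl le_rfl zero_le_one).2
  have hΛ0 : 0 ≤ lsum l := by unfold lsum; positivity
  obtain ⟨L0, L1, L2, L3, L4⟩ := tm_sum_le (l 0) (l 1) (l 2) (l 2 ^ 2 / l 0) (l 2 ^ 2 / l 1)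
  change _ ≤ lsum l at L0 L1 L2 L3 L4
  obtain ⟨hD1, hD2⟩ := tm_tip_compare l hl c hc2 p q hq
  obtain ⟨n1, n2, n3⟩ := h.norms s α β l c hs p q hq q0 q1
  rw [n1, n2, n3]
  have hLs : 0 < |l 2| := abs_pos.2 (hl 2)
  have hB1 : 0 ≤ lsum l * (1 + lam ^ 2) * (C / min (|l 0|) (|l 2|)) := by positivity
  have hB2 : 0 ≤ C * (|l 0| + |l 2|) := by positivity
  have hB3 : 0 ≤ (|α| + |β| + |N|) ^ 2 * (4 * |l 2|) := by positivity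
  have hB4 : 0 ≤ lsum l * (2 * (β ^ 2 + N ^ 2)) * ((1 + (1 + |c 0|)) / min (|l 0|) (|l 2|)) := by
    positivity
  have hb : bconst l α β lam N C (c 0) = lsum l * (1 + lam ^ 2) * (C / min (|l 0|) (|l 2|)) +
    C * (|l 0| + |l 2|) + (|α| + |β| + |N|) ^ 2 * (4 * |l 2|) +
    lsum l * (2 * (β ^ 2 + N ^ 2)) * ((1 + (1 + |c 0|)) / min (|l 0|) (|l 2|)) := rfl
  have c1 : lsum l * (1 + lam ^ 2) * (C / min (|l 0|) (|l 2|)) ≤ bconst l α β lam N C (c 0) := by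
    rw [hb]; linarith
  have c2 : C * (|l 0| + |l 2|) ≤ bconst l α β lam N C (c 0) := by
    rw [hb]; linarith
  have c3 : (|α| + |β| + |N|) ^ 2 * (4 * |l 2|) ≤ bconst l α β lam N C (c 0) := by
    rw [hb]; linarith
  have c4 : lsum l * (2 * (β ^ 2 + N ^ 2)) * ((1 + (1 + |c 0|)) / min (|l 0|) (|l 2|)) ≤
      bconst l α β lam N C (c 0) := by
    rw [hb]; linarith
  clear hb hB1 hB2 hB3 hB4
  have ht0 : 0 ≤ √(tip2 p) := Real.sqrt_nonneg _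
  rcases lt_or_ge (q 2) (1 / 4) with hlt | hge
  · have hst := h.start q q0 hlt.le
    have hCq := hC (q 2) (q 0) q0 hlt.le hqx.1 hqx.2
    have g0 : (∇ W q) 0 = fderiv ℝ U (q 2, q 0) (0, 1) := by
      rw [tm_grad_coord, tm_fderiv_start hU (fun p a b => (h.start p a b).1) q q0 hlt]
      simp [ee]
    have g1 : (∇ W q) 1 = 0 := by
      rw [tm_grad_coord, tm_fderiv_start hU (fun p a b => (h.start p a b).1) q q0 hlt]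
      have : (((ee 1 : E3) 2, (ee 1 : E3) 0) : ℝ × ℝ) = 0 := by simp [ee]
      rw [this, map_zero]
    have g2 : (∇ W q) 2 = fderiv ℝ U (q 2, q 0) (1, 0) := by
      rw [tm_grad_coord, tm_fderiv_start hU (fun p a b => (h.start p a b).1) q q0 hlt]
      simp [ee]
    rw [g0, g1, g2, hst.1, hst.2]
    simp only [pt_zero, pt_one, pt_two]
    obtain ⟨e1, e2, e3⟩ := tm_est_start (lsum l) lam C (min (|l 0|) (|l 2|)) (|l 0| + |l 2|)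
      (√(tip2 p)) (√((q 2) ^ 2 + (q 0 - c 0) ^ 2)) ((l 0) ^ 2) ((l 1) ^ 2) ((l 2) ^ 2)
      ((l 2 ^ 2 / l 0) ^ 2) ((l 2 ^ 2 / l 1) ^ 2) (fderiv ℝ U (q 2, q 0) (0, 1))
      (fderiv ℝ U (q 2, q 0) (1, 0)) β (α + β * q 2 + U (q 2, q 0)) hΛ0 L0 L2 L3 hm0 hD1 hD2 ht0
      hC0 hCq.1 hCq.2
    exact ⟨e1.trans c1, e2.trans (mul_le_mul_of_nonneg_right c2 ht0), e3.trans c1⟩
  · obtain ⟨n1, n2, n3⟩ := h.bdd q hqx.1 hqx.2 hqy.1 hqy.2 hge q1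
    have hN0 : 0 ≤ N := le_trans (norm_nonneg _) n1
    have n1' : (∇ W q) 0 ^ 2 + (∇ W q) 1 ^ 2 + (∇ W q) 2 ^ 2 ≤ N ^ 2 := by
      rw [← tm_norm_sq]; exact pow_le_pow_left₀ (norm_nonneg _) n1 2
    have n2' : Jn q 0 ^ 2 + Jn q 1 ^ 2 + Jn q 2 ^ 2 ≤ N ^ 2 := by
      rw [← tm_norm_sq]; exact pow_le_pow_left₀ (norm_nonneg _) n2 2
    have n3' : |W q| ≤ |N| := by
      rw [abs_of_nonneg hN0]
      exact n3.trans (mul_le_of_le_one_right hN0 (by linarith))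
    have htT : √(tip2 p) ≤ (1 + (1 + |c 0|)) / min (|l 0|) (|l 2|) := by
      rw [le_div_iff₀ hm0, mul_comm]
      exact hD1.trans (tm_dist_le (c 0) (q 2) (q 0) q0.le q1.le hqx.1 hqx.2)
    have htl : 1 ≤ 4 * |l 2| * √(tip2 p) := by
      refine tm_far_low (l 2) (p 2) (q 2) _ ?_ hge ?_
      · rw [← hq, afm_two, hc2]; ring
      · apply Real.abs_le_sqrt
        unfold tip2
        have := sq_nonneg (p 0)
        linarith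
    have hX : 0 ≤ lsum l * (2 * (β ^ 2 + N ^ 2)) := by positivity
    refine ⟨?_, ?_, ?_⟩
    · have e1 := tm_est_far (lsum l) β N _ _ _ _ _ _ hΛ0 L0 L1 L2 n1'
      exact ((mul_le_mul_of_nonneg_right e1 ht0).trans (mul_le_mul_of_nonneg_left htT hX)).trans c4
    · exact (tm_far_val α β N (q 2) (W q) (l 2) _ q0.le q1.le n3' htl).trans
        (mul_le_mul_of_nonneg_right c3 ht0)
    · have e1 := tm_est_far (lsum l) β N _ _ _ _ _ _ hΛ0 L3 L4 L2 n2'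
      exact ((mul_le_mul_of_nonneg_right e1 ht0).trans (mul_le_mul_of_nonneg_left htT hX)).trans c4

theorem boxSol_of_nsol {lam : ℝ} {U : ℝ × ℝ → ℝ} {δ N : ℝ} {W : E3 → ℝ} {Jn : E3 → E3}
    (h : NSol lam U δ N W Jn) (hU : ContDiffOn ℝ ∞ U {q | 0 < q.1})
    (s α β : ℝ) (l c : Fin 3 → ℝ) (hs : s ^ 2 = 1) (hl : ∀ i, l i ≠ 0)
    (hc2 : c 2 = -(7 / 10) * l 2)
    (a₀ b₀ a₁ b₁ a₂ b₂ : ℝ)
    (hslab : ∀ t : ℝ, a₂ < t → t < b₂ → 0 < l 2 * t + c 2 ∧ l 2 * t + c 2 < 1)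
    (hx : ∀ t : ℝ, t ∈ Icc a₀ b₀ → l 0 * t + c 0 ∈ Icc (0:ℝ) 1)
    (hy : ∀ t : ℝ, t ∈ Icc a₁ b₁ → l 1 * t + c 1 ∈ Icc (0:ℝ) 1)
    (hxa : l 0 * a₀ + c 0 = 0 ∨ l 0 * a₀ + c 0 = 1) (hxb : l 0 * b₀ + c 0 = 0 ∨ l 0 * b₀ + c 0 = 1)
    (hya : l 1 * a₁ + c 1 = 0 ∨ l 1 * a₁ + c 1 = 1) (hyb : l 1 * b₁ + c 1 = 0 ∨ l 1 * b₁ + c 1 = 1)
    (C : ℝ) (hC : ∀ σ x : ℝ, 0 < σ → σ ≤ 1 / 4 → 0 ≤ x → x ≤ 1 →
      (α + β * σ + U (σ, x)) ^ 2 ≤ C * √(σ ^ 2 + (x - c 0) ^ 2) ∧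
      ((fderiv ℝ U (σ, x) (0, 1)) ^ 2 + (β + fderiv ℝ U (σ, x) (1, 0)) ^ 2) *
        √(σ ^ 2 + (x - c 0) ^ 2) ≤ C) :
    ∃ δ' N0 : ℝ, BoxSol a₀ b₀ a₁ b₁ a₂ b₂ δ' N0 (bw s α β l c W) (bJ s β l c Jn) := by
  obtain ⟨δ', hδ', hδ2⟩ := HEll_scale δ (l 0) (l 1) (l 2) s h.δpos (hl 0) (hl 1) (hl 2) hs
  have hsl : ∀ p : E3, a₂ < p 2 → p 2 < b₂ → 0 < (afm l c p) 2 ∧ (afm l c p) 2 < 1 := by
    intro p h0 h1
    have := hslab (p 2) h0 h1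
    simpa using this
  have hqx : ∀ p : E3, p 0 ∈ Icc a₀ b₀ → (afm l c p) 0 ∈ Icc (0:ℝ) 1 := by
    intro p hp; rw [afm_zero]; exact hx _ hp
  have hqy : ∀ p : E3, p 1 ∈ Icc a₁ b₁ → (afm l c p) 1 ∈ Icc (0:ℝ) 1 := by
    intro p hp; rw [afm_one]; exact hy _ hp
  have hmaps : MapsTo (afm l c) {p : E3 | a₂ < p 2 ∧ p 2 < b₂} {p | 0 < p 2 ∧ p 2 < 1} :=
    fun p hp => hsl p hp.1 hp.2
  have smW' : ContDiffOn ℝ ∞ (fun p => W (afm l c p)) {p | a₂ < p 2 ∧ p 2 < b₂} :=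
    h.smW.comp (contDiff_afm l c).contDiffOn hmaps
  have smJ' : ContDiffOn ℝ ∞ (fun p => Jn (afm l c p)) {p | a₂ < p 2 ∧ p 2 < b₂} :=
    h.smJ.comp (contDiff_afm l c).contDiffOn hmaps
  have smc : ContDiff ℝ ∞ (fun p : E3 => afm l c p 2) :=
    (EuclideanSpace.proj (2 : Fin 3) : E3 →L[ℝ] ℝ).contDiff.comp (contDiff_afm l c)
  have hs0 : s ≠ 0 := by rintro rfl; norm_num at hs
  refine ⟨δ', bconst l α β lam N C (c 0), ⟨hδ', ?_, ?_, ?_, ?_, ?_, ?_, ?_, ?_⟩⟩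
  · have : ContDiffOn ℝ ∞ (fun p => s * (α + β * (afm l c p 2) + W (afm l c p)))
        {p | a₂ < p 2 ∧ p 2 < b₂} :=
      contDiffOn_const.mul ((contDiffOn_const.add (contDiffOn_const.mul smc.contDiffOn)).add smW')
    exact this
  · have e1 : ContDiffOn ℝ ∞ (fun p => tdg (ddg l) (Jn (afm l c p)))
        {p | a₂ < p 2 ∧ p 2 < b₂} := (tdg (ddg l)).contDiff.comp_contDiffOn smJ'
    have e2 : ContDiffOn ℝ ∞ (fun p => s • (tdg (ddg l) (Jn (afm l c p)) + pt 0 0 (l 2 * β)))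
        {p | a₂ < p 2 ∧ p 2 < b₂} := (e1.add contDiffOn_const).const_smul s
    exact e2.congr fun p _ => bJ_eq s β l c Jn p
  · intro p hp2 hp3
    obtain ⟨q0, q1⟩ := hsl p hp2 hp3
    obtain ⟨e1, e2⟩ := h.eqs _ q0 q1
    refine ⟨?_, ?_⟩
    · rw [fderiv_bw _ _ _ _ _ _ _ (h.dW _ q0 q1), e1]
      simp [bJ]
    · rw [dvg_bJ _ _ _ _ _ _ (hl 0) (hl 1) (h.dJ _ q0 q1), e2, mul_zero]
  · intro p hp0 hp1 hp2 hp3
    obtain ⟨q0, q1⟩ := hsl p hp2 hp3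
    have hx1 := hqx p hp0
    have hy1 := hqy p hp1
    have := hδ2 _ _ _ _ (h.ell _ hx1.1 hx1.2 hy1.1 hy1.2 q0 q1)
    rw [h.grad _ _ _ _ _ _ q0 q1, h.grad _ _ _ _ _ _ q0 q1]
    simpa [bJ] using this
  · refine ⟨l 0, c 0, l 1, c 1, hl 0, hl 1, ?_⟩
    intro p hp0 hp1 hp2 hp3 z0 z1
    obtain ⟨q0, q1⟩ := hsl p hp2 hp3
    have hx1 := hqx p hp0
    have hy1 := hqy p hp1
    rw [h.grad _ _ _ _ _ _ q0 q1] at z0 z1
    have z0' : (∇ W (afm l c p)) 0 = 0 := by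
      have := (mul_eq_zero.1 z0).resolve_left hs0
      have := (mul_eq_zero.1 this).resolve_left (hl 0)
      simpa using this
    have z1' : (∇ W (afm l c p)) 1 = 0 := by
      have := (mul_eq_zero.1 z1).resolve_left hs0
      have := (mul_eq_zero.1 this).resolve_left (hl 1)
      simpa using this
    have := h.zer _ hx1.1 hx1.2 hy1.1 hy1.2 q0 q1 z0' z1'
    simpa using this
  · intro p hp2 hp3 hp
    obtain ⟨q0, q1⟩ := hsl p hp2 hp3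
    have : (afm l c p) 0 = 0 ∨ (afm l c p) 0 = 1 := by
      rw [afm_zero]
      rcases hp with hp | hp <;> rw [hp]
      · exact hxa
      · exact hxb
    have := h.wall0 _ q0 q1 this
    simp only [bJ, pt_zero, this, mul_zero]
  · intro p hp2 hp3 hp
    obtain ⟨q0, q1⟩ := hsl p hp2 hp3
    have : (afm l c p) 1 = 0 ∨ (afm l c p) 1 = 1 := by
      rw [afm_one]
      rcases hp with hp | hp <;> rw [hp]
      · exact hya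
      · exact hyb
    have := h.wall1 _ q0 q1 this
    simp only [bJ, pt_one, this, mul_zero]
  · intro p hp0 hp1 hp2 hp3
    obtain ⟨q0, q1⟩ := hsl p hp2 hp3
    exact h.est hU s α β l c hs hl hc2 C hC p _ rfl q0 q1 (hqx p hp0) (hqy p hp1)

end Crest.Agent.R083
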