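import Crest.Agent.R083.TMNorm

-- ▼ part R083/TMTrace
section

/-!
Row 83 (S0111), TM group: traces of the transported solutions at the two horizontal faces.
-/

set_option autoImplicit false

namespace Crest.Agent.R083

open MeasureTheory Set Filter
open scoped Gradient ENNReal NNReal Topology ContDiff

/-- partial derivatives of the left core in normalised coordinates -/
theorem coreO_fderiv (K : CoreData) (M : ℝ) (hM : 1 ≤ M) (σ x : ℝ) (hσ : 0 < σ) :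
    fderiv ℝ (fun q : ℝ × ℝ => K.uL (-(M * q.1)) (2 * q.2 - 1)) (σ, x) (1, 0) =
      -M * K.uLs (-(M * σ)) (2 * x - 1) ∧
    fderiv ℝ (fun q : ℝ × ℝ => K.uL (-(M * q.1)) (2 * q.2 - 1)) (σ, x) (0, 1) =
      2 * K.uLX (-(M * σ)) (2 * x - 1) := by
  have hopen : IsOpen {q : ℝ × ℝ | 0 < q.1} := isOpen_lt continuous_const continuous_fst
  have hd : DifferentiableAt ℝ (fun q : ℝ × ℝ => K.uL (-(M * q.1)) (2 * q.2 - 1)) (σ, x) :=
    ((K.frontO M hM).sm.contDiffAt (hopen.mem_nhds hσ)).differentiableAt (by simp)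
  have hM0 : 0 < M := by linarith
  have hneg : -(M * σ) < 0 := by have := mul_pos hM0 hσ; linarith
  constructor
  · have h1 : HasDerivAt (fun t : ℝ => ((σ, x) : ℝ × ℝ) + t • ((1, 0) : ℝ × ℝ)) (1, 0) 0 := by
      have := ((hasDerivAt_id (0:ℝ)).smul_const ((1, 0) : ℝ × ℝ)).const_add ((σ, x) : ℝ × ℝ)
      simpa using this
    have h2 := (HasFDerivAt.comp_hasDerivAt (0:ℝ) (f := fun t : ℝ => ((σ, x) : ℝ × ℝ) + t • ((1, 0) : ℝ × ℝ))
      (by simpa using hd.hasFDerivAt) h1)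
    have h3 : HasDerivAt (fun t : ℝ => K.uL (-(M * (σ + t))) (2 * x - 1))
        (-M * K.uLs (-(M * σ)) (2 * x - 1)) 0 := by
      have e1 : HasDerivAt (fun t : ℝ => -(M * (σ + t))) (-M) 0 := by
        have e0 : HasDerivAt (fun t : ℝ => M * (σ + t)) M 0 := by
          have := (((hasDerivAt_id (0:ℝ)).const_add σ).const_mul M)
          simpa using this
        exact e0.neg
      have e2 := (K.dLs (-(M * (σ + 0))) (2 * x - 1) (by simpa using hneg))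
      have e3 := HasDerivAt.comp (0:ℝ) e2 e1
      have : (K.uLs (-(M * (σ + 0))) (2 * x - 1)) * -M = -M * K.uLs (-(M * σ)) (2 * x - 1) := by
        rw [add_zero]; ring
      rw [← this]; exact e3
    have h4 : ((fun q : ℝ × ℝ => K.uL (-(M * q.1)) (2 * q.2 - 1)) ∘
        fun t : ℝ => ((σ, x) : ℝ × ℝ) + t • ((1, 0) : ℝ × ℝ)) =
        fun t : ℝ => K.uL (-(M * (σ + t))) (2 * x - 1) := by
      funext t; simp
    rw [h4] at h2
    exact h2.unique h3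
  · have h1 : HasDerivAt (fun t : ℝ => ((σ, x) : ℝ × ℝ) + t • ((0, 1) : ℝ × ℝ)) (0, 1) 0 := by
      have := ((hasDerivAt_id (0:ℝ)).smul_const ((0, 1) : ℝ × ℝ)).const_add ((σ, x) : ℝ × ℝ)
      simpa using this
    have h2 := (HasFDerivAt.comp_hasDerivAt (0:ℝ) (f := fun t : ℝ => ((σ, x) : ℝ × ℝ) + t • ((0, 1) : ℝ × ℝ))
      (by simpa using hd.hasFDerivAt) h1)
    have h3 : HasDerivAt (fun t : ℝ => K.uL (-(M * σ)) (2 * (x + t) - 1))
        (2 * K.uLX (-(M * σ)) (2 * x - 1)) 0 := by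
      have e1 : HasDerivAt (fun t : ℝ => 2 * (x + t) - 1) 2 0 := by
        have := (((hasDerivAt_id (0:ℝ)).const_add x).const_mul 2).sub_const 1
        simpa using this
      have e2 := (K.dLX (-(M * σ)) (2 * (x + 0) - 1) hneg)
      have e3 := HasDerivAt.comp (0:ℝ) e2 e1
      have : (K.uLX (-(M * σ)) (2 * (x + 0) - 1)) * 2 = 2 * K.uLX (-(M * σ)) (2 * x - 1) := by
        rw [add_zero]; ring
      rw [← this]; exact e3
    have h4 : ((fun q : ℝ × ℝ => K.uL (-(M * q.1)) (2 * q.2 - 1)) ∘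
        fun t : ℝ => ((σ, x) : ℝ × ℝ) + t • ((0, 1) : ℝ × ℝ)) =
        fun t : ℝ => K.uL (-(M * σ)) (2 * (x + t) - 1) := by
      funext t; simp
    rw [h4] at h2
    exact h2.unique h3

/-- partial derivatives of the right core in normalised coordinates -/
theorem coreP_fderiv (K : CoreData) (M : ℝ) (hM : 1 ≤ M) (σ x : ℝ) (hσ : 0 < σ) :
    fderiv ℝ (fun q : ℝ × ℝ => K.uR (M * q.1) q.2) (σ, x) (1, 0) = M * K.uRs (M * σ) x ∧
    fderiv ℝ (fun q : ℝ × ℝ => K.uR (M * q.1) q.2) (σ, x) (0, 1) = K.uRX (M * σ) x := by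
  have hopen : IsOpen {q : ℝ × ℝ | 0 < q.1} := isOpen_lt continuous_const continuous_fst
  have hd : DifferentiableAt ℝ (fun q : ℝ × ℝ => K.uR (M * q.1) q.2) (σ, x) :=
    ((K.frontP M hM).sm.contDiffAt (hopen.mem_nhds hσ)).differentiableAt (by simp)
  have hM0 : 0 < M := by linarith
  have hpos : 0 < M * σ := mul_pos hM0 hσ
  constructor
  · have h1 : HasDerivAt (fun t : ℝ => ((σ, x) : ℝ × ℝ) + t • ((1, 0) : ℝ × ℝ)) (1, 0) 0 := by
      have := ((hasDerivAt_id (0:ℝ)).smul_const ((1, 0) : ℝ × ℝ)).const_add ((σ, x) : ℝ × ℝ)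
      simpa using this
    have h2 := (HasFDerivAt.comp_hasDerivAt (0:ℝ) (f := fun t : ℝ => ((σ, x) : ℝ × ℝ) + t • ((1, 0) : ℝ × ℝ))
      (by simpa using hd.hasFDerivAt) h1)
    have h3 : HasDerivAt (fun t : ℝ => K.uR (M * (σ + t)) x) (M * K.uRs (M * σ) x) 0 := by
      have e1 : HasDerivAt (fun t : ℝ => M * (σ + t)) M 0 := by
        have := (((hasDerivAt_id (0:ℝ)).const_add σ).const_mul M)
        simpa using this
      have e2 := (K.dRs (M * (σ + 0)) x (by simpa using hpos))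
      have e3 := HasDerivAt.comp (0:ℝ) e2 e1
      have : (K.uRs (M * (σ + 0)) x) * M = M * K.uRs (M * σ) x := by
        rw [add_zero]; ring
      rw [← this]; exact e3
    have h4 : ((fun q : ℝ × ℝ => K.uR (M * q.1) q.2) ∘
        fun t : ℝ => ((σ, x) : ℝ × ℝ) + t • ((1, 0) : ℝ × ℝ)) =
        fun t : ℝ => K.uR (M * (σ + t)) x := by
      funext t; simp
    rw [h4] at h2
    exact h2.unique h3
  · have h1 : HasDerivAt (fun t : ℝ => ((σ, x) : ℝ × ℝ) + t • ((0, 1) : ℝ × ℝ)) (0, 1) 0 := by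
      have := ((hasDerivAt_id (0:ℝ)).smul_const ((0, 1) : ℝ × ℝ)).const_add ((σ, x) : ℝ × ℝ)
      simpa using this
    have h2 := (HasFDerivAt.comp_hasDerivAt (0:ℝ) (f := fun t : ℝ => ((σ, x) : ℝ × ℝ) + t • ((0, 1) : ℝ × ℝ))
      (by simpa using hd.hasFDerivAt) h1)
    have h3 : HasDerivAt (fun t : ℝ => K.uR (M * σ) (x + t)) (K.uRX (M * σ) x) 0 := by
      have e1 : HasDerivAt (fun t : ℝ => x + t) 1 0 := by
        have := ((hasDerivAt_id (0:ℝ)).const_add x)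
        simpa using this
      have e2 := (K.dRX (M * σ) (x + 0) hpos)
      have e3 := HasDerivAt.comp (0:ℝ) e2 e1
      have : (K.uRX (M * σ) (x + 0)) * 1 = K.uRX (M * σ) x := by
        rw [add_zero]; ring
      rw [← this]; exact e3
    have h4 : ((fun q : ℝ × ℝ => K.uR (M * q.1) q.2) ∘
        fun t : ℝ => ((σ, x) : ℝ × ℝ) + t • ((0, 1) : ℝ × ℝ)) =
        fun t : ℝ => K.uR (M * σ) (x + t) := by
      funext t; simp
    rw [h4] at h2
    exact h2.unique h3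

/-- the tip bounds in normalised coordinates, left core -/
theorem coreO_tip (K : CoreData) (M : ℝ) (hM : 1 ≤ M) : ∃ C : ℝ, ∀ σ x : ℝ, 0 < σ → σ ≤ 1 / 4 →
    0 ≤ x → x ≤ 1 →
      (0 + 0 * σ + (fun q : ℝ × ℝ => K.uL (-(M * q.1)) (2 * q.2 - 1)) (σ, x)) ^ 2 ≤
        C * √(σ ^ 2 + (x - 1 / 2) ^ 2) ∧
      ((fderiv ℝ (fun q : ℝ × ℝ => K.uL (-(M * q.1)) (2 * q.2 - 1)) (σ, x) (0, 1)) ^ 2 +
        (0 + fderiv ℝ (fun q : ℝ × ℝ => K.uL (-(M * q.1)) (2 * q.2 - 1)) (σ, x) (1, 0)) ^ 2) *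
        √(σ ^ 2 + (x - 1 / 2) ^ 2) ≤ C := by
  obtain ⟨C, hC⟩ := K.tipL M (by linarith)
  have hC0 : 0 ≤ C := le_trans (by positivity) (hC (-(1/2)) 0 (by linarith) (by norm_num) (by norm_num)).2
  refine ⟨C * (M + 2) + (4 + M ^ 2) * C, fun σ x h0 h1 hx0 hx1 => ?_⟩
  obtain ⟨f1, f2⟩ := coreO_fderiv K M hM σ x h0
  rw [f1, f2]
  have hX : |2 * x - 1| ≤ 1 := by rw [abs_le]; constructor <;> linarith
  have hMσ : 0 < M * σ := by positivity
  obtain ⟨c1, c2⟩ := hC (-(M * σ)) (2 * x - 1) (by nlinarith) (by linarith) hX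
  have hs1 : √(σ ^ 2 + (x - 1 / 2) ^ 2) ≤ √((-(M * σ)) ^ 2 + (2 * x - 1) ^ 2) := by
    apply Real.sqrt_le_sqrt
    have : σ ^ 2 ≤ M ^ 2 * σ ^ 2 := by
      have : 1 ≤ M ^ 2 := by nlinarith
      nlinarith [sq_nonneg σ]
    nlinarith [sq_nonneg (x - 1 / 2)]
  have hs2 : √((-(M * σ)) ^ 2 + (2 * x - 1) ^ 2) ≤ (M + 2) * √(σ ^ 2 + (x - 1 / 2) ^ 2) := by
    apply Real.sqrt_le_left (by positivity) |>.2
    rw [mul_pow, Real.sq_sqrt (by positivity)]
    have h4 : (4:ℝ) ≤ (M + 2) ^ 2 := by nlinarith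
    have h5 : M ^ 2 ≤ (M + 2) ^ 2 := by nlinarith
    have h6 := mul_le_mul_of_nonneg_right h4 (sq_nonneg (x - 1 / 2))
    have h7 := mul_le_mul_of_nonneg_right h5 (sq_nonneg σ)
    nlinarith
  constructor
  · have e1 : (0 + 0 * σ + (fun q : ℝ × ℝ => K.uL (-(M * q.1)) (2 * q.2 - 1)) (σ, x)) ^ 2 =
        (K.uL (-(M * σ)) (2 * x - 1)) ^ 2 := by simp
    rw [e1]
    calc (K.uL (-(M * σ)) (2 * x - 1)) ^ 2 ≤ C * √((-(M * σ)) ^ 2 + (2 * x - 1) ^ 2) := c1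
      _ ≤ C * ((M + 2) * √(σ ^ 2 + (x - 1 / 2) ^ 2)) := mul_le_mul_of_nonneg_left hs2 hC0
      _ ≤ (C * (M + 2) + (4 + M ^ 2) * C) * √(σ ^ 2 + (x - 1 / 2) ^ 2) := by
        have : 0 ≤ (4 + M ^ 2) * C * √(σ ^ 2 + (x - 1 / 2) ^ 2) := by positivity
        nlinarith
  · have e2 : (2 * K.uLX (-(M * σ)) (2 * x - 1)) ^ 2 +
        (0 + -M * K.uLs (-(M * σ)) (2 * x - 1)) ^ 2 ≤
        (4 + M ^ 2) * ((K.uLs (-(M * σ)) (2 * x - 1)) ^ 2 + (K.uLX (-(M * σ)) (2 * x - 1)) ^ 2) := by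
      nlinarith [sq_nonneg (K.uLs (-(M * σ)) (2 * x - 1)), mul_nonneg (sq_nonneg M) (sq_nonneg (K.uLX (-(M * σ)) (2 * x - 1)))]
    calc _ ≤ ((4 + M ^ 2) * ((K.uLs (-(M * σ)) (2 * x - 1)) ^ 2 +
          (K.uLX (-(M * σ)) (2 * x - 1)) ^ 2)) * √((-(M * σ)) ^ 2 + (2 * x - 1) ^ 2) :=
        mul_le_mul e2 hs1 (Real.sqrt_nonneg _) (by positivity)
      _ = (4 + M ^ 2) * (((K.uLs (-(M * σ)) (2 * x - 1)) ^ 2 +
          (K.uLX (-(M * σ)) (2 * x - 1)) ^ 2) * √((-(M * σ)) ^ 2 + (2 * x - 1) ^ 2)) := by ring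
      _ ≤ (4 + M ^ 2) * C := mul_le_mul_of_nonneg_left c2 (by positivity)
      _ ≤ C * (M + 2) + (4 + M ^ 2) * C := by nlinarith

/-- the tip bounds in normalised coordinates, right core -/
theorem coreP_tip (K : CoreData) (M : ℝ) (hM : 1 ≤ M) : ∃ C : ℝ, ∀ σ x : ℝ, 0 < σ → σ ≤ 1 / 4 →
    0 ≤ x → x ≤ 1 →
      (Real.log 2 + (Real.pi / 2 * M) * σ + (fun q : ℝ × ℝ => K.uR (M * q.1) q.2) (σ, x)) ^ 2 ≤
        C * √(σ ^ 2 + (x - 0) ^ 2) ∧
      ((fderiv ℝ (fun q : ℝ × ℝ => K.uR (M * q.1) q.2) (σ, x) (0, 1)) ^ 2 +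
        (Real.pi / 2 * M + fderiv ℝ (fun q : ℝ × ℝ => K.uR (M * q.1) q.2) (σ, x) (1, 0)) ^ 2) *
        √(σ ^ 2 + (x - 0) ^ 2) ≤ C := by
  obtain ⟨C, hC⟩ := K.tipR M (by linarith)
  have hC0 : 0 ≤ C := le_trans (by positivity) (hC (1/2) 0 (by norm_num) (by linarith) (by norm_num)).2
  refine ⟨C * (M + 2) + (4 + M ^ 2) * C, fun σ x h0 h1 hx0 hx1 => ?_⟩
  obtain ⟨f1, f2⟩ := coreP_fderiv K M hM σ x h0
  rw [f1, f2]
  have hX : |x| ≤ 1 := by rw [abs_le]; constructor <;> linarith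
  have hMσ : 0 < M * σ := by positivity
  obtain ⟨c1, c2⟩ := hC (M * σ) x hMσ (by nlinarith) hX
  have hs1 : √(σ ^ 2 + (x - 0) ^ 2) ≤ √((M * σ) ^ 2 + x ^ 2) := by
    apply Real.sqrt_le_sqrt
    have : σ ^ 2 ≤ M ^ 2 * σ ^ 2 := by
      have : 1 ≤ M ^ 2 := by nlinarith
      nlinarith [sq_nonneg σ]
    nlinarith [sq_nonneg x]
  have hs2 : √((M * σ) ^ 2 + x ^ 2) ≤ (M + 2) * √(σ ^ 2 + (x - 0) ^ 2) := by
    apply Real.sqrt_le_left (by positivity) |>.2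
    rw [mul_pow (M + 2), Real.sq_sqrt (by positivity)]
    have h4 : (1:ℝ) ≤ (M + 2) ^ 2 := by nlinarith
    have h5 : M ^ 2 ≤ (M + 2) ^ 2 := by nlinarith
    have h6 := mul_le_mul_of_nonneg_right h4 (sq_nonneg x)
    have h7 := mul_le_mul_of_nonneg_right h5 (sq_nonneg σ)
    nlinarith
  constructor
  · have e1 : (Real.log 2 + (Real.pi / 2 * M) * σ +
        (fun q : ℝ × ℝ => K.uR (M * q.1) q.2) (σ, x)) ^ 2 =
        (Real.pi / 2 * (M * σ) + Real.log 2 + K.uR (M * σ) x) ^ 2 := by simp only; ring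
    rw [e1]
    calc _ ≤ C * √((M * σ) ^ 2 + x ^ 2) := c1
      _ ≤ C * ((M + 2) * √(σ ^ 2 + (x - 0) ^ 2)) := mul_le_mul_of_nonneg_left hs2 hC0
      _ ≤ (C * (M + 2) + (4 + M ^ 2) * C) * √(σ ^ 2 + (x - 0) ^ 2) := by
        have : 0 ≤ (4 + M ^ 2) * C * √(σ ^ 2 + (x - 0) ^ 2) := by positivity
        nlinarith
  · have e2 : (K.uRX (M * σ) x) ^ 2 + (Real.pi / 2 * M + M * K.uRs (M * σ) x) ^ 2 ≤
        (4 + M ^ 2) * ((Real.pi / 2 + K.uRs (M * σ) x) ^ 2 + (K.uRX (M * σ) x) ^ 2) := by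
      have : Real.pi / 2 * M + M * K.uRs (M * σ) x = M * (Real.pi / 2 + K.uRs (M * σ) x) := by ring
      rw [this, mul_pow]
      nlinarith [sq_nonneg (Real.pi / 2 + K.uRs (M * σ) x), mul_nonneg (sq_nonneg M) (sq_nonneg (K.uRX (M * σ) x)), sq_nonneg (K.uRX (M * σ) x)]
    calc _ ≤ ((4 + M ^ 2) * ((Real.pi / 2 + K.uRs (M * σ) x) ^ 2 + (K.uRX (M * σ) x) ^ 2)) *
          √((M * σ) ^ 2 + x ^ 2) :=
        mul_le_mul e2 hs1 (Real.sqrt_nonneg _) (by positivity)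
      _ = (4 + M ^ 2) * (((Real.pi / 2 + K.uRs (M * σ) x) ^ 2 + (K.uRX (M * σ) x) ^ 2) *
          √((M * σ) ^ 2 + x ^ 2)) := by ring
      _ ≤ (4 + M ^ 2) * C := mul_le_mul_of_nonneg_left c2 (by positivity)
      _ ≤ C * (M + 2) + (4 + M ^ 2) * C := by nlinarith

end Crest.Agent.R083
end

-- ▼ part R083/TMTrace2

/-!
Row 83 (S0111), TM group: limits of the transported solutions at the two horizontal faces.
-/

set_option autoImplicit false

namespace Crest.Agent.R083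

open MeasureTheory Set Filter
open scoped Gradient ENNReal NNReal Topology ContDiff

theorem start_traces {lam : ℝ} {U : ℝ × ℝ → ℝ} {δ N : ℝ} {W : E3 → ℝ} {Jn : E3 → E3}
    (h : NSol lam U δ N W Jn) (s α β : ℝ) (l c : Fin 3 → ℝ) (F : Filter ℝ)
    (hF : Tendsto (fun t => l 2 * t + c 2) F (𝓝[>] 0)) (x y v g : ℝ)
    (hv : Tendsto (fun σ => α + β * σ + U (σ, l 0 * x + c 0)) (𝓝[>] 0) (𝓝 v))
    (hg : Tendsto (fun σ => β + fderiv ℝ U (σ, l 0 * x + c 0) (1, 0)) (𝓝[>] 0) (𝓝 g)) :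
    Tendsto (fun t => bw s α β l c W (pt x y t)) F (𝓝 (s * v)) ∧
    Tendsto (fun t => bJ s β l c Jn (pt x y t) 2) F (𝓝 (s * (l 2 * g))) := by
  have hev : ∀ᶠ σ in 𝓝[>] (0:ℝ), 0 < σ ∧ σ ≤ 1 / 4 := by
    have h1 : Ioc (0:ℝ) (1 / 4) ∈ 𝓝[>] (0:ℝ) := Ioc_mem_nhdsGT (by norm_num)
    filter_upwards [h1] with σ hσ using hσ
  have hev' := hF.eventually hev
  constructor
  · refine ((hv.comp hF).const_mul s).congr' ?_
    filter_upwards [hev'] with t ht
    have h1 := (h.start (afm l c (pt x y t)) (by simpa using ht.1) (by simpa using ht.2)).1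
    simp only [bw, h1, afm_two, afm_zero, pt_two, pt_zero, Function.comp]
  · refine (((hg.comp hF).const_mul (l 2)).const_mul s).congr' ?_
    filter_upwards [hev'] with t ht
    have h1 := (h.start (afm l c (pt x y t)) (by simpa using ht.1) (by simpa using ht.2)).2
    simp only [bJ, h1, afm_two, afm_zero, pt_two, pt_zero, Function.comp]

theorem end_traces {lam : ℝ} {U : ℝ × ℝ → ℝ} {δ N : ℝ} {W : E3 → ℝ} {Jn : E3 → E3}
    (h : NSol lam U δ N W Jn) (s α β : ℝ) (l c : Fin 3 → ℝ) (F : Filter ℝ)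
    (hF : Tendsto (fun t => l 2 * t + c 2) F (𝓝[<] 1)) (x y : ℝ)
    (hx : l 0 * x + c 0 ∈ Icc (0:ℝ) 1) (hy : l 1 * y + c 1 ∈ Icc (0:ℝ) 1) :
    Tendsto (fun t => bw s α β l c W (pt x y t)) F (𝓝 (s * (α + β))) ∧
    Tendsto (fun t => bJ s β l c Jn (pt x y t) 2) F (𝓝 (s * (l 2 * β))) := by
  have hF1 : Tendsto (fun t => l 2 * t + c 2) F (𝓝 1) := hF.mono_right nhdsWithin_le_nhds
  have hev : ∀ᶠ σ in 𝓝[<] (1:ℝ), 1 / 4 ≤ σ ∧ σ < 1 := by
    have h1 : Ico (1 / 4 : ℝ) 1 ∈ 𝓝[<] (1:ℝ) := Ico_mem_nhdsLT (by norm_num)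
    filter_upwards [h1] with σ hσ using hσ
  have hev' := hF.eventually hev
  have hW : Tendsto (fun t => W (afm l c (pt x y t))) F (𝓝 0) := by
    have h0 : Tendsto (fun t => N * (1 - (l 2 * t + c 2))) F (𝓝 0) := by
      have := (hF1.const_sub 1).const_mul N
      simpa using this
    refine squeeze_zero_norm' ?_ h0
    filter_upwards [hev'] with t ht
    have h1 := (h.bdd (afm l c (pt x y t)) (by simpa using hx.1) (by simpa using hx.2)
      (by simpa using hy.1) (by simpa using hy.2) (by simpa using ht.1) (by simpa using ht.2)).2.2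
    simpa [Real.norm_eq_abs] using h1
  have hJ : Tendsto (fun t => Jn (afm l c (pt x y t)) 2) F (𝓝 0) := by
    rw [Metric.tendsto_nhds]
    intro ε hε
    obtain ⟨s0, hs0, hs1⟩ := h.dies (ε / 2) (by positivity)
    have h2 : ∀ᶠ t in F, s0 ≤ l 2 * t + c 2 := hF1.eventually (eventually_ge_nhds hs0)
    filter_upwards [h2] with t ht
    have := hs1 (afm l c (pt x y t)) (by simpa using ht)
    rw [Real.dist_eq, sub_zero]
    linarith
  constructor
  · have h1 : Tendsto (fun t => s * (α + β * (l 2 * t + c 2) + W (afm l c (pt x y t)))) F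
        (𝓝 (s * (α + β * 1 + 0))) :=
      (((hF1.const_mul β).const_add α).add hW).const_mul s
    have h2 : s * (α + β * 1 + 0) = s * (α + β) := by ring
    rw [h2] at h1
    refine h1.congr fun t => ?_
    simp only [bw, afm_two, pt_two]
  · have h1 : Tendsto (fun t => s * (l 2 * (β + Jn (afm l c (pt x y t)) 2))) F
        (𝓝 (s * (l 2 * (β + 0)))) :=
      ((hJ.const_add β).const_mul (l 2)).const_mul s
    rw [add_zero] at h1
    refine h1.congr fun t => ?_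
    simp only [bJ, pt_two]

theorem tendsto_lin_pos (a b t0 : ℝ) (ha : 0 < a) (v : ℝ) (hv : a * t0 + b = v) :
    Tendsto (fun t => a * t + b) (𝓝[>] t0) (𝓝[>] v) ∧
    Tendsto (fun t => a * t + b) (𝓝[<] t0) (𝓝[<] v) := by
  subst hv
  have hc : Continuous fun t : ℝ => a * t + b := by fun_prop
  constructor
  · refine tendsto_nhdsWithin_of_tendsto_nhds_of_eventually_within _
      ((hc.tendsto t0).mono_left nhdsWithin_le_nhds) ?_
    filter_upwards [self_mem_nhdsWithin] with t ht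
    have : t0 < t := ht
    show a * t0 + b < a * t + b
    nlinarith
  · refine tendsto_nhdsWithin_of_tendsto_nhds_of_eventually_within _
      ((hc.tendsto t0).mono_left nhdsWithin_le_nhds) ?_
    filter_upwards [self_mem_nhdsWithin] with t ht
    have : t < t0 := ht
    show a * t + b < a * t0 + b
    nlinarith

theorem tendsto_lin_neg (a b t0 : ℝ) (ha : a < 0) (v : ℝ) (hv : a * t0 + b = v) :
    Tendsto (fun t => a * t + b) (𝓝[>] t0) (𝓝[<] v) ∧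
    Tendsto (fun t => a * t + b) (𝓝[<] t0) (𝓝[>] v) := by
  subst hv
  have hc : Continuous fun t : ℝ => a * t + b := by fun_prop
  constructor
  · refine tendsto_nhdsWithin_of_tendsto_nhds_of_eventually_within _
      ((hc.tendsto t0).mono_left nhdsWithin_le_nhds) ?_
    filter_upwards [self_mem_nhdsWithin] with t ht
    have : t0 < t := ht
    show a * t + b < a * t0 + b
    nlinarith
  · refine tendsto_nhdsWithin_of_tendsto_nhds_of_eventually_within _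
      ((hc.tendsto t0).mono_left nhdsWithin_le_nhds) ?_
    filter_upwards [self_mem_nhdsWithin] with t ht
    have : t < t0 := ht
    show a * t0 + b < a * t + b
    nlinarith

/-- limits of the left core at `σ = 0` -/
theorem coreO_lim (K : CoreData) (M : ℝ) (hM : 1 ≤ M) (X : ℝ) (h0 : 0 < X) (h1 : X ≤ 1) :
    (Tendsto (fun σ => 0 + 0 * σ + (fun q : ℝ × ℝ => K.uL (-(M * q.1)) (2 * q.2 - 1))
        (σ, (X + 1) / 2)) (𝓝[>] 0) (𝓝 (K.v0 X)) ∧
     Tendsto (fun σ => 0 + fderiv ℝ (fun q : ℝ × ℝ => K.uL (-(M * q.1)) (2 * q.2 - 1))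
        (σ, (X + 1) / 2) (1, 0)) (𝓝[>] 0) (𝓝 (-M * K.g0 X))) ∧
    (Tendsto (fun σ => 0 + 0 * σ + (fun q : ℝ × ℝ => K.uL (-(M * q.1)) (2 * q.2 - 1))
        (σ, (-X + 1) / 2)) (𝓝[>] 0) (𝓝 (-K.v0 X)) ∧
     Tendsto (fun σ => 0 + fderiv ℝ (fun q : ℝ × ℝ => K.uL (-(M * q.1)) (2 * q.2 - 1))
        (σ, (-X + 1) / 2) (1, 0)) (𝓝[>] 0) (𝓝 (M * K.g0 X))) := by
  have hM0 : 0 < M := by linarith
  have hlin : Tendsto (fun σ : ℝ => -(M * σ)) (𝓝[>] 0) (𝓝[<] 0) := by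
    have := (tendsto_lin_neg (-M) 0 0 (by linarith) 0 (by ring)).1
    refine this.congr fun t => by ring
  obtain ⟨t1, t2⟩ := K.trL X h0 h1
  have e1 : 2 * ((X + 1) / 2) - 1 = X := by ring
  have e2 : 2 * ((-X + 1) / 2) - 1 = -X := by ring
  have hpos : ∀ᶠ σ in 𝓝[>] (0:ℝ), 0 < σ := self_mem_nhdsWithin
  refine ⟨⟨?_, ?_⟩, ⟨?_, ?_⟩⟩
  · refine (t1.comp hlin).congr fun σ => ?_
    simp only [Function.comp, e1]; ring
  · refine ((t2.comp hlin).const_mul (-M)).congr' ?_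
    filter_upwards [hpos] with σ hσ
    rw [(coreO_fderiv K M hM σ _ hσ).1, e1]
    simp [Function.comp]
  · refine ((t1.comp hlin).neg).congr' ?_
    filter_upwards [hpos] with σ hσ
    have hneg : -(M * σ) < 0 := by have := mul_pos hM0 hσ; linarith
    simp only [Function.comp, e2, (K.oddL _ X hneg).1]; ring
  · refine ((t2.comp hlin).const_mul M).congr' ?_
    filter_upwards [hpos] with σ hσ
    have hneg : -(M * σ) < 0 := by have := mul_pos hM0 hσ; linarith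
    rw [(coreO_fderiv K M hM σ _ hσ).1, e2, (K.oddL _ X hneg).2]
    simp [Function.comp]

/-- limits of the right core at `σ = 0` -/
theorem coreP_lim (K : CoreData) (M : ℝ) (hM : 1 ≤ M) (X : ℝ) (h0 : 0 < X) (h1 : X ≤ 1) :
    Tendsto (fun σ => Real.log 2 + (Real.pi / 2 * M) * σ +
        (fun q : ℝ × ℝ => K.uR (M * q.1) q.2) (σ, X)) (𝓝[>] 0) (𝓝 (K.v0 X)) ∧
    Tendsto (fun σ => Real.pi / 2 * M + fderiv ℝ (fun q : ℝ × ℝ => K.uR (M * q.1) q.2)
        (σ, X) (1, 0)) (𝓝[>] 0) (𝓝 (M * K.g0 X)) := by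
  have hM0 : 0 < M := by linarith
  have hlin : Tendsto (fun σ : ℝ => M * σ) (𝓝[>] 0) (𝓝[>] 0) := by
    have := (tendsto_lin_pos M 0 0 hM0 0 (by ring)).1
    refine this.congr fun t => by ring
  obtain ⟨t1, t2⟩ := K.trR X h0 h1
  have hpos : ∀ᶠ σ in 𝓝[>] (0:ℝ), 0 < σ := self_mem_nhdsWithin
  constructor
  · refine (t1.comp hlin).congr fun σ => ?_
    simp only [Function.comp]; ring
  · refine ((t2.comp hlin).const_mul M).congr' ?_
    filter_upwards [hpos] with σ hσ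
    rw [(coreP_fderiv K M hM σ _ hσ).1]
    simp only [Function.comp]; ring

end Crest.Agent.R083
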