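import Crest.Agent.R083.Prim
import Crest.Agent.R083.FrontMode_Mg
import Crest.Agent.R083.FrontDefs
import Crest.Agent.R083.TMFace
import Crest.Agent.R083.TMTrace2

-- ▼ part R083/FrontPrim
section

/-!
Row 83, TM-c: primitives in the second variable.
-/

set_option autoImplicit false

namespace Crest.Agent.R083

open MeasureTheory Set Filter
open scoped Gradient ENNReal NNReal Topology ContDiff

theorem fr_prim_smooth (b : ℝ × ℝ → ℝ) (hb : ContDiff ℝ ∞ b) :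
    ContDiff ℝ ∞ (fun q : ℝ × ℝ => ∫ t in (0:ℝ)..q.2, b (q.1, t)) := by
  have h : (fun q : ℝ × ℝ => ∫ t in (0:ℝ)..q.2, b (q.1, t)) =
      fun q : ℝ × ℝ => q.2 * ∫ s in (0:ℝ)..1, b (q.1, s * q.2) := by
    funext q
    have := intervalIntegral.smul_integral_comp_mul_right (a := (0:ℝ)) (b := 1)
      (fun t => b (q.1, t)) q.2
    simp only [zero_mul, one_mul, smul_eq_mul] at this
    exact this.symm
  rw [h]
  refine ContDiff.mul (by fun_prop) (contDiff_param (fun (q : ℝ × ℝ) (s : ℝ) => b (q.1, s * q.2)) ?_ 0 1)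
  refine hb.comp ?_
  fun_prop

theorem fr_prim_deriv (b : ℝ × ℝ → ℝ) (hb : ContDiff ℝ ∞ b) (q : ℝ × ℝ) :
    fderiv ℝ (fun q : ℝ × ℝ => ∫ t in (0:ℝ)..q.2, b (q.1, t)) q (0, 1) = b q := by
  set B : ℝ × ℝ → ℝ := fun q : ℝ × ℝ => ∫ t in (0:ℝ)..q.2, b (q.1, t) with hB
  have hBs : ContDiff ℝ ∞ B := fr_prim_smooth b hb
  have h1 : HasFDerivAt B (fderiv ℝ B q) q :=
    (hBs.differentiable (by simp)).differentiableAt.hasFDerivAt
  have h2 : HasDerivAt (fun t : ℝ => (q.1, t)) ((0:ℝ), (1:ℝ)) q.2 :=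
    (hasDerivAt_const q.2 q.1).prodMk (hasDerivAt_id q.2)
  have h3 : HasDerivAt (fun t : ℝ => B (q.1, t)) (fderiv ℝ B q (0, 1)) q.2 :=
    HasFDerivAt.comp_hasDerivAt (x := q.2) (l := B) (f := fun t : ℝ => (q.1, t)) h1 h2
  have hcont : Continuous fun t : ℝ => b (q.1, t) := by
    have := hb.continuous
    fun_prop
  have h4 : HasDerivAt (fun t : ℝ => B (q.1, t)) (b (q.1, q.2)) q.2 :=
    intervalIntegral.integral_hasDerivAt_right (hcont.intervalIntegrable _ _)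
      (hcont.stronglyMeasurableAtFilter _ _) hcont.continuousAt
  exact h3.unique h4

end Crest.Agent.R083
end

-- ▼ part R083/FrontA
section

/-!
Row 83, TM-c (front lemma): the cascade modes.
-/

set_option autoImplicit false

namespace Crest.Agent.R083

open MeasureTheory Set Filter
open scoped Gradient ENNReal NNReal Topology ContDiff

/-! ### splitting of the coupling amplitude -/

/-- Birth part of the coupling amplitude. -/
noncomputable def CascData.bb (D : CascData) (k : ℕ) (σ : ℝ) : ℝ :=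
  if 4 < tauk k σ then D.β k σ else 0

/-- Death part of the coupling amplitude. -/
noncomputable def CascData.bd (D : CascData) (k : ℕ) (σ : ℝ) : ℝ :=
  if tauk k σ < 4 then D.β k σ else 0

theorem CascData.bb_add_bd (D : CascData) (k : ℕ) (σ : ℝ) : D.bb k σ + D.bd k σ = D.β k σ := by
  unfold CascData.bb CascData.bd
  rcases lt_trichotomy (tauk k σ) 4 with h | h | h
  · rw [if_neg (not_lt.2 h.le), if_pos h]; ring
  · rw [if_neg (by rw [h]; exact lt_irrefl _), if_neg (by rw [h]; exact lt_irrefl _)]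
    rw [D.suppβ k σ]
    · ring
    · rw [h]; norm_num
  · rw [if_pos h, if_neg (not_lt.2 h.le)]; ring

theorem tauk_continuous (k : ℕ) : Continuous (tauk k) := (tauk_contDiff k).continuous

theorem CascData.bb_smooth (D : CascData) (k : ℕ) : ContDiff ℝ ∞ (D.bb k) := by
  rw [contDiff_iff_contDiffAt]
  intro σ
  by_cases h : 9 / 16 < tauk k σ
  · have ev : D.bb k =ᶠ[𝓝 σ] D.β k := by
      filter_upwards [(tauk_continuous k).continuousAt.eventually (lt_mem_nhds h)] with s hs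
      unfold CascData.bb
      split_ifs with h4
      · rfl
      · rw [D.suppβ k s]
        rintro (h5 | h5)
        · linarith [h5.2]
        · linarith [h5.1, not_lt.1 h4]
    exact ((D.βs k).contDiffAt).congr_of_eventuallyEq ev
  · have h' : tauk k σ < 4 := by linarith [not_lt.1 h]
    have ev : D.bb k =ᶠ[𝓝 σ] fun _ => 0 := by
      filter_upwards [(tauk_continuous k).continuousAt.eventually (gt_mem_nhds h')] with s hs
      unfold CascData.bb
      rw [if_neg (not_lt.2 hs.le)]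
    exact contDiffAt_const.congr_of_eventuallyEq ev

theorem CascData.bd_smooth (D : CascData) (k : ℕ) : ContDiff ℝ ∞ (D.bd k) := by
  have h : D.bd k = fun σ => D.β k σ - D.bb k σ := by
    funext σ
    rw [← D.bb_add_bd k σ]; ring
  rw [h]
  exact (D.βs k).sub (D.bb_smooth k)

theorem CascData.bb_zero (D : CascData) (k : ℕ) (σ : ℝ) (h : tauk k σ ≤ 7 ∨ 8 ≤ tauk k σ) :
    D.bb k σ = 0 := by
  unfold CascData.bb
  split_ifs with h4
  · apply D.suppβ
    rintro (h5 | h5)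
    · linarith [h5.2]
    · rcases h with h | h
      · linarith [h5.1]
      · linarith [h5.2]
  · rfl

theorem CascData.bd_zero (D : CascData) (k : ℕ) (σ : ℝ)
    (h : tauk k σ ≤ 1 / 2 ∨ 9 / 16 ≤ tauk k σ) : D.bd k σ = 0 := by
  unfold CascData.bd
  split_ifs with h4
  · apply D.suppβ
    rintro (h5 | h5)
    · rcases h with h | h
      · linarith [h5.1]
      · linarith [h5.2]
    · linarith [h5.1]
  · rfl

theorem CascData.bb_abs (D : CascData) (k : ℕ) (σ : ℝ) : |D.bb k σ| ≤ |D.β k σ| := by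
  unfold CascData.bb
  split_ifs
  · exact le_rfl
  · simp

theorem CascData.bd_abs (D : CascData) (k : ℕ) (σ : ℝ) : |D.bd k σ| ≤ |D.β k σ| := by
  unfold CascData.bd
  split_ifs
  · exact le_rfl
  · simp

/-- Birth bound, valid everywhere. -/
theorem CascData.bb_birth (D : CascData) (k : ℕ) (hk : 1 ≤ k) (σ : ℝ) :
    |D.bb (k + 1) σ| ≤ D.r0 / 100 * nk k ^ 2 * D.u k σ := by
  by_cases h : tauk (k + 1) σ ≤ 7 ∨ 8 ≤ tauk (k + 1) σ
  · rw [D.bb_zero _ _ h, abs_zero]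
    have := D.nonneg k σ
    have := D.r0pos
    positivity
  · push Not at h
    exact (D.bb_abs _ _).trans (D.birth k σ hk h.1.le h.2.le)

/-- Death bound, valid everywhere. -/
theorem CascData.bd_death (D : CascData) (k : ℕ) (hk : 1 ≤ k) (σ : ℝ) :
    |D.bd k σ| ≤ D.r0 / 100 * nk (k + 1) ^ 2 * D.u (k + 1) σ := by
  by_cases h : tauk k σ ≤ 1 / 2 ∨ 9 / 16 ≤ tauk k σ
  · rw [D.bd_zero _ _ h, abs_zero]
    have := D.nonneg (k + 1) σ
    have := D.r0pos
    positivity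
  · push Not at h
    exact (D.bd_abs _ _).trans (D.death k σ hk h.1.le h.2.le)

theorem CascData.alpha_zero (D : CascData) (k : ℕ) (σ : ℝ) (h : D.u k σ = 0) : D.α k σ = 0 := by
  have := D.ell k σ
  rw [h] at this
  linarith [this.1, this.2]

theorem CascData.deriv_zero (D : CascData) (k : ℕ) (σ : ℝ) (h : D.u k σ = 0) :
    deriv (D.u k) σ = 0 := by
  apply IsLocalMin.deriv_eq_zero
  filter_upwards with s
  rw [h]
  exact D.nonneg k s

/-- Direction of the mode `k`. -/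
def dirk (k : ℕ) : Fin 3 := if k % 2 = 0 then 0 else 1

theorem dirk_or (k : ℕ) : dirk k = 0 ∨ dirk k = 1 := by
  unfold dirk; split_ifs <;> simp

theorem oth_dirk (k : ℕ) : oth (dirk k) = dirk (k + 1) := by
  unfold dirk oth
  rcases Nat.mod_two_eq_zero_or_one k with h | h
  · have h' : (k + 1) % 2 = 1 := by omega
    simp [h, h']
  · have h' : (k + 1) % 2 = 0 := by omega
    simp [h, h']

theorem oth_dirk_succ (k : ℕ) : oth (dirk (k + 1)) = dirk k := by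
  unfold dirk oth
  rcases Nat.mod_two_eq_zero_or_one k with h | h
  · have h' : (k + 1) % 2 = 1 := by omega
    simp [h, h']
  · have h' : (k + 1) % 2 = 0 := by omega
    simp [h, h']

/-- The mode `k ≥ 1` of the cascade. -/
noncomputable def CascData.mode (D : CascData) (A : ℝ) (k : ℕ) : ModeData where
  i := dirk k
  G q := A * D.u k q.1 * Real.cos (nk k * q.2)
  K q := -(A * D.α k q.1 * (Real.sin (nk k * q.2) / nk k))
  b1 q := A * D.bb k q.1 * Real.cos (nk k * q.2)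
  B1 q := A * D.bb k q.1 * (Real.sin (nk k * q.2) / nk k)
  b2 q := A * D.bd k q.1 * Real.cos (nk k * q.2)
  B2 q := A * D.bd k q.1 * (Real.sin (nk k * q.2) / nk k)
  m1 := nk (k - 1)
  m2 := nk (k + 1)

/-- Partial derivatives of `f(σ) g(n x)`. -/
theorem fa_deriv (f g : ℝ → ℝ) (f' g' : ℝ) (q : ℝ × ℝ) (hf : HasDerivAt f f' q.1)
    (hg : HasDerivAt g g' q.2) :
    HasFDerivAt (fun q : ℝ × ℝ => f q.1 * g q.2)
      ((f' * g q.2) • ContinuousLinearMap.fst ℝ ℝ ℝ +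
        (f q.1 * g') • ContinuousLinearMap.snd ℝ ℝ ℝ) q := by
  have h1 : HasFDerivAt (fun q : ℝ × ℝ => f q.1) (f' • ContinuousLinearMap.fst ℝ ℝ ℝ) q :=
    hf.comp_hasFDerivAt q hasFDerivAt_fst
  have h2 : HasFDerivAt (fun q : ℝ × ℝ => g q.2) (g' • ContinuousLinearMap.snd ℝ ℝ ℝ) q :=
    hg.comp_hasFDerivAt q hasFDerivAt_snd
  refine (h1.mul h2).congr_fderiv ?_
  ext
  · simp
    ring
  · simp

theorem fa_fst (f g : ℝ → ℝ) (q : ℝ × ℝ) (hf : DifferentiableAt ℝ f q.1)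
    (hg : DifferentiableAt ℝ g q.2) :
    fderiv ℝ (fun q : ℝ × ℝ => f q.1 * g q.2) q (1, 0) = deriv f q.1 * g q.2 := by
  rw [(fa_deriv f g _ _ q hf.hasDerivAt hg.hasDerivAt).fderiv]
  simp

theorem fa_snd (f g : ℝ → ℝ) (q : ℝ × ℝ) (hf : DifferentiableAt ℝ f q.1)
    (hg : DifferentiableAt ℝ g q.2) :
    fderiv ℝ (fun q : ℝ × ℝ => f q.1 * g q.2) q (0, 1) = f q.1 * deriv g q.2 := by
  rw [(fa_deriv f g _ _ q hf.hasDerivAt hg.hasDerivAt).fderiv]
  simp

theorem fa_cos (n x : ℝ) : HasDerivAt (fun x => Real.cos (n * x)) (-(n * Real.sin (n * x))) x := by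
  have h1 : HasDerivAt (fun x : ℝ => n * x) n x := by
    simpa using (hasDerivAt_id x).const_mul n
  exact (h1.cos).congr_deriv (by ring)

theorem fa_sin (n x : ℝ) (hn : n ≠ 0) :
    HasDerivAt (fun x => Real.sin (n * x) / n) (Real.cos (n * x)) x := by
  have h1 : HasDerivAt (fun x : ℝ => n * x) n x := by
    simpa using (hasDerivAt_id x).const_mul n
  exact (h1.sin.div_const n).congr_deriv (by field_simp)

namespace CascData

variable (D : CascData) (A : ℝ) (k : ℕ)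

theorem mode_fst (q : ℝ × ℝ) :
    fderiv ℝ (D.mode A k).G q (1, 0) = A * deriv (D.u k) q.1 * Real.cos (nk k * q.2) := by
  have hu : DifferentiableAt ℝ (fun σ => A * D.u k σ) q.1 :=
    (((D.us k).differentiable (by simp)).differentiableAt).const_mul A
  have h := fa_fst (fun σ => A * D.u k σ) (fun x => Real.cos (nk k * x)) q hu
    (fa_cos _ _).differentiableAt
  rw [deriv_const_mul _ (((D.us k).differentiable (by simp)).differentiableAt)] at h
  exact h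

theorem mode_snd (q : ℝ × ℝ) :
    fderiv ℝ (D.mode A k).G q (0, 1) = -(A * D.u k q.1 * nk k * Real.sin (nk k * q.2)) := by
  have hu : DifferentiableAt ℝ (fun σ => A * D.u k σ) q.1 :=
    (((D.us k).differentiable (by simp)).differentiableAt).const_mul A
  have h := fa_snd (fun σ => A * D.u k σ) (fun x => Real.cos (nk k * x)) q hu
    (fa_cos _ _).differentiableAt
  rw [(fa_cos _ _).deriv] at h
  rw [show (D.mode A k).G = fun q : ℝ × ℝ => (fun σ => A * D.u k σ) q.1 *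
    (fun x => Real.cos (nk k * x)) q.2 from rfl, h]
  ring

theorem smooth_cos (n : ℝ) : ContDiff ℝ ∞ (fun q : ℝ × ℝ => Real.cos (n * q.2)) := by
  fun_prop

theorem smooth_sin (n : ℝ) : ContDiff ℝ ∞ (fun q : ℝ × ℝ => Real.sin (n * q.2) / n) := by
  fun_prop

theorem mode_isFld : IsFld univ (D.mode A k).w (D.mode A k).J := by
  have hn : nk k ≠ 0 := (nk_pos k).ne'
  have sfst (f : ℝ → ℝ) (hf : ContDiff ℝ ∞ f) : ContDiff ℝ ∞ (fun q : ℝ × ℝ => A * f q.1) :=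
    contDiff_const.mul (hf.comp contDiff_fst)
  have hd (f : ℝ → ℝ) (hf : ContDiff ℝ ∞ f) (x : ℝ) : DifferentiableAt ℝ (fun s => A * f s) x :=
    ((hf.differentiable (by simp)).differentiableAt).const_mul A
  have key := mode_field (D.mode A k) (dirk_or k) univ isOpen_univ (nk_pos (k - 1)).ne'
    (nk_pos (k + 1)).ne'
    ((sfst _ (D.us k)).mul (smooth_cos _)).contDiffOn
    ((sfst _ (D.αs k)).mul (smooth_sin _)).neg.contDiffOn
    ((sfst _ (D.bb_smooth k)).mul (smooth_cos _)).contDiffOn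
    ((sfst _ (D.bb_smooth k)).mul (smooth_sin _)).contDiffOn
    ((sfst _ (D.bd_smooth k)).mul (smooth_cos _)).contDiffOn
    ((sfst _ (D.bd_smooth k)).mul (smooth_sin _)).contDiffOn
    (fun q _ => by
      have h := fa_snd (fun σ => A * D.bb k σ) (fun x => Real.sin (nk k * x) / nk k) q
        (hd _ (D.bb_smooth k) _) (fa_sin _ _ hn).differentiableAt
      rw [(fa_sin _ _ hn).deriv] at h
      exact h)
    (fun q _ => by
      have h := fa_snd (fun σ => A * D.bd k σ) (fun x => Real.sin (nk k * x) / nk k) q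
        (hd _ (D.bd_smooth k) _) (fa_sin _ _ hn).differentiableAt
      rw [(fa_sin _ _ hn).deriv] at h
      exact h)
    (fun q _ => by
      have e1 : (fun q => fderiv ℝ (D.mode A k).G q (1, 0)) =
          fun q : ℝ × ℝ => (fun σ => A * deriv (D.u k) σ) q.1 *
            (fun x => Real.cos (nk k * x)) q.2 := by
        funext q; exact D.mode_fst A k q
      have hu' : ContDiff ℝ ∞ (deriv (D.u k)) := (D.us k).iterate_deriv 1
      have h1 := fa_fst (fun σ => A * deriv (D.u k) σ) (fun x => Real.cos (nk k * x)) q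
        (hd _ hu' _) (fa_cos _ _).differentiableAt
      rw [deriv_const_mul _ ((hu'.differentiable (by simp)).differentiableAt), D.ode] at h1
      rw [e1, h1]
      have h2 := fa_snd (fun σ => -(A * D.α k σ)) (fun x => Real.sin (nk k * x) / nk k) q
        (hd _ (D.αs k) _).neg (fa_sin _ _ hn).differentiableAt
      rw [(fa_sin _ _ hn).deriv] at h2
      have e2 : (D.mode A k).K = fun q : ℝ × ℝ => (fun σ => -(A * D.α k σ)) q.1 *
          (fun x => Real.sin (nk k * x) / nk k) q.2 := by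
        funext q
        simp only [CascData.mode]
        ring
      rw [e2, h2]
      simp only [CascData.mode]
      rw [← D.bb_add_bd k q.1]
      ring)
  simpa using key

theorem mode_w (p : E3) : (D.mode A k).w p = A * D.u k (p 2) * Real.cos (nk k * p (dirk k)) := rfl

end CascData

end Crest.Agent.R083
end

-- ▼ part R083/FrontB
section

/-!
Row 83, TM-c (front lemma): the mode `0`.
-/

set_option autoImplicit false

namespace Crest.Agent.R083

open MeasureTheory Set Filter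
open scoped Gradient ENNReal NNReal Topology ContDiff

/-- Cutoff of the mode `0`: equal to `1` for `σ ≤ 1/2` and to `0` for `σ ≥ 5/8`. -/
noncomputable def cut0 (σ : ℝ) : ℝ := 1 - Real.smoothTransition (8 * (σ - 1 / 2))

theorem cut0_smooth : ContDiff ℝ ∞ cut0 := by
  unfold cut0
  exact contDiff_const.sub (Real.smoothTransition.contDiff.comp (by fun_prop))

theorem cut0_one (σ : ℝ) (h : σ ≤ 1 / 2) : cut0 σ = 1 := by
  unfold cut0
  rw [Real.smoothTransition.zero_of_nonpos (by linarith)]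
  ring

theorem cut0_zero (σ : ℝ) (h : 5 / 8 ≤ σ) : cut0 σ = 0 := by
  unfold cut0
  rw [Real.smoothTransition.one_of_one_le (by linarith)]
  ring

theorem cut0_mem (σ : ℝ) : 0 ≤ cut0 σ ∧ cut0 σ ≤ 1 := by
  unfold cut0
  have h1 := Real.smoothTransition.nonneg (8 * (σ - 1 / 2))
  have h2 := Real.smoothTransition.le_one (8 * (σ - 1 / 2))
  constructor <;> linarith

/-- A continuous function vanishing off `(1/2, 5/8)` except at the end points. -/
theorem fb_ends (f : ℝ → ℝ) (hf : Continuous f) (h1 : ∀ σ, σ < 1 / 2 → f σ = 0)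
    (h2 : ∀ σ, 5 / 8 < σ → f σ = 0) (σ : ℝ) (h : σ ≤ 1 / 2 ∨ 5 / 8 ≤ σ) : f σ = 0 := by
  have hc : IsClosed {s | f s = 0} := isClosed_eq hf continuous_const
  rcases h with h | h
  · have : closure (Iio (1 / 2 : ℝ)) ⊆ {s | f s = 0} := closure_minimal (fun s hs => h1 s hs) hc
    rw [closure_Iio] at this
    exact this h
  · have : closure (Ioi (5 / 8 : ℝ)) ⊆ {s | f s = 0} := closure_minimal (fun s hs => h2 s hs) hc
    rw [closure_Ioi] at this
    exact this h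

theorem cut0_deriv_smooth : ContDiff ℝ ∞ (deriv cut0) := cut0_smooth.iterate_deriv 1

theorem cut0_deriv2_smooth : ContDiff ℝ ∞ (deriv (deriv cut0)) := cut0_smooth.iterate_deriv 2

theorem cut0_deriv_zero (σ : ℝ) (h : σ ≤ 1 / 2 ∨ 5 / 8 ≤ σ) : deriv cut0 σ = 0 := by
  refine fb_ends _ cut0_deriv_smooth.continuous (fun s hs => ?_) (fun s hs => ?_) σ h
  · have : cut0 =ᶠ[𝓝 s] fun _ => 1 := by
      filter_upwards [gt_mem_nhds hs] with t ht
      exact cut0_one t ht.le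
    rw [this.deriv_eq, deriv_const]
  · have : cut0 =ᶠ[𝓝 s] fun _ => 0 := by
      filter_upwards [lt_mem_nhds hs] with t ht
      exact cut0_zero t ht.le
    rw [this.deriv_eq, deriv_const]

theorem cut0_deriv2_zero (σ : ℝ) (h : σ ≤ 1 / 2 ∨ 5 / 8 ≤ σ) : deriv (deriv cut0) σ = 0 := by
  refine fb_ends _ cut0_deriv2_smooth.continuous (fun s hs => ?_) (fun s hs => ?_) σ h
  · have : deriv cut0 =ᶠ[𝓝 s] fun _ => 0 := by
      filter_upwards [gt_mem_nhds hs] with t ht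
      exact cut0_deriv_zero t (Or.inl (le_of_lt ht))
    rw [this.deriv_eq, deriv_const]
  · have : deriv cut0 =ᶠ[𝓝 s] fun _ => 0 := by
      filter_upwards [lt_mem_nhds hs] with t ht
      exact cut0_deriv_zero t (Or.inr (le_of_lt ht))
    rw [this.deriv_eq, deriv_const]

/-- Source created by the cutoff. -/
noncomputable def bz (U : ℝ × ℝ → ℝ) (q : ℝ × ℝ) : ℝ :=
  2 * deriv cut0 q.1 * fderiv ℝ U q (1, 0) + deriv (deriv cut0) q.1 * U q

theorem bz_zero (U : ℝ × ℝ → ℝ) (q : ℝ × ℝ) (h : q.1 ≤ 1 / 2 ∨ 5 / 8 ≤ q.1) : bz U q = 0 := by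
  unfold bz
  rw [cut0_deriv_zero _ h, cut0_deriv2_zero _ h]
  ring

/-- The right half plane. -/
def hp : Set (ℝ × ℝ) := {q | 0 < q.1}

theorem hp_open : IsOpen hp := isOpen_lt continuous_const continuous_fst

theorem fb_partial (U : ℝ × ℝ → ℝ) (hU : ContDiffOn ℝ ∞ U hp) (v : ℝ × ℝ) :
    ContDiffOn ℝ ∞ (fun q => fderiv ℝ U q v) hp := by
  have h : ContDiffOn ℝ ∞ (fderiv ℝ U) hp :=
    ContDiffOn.fderiv_of_isOpen hU hp_open (by simp)
  exact h.clm_apply contDiffOn_const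

theorem fb_at (U : ℝ × ℝ → ℝ) (hU : ContDiffOn ℝ ∞ U hp) (q : ℝ × ℝ) (hq : q ∈ hp) :
    DifferentiableAt ℝ U q :=
  (hU.contDiffAt (hp_open.mem_nhds hq)).differentiableAt (by simp)

theorem bz_smooth (U : ℝ × ℝ → ℝ) (hU : ContDiffOn ℝ ∞ U hp) : ContDiff ℝ ∞ (bz U) := by
  rw [contDiff_iff_contDiffAt]
  intro q
  by_cases h : 0 < q.1
  · have hq : hp ∈ 𝓝 q := hp_open.mem_nhds h
    have s1 : ContDiffAt ℝ ∞ (fun q : ℝ × ℝ => deriv cut0 q.1) q :=
      (cut0_deriv_smooth.comp contDiff_fst).contDiffAt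
    have s2 : ContDiffAt ℝ ∞ (fun q : ℝ × ℝ => deriv (deriv cut0) q.1) q :=
      (cut0_deriv2_smooth.comp contDiff_fst).contDiffAt
    exact ((contDiffAt_const.mul s1).mul ((fb_partial U hU (1, 0)).contDiffAt hq)).add
      (s2.mul (hU.contDiffAt hq))
  · have h' : q.1 < 1 / 2 := by linarith [not_lt.1 h]
    have ev : bz U =ᶠ[𝓝 q] fun _ => 0 := by
      filter_upwards [continuous_fst.continuousAt.eventually (gt_mem_nhds h')] with s hs
      exact bz_zero U s (Or.inl hs.le)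
    exact contDiffAt_const.congr_of_eventuallyEq ev

/-- Primitive of `bz` in the second variable. -/
noncomputable def Bz (U : ℝ × ℝ → ℝ) (q : ℝ × ℝ) : ℝ := ∫ t in (0:ℝ)..q.2, bz U (q.1, t)

theorem Bz_smooth (U : ℝ × ℝ → ℝ) (hU : ContDiffOn ℝ ∞ U hp) : ContDiff ℝ ∞ (Bz U) :=
  fr_prim_smooth _ (bz_smooth U hU)

theorem Bz_zero (U : ℝ × ℝ → ℝ) (q : ℝ × ℝ) (h : q.1 ≤ 1 / 2 ∨ 5 / 8 ≤ q.1) : Bz U q = 0 := by
  unfold Bz
  have : ∀ t, bz U (q.1, t) = 0 := fun t => bz_zero U _ h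
  simp [this]

theorem Bz_left (U : ℝ × ℝ → ℝ) (σ : ℝ) : Bz U (σ, 0) = 0 := by simp [Bz]

/-- The mode `0`. -/
noncomputable def mode0 (U : ℝ × ℝ → ℝ) (lam : ℝ) : ModeData where
  i := 0
  G q := cut0 q.1 * U q
  K q := lam * cut0 q.1 * fderiv ℝ U q (0, 1)
  b1 := bz U
  B1 := Bz U
  b2 _ := 0
  B2 _ := 0
  m1 := nk 1
  m2 := 1

theorem fb_mul (f : ℝ → ℝ) (g : ℝ × ℝ → ℝ) (q : ℝ × ℝ) (hf : DifferentiableAt ℝ f q.1)
    (hg : DifferentiableAt ℝ g q) :
    fderiv ℝ (fun q : ℝ × ℝ => f q.1 * g q) q (1, 0) =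
      deriv f q.1 * g q + f q.1 * fderiv ℝ g q (1, 0) ∧
    fderiv ℝ (fun q : ℝ × ℝ => f q.1 * g q) q (0, 1) = f q.1 * fderiv ℝ g q (0, 1) := by
  have h1 : HasFDerivAt (fun q : ℝ × ℝ => f q.1) (deriv f q.1 • ContinuousLinearMap.fst ℝ ℝ ℝ) q :=
    hf.hasDerivAt.comp_hasFDerivAt q hasFDerivAt_fst
  have h : fderiv ℝ (fun q : ℝ × ℝ => f q.1 * g q) q = f q.1 • fderiv ℝ g q +
      g q • deriv f q.1 • ContinuousLinearMap.fst ℝ ℝ ℝ := (h1.mul hg.hasFDerivAt).fderiv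
  constructor
  · rw [h]; simp; ring
  · rw [h]; simp

theorem mode0_fst (U : ℝ × ℝ → ℝ) (lam : ℝ) (q : ℝ × ℝ) (hU : DifferentiableAt ℝ U q) :
    fderiv ℝ (mode0 U lam).G q (1, 0) =
      deriv cut0 q.1 * U q + cut0 q.1 * fderiv ℝ U q (1, 0) :=
  (fb_mul cut0 U q ((cut0_smooth.differentiable (by simp)).differentiableAt) hU).1

theorem mode0_snd (U : ℝ × ℝ → ℝ) (lam : ℝ) (q : ℝ × ℝ) (hU : DifferentiableAt ℝ U q) :
    fderiv ℝ (mode0 U lam).G q (0, 1) = cut0 q.1 * fderiv ℝ U q (0, 1) :=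
  (fb_mul cut0 U q ((cut0_smooth.differentiable (by simp)).differentiableAt) hU).2

theorem mode0_isFld (U : ℝ × ℝ → ℝ) (lam : ℝ) (hU : ContDiffOn ℝ ∞ U hp)
    (hpde : ∀ q : ℝ × ℝ, 0 < q.1 → fderiv ℝ (fun q => fderiv ℝ U q (1, 0)) q (1, 0) +
          lam * fderiv ℝ (fun q => fderiv ℝ U q (0, 1)) q (0, 1) = 0) :
    IsFld {p : E3 | 0 < p 2} (mode0 U lam).w (mode0 U lam).J := by
  have sc : ContDiffOn ℝ ∞ (fun q : ℝ × ℝ => cut0 q.1) hp :=
    (cut0_smooth.comp contDiff_fst).contDiffOn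
  have dc (x : ℝ) : DifferentiableAt ℝ cut0 x :=
    (cut0_smooth.differentiable (by simp)).differentiableAt
  have dc' (x : ℝ) : DifferentiableAt ℝ (deriv cut0) x :=
    (cut0_deriv_smooth.differentiable (by simp)).differentiableAt
  refine mode_field (mode0 U lam) (Or.inl rfl) hp hp_open (nk_pos 1).ne' one_ne_zero
    (sc.mul hU) ((contDiffOn_const.mul sc).mul (fb_partial U hU _))
    (bz_smooth U hU).contDiffOn (Bz_smooth U hU).contDiffOn contDiffOn_const contDiffOn_const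
    (fun q _ => fr_prim_deriv _ (bz_smooth U hU) q) (fun q _ => by simp [mode0]) ?_
  intro q hq
  have e1 : (fun q => fderiv ℝ (mode0 U lam).G q (1, 0)) =ᶠ[𝓝 q]
      fun q => deriv cut0 q.1 * U q + cut0 q.1 * fderiv ℝ U q (1, 0) := by
    filter_upwards [hp_open.mem_nhds hq] with s hs
    exact mode0_fst U lam s (fb_at U hU s hs)
  have d1 : DifferentiableAt ℝ U q := fb_at U hU q hq
  have d2 : DifferentiableAt ℝ (fun q => fderiv ℝ U q (1, 0)) q :=
    fb_at _ (fb_partial U hU (1, 0)) q hq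
  have d3 : DifferentiableAt ℝ (fun q => fderiv ℝ U q (0, 1)) q :=
    fb_at _ (fb_partial U hU (0, 1)) q hq
  have m1 := fb_mul (deriv cut0) U q (dc' _) d1
  have m2 := fb_mul cut0 (fun q => fderiv ℝ U q (1, 0)) q (dc _) d2
  have m3 := fb_mul (fun s => lam * cut0 s) (fun q => fderiv ℝ U q (0, 1)) q
    ((dc _).const_mul lam) d3
  have a1 : DifferentiableAt ℝ (fun q : ℝ × ℝ => deriv cut0 q.1 * U q) q :=
    ((dc' q.1).comp q differentiableAt_fst).mul d1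
  have a2 : DifferentiableAt ℝ (fun q : ℝ × ℝ => cut0 q.1 * fderiv ℝ U q (1, 0)) q :=
    ((dc q.1).comp q differentiableAt_fst).mul d2
  rw [e1.fderiv_eq]
  have e2 : fderiv ℝ (fun q : ℝ × ℝ => deriv cut0 q.1 * U q + cut0 q.1 * fderiv ℝ U q (1, 0)) q =
      fderiv ℝ (fun q : ℝ × ℝ => deriv cut0 q.1 * U q) q +
        fderiv ℝ (fun q : ℝ × ℝ => cut0 q.1 * fderiv ℝ U q (1, 0)) q := fderiv_add a1 a2
  rw [e2, add_apply, m1.1, m2.1]
  have e3 : (mode0 U lam).K = fun q : ℝ × ℝ => (fun s => lam * cut0 s) q.1 *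
      (fun q => fderiv ℝ U q (0, 1)) q := rfl
  rw [e3, m3.2]
  have hp' := hpde q hq
  simp only [mode0, bz]
  linear_combination (cut0 q.1) * hp'

end Crest.Agent.R083
end

-- ▼ part R083/FrontEll
section

/-!
Row 83, TM-c (front lemma): the perturbative ellipticity inequality and the choice of the
amplitude.
-/

set_option autoImplicit false

namespace Crest.Agent.R083

open MeasureTheory Set Filter
open scoped Gradient ENNReal NNReal Topology ContDiff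

/-- `J = diag (r1, r2) P + e` with a small cross error `e`. -/
theorem fe_ell (r0 R0 r1 r2 P1 P2 J1 J2 : ℝ) (hr0 : 0 < r0)
    (h1 : r0 ≤ r1 ∧ r1 ≤ R0) (h2 : r0 ≤ r2 ∧ r2 ≤ R0)
    (e1 : |J1 - r1 * P1| ≤ r0 / 10 * |P1| + r0 / 5 * |P2|)
    (e2 : |J2 - r2 * P2| ≤ r0 / 5 * |P1| + r0 / 10 * |P2|) :
    r0 / 2 / (1 + 16 * R0 ^ 2) * (P1 ^ 2 + P2 ^ 2 + J1 ^ 2 + J2 ^ 2) ≤ J1 * P1 + J2 * P2 := by
  have hR0 : 0 < R0 := lt_of_lt_of_le hr0 (h1.1.trans h1.2)
  have hrR : r0 ≤ R0 := h1.1.trans h1.2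
  set a := |P1| with ha
  set b := |P2| with hb
  have ha0 : 0 ≤ a := abs_nonneg _
  have hb0 : 0 ≤ b := abs_nonneg _
  have haa : P1 ^ 2 = a ^ 2 := (sq_abs P1).symm
  have hbb : P2 ^ 2 = b ^ 2 := (sq_abs P2).symm
  have k1 : |(J1 - r1 * P1) * P1| ≤ (r0 / 10 * a + r0 / 5 * b) * a := by
    rw [abs_mul]; exact mul_le_mul_of_nonneg_right e1 ha0
  have k2 : |(J2 - r2 * P2) * P2| ≤ (r0 / 5 * a + r0 / 10 * b) * b := by
    rw [abs_mul]; exact mul_le_mul_of_nonneg_right e2 hb0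
  have k1' := neg_abs_le ((J1 - r1 * P1) * P1)
  have k2' := neg_abs_le ((J2 - r2 * P2) * P2)
  have hlow : r0 / 2 * (a ^ 2 + b ^ 2) ≤ J1 * P1 + J2 * P2 := by
    have e : J1 * P1 + J2 * P2 = r1 * P1 ^ 2 + r2 * P2 ^ 2 + (J1 - r1 * P1) * P1 +
        (J2 - r2 * P2) * P2 := by ring
    have q1 : r0 * a ^ 2 ≤ r1 * P1 ^ 2 := by
      rw [haa]; exact mul_le_mul_of_nonneg_right h1.1 (sq_nonneg _)
    have q2 : r0 * b ^ 2 ≤ r2 * P2 ^ 2 := by
      rw [hbb]; exact mul_le_mul_of_nonneg_right h2.1 (sq_nonneg _)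
    nlinarith [mul_nonneg hr0.le (sq_nonneg (a - b)), mul_nonneg hr0.le (sq_nonneg a),
      mul_nonneg hr0.le (sq_nonneg b)]
  have j1 : |J1| ≤ 2 * R0 * (a + b) := by
    have t : J1 = (J1 - r1 * P1) + r1 * P1 := by ring
    have t2 : |J1| ≤ |J1 - r1 * P1| + |r1 * P1| := by
      conv_lhs => rw [t]
      exact abs_add_le _ _
    have t3 : |r1 * P1| ≤ R0 * a := by
      rw [abs_mul, abs_of_pos (lt_of_lt_of_le hr0 h1.1)]
      exact mul_le_mul_of_nonneg_right h1.2 ha0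
    nlinarith [mul_nonneg hR0.le ha0, mul_nonneg hR0.le hb0, mul_le_mul_of_nonneg_right hrR ha0,
      mul_le_mul_of_nonneg_right hrR hb0]
  have j2 : |J2| ≤ 2 * R0 * (a + b) := by
    have t : J2 = (J2 - r2 * P2) + r2 * P2 := by ring
    have t2 : |J2| ≤ |J2 - r2 * P2| + |r2 * P2| := by
      conv_lhs => rw [t]
      exact abs_add_le _ _
    have t3 : |r2 * P2| ≤ R0 * b := by
      rw [abs_mul, abs_of_pos (lt_of_lt_of_le hr0 h2.1)]
      exact mul_le_mul_of_nonneg_right h2.2 hb0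
    nlinarith [mul_nonneg hR0.le ha0, mul_nonneg hR0.le hb0, mul_le_mul_of_nonneg_right hrR ha0,
      mul_le_mul_of_nonneg_right hrR hb0]
  have s1 : J1 ^ 2 ≤ (2 * R0 * (a + b)) ^ 2 := by
    rw [← sq_abs J1]; exact pow_le_pow_left₀ (abs_nonneg _) j1 2
  have s2 : J2 ^ 2 ≤ (2 * R0 * (a + b)) ^ 2 := by
    rw [← sq_abs J2]; exact pow_le_pow_left₀ (abs_nonneg _) j2 2
  have hup : P1 ^ 2 + P2 ^ 2 + J1 ^ 2 + J2 ^ 2 ≤ (1 + 16 * R0 ^ 2) * (a ^ 2 + b ^ 2) := by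
    nlinarith [mul_nonneg (sq_nonneg R0) (sq_nonneg (a - b))]
  have hD : 0 < 1 + 16 * R0 ^ 2 := by positivity
  calc r0 / 2 / (1 + 16 * R0 ^ 2) * (P1 ^ 2 + P2 ^ 2 + J1 ^ 2 + J2 ^ 2)
      ≤ r0 / 2 / (1 + 16 * R0 ^ 2) * ((1 + 16 * R0 ^ 2) * (a ^ 2 + b ^ 2)) :=
        mul_le_mul_of_nonneg_left hup (by positivity)
    _ = r0 / 2 * (a ^ 2 + b ^ 2) := by field_simp
    _ ≤ _ := hlow

/-- Choice of the amplitude `A = exp (-27 ρ / 64)`. -/
theorem fe_amp (ε Bm c0 um E1 E2 : ℝ) (hε : 0 < ε) (hc0 : 0 < c0) (hum : 0 < um) :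
    ∃ ρ0 : ℝ, 1 ≤ ρ0 ∧ ∀ ρ : ℝ, ρ0 ≤ ρ →
      Real.exp (-(27 / 64 * ρ)) * Bm ≤ ε * c0 * Real.exp (-ρ * (11 / 32)) ∧
      (E1 * ρ + E2) * Real.exp (-ρ * (1 / 2)) ≤ ε * Real.exp (-(27 / 64 * ρ)) * um := by
  have h1 : Tendsto (fun ρ : ℝ => Real.exp (-(5 / 64 * ρ)) * Bm) atTop (𝓝 0) := by
    have : Tendsto (fun ρ : ℝ => Real.exp (-(5 / 64 * ρ))) atTop (𝓝 0) :=
      Real.tendsto_exp_neg_atTop_nhds_zero.comp
        (tendsto_id.const_mul_atTop (by norm_num : (0:ℝ) < 5 / 64))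
    simpa using this.mul_const Bm
  have h2 : Tendsto (fun ρ : ℝ => (E1 * ρ + E2) * Real.exp (-(5 / 64 * ρ))) atTop (𝓝 0) := by
    have a1 : Tendsto (fun x : ℝ => x * Real.exp (-x)) atTop (𝓝 0) := by
      simpa using Real.tendsto_pow_mul_exp_neg_atTop_nhds_zero 1
    have a2 : Tendsto (fun ρ : ℝ => (5 / 64 * ρ) * Real.exp (-(5 / 64 * ρ))) atTop (𝓝 0) :=
      a1.comp (tendsto_id.const_mul_atTop (by norm_num : (0:ℝ) < 5 / 64))
    have a3 : Tendsto (fun ρ : ℝ => Real.exp (-(5 / 64 * ρ))) atTop (𝓝 0) :=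
      Real.tendsto_exp_neg_atTop_nhds_zero.comp
        (tendsto_id.const_mul_atTop (by norm_num : (0:ℝ) < 5 / 64))
    have := (a2.const_mul (E1 * (64 / 5))).add (a3.const_mul E2)
    simp only [mul_zero, add_zero] at this
    refine this.congr fun ρ => ?_
    ring
  have e1 := h1.eventually (gt_mem_nhds (show (0:ℝ) < ε * c0 by positivity))
  have e2 := h2.eventually (gt_mem_nhds (show (0:ℝ) < ε * um by positivity))
  obtain ⟨a, ha⟩ := eventually_atTop.1 (e1.and e2)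
  refine ⟨max a 1, le_max_right _ _, fun ρ hρ => ?_⟩
  obtain ⟨g1, g2⟩ := ha ρ ((le_max_left _ _).trans hρ)
  constructor
  · have e : Real.exp (-(27 / 64 * ρ)) = Real.exp (-(5 / 64 * ρ)) * Real.exp (-ρ * (11 / 32)) := by
      rw [← Real.exp_add]; congr 1; ring
    rw [e]
    calc _ = Real.exp (-(5 / 64 * ρ)) * Bm * Real.exp (-ρ * (11 / 32)) := by ring
      _ ≤ ε * c0 * Real.exp (-ρ * (11 / 32)) :=
        mul_le_mul_of_nonneg_right g1.le (Real.exp_pos _).le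
  · have e : Real.exp (-ρ * (1 / 2)) = Real.exp (-(5 / 64 * ρ)) * Real.exp (-(27 / 64 * ρ)) := by
      rw [← Real.exp_add]; congr 1; ring
    rw [e]
    calc _ = (E1 * ρ + E2) * Real.exp (-(5 / 64 * ρ)) * Real.exp (-(27 / 64 * ρ)) := by ring
      _ ≤ ε * um * Real.exp (-(27 / 64 * ρ)) :=
        mul_le_mul_of_nonneg_right g2.le (Real.exp_pos _).le
      _ = _ := by ring

end Crest.Agent.R083
end

-- ▼ part R083/FrontTwo
section

/-!
Row 83, TM-c (front lemma): two-mode ellipticity, real number form.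
-/

set_option autoImplicit false

namespace Crest.Agent.R083

open MeasureTheory Set Filter
open scoped Gradient ENNReal NNReal Topology ContDiff

theorem ft_ratio (r0 R0 n u al : ℝ) (hr : r0 ≤ R0) (hn : 0 < n) (hu : 0 ≤ u)
    (h : r0 * n ^ 2 * u ≤ al ∧ al ≤ R0 * n ^ 2 * u) :
    ∃ r, (r0 ≤ r ∧ r ≤ R0) ∧ al = r * n ^ 2 * u := by
  rcases hu.eq_or_lt with h0 | h0
  · refine ⟨r0, ⟨le_rfl, hr⟩, ?_⟩
    rw [← h0] at h ⊢
    linarith [h.1, h.2]
  · have hp : 0 < n ^ 2 * u := by positivity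
    refine ⟨al / (n ^ 2 * u), ⟨?_, ?_⟩, ?_⟩
    · rw [le_div_iff₀ hp]; linarith [h.1]
    · rw [div_le_iff₀ hp]; linarith [h.2]
    · field_simp

/-- Two neighbouring cascade modes. -/
theorem ft_casc (r0 R0 A n1 n0 u1 u0 al1 al0 bb bd S1 C1 S0 C0 : ℝ) (hr0 : 0 < r0)
    (hr : r0 ≤ R0) (hA : 0 < A) (hn0 : 0 < n0) (hn : n1 = 8 * n0) (hu1 : 0 ≤ u1) (hu0 : 0 ≤ u0)
    (ell1 : r0 * n1 ^ 2 * u1 ≤ al1 ∧ al1 ≤ R0 * n1 ^ 2 * u1)
    (ell0 : r0 * n0 ^ 2 * u0 ≤ al0 ∧ al0 ≤ R0 * n0 ^ 2 * u0)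
    (hbb : |bb| ≤ r0 / 100 * n0 ^ 2 * u0) (hbd : |bd| ≤ r0 / 100 * n1 ^ 2 * u1)
    (hS1 : |S1| ≤ 1) (hC1 : |C1| ≤ 1) (hS0 : |S0| ≤ 1) (hC0 : |C0| ≤ 1)
    (P1 P2 J1 J2 : ℝ) (hP1 : P1 = -(A * u1 * n1 * S1)) (hP2 : P2 = -(A * u0 * n0 * S0))
    (hJ1 : J1 = -(A * al1 * (S1 / n1)) - 2 * S0 ^ 2 * (A * bb * (S1 / n1))
      - A * bd * C0 * (S1 * C1 / n1))
    (hJ2 : J2 = -(A * al0 * (S0 / n0)) - 2 * S1 ^ 2 * (A * bd * (S0 / n0))
      - A * bb * C1 * (S0 * C0 / n0)) :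
    r0 / 2 / (1 + 16 * R0 ^ 2) * (P1 ^ 2 + P2 ^ 2 + J1 ^ 2 + J2 ^ 2) ≤ J1 * P1 + J2 * P2 := by
  have hn1 : 0 < n1 := by rw [hn]; positivity
  obtain ⟨r1, hr1, e1⟩ := ft_ratio r0 R0 n1 u1 al1 hr hn1 hu1 ell1
  obtain ⟨r2, hr2, e2⟩ := ft_ratio r0 R0 n0 u0 al0 hr hn0 hu0 ell0
  have aS1 := abs_nonneg S1
  have aS0 := abs_nonneg S0
  have aP1 : |P1| = A * u1 * n1 * |S1| := by
    rw [hP1, abs_neg, abs_mul, abs_of_nonneg (by positivity : 0 ≤ A * u1 * n1)]
  have aP2 : |P2| = A * u0 * n0 * |S0| := by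
    rw [hP2, abs_neg, abs_mul, abs_of_nonneg (by positivity : 0 ≤ A * u0 * n0)]
  -- first line
  have d1 : J1 - r1 * P1 = -(2 * S0 ^ 2 * (A * bb * (S1 / n1))) - A * bd * C0 * (S1 * C1 / n1) := by
    rw [hJ1, hP1, e1]; field_simp; ring
  have d2 : J2 - r2 * P2 = -(2 * S1 ^ 2 * (A * bd * (S0 / n0))) - A * bb * C1 * (S0 * C0 / n0) := by
    rw [hJ2, hP2, e2]; field_simp; ring
  have b1 : |2 * S0 ^ 2 * (A * bb * (S1 / n1))| ≤ r0 / 400 * (A * u0 * n0 * |S0|) := by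
    have : |2 * S0 ^ 2 * (A * bb * (S1 / n1))| = 2 * |S0| * |S0| * (A * |bb| * (|S1| / n1)) := by
      rw [abs_mul, abs_mul, abs_mul, abs_mul, abs_div, abs_pow, abs_of_pos hA, abs_of_pos hn1,
        abs_of_pos (by norm_num : (0:ℝ) < 2)]
      ring
    rw [this]
    calc 2 * |S0| * |S0| * (A * |bb| * (|S1| / n1))
        ≤ 2 * |S0| * 1 * (A * (r0 / 100 * n0 ^ 2 * u0) * (1 / n1)) := by gcongr
      _ = r0 / 400 * (A * u0 * n0 * |S0|) := by rw [hn]; field_simp; ring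
  have b2 : |A * bd * C0 * (S1 * C1 / n1)| ≤ r0 / 100 * (A * u1 * n1 * |S1|) := by
    have : |A * bd * C0 * (S1 * C1 / n1)| = A * |bd| * |C0| * (|S1| * |C1| / n1) := by
      rw [abs_mul, abs_mul, abs_mul, abs_div, abs_mul, abs_of_pos hA, abs_of_pos hn1]
    rw [this]
    calc A * |bd| * |C0| * (|S1| * |C1| / n1)
        ≤ A * (r0 / 100 * n1 ^ 2 * u1) * 1 * (|S1| * 1 / n1) := by gcongr
      _ = r0 / 100 * (A * u1 * n1 * |S1|) := by field_simp
  have b3 : |2 * S1 ^ 2 * (A * bd * (S0 / n0))| ≤ 16 * r0 / 100 * (A * u1 * n1 * |S1|) := by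
    have : |2 * S1 ^ 2 * (A * bd * (S0 / n0))| = 2 * |S1| * |S1| * (A * |bd| * (|S0| / n0)) := by
      rw [abs_mul, abs_mul, abs_mul, abs_mul, abs_div, abs_pow, abs_of_pos hA, abs_of_pos hn0,
        abs_of_pos (by norm_num : (0:ℝ) < 2)]
      ring
    rw [this]
    calc 2 * |S1| * |S1| * (A * |bd| * (|S0| / n0))
        ≤ 2 * |S1| * 1 * (A * (r0 / 100 * n1 ^ 2 * u1) * (1 / n0)) := by gcongr
      _ = 16 * r0 / 100 * (A * u1 * n1 * |S1|) := by rw [hn]; field_simp; ring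
  have b4 : |A * bb * C1 * (S0 * C0 / n0)| ≤ r0 / 100 * (A * u0 * n0 * |S0|) := by
    have : |A * bb * C1 * (S0 * C0 / n0)| = A * |bb| * |C1| * (|S0| * |C0| / n0) := by
      rw [abs_mul, abs_mul, abs_mul, abs_div, abs_mul, abs_of_pos hA, abs_of_pos hn0]
    rw [this]
    calc A * |bb| * |C1| * (|S0| * |C0| / n0)
        ≤ A * (r0 / 100 * n0 ^ 2 * u0) * 1 * (|S0| * 1 / n0) := by gcongr
      _ = r0 / 100 * (A * u0 * n0 * |S0|) := by field_simp
  have q1 : 0 ≤ A * u1 * n1 * |S1| := by positivity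
  have q2 : 0 ≤ A * u0 * n0 * |S0| := by positivity
  refine fe_ell r0 R0 r1 r2 P1 P2 J1 J2 hr0 hr1 hr2 ?_ ?_
  · rw [d1, aP1, aP2]
    calc _ ≤ |(2 * S0 ^ 2 * (A * bb * (S1 / n1)))| + |A * bd * C0 * (S1 * C1 / n1)| := by
          refine (abs_sub _ _).trans ?_
          rw [abs_neg]
      _ ≤ r0 / 400 * (A * u0 * n0 * |S0|) + r0 / 100 * (A * u1 * n1 * |S1|) := add_le_add b1 b2
      _ ≤ _ := by linarith [mul_nonneg hr0.le q1, mul_nonneg hr0.le q2]
  · rw [d2, aP1, aP2]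
    calc _ ≤ |(2 * S1 ^ 2 * (A * bd * (S0 / n0)))| + |A * bb * C1 * (S0 * C0 / n0)| := by
          refine (abs_sub _ _).trans ?_
          rw [abs_neg]
      _ ≤ 16 * r0 / 100 * (A * u1 * n1 * |S1|) + r0 / 100 * (A * u0 * n0 * |S0|) :=
          add_le_add b3 b4
      _ ≤ _ := by linarith [mul_nonneg hr0.le q1, mul_nonneg hr0.le q2]

/-- The first cascade mode (direction 1, wave number `n1`) and the mode `0` (direction 0). -/
theorem ft_zero (r0 R0 lam A n1 u1 al1 bb bz B Ux c S1 C1 sx cx : ℝ) (hr0 : 0 < r0)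
    (hr : r0 ≤ R0) (hA : 0 < A) (hn1 : 1 ≤ n1) (hu1 : 0 ≤ u1) (hlam : r0 ≤ lam ∧ lam ≤ R0)
    (ell1 : r0 * n1 ^ 2 * u1 ≤ al1 ∧ al1 ≤ R0 * n1 ^ 2 * u1)
    (hbb : A * |bb| * |sx| ≤ r0 / 100 * |c * Ux|)
    (hbz : |bz| ≤ r0 / 100 * A * u1) (hB : |B| ≤ r0 / 100 * A * u1)
    (hS1 : |S1| ≤ 1) (hC1 : |C1| ≤ 1) (hsx : |sx| ≤ 1) (hcx : |cx| ≤ 1)
    (P1 P2 J1 J2 : ℝ) (hP1 : P1 = -(A * u1 * n1 * S1)) (hP2 : P2 = c * Ux)
    (hJ1 : J1 = -(A * al1 * (S1 / n1)) - 2 * sx ^ 2 * (A * bb * (S1 / n1))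
      - bz * (S1 * C1 / n1))
    (hJ2 : J2 = lam * (c * Ux) - 2 * S1 ^ 2 * B - A * bb * C1 * (sx * cx / Real.pi)) :
    r0 / 2 / (1 + 16 * R0 ^ 2) * (P1 ^ 2 + P2 ^ 2 + J1 ^ 2 + J2 ^ 2) ≤ J1 * P1 + J2 * P2 := by
  have hn1' : 0 < n1 := by linarith
  obtain ⟨r1, hr1, e1⟩ := ft_ratio r0 R0 n1 u1 al1 hr hn1' hu1 ell1
  have aS1 := abs_nonneg S1
  have asx := abs_nonneg sx
  have aP1 : |P1| = A * u1 * n1 * |S1| := by
    rw [hP1, abs_neg, abs_mul, abs_of_nonneg (by positivity : 0 ≤ A * u1 * n1)]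
  have q1 : 0 ≤ A * u1 * |S1| := by positivity
  have q1' : A * u1 * |S1| ≤ |P1| := by
    rw [aP1]
    nlinarith
  have q2 : 0 ≤ |P2| := abs_nonneg _
  have q3 : 0 ≤ |P1| := abs_nonneg _
  have d1 : J1 - r1 * P1 = -(2 * sx ^ 2 * (A * bb * (S1 / n1))) - bz * (S1 * C1 / n1) := by
    rw [hJ1, hP1, e1]; field_simp; ring
  have d2 : J2 - lam * P2 = -(2 * S1 ^ 2 * B) - A * bb * C1 * (sx * cx / Real.pi) := by
    rw [hJ2, hP2]; ring
  have b1 : |2 * sx ^ 2 * (A * bb * (S1 / n1))| ≤ r0 / 50 * |P2| := by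
    have : |2 * sx ^ 2 * (A * bb * (S1 / n1))| = 2 * |sx| * (A * |bb| * |sx|) * (|S1| / n1) := by
      rw [abs_mul, abs_mul, abs_mul, abs_mul, abs_div, abs_pow, abs_of_pos hA, abs_of_pos hn1',
        abs_of_pos (by norm_num : (0:ℝ) < 2)]
      ring
    rw [this, hP2]
    calc 2 * |sx| * (A * |bb| * |sx|) * (|S1| / n1)
        ≤ 2 * 1 * (r0 / 100 * |c * Ux|) * (1 / 1) := by gcongr
      _ = r0 / 50 * |c * Ux| := by ring
  have b2 : |bz * (S1 * C1 / n1)| ≤ r0 / 100 * |P1| := by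
    have : |bz * (S1 * C1 / n1)| = |bz| * (|S1| * |C1| / n1) := by
      rw [abs_mul, abs_div, abs_mul, abs_of_pos hn1']
    rw [this]
    calc |bz| * (|S1| * |C1| / n1) ≤ (r0 / 100 * A * u1) * (|S1| * 1 / 1) := by gcongr
      _ = r0 / 100 * (A * u1 * |S1|) := by ring
      _ ≤ r0 / 100 * |P1| := by gcongr
  have b3 : |2 * S1 ^ 2 * B| ≤ r0 / 50 * |P1| := by
    have : |2 * S1 ^ 2 * B| = 2 * |S1| * |S1| * |B| := by
      rw [abs_mul, abs_mul, abs_pow, abs_of_pos (by norm_num : (0:ℝ) < 2)]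
      ring
    rw [this]
    calc 2 * |S1| * |S1| * |B| ≤ 2 * |S1| * 1 * (r0 / 100 * A * u1) := by gcongr
      _ = r0 / 50 * (A * u1 * |S1|) := by ring
      _ ≤ r0 / 50 * |P1| := by gcongr
  have b4 : |A * bb * C1 * (sx * cx / Real.pi)| ≤ r0 / 100 * |P2| := by
    have hpi : 1 ≤ Real.pi := by linarith [Real.pi_gt_three]
    have : |A * bb * C1 * (sx * cx / Real.pi)| = (A * |bb| * |sx|) * |C1| * (|cx| / Real.pi) := by
      rw [abs_mul, abs_mul, abs_mul, abs_div, abs_mul, abs_of_pos hA, abs_of_pos Real.pi_pos]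
      ring
    rw [this, hP2]
    calc (A * |bb| * |sx|) * |C1| * (|cx| / Real.pi)
        ≤ (r0 / 100 * |c * Ux|) * 1 * (1 / 1) := by gcongr
      _ = r0 / 100 * |c * Ux| := by ring
  refine fe_ell r0 R0 r1 lam P1 P2 J1 J2 hr0 hr1 hlam ?_ ?_
  · rw [d1]
    calc _ ≤ |(2 * sx ^ 2 * (A * bb * (S1 / n1)))| + |bz * (S1 * C1 / n1)| := by
          refine (abs_sub _ _).trans ?_
          rw [abs_neg]
      _ ≤ r0 / 50 * |P2| + r0 / 100 * |P1| := add_le_add b1 b2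
      _ ≤ _ := by linarith [mul_nonneg hr0.le q2, mul_nonneg hr0.le q3]
  · rw [d2]
    calc _ ≤ |(2 * S1 ^ 2 * B)| + |A * bb * C1 * (sx * cx / Real.pi)| := by
          refine (abs_sub _ _).trans ?_
          rw [abs_neg]
      _ ≤ r0 / 50 * |P1| + r0 / 100 * |P2| := add_le_add b3 b4
      _ ≤ _ := by linarith [mul_nonneg hr0.le q2, mul_nonneg hr0.le q3]

end Crest.Agent.R083
end

-- ▼ part R083/FrontSum
section

/-!
Row 83, TM-c (front lemma): locally finite sums of fields.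
-/

set_option autoImplicit false

namespace Crest.Agent.R083

open MeasureTheory Set Filter
open scoped Gradient ENNReal NNReal Topology ContDiff

theorem fld_tsum (Ω : Set E3) (hΩ : IsOpen Ω) (w : ℕ → E3 → ℝ) (J : ℕ → E3 → E3)
    (h : ∀ j, IsFld Ω (w j) (J j))
    (hloc : ∀ p ∈ Ω, ∃ K : ℕ, ∀ᶠ q in 𝓝 p, ∀ j, K ≤ j → w j q = 0 ∧ J j q = 0) :
    IsFld Ω (fun p => ∑' j, w j p) (fun p => ∑' j, J j p) ∧
    ∀ p ∈ Ω, ∃ K : ℕ, ∀ K', K ≤ K' →
      (∑' j, w j p = ∑ j ∈ Finset.range K', w j p) ∧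
      (∑' j, J j p = ∑ j ∈ Finset.range K', J j p) ∧
      fderiv ℝ (fun p => ∑' j, w j p) p = ∑ j ∈ Finset.range K', fderiv ℝ (w j) p := by
  have evw : ∀ p ∈ Ω, ∃ K : ℕ, ∀ K', K ≤ K' →
      ((fun p => ∑' j, w j p) =ᶠ[𝓝 p] fun q => ∑ j ∈ Finset.range K', w j q) ∧
      ((fun p => ∑' j, J j p) =ᶠ[𝓝 p] fun q => ∑ j ∈ Finset.range K', J j q) := by
    intro p hp
    obtain ⟨K, hK⟩ := hloc p hp
    refine ⟨K, fun K' hK' => ⟨?_, ?_⟩⟩
    · filter_upwards [hK] with q hq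
      exact tsum_eq_sum (fun j hj => (hq j (hK'.trans (by simpa using hj))).1)
    · filter_upwards [hK] with q hq
      exact tsum_eq_sum (fun j hj => (hq j (hK'.trans (by simpa using hj))).2)
  have dw : ∀ p ∈ Ω, ∀ j, DifferentiableAt ℝ (w j) p := fun p hp j =>
    ((h j).1.contDiffAt (hΩ.mem_nhds hp)).differentiableAt (by simp)
  have dJ : ∀ p ∈ Ω, ∀ j, DifferentiableAt ℝ (J j) p := fun p hp j =>
    ((h j).2.1.contDiffAt (hΩ.mem_nhds hp)).differentiableAt (by simp)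
  have fw : ∀ p ∈ Ω, ∀ n, fderiv ℝ (fun q => ∑ j ∈ Finset.range n, w j q) p =
      ∑ j ∈ Finset.range n, fderiv ℝ (w j) p := fun p hp n =>
    fderiv_fun_sum (fun j _ => dw p hp j)
  have fJ : ∀ p ∈ Ω, ∀ n, fderiv ℝ (fun q => ∑ j ∈ Finset.range n, J j q) p =
      ∑ j ∈ Finset.range n, fderiv ℝ (J j) p := fun p hp n =>
    fderiv_fun_sum (fun j _ => dJ p hp j)
  refine ⟨⟨?_, ?_, ?_⟩, ?_⟩
  · intro p hp
    obtain ⟨K, hK⟩ := evw p hp
    have : ContDiffAt ℝ ∞ (fun q => ∑ j ∈ Finset.range K, w j q) p :=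
      ContDiffAt.sum (fun j _ => (h j).1.contDiffAt (hΩ.mem_nhds hp))
    exact (this.congr_of_eventuallyEq (hK K le_rfl).1).contDiffWithinAt
  · intro p hp
    obtain ⟨K, hK⟩ := evw p hp
    have : ContDiffAt ℝ ∞ (fun q => ∑ j ∈ Finset.range K, J j q) p :=
      ContDiffAt.sum (fun j _ => (h j).2.1.contDiffAt (hΩ.mem_nhds hp))
    exact (this.congr_of_eventuallyEq (hK K le_rfl).2).contDiffWithinAt
  · intro p hp
    obtain ⟨K, hK⟩ := evw p hp
    obtain ⟨e1, e2⟩ := hK K le_rfl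
    have e3 : (∑' j, J j p) = ∑ j ∈ Finset.range K, J j p := e2.self_of_nhds
    constructor
    · change fderiv ℝ (fun p => ∑' j, w j p) p (ee 2) = (∑' j, J j p) 2
      rw [e1.fderiv_eq, fw p hp K, e3, sum_apply]
      have : (∑ j ∈ Finset.range K, J j p) 2 = ∑ j ∈ Finset.range K, J j p 2 := by
        rw [WithLp.ofLp_sum, Finset.sum_apply]
      rw [this]
      exact Finset.sum_congr rfl fun j _ => ((h j).2.2 p hp).1
    · unfold dvg
      rw [e2.fderiv_eq, fJ p hp K]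
      have hd : ∀ j, ∑ i : Fin 3, (fderiv ℝ (J j) p (ee i)) i = 0 := fun j => ((h j).2.2 p hp).2
      have : ∀ i : Fin 3, ((∑ j ∈ Finset.range K, fderiv ℝ (J j) p) (ee i)) i =
          ∑ j ∈ Finset.range K, (fderiv ℝ (J j) p (ee i)) i := by
        intro i
        rw [sum_apply, WithLp.ofLp_sum, Finset.sum_apply]
      rw [Finset.sum_congr rfl fun i _ => this i, Finset.sum_comm]
      exact Finset.sum_eq_zero fun j _ => hd j
  · intro p hp
    obtain ⟨K, hK⟩ := evw p hp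
    refine ⟨K, fun K' hK' => ?_⟩
    obtain ⟨e1, e2⟩ := hK K' hK'
    refine ⟨e1.self_of_nhds, e2.self_of_nhds, ?_⟩
    rw [e1.fderiv_eq, fw p hp K']
end Crest.Agent.R083
end

-- ▼ part R083/FrontC
section

/-!
Row 83, TM-c (front lemma): the family of all modes and the two-mode evaluation.
-/

set_option autoImplicit false

namespace Crest.Agent.R083

open MeasureTheory Set Filter
open scoped Gradient ENNReal NNReal Topology ContDiff

theorem ModeData.J_dir (M : ModeData) (hi : M.i = 0 ∨ M.i = 1) (p : E3) :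
    M.J p M.i = M.Ji p ∧ M.J p (oth M.i) = M.Jo p ∧
      M.J p 2 = fderiv ℝ M.G (p 2, p M.i) (1, 0) := by
  unfold ModeData.J oth
  rcases hi with h | h
  · simp [h, pt]
  · simp [h, pt]

/-- The alive condition fails. -/
def Dead (k : ℕ) (σ : ℝ) : Prop := tauk k σ ≤ 1 / 2 ∨ 8 ≤ tauk k σ

namespace CascData

variable (D : CascData) (A : ℝ) (k : ℕ)

theorem dead_vals (σ : ℝ) (h : Dead k σ) :
    D.u k σ = 0 ∧ D.α k σ = 0 ∧ deriv (D.u k) σ = 0 ∧ D.bb k σ = 0 ∧ D.bd k σ = 0 := by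
  have hu := D.supp k σ h
  refine ⟨hu, D.alpha_zero k σ hu, D.deriv_zero k σ hu, D.bb_zero k σ ?_, D.bd_zero k σ ?_⟩
  · rcases h with h | h
    · left; linarith
    · right; exact h
  · rcases h with h | h
    · left; exact h
    · right; linarith

theorem mode_Ji (p : E3) : (D.mode A k).Ji p =
    -(A * D.α k (p 2) * (Real.sin (nk k * p (dirk k)) / nk k))
    - 2 * Real.sin (nk (k - 1) * p (oth (dirk k))) ^ 2 *
      (A * D.bb k (p 2) * (Real.sin (nk k * p (dirk k)) / nk k))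
    - 2 * Real.sin (nk (k + 1) * p (oth (dirk k))) ^ 2 *
      (A * D.bd k (p 2) * (Real.sin (nk k * p (dirk k)) / nk k)) := rfl

theorem mode_Jo (p : E3) : (D.mode A k).Jo p =
    -(A * D.bb k (p 2) * Real.cos (nk k * p (dirk k)) *
      (Real.sin (2 * nk (k - 1) * p (oth (dirk k))) / (2 * nk (k - 1))))
    - A * D.bd k (p 2) * Real.cos (nk k * p (dirk k)) *
      (Real.sin (2 * nk (k + 1) * p (oth (dirk k))) / (2 * nk (k + 1))) := rfl

theorem mode_J2 (p : E3) :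
    (D.mode A k).J p 2 = A * deriv (D.u k) (p 2) * Real.cos (nk k * p (dirk k)) := by
  rw [((D.mode A k).J_dir (dirk_or k) p).2.2, D.mode_fst]
  rfl

theorem mode_Jdir (p : E3) : (D.mode A k).J p (dirk k) = (D.mode A k).Ji p :=
  ((D.mode A k).J_dir (dirk_or k) p).1

theorem mode_Joth (p : E3) : (D.mode A k).J p (oth (dirk k)) = (D.mode A k).Jo p :=
  ((D.mode A k).J_dir (dirk_or k) p).2.1

theorem mode_diff (q : ℝ × ℝ) : DifferentiableAt ℝ (D.mode A k).G q := by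
  have : ContDiff ℝ ∞ (D.mode A k).G :=
    (contDiff_const.mul ((D.us k).comp contDiff_fst)).mul (smooth_cos _)
  exact (this.differentiable (by simp)).differentiableAt

theorem mode_g (p : E3) :
    fderiv ℝ (D.mode A k).w p (ee (dirk k)) =
      -(A * D.u k (p 2) * nk k * Real.sin (nk k * p (dirk k))) ∧
    fderiv ℝ (D.mode A k).w p (ee (oth (dirk k))) = 0 ∧
    fderiv ℝ (D.mode A k).w p (ee 2) =
      A * deriv (D.u k) (p 2) * Real.cos (nk k * p (dirk k)) := by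
  obtain ⟨h1, h2, h3⟩ := mode_grad (D.mode A k) (dirk_or k) p (D.mode_diff A k _)
  refine ⟨?_, h2, ?_⟩
  · rw [← D.mode_snd A k (p 2, p (dirk k))]; exact h1
  · rw [← D.mode_fst A k (p 2, p (dirk k))]; exact h3

/-- All the three coordinates are covered. -/
theorem _root_.Crest.Agent.R083.fc_cases (k : ℕ) (P : Fin 3 → Prop) (h1 : P (dirk k))
    (h2 : P (oth (dirk k))) (h3 : P 2) : ∀ i, P i := by
  intro i
  rcases dirk_or k with h | h
  · rw [h] at h1 h2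
    fin_cases i
    · exact h1
    · simpa [oth] using h2
    · exact h3
  · rw [h] at h1 h2
    fin_cases i
    · simpa [oth] using h2
    · exact h1
    · exact h3

theorem mode_dead (p : E3) (h : Dead k (p 2)) :
    (D.mode A k).w p = 0 ∧ (D.mode A k).J p = 0 ∧
      ∀ i, fderiv ℝ (D.mode A k).w p (ee i) = 0 := by
  obtain ⟨h1, h2, h3, h4, h5⟩ := D.dead_vals k (p 2) h
  refine ⟨?_, ?_, ?_⟩
  · rw [mode_w, h1]; ring
  · have : ∀ i, (D.mode A k).J p i = 0 := by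
      refine fc_cases k _ ?_ ?_ ?_
      · rw [mode_Jdir, mode_Ji, h2, h4, h5]; ring
      · rw [mode_Joth, mode_Jo, h4, h5]; ring
      · rw [mode_J2, h3]; ring
    ext i
    simpa using this i
  · obtain ⟨g1, g2, g3⟩ := D.mode_g A k p
    refine fc_cases k _ ?_ ?_ ?_
    · rw [g1, h1]; ring
    · exact g2
    · rw [g3, h3]; ring

end CascData

/-! ### mode 0 values -/

section
variable (U : ℝ × ℝ → ℝ) (lam : ℝ)

theorem mode0_Ji (p : E3) : (mode0 U lam).Ji p =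
    lam * cut0 (p 2) * fderiv ℝ U (p 2, p 0) (0, 1)
      - 2 * Real.sin (nk 1 * p 1) ^ 2 * Bz U (p 2, p 0) := by
  simp [ModeData.Ji, mode0, oth]

theorem mode0_Jo (p : E3) : (mode0 U lam).Jo p =
    -(bz U (p 2, p 0) * (Real.sin (2 * nk 1 * p 1) / (2 * nk 1))) := by
  simp [ModeData.Jo, mode0, oth]

theorem mode0_J0 (p : E3) : (mode0 U lam).J p 0 = (mode0 U lam).Ji p :=
  ((mode0 U lam).J_dir (Or.inl rfl) p).1

theorem mode0_J1 (p : E3) : (mode0 U lam).J p 1 = (mode0 U lam).Jo p :=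
  ((mode0 U lam).J_dir (Or.inl rfl) p).2.1

theorem mode0_J2 (hU : ContDiffOn ℝ ∞ U hp) (p : E3) (hp2 : 0 < p 2) :
    (mode0 U lam).J p 2 =
      deriv cut0 (p 2) * U (p 2, p 0) + cut0 (p 2) * fderiv ℝ U (p 2, p 0) (1, 0) := by
  rw [((mode0 U lam).J_dir (Or.inl rfl) p).2.2]
  exact mode0_fst U lam (p 2, p 0) (fb_at U hU _ hp2)

theorem mode0_g (hU : ContDiffOn ℝ ∞ U hp) (p : E3) (hp2 : 0 < p 2) :
    fderiv ℝ (mode0 U lam).w p (ee 0) = cut0 (p 2) * fderiv ℝ U (p 2, p 0) (0, 1) ∧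
    fderiv ℝ (mode0 U lam).w p (ee 1) = 0 ∧
    fderiv ℝ (mode0 U lam).w p (ee 2) =
      deriv cut0 (p 2) * U (p 2, p 0) + cut0 (p 2) * fderiv ℝ U (p 2, p 0) (1, 0) := by
  have hc : DifferentiableAt ℝ (fun q : ℝ × ℝ => cut0 q.1) (p 2, p 0) :=
    ((cut0_smooth.comp contDiff_fst).differentiable (by simp)).differentiableAt
  have hd : DifferentiableAt ℝ (mode0 U lam).G (p 2, p 0) :=
    hc.mul (fb_at U hU (p 2, p 0) hp2)
  obtain ⟨h1, h2, h3⟩ := mode_grad (mode0 U lam) (Or.inl rfl) p hd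
  refine ⟨?_, ?_, ?_⟩
  · rw [← mode0_snd U lam (p 2, p 0) (fb_at U hU _ hp2)]; exact h1
  · simpa [mode0, oth] using h2
  · rw [← mode0_fst U lam (p 2, p 0) (fb_at U hU _ hp2)]; exact h3

theorem mode0_dead (hU : ContDiffOn ℝ ∞ U hp) (p : E3) (h : 5 / 8 ≤ p 2) :
    (mode0 U lam).w p = 0 ∧ (mode0 U lam).J p = 0 ∧
      ∀ i, fderiv ℝ (mode0 U lam).w p (ee i) = 0 := by
  have h0 : 0 < p 2 := by linarith
  have c0 := cut0_zero (p 2) h
  have c1 := cut0_deriv_zero (p 2) (Or.inr h)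
  have b0 : bz U (p 2, p 0) = 0 := bz_zero U _ (Or.inr h)
  have b1 : Bz U (p 2, p 0) = 0 := Bz_zero U _ (Or.inr h)
  refine ⟨?_, ?_, ?_⟩
  · change cut0 (p 2) * U (p 2, p 0) = 0
    rw [c0]; ring
  · ext i
    fin_cases i
    · change (mode0 U lam).J p 0 = 0
      rw [mode0_J0, mode0_Ji, c0, b1]; ring
    · change (mode0 U lam).J p 1 = 0
      rw [mode0_J1, mode0_Jo, b0]; ring
    · change (mode0 U lam).J p 2 = 0
      rw [mode0_J2 U lam hU p h0, c0, c1]; ring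
  · obtain ⟨g1, g2, g3⟩ := mode0_g U lam hU p h0
    intro i
    fin_cases i
    · change fderiv ℝ (mode0 U lam).w p (ee 0) = 0
      rw [g1, c0]; ring
    · exact g2
    · change fderiv ℝ (mode0 U lam).w p (ee 2) = 0
      rw [g3, c0, c1]; ring

end

/-! ### The family -/

/-- All modes. -/
noncomputable def frm (D : CascData) (U : ℝ × ℝ → ℝ) (lam A : ℝ) : ℕ → ModeData
  | 0 => mode0 U lam
  | k + 1 => D.mode A (k + 1)

/-- The potential. -/
noncomputable def frW (D : CascData) (U : ℝ × ℝ → ℝ) (lam A : ℝ) (p : E3) : ℝ :=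
  ∑' j, (frm D U lam A j).w p

/-- The flux. -/
noncomputable def frJ (D : CascData) (U : ℝ × ℝ → ℝ) (lam A : ℝ) (p : E3) : E3 :=
  ∑' j, (frm D U lam A j).J p

theorem tauk_mono (k j : ℕ) (hkj : k ≤ j) (σ : ℝ) (h : 0 ≤ tauk k σ) :
    8 ^ (j - k) * tauk k σ = tauk j σ ∧ tauk k σ ≤ tauk j σ := by
  have e : 8 ^ (j - k) * tauk k σ = tauk j σ := by
    unfold tauk
    have : (8:ℝ) ^ j = 8 ^ (j - k) * 8 ^ k := by rw [← pow_add]; congr 1; omega
    rw [this]; ring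
  refine ⟨e, ?_⟩
  rw [← e]
  have : (1:ℝ) ≤ 8 ^ (j - k) := one_le_pow₀ (by norm_num)
  nlinarith

theorem tauk_pos (k : ℕ) (σ : ℝ) (h : σ < 1) : 0 < tauk k σ := by
  unfold tauk
  have : 0 < 1 - σ := by linarith
  positivity

theorem tauk_ge (s : ℝ) (hs : s < 1) : ∃ K : ℕ, 1 ≤ K ∧ 8 ≤ tauk K s := by
  obtain ⟨n, hn⟩ := pow_unbounded_of_one_lt (8 / ((4 / 3) * (1 - s))) (by norm_num : (1:ℝ) < 8)
  have h0 : 0 < (4 / 3) * (1 - s) := by
    have : 0 < 1 - s := by linarith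
    positivity
  refine ⟨n + 1, by omega, ?_⟩
  rw [div_lt_iff₀ h0] at hn
  have h1 : tauk (n + 1) s = 8 * (8 ^ n * (4 / 3 * (1 - s))) := by unfold tauk; rw [pow_succ]; ring
  rw [h1]
  linarith

theorem tauk_anti (k : ℕ) {s t : ℝ} (h : s ≤ t) : tauk k t ≤ tauk k s := by
  unfold tauk
  have : (0:ℝ) ≤ 8 ^ k * (4 / 3) := by positivity
  nlinarith

theorem fr_fld (D : CascData) (U : ℝ × ℝ → ℝ) (lam A : ℝ) (hU : ContDiffOn ℝ ∞ U hp)
    (hpde : ∀ q : ℝ × ℝ, 0 < q.1 → fderiv ℝ (fun q => fderiv ℝ U q (1, 0)) q (1, 0) +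
          lam * fderiv ℝ (fun q => fderiv ℝ U q (0, 1)) q (0, 1) = 0) :
    IsFld {p : E3 | 0 < p 2 ∧ p 2 < 1} (frW D U lam A) (frJ D U lam A) ∧
    ∀ p : E3, 0 < p 2 → p 2 < 1 → ∃ K : ℕ, ∀ K', K ≤ K' →
      (frW D U lam A p = ∑ j ∈ Finset.range K', (frm D U lam A j).w p) ∧
      (frJ D U lam A p = ∑ j ∈ Finset.range K', (frm D U lam A j).J p) ∧
      fderiv ℝ (frW D U lam A) p =
        ∑ j ∈ Finset.range K', fderiv ℝ (frm D U lam A j).w p := by
  have c2 : Continuous fun p : E3 => p 2 := by fun_prop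
  have hΩ : IsOpen {p : E3 | 0 < p 2 ∧ p 2 < 1} :=
    (isOpen_lt continuous_const c2).inter (isOpen_lt c2 continuous_const)
  have hfld : ∀ j, IsFld {p : E3 | 0 < p 2 ∧ p 2 < 1} (frm D U lam A j).w
      (frm D U lam A j).J := by
    intro j
    cases j with
    | zero =>
      obtain ⟨a, b, c⟩ := mode0_isFld U lam hU hpde
      exact ⟨a.mono fun p h => h.1, b.mono fun p h => h.1, fun p h => c p h.1⟩
    | succ k =>
      obtain ⟨a, b, c⟩ := D.mode_isFld A (k + 1)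
      exact ⟨a.mono (subset_univ _), b.mono (subset_univ _), fun p _ => c p (mem_univ _)⟩
  have hloc : ∀ p ∈ {p : E3 | 0 < p 2 ∧ p 2 < 1}, ∃ K : ℕ, ∀ᶠ q in 𝓝 p, ∀ j, K ≤ j →
      (frm D U lam A j).w q = 0 ∧ (frm D U lam A j).J q = 0 := by
    intro p hp'
    obtain ⟨K, hK1, hK⟩ := tauk_ge ((p 2 + 1) / 2) (by linarith [hp'.2])
    refine ⟨K, ?_⟩
    have hlt : p 2 < (p 2 + 1) / 2 := by linarith [hp'.2]
    filter_upwards [c2.continuousAt.eventually (gt_mem_nhds hlt)] with q hq j hj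
    cases j with
    | zero => omega
    | succ k =>
      have hd : Dead (k + 1) (q 2) := by
        right
        have h1 : 8 ≤ tauk K (q 2) := hK.trans (tauk_anti K hq.le)
        exact h1.trans (tauk_mono K (k + 1) hj (q 2) (by linarith)).2
      obtain ⟨a, b, _⟩ := D.mode_dead A (k + 1) q hd
      exact ⟨a, b⟩
  obtain ⟨h1, h2⟩ := fld_tsum _ hΩ (fun j => (frm D U lam A j).w) (fun j => (frm D U lam A j).J)
    hfld hloc
  exact ⟨h1, fun p a b => h2 p ⟨a, b⟩⟩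

/-- Two-mode evaluation. -/
theorem fr_two (D : CascData) (U : ℝ × ℝ → ℝ) (lam A : ℝ) (hU : ContDiffOn ℝ ∞ U hp)
    (hpde : ∀ q : ℝ × ℝ, 0 < q.1 → fderiv ℝ (fun q => fderiv ℝ U q (1, 0)) q (1, 0) +
          lam * fderiv ℝ (fun q => fderiv ℝ U q (0, 1)) q (0, 1) = 0)
    (p : E3) (hp0 : 0 < p 2) (hp1 : p 2 < 1) :
    ∃ m : ℕ, 1 ≤ tauk (m + 1) (p 2) ∧ (m = 0 ∨ tauk (m + 1) (p 2) < 8) ∧
      frW D U lam A p = (frm D U lam A m).w p + (frm D U lam A (m + 1)).w p ∧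
      frJ D U lam A p = (frm D U lam A m).J p + (frm D U lam A (m + 1)).J p ∧
      ∀ i, fderiv ℝ (frW D U lam A) p (ee i) =
        fderiv ℝ (frm D U lam A m).w p (ee i) + fderiv ℝ (frm D U lam A (m + 1)).w p (ee i) := by
  classical
  obtain ⟨K0, hK01, hK0⟩ := tauk_ge (p 2) hp1
  have hex : ∃ m : ℕ, 1 ≤ tauk (m + 1) (p 2) := by
    refine ⟨K0 - 1, ?_⟩
    rw [Nat.sub_add_cancel hK01]
    linarith
  set m := Nat.find hex with hm
  have hm1 : 1 ≤ tauk (m + 1) (p 2) := Nat.find_spec hex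
  have hm2 : m = 0 ∨ tauk (m + 1) (p 2) < 8 := by
    rcases Nat.eq_zero_or_pos m with h | h
    · exact Or.inl h
    · right
      have := Nat.find_min hex (m := m - 1) (by omega)
      rw [not_le, Nat.sub_add_cancel h] at this
      rw [tauk_succ]; linarith
  have dead : ∀ j, j ≠ m → j ≠ m + 1 → (frm D U lam A j).w p = 0 ∧ (frm D U lam A j).J p = 0 ∧
      ∀ i, fderiv ℝ (frm D U lam A j).w p (ee i) = 0 := by
    intro j hj1 hj2
    cases j with
    | zero =>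
      refine mode0_dead U lam hU p ?_
      have hmp : 1 ≤ m := by omega
      have h8 : tauk (m + 1) (p 2) < 8 := by
        rcases hm2 with h | h
        · omega
        · exact h
      have h1 : tauk m (p 2) < 1 := by rw [tauk_succ] at h8; linarith
      have h2 := (tauk_mono 1 m hmp (p 2) (tauk_pos 1 _ hp1).le).2
      have h3 : tauk 1 (p 2) = 32 / 3 * (1 - p 2) := by unfold tauk; norm_num
      rw [h3] at h2
      linarith
    | succ k =>
      refine D.mode_dead A (k + 1) p ?_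
      rcases lt_or_ge (m + 1) (k + 1) with h | h
      · right
        have h2 := (tauk_mono (m + 2) (k + 1) (by omega) (p 2) (tauk_pos _ _ hp1).le).2
        have h3 : tauk (m + 2) (p 2) = 8 * tauk (m + 1) (p 2) := tauk_succ _ _
        linarith
      · left
        have hk : k + 2 ≤ m := by omega
        have h8 : tauk (m + 1) (p 2) < 8 := by
          rcases hm2 with h | h
          · omega
          · exact h
        have h2 := (tauk_mono (k + 2) m hk (p 2) (tauk_pos _ _ hp1).le).2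
        have h3 : tauk (k + 2) (p 2) = 8 * tauk (k + 1) (p 2) := tauk_succ _ _
        have h4 : tauk (m + 1) (p 2) = 8 * tauk m (p 2) := tauk_succ _ _
        linarith
  obtain ⟨K, hK⟩ := (fr_fld D U lam A hU hpde).2 p hp0 hp1
  obtain ⟨e1, e2, e3⟩ := hK (max K (m + 2)) (le_max_left _ _)
  have mem1 : m ∈ Finset.range (max K (m + 2)) := by
    rw [Finset.mem_range]; exact lt_of_lt_of_le (by omega) (le_max_right _ _)
  have mem2 : m + 1 ∈ Finset.range (max K (m + 2)) := by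
    rw [Finset.mem_range]; exact lt_of_lt_of_le (by omega) (le_max_right _ _)
  refine ⟨m, hm1, hm2, ?_, ?_, ?_⟩
  · rw [e1]
    exact Finset.sum_eq_add_of_mem m (m + 1) mem1 mem2 (by omega)
      (fun j _ hj => (dead j hj.1 hj.2).1)
  · rw [e2]
    exact Finset.sum_eq_add_of_mem m (m + 1) mem1 mem2 (by omega)
      (fun j _ hj => (dead j hj.1 hj.2).2.1)
  · intro i
    rw [e3, sum_apply]
    exact Finset.sum_eq_add_of_mem m (m + 1) mem1 mem2 (by omega)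
      (fun j _ hj => (dead j hj.1 hj.2).2.2 i)

end Crest.Agent.R083
end

-- ▼ part R083/FrontD
section

/-!
Row 83, TM-c (front lemma): properties of the sum of all modes.
-/

set_option autoImplicit false

namespace Crest.Agent.R083

open MeasureTheory Set Filter
open scoped Gradient ENNReal NNReal Topology ContDiff

/-- Everything needed for the front construction. -/
structure FrOK (D : CascData) (U : ℝ × ℝ → ℝ) (lam A : ℝ) : Prop where
  Apos : 0 < A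
  lam1 : 1 ≤ lam
  sm : ContDiffOn ℝ ∞ U hp
  pde : ∀ q : ℝ × ℝ, 0 < q.1 → fderiv ℝ (fun q => fderiv ℝ U q (1, 0)) q (1, 0) +
          lam * fderiv ℝ (fun q => fderiv ℝ U q (0, 1)) q (0, 1) = 0
  wall : ∀ σ, 0 < σ → fderiv ℝ U (σ, 0) (0, 1) = 0 ∧ fderiv ℝ U (σ, 1) (0, 1) = 0
  mean : ∀ σ, 0 < σ → ∫ x in (0:ℝ)..1, U (σ, x) = 0
  birth1 : ∀ σ x, 0 < σ → 0 ≤ x → x ≤ 1 → A * |D.bb 1 σ| * |Real.sin (Real.pi * x)| ≤
    min D.r0 1 / 100 * |cut0 σ * fderiv ℝ U (σ, x) (0, 1)|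
  bz1 : ∀ σ x, 0 < σ → 0 ≤ x → x ≤ 1 → |bz U (σ, x)| ≤ min D.r0 1 / 100 * A * D.u 1 σ
  low : ∀ σ x, 0 < σ → σ ≤ 1 / 2 → 0 ≤ x → x ≤ 1 → Real.sin (Real.pi * x) ≠ 0 →
    fderiv ℝ U (σ, x) (0, 1) ≠ 0

theorem fd_grad (f : E3 → ℝ) (x : E3) (i : Fin 3) : (∇ f x) i = fderiv ℝ f x (ee i) := by
  have h : inner ℝ (∇ f x) (ee i) = fderiv ℝ f x (ee i) := by
    unfold gradient
    rw [InnerProductSpace.toDual_symm_apply]
  rw [← h, ee, EuclideanSpace.inner_single_right]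
  simp

theorem fd_norm (v : E3) (M : ℝ) (hM : 0 ≤ M) (h : ∀ i, |v i| ≤ M) : ‖v‖ ≤ 2 * M := by
  rw [EuclideanSpace.norm_eq, Fin.sum_univ_three]
  rw [Real.sqrt_le_left (by positivity)]
  have h0 := h 0
  have h1 := h 1
  have h2 := h 2
  simp only [Real.norm_eq_abs]
  nlinarith [abs_nonneg (v 0), abs_nonneg (v 1), abs_nonneg (v 2), mul_nonneg hM hM,
    mul_le_mul h0 h0 (abs_nonneg _) hM, mul_le_mul h1 h1 (abs_nonneg _) hM,
    mul_le_mul h2 h2 (abs_nonneg _) hM]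

theorem fd_sin_wall (k : ℕ) (x : ℝ) (hx : x = 0 ∨ x = 1) : Real.sin (nk k * x) = 0 := by
  rcases hx with h | h
  · rw [h]; simp
  · rw [h]
    have : nk k * 1 = ((8 ^ k : ℕ) : ℝ) * Real.pi := by unfold nk; push_cast; ring
    rw [this]
    exact Real.sin_nat_mul_pi _

theorem fd_sin2_wall (k : ℕ) (x : ℝ) (hx : x = 0 ∨ x = 1) : Real.sin (2 * nk k * x) = 0 := by
  have : 2 * nk k * x = 2 * (nk k * x) := by ring
  rw [this, Real.sin_two_mul, fd_sin_wall k x hx]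
  ring

theorem nk_zero : nk 0 = Real.pi := by unfold nk; simp

theorem nk_succ (k : ℕ) : nk (k + 1) = 8 * nk k := by unfold nk; rw [pow_succ]; ring

theorem nk_one_le (k : ℕ) : 1 ≤ nk k := by
  unfold nk
  have h1 : (1:ℝ) ≤ 8 ^ k := one_le_pow₀ (by norm_num)
  have h2 := Real.pi_gt_three
  nlinarith

namespace CascData

variable (D : CascData) (A : ℝ) (k : ℕ)

theorem mode_wall (p : E3) (c : Fin 3) (hc : c ≠ 2) (hx : p c = 0 ∨ p c = 1) :
    (D.mode A k).J p c = 0 := by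
  revert hc hx
  refine fc_cases k (fun c => c ≠ 2 → (p c = 0 ∨ p c = 1) → (D.mode A k).J p c = 0)
    (fun _ hx => ?_) (fun _ hx => ?_) (fun h => absurd rfl h) c
  · rw [mode_Jdir, mode_Ji, fd_sin_wall k _ hx]; simp
  · rw [mode_Joth, mode_Jo, fd_sin2_wall _ _ hx, fd_sin2_wall _ _ hx]; simp

theorem Cd_nonneg : 0 ≤ D.Cd := by
  have h := (D.decay 0 0).2.1
  simp only [pow_zero, mul_one] at h
  exact (abs_nonneg _).trans h

theorem half_pow_le : ((1:ℝ) / 2) ^ k ≤ 1 := pow_le_one₀ (by norm_num) (by norm_num)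

theorem beta_div (σ : ℝ) : |D.β k σ| / nk k ≤ D.Cd := by
  rw [div_le_iff₀ (nk_pos k)]
  have h := (D.decay k σ).2.2
  have h2 := half_pow_le k
  have : D.Cd * nk k * (1 / 2) ^ k ≤ D.Cd * nk k * 1 :=
    mul_le_mul_of_nonneg_left h2 (mul_nonneg D.Cd_nonneg (nk_pos k).le)
  linarith

theorem alpha_div (σ : ℝ) : |D.α k σ| / nk k ≤ |D.R0| * D.Cd := by
  rw [div_le_iff₀ (nk_pos k)]
  have h0 := D.nonneg k σ
  have hn := nk_pos k
  have h1 := (D.ell k σ).1
  have h2 := (D.ell k σ).2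
  have h3 : 0 ≤ D.α k σ := le_trans (by have := D.r0pos; positivity) h1
  rw [abs_of_nonneg h3]
  have h4 : nk k * D.u k σ ≤ D.Cd := by
    refine (D.decay k σ).1.trans ?_
    have := mul_le_mul_of_nonneg_left (half_pow_le k) D.Cd_nonneg
    linarith
  calc D.α k σ ≤ D.R0 * nk k ^ 2 * D.u k σ := h2
    _ ≤ |D.R0| * nk k ^ 2 * D.u k σ := by gcongr; exact le_abs_self _
    _ = |D.R0| * (nk k * D.u k σ) * nk k := by ring
    _ ≤ |D.R0| * D.Cd * nk k := by gcongr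

theorem mode_bound (hA : 0 < A) (p : E3) :
    (∀ i, |fderiv ℝ (D.mode A k).w p (ee i)| ≤ A * D.Cd) ∧
    (∀ i, |(D.mode A k).J p i| ≤ A * D.Cd * (|D.R0| + 10)) ∧
    (p 2 < 1 → |(D.mode A k).w p| ≤ A * D.Cd * 3 * (1 - p 2)) := by
  have hCd := D.Cd_nonneg
  have hn := nk_pos k
  have hu := D.nonneg k (p 2)
  have hdec := D.decay k (p 2)
  have hhalf := mul_le_mul_of_nonneg_left (half_pow_le k) hCd
  rw [mul_one] at hhalf
  have hnu : nk k * D.u k (p 2) ≤ D.Cd := hdec.1.trans hhalf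
  have hdu : |deriv (D.u k) (p 2)| ≤ D.Cd := hdec.2.1.trans hhalf
  have hb := D.beta_div k (p 2)
  have ha := D.alpha_div k (p 2)
  have hbb := D.bb_abs k (p 2)
  have hbd := D.bd_abs k (p 2)
  have hS := Real.abs_sin_le_one (nk k * p (dirk k))
  have hC := Real.abs_cos_le_one (nk k * p (dirk k))
  have hR := abs_nonneg D.R0
  have hACd : 0 ≤ A * D.Cd := by positivity
  obtain ⟨g1, g2, g3⟩ := D.mode_g A k p
  refine ⟨?_, ?_, ?_⟩
  · refine fc_cases k _ ?_ ?_ ?_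
    · rw [g1, abs_neg, abs_mul, abs_of_nonneg (by positivity : 0 ≤ A * D.u k (p 2) * nk k)]
      calc A * D.u k (p 2) * nk k * |Real.sin (nk k * p (dirk k))|
          ≤ A * D.u k (p 2) * nk k * 1 := by gcongr
        _ = A * (nk k * D.u k (p 2)) := by ring
        _ ≤ A * D.Cd := by gcongr
    · rw [g2, abs_zero]; exact hACd
    · rw [g3, abs_mul, abs_mul, abs_of_pos hA]
      calc A * |deriv (D.u k) (p 2)| * |Real.cos (nk k * p (dirk k))|
          ≤ A * D.Cd * 1 := by gcongr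
        _ = _ := by ring
  · have hq : A * D.Cd * 1 ≤ A * D.Cd * (|D.R0| + 10) :=
      mul_le_mul_of_nonneg_left (by linarith) hACd
    refine fc_cases k _ ?_ ?_ ?_
    · rw [mode_Jdir, mode_Ji]
      have t1 : |A * D.α k (p 2) * (Real.sin (nk k * p (dirk k)) / nk k)| ≤
          A * (|D.R0| * D.Cd) := by
        rw [abs_mul, abs_mul, abs_div, abs_of_pos hA, abs_of_pos hn]
        calc A * |D.α k (p 2)| * (|Real.sin (nk k * p (dirk k))| / nk k)
            ≤ A * |D.α k (p 2)| * (1 / nk k) := by gcongr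
          _ = A * (|D.α k (p 2)| / nk k) := by ring
          _ ≤ _ := by gcongr
      have t2 (b s : ℝ) (hb' : |b| ≤ |D.β k (p 2)|) (hs : |s| ≤ 1) :
          |2 * s ^ 2 * (A * b * (Real.sin (nk k * p (dirk k)) / nk k))| ≤ 2 * (A * D.Cd) := by
        rw [abs_mul, abs_mul, abs_mul, abs_mul, abs_div, abs_of_pos hA, abs_of_pos hn,
          abs_pow, abs_of_pos (by norm_num : (0:ℝ) < 2)]
        calc 2 * |s| ^ 2 * (A * |b| * (|Real.sin (nk k * p (dirk k))| / nk k))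
            ≤ 2 * 1 ^ 2 * (A * |D.β k (p 2)| * (1 / nk k)) := by gcongr
          _ = 2 * (A * (|D.β k (p 2)| / nk k)) := by ring
          _ ≤ _ := by gcongr
      have q2 := t2 (D.bb k (p 2)) (Real.sin (nk (k - 1) * p (oth (dirk k)))) hbb
        (Real.abs_sin_le_one _)
      have q3 := t2 (D.bd k (p 2)) (Real.sin (nk (k + 1) * p (oth (dirk k)))) hbd
        (Real.abs_sin_le_one _)
      have r1 := abs_sub (-(A * D.α k (p 2) * (Real.sin (nk k * p (dirk k)) / nk k)))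
        (2 * Real.sin (nk (k - 1) * p (oth (dirk k))) ^ 2 *
          (A * D.bb k (p 2) * (Real.sin (nk k * p (dirk k)) / nk k)))
      have r2 := abs_sub (-(A * D.α k (p 2) * (Real.sin (nk k * p (dirk k)) / nk k)) -
        2 * Real.sin (nk (k - 1) * p (oth (dirk k))) ^ 2 *
          (A * D.bb k (p 2) * (Real.sin (nk k * p (dirk k)) / nk k)))
        (2 * Real.sin (nk (k + 1) * p (oth (dirk k))) ^ 2 *
          (A * D.bd k (p 2) * (Real.sin (nk k * p (dirk k)) / nk k)))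
      rw [abs_neg] at r1
      nlinarith
    · rw [mode_Joth, mode_Jo]
      have t2 (b x : ℝ) (j : ℕ) (hj : nk k ≤ 8 * nk j) (hb' : |b| ≤ |D.β k (p 2)|) :
          |A * b * Real.cos (nk k * p (dirk k)) * (Real.sin x / (2 * nk j))| ≤
            4 * (A * D.Cd) := by
        have hnj := nk_pos j
        rw [abs_mul, abs_mul, abs_mul, abs_div, abs_of_pos hA,
          abs_of_pos (by positivity : 0 < 2 * nk j)]
        have hsx := Real.abs_sin_le_one x
        calc A * |b| * |Real.cos (nk k * p (dirk k))| * (|Real.sin x| / (2 * nk j))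
            ≤ A * |D.β k (p 2)| * 1 * (1 / (2 * nk j)) := by gcongr
          _ = 4 * (A * (|D.β k (p 2)| / (8 * nk j))) := by field_simp; ring
          _ ≤ 4 * (A * (|D.β k (p 2)| / nk k)) := by gcongr
          _ ≤ _ := by gcongr
      have hj1 : nk k ≤ 8 * nk (k - 1) := by
        rcases Nat.eq_zero_or_pos k with h | h
        · rw [h]; simp only [Nat.zero_sub]; linarith [nk_pos 0]
        · have := nk_succ (k - 1)
          rw [Nat.sub_add_cancel h] at this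
          rw [this]
      have hj2 : nk k ≤ 8 * nk (k + 1) := by
        rw [nk_succ]; linarith
      have q2 := t2 (D.bb k (p 2)) (2 * nk (k - 1) * p (oth (dirk k))) (k - 1) hj1 hbb
      have q3 := t2 (D.bd k (p 2)) (2 * nk (k + 1) * p (oth (dirk k))) (k + 1) hj2 hbd
      have r1 := abs_sub (-(A * D.bb k (p 2) * Real.cos (nk k * p (dirk k)) *
        (Real.sin (2 * nk (k - 1) * p (oth (dirk k))) / (2 * nk (k - 1)))))
        (A * D.bd k (p 2) * Real.cos (nk k * p (dirk k)) *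
        (Real.sin (2 * nk (k + 1) * p (oth (dirk k))) / (2 * nk (k + 1))))
      rw [abs_neg] at r1
      nlinarith
    · rw [mode_J2, abs_mul, abs_mul, abs_of_pos hA]
      refine le_trans ?_ hq
      gcongr
  · intro hp1
    by_cases hd : Dead k (p 2)
    · rw [(D.mode_dead A k p hd).1, abs_zero]
      have : 0 ≤ 1 - p 2 := by linarith
      positivity
    · have h2 : 1 / 2 < tauk k (p 2) := by
        by_contra hcon
        exact hd (Or.inl (not_lt.1 hcon))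
      rw [mode_w, abs_mul, abs_of_nonneg (by positivity : 0 ≤ A * D.u k (p 2))]
      have hu1 : D.u k (p 2) ≤ D.Cd * 3 * (1 - p 2) := by
        unfold tauk at h2
        have h8 : (0:ℝ) < 8 ^ k := by positivity
        have hnk : 8 ^ k ≤ nk k := by
          unfold nk
          have := Real.pi_gt_three
          nlinarith
        have h3 : 8 ^ k * D.u k (p 2) ≤ D.Cd :=
          (mul_le_mul_of_nonneg_right hnk hu).trans hnu
        have h4 : (1:ℝ) ≤ 8 ^ k * (3 * (1 - p 2)) := by nlinarith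
        have h5 : 0 ≤ 1 - p 2 := by linarith
        calc D.u k (p 2) = 1 * D.u k (p 2) := by ring
          _ ≤ (8 ^ k * (3 * (1 - p 2))) * D.u k (p 2) := by gcongr
          _ = (8 ^ k * D.u k (p 2)) * (3 * (1 - p 2)) := by ring
          _ ≤ D.Cd * (3 * (1 - p 2)) := by gcongr
          _ = _ := by ring
      calc A * D.u k (p 2) * |Real.cos (nk k * p (dirk k))|
          ≤ A * (D.Cd * 3 * (1 - p 2)) * 1 := by gcongr
        _ = _ := by ring

end CascData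

end Crest.Agent.R083
end

-- ▼ part R083/FrontE
section

/-!
Row 83, TM-c (front lemma): ellipticity, zero set, walls, bounds.
-/

set_option autoImplicit false

namespace Crest.Agent.R083

open MeasureTheory Set Filter
open scoped Gradient ENNReal NNReal Topology ContDiff

/-- Differentiation of the zero mean condition. -/
theorem fe_mean (U : ℝ × ℝ → ℝ) (hU : ContDiffOn ℝ ∞ U hp)
    (hm : ∀ σ, 0 < σ → ∫ x in (0:ℝ)..1, U (σ, x) = 0) (σ : ℝ) (hσ : 0 < σ) :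
    ∫ x in (0:ℝ)..1, fderiv ℝ U (σ, x) (1, 0) = 0 := by
  have hcont : ContinuousOn U hp := hU.continuousOn
  have hcont' : ContinuousOn (fun q => fderiv ℝ U q (1, 0)) hp := (fb_partial U hU (1, 0)).continuousOn
  have hK : IsCompact (Icc (σ / 2) (2 * σ) ×ˢ Icc (0:ℝ) 1) := isCompact_Icc.prod isCompact_Icc
  have hKs : Icc (σ / 2) (2 * σ) ×ˢ Icc (0:ℝ) 1 ⊆ hp := by
    rintro ⟨a, b⟩ ⟨ha, _⟩
    have := ha.1
    change 0 < a
    linarith
  obtain ⟨C, hC⟩ := hK.exists_bound_of_continuousOn (hcont'.mono hKs)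
  have hsl (s : ℝ) (hs : 0 < s) (f : ℝ × ℝ → ℝ) (hf : ContinuousOn f hp) :
      Continuous fun x => f (s, x) := by
    rw [← continuousOn_univ]
    exact hf.comp (by fun_prop) (fun x _ => hs)
  have key := intervalIntegral.hasDerivAt_integral_of_dominated_loc_of_deriv_le
    (μ := volume) (F := fun s x => U (s, x)) (F' := fun s x => fderiv ℝ U (s, x) (1, 0))
    (x₀ := σ) (a := 0) (b := 1) (s := Icc (σ / 2) (2 * σ)) (bound := fun _ => C)
    (Icc_mem_nhds (by linarith) (by linarith)) ?_ ?_ ?_ ?_ ?_ ?_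
  · have h1 := key.2
    have h2 : (fun s => ∫ x in (0:ℝ)..1, U (s, x)) =ᶠ[𝓝 σ] fun _ => 0 := by
      filter_upwards [lt_mem_nhds hσ] with s hs
      exact hm s hs
    have h3 := h1.unique ((hasDerivAt_const σ (0:ℝ)).congr_of_eventuallyEq h2)
    exact h3
  · filter_upwards [lt_mem_nhds hσ] with s hs
    exact (hsl s hs U hcont).aestronglyMeasurable
  · exact (hsl σ hσ U hcont).intervalIntegrable _ _
  · exact (hsl σ hσ _ hcont').aestronglyMeasurable
  · refine ae_of_all _ fun x hx s hs => ?_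
    rw [uIoc_of_le zero_le_one] at hx
    exact hC (s, x) ⟨hs, hx.1.le, hx.2⟩
  · exact intervalIntegrable_const
  · refine ae_of_all _ fun x hx s hs => ?_
    have hs0 : 0 < s := by have := hs.1; linarith
    have hd := (fb_at U hU (s, x) hs0).hasFDerivAt
    have hc : HasDerivAt (fun t : ℝ => (t, x)) ((1:ℝ), (0:ℝ)) s :=
      (hasDerivAt_id s).prodMk (hasDerivAt_const s x)
    exact hd.comp_hasDerivAt s hc

theorem Bz_right (U : ℝ × ℝ → ℝ) (hU : ContDiffOn ℝ ∞ U hp)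
    (hm : ∀ σ, 0 < σ → ∫ x in (0:ℝ)..1, U (σ, x) = 0) (σ : ℝ) (hσ : 0 < σ) :
    Bz U (σ, 1) = 0 := by
  have hsl (f : ℝ × ℝ → ℝ) (hf : ContinuousOn f hp) : Continuous fun x => f (σ, x) := by
    rw [← continuousOn_univ]
    exact hf.comp (by fun_prop) (fun x _ => hσ)
  unfold Bz bz
  simp only
  rw [intervalIntegral.integral_add, intervalIntegral.integral_const_mul,
    intervalIntegral.integral_const_mul, hm σ hσ, fe_mean U hU hm σ hσ]
  · ring
  · exact ((continuous_const.mul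
      (hsl _ (fb_partial U hU (1, 0)).continuousOn))).intervalIntegrable _ _
  · exact ((continuous_const.mul (hsl _ hU.continuousOn))).intervalIntegrable _ _

theorem CascData.r0_le_R0 (D : CascData) : D.r0 ≤ D.R0 := by
  have ht : tauk 0 (1 / 4) = 1 := by unfold tauk; norm_num
  have hu : 0 < D.u 0 (1 / 4) := D.pos 0 _ (by rw [ht]; norm_num) (by rw [ht]; norm_num)
  have h := D.ell 0 (1 / 4)
  have hn := nk_pos 0
  have h2 : 0 < nk 0 ^ 2 * D.u 0 (1 / 4) := by positivity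
  have h3 := h.1.trans h.2
  rw [mul_assoc, mul_assoc] at h3
  exact le_of_mul_le_mul_right h3 h2

namespace FrOK

variable {D : CascData} {U : ℝ × ℝ → ℝ} {lam A : ℝ} (h : FrOK D U lam A)

include h

omit h in
theorem rpos : 0 < min D.r0 1 := lt_min D.r0pos one_pos

theorem Bz1 (σ x : ℝ) (hσ : 0 < σ) (hx0 : 0 ≤ x) (hx1 : x ≤ 1) :
    |Bz U (σ, x)| ≤ min D.r0 1 / 100 * A * D.u 1 σ := by
  have hr := rpos (D := D)
  have hA := h.Apos
  have hu := D.nonneg 1 σ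
  have hC : 0 ≤ min D.r0 1 / 100 * A * D.u 1 σ := by positivity
  have := intervalIntegral.norm_integral_le_of_norm_le_const (a := 0) (b := x)
    (C := min D.r0 1 / 100 * A * D.u 1 σ) (f := fun t => bz U (σ, t)) (fun t ht => by
      rw [uIoc_of_le hx0] at ht
      exact h.bz1 σ t hσ ht.1.le (ht.2.trans hx1))
  change |∫ t in (0:ℝ)..x, bz U (σ, t)| ≤ _
  refine this.trans ?_
  rw [sub_zero, abs_of_nonneg hx0]
  nlinarith

/-- Ellipticity. -/
theorem ell (p : E3) (h00 : 0 ≤ p 0) (h01 : p 0 ≤ 1) (hp0 : 0 < p 2) (hp1 : p 2 < 1) :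
    min D.r0 1 / 2 / (1 + 16 * (max (max D.R0 lam) 1) ^ 2) *
      ((∇ (frW D U lam A) p) 0 ^ 2 + (∇ (frW D U lam A) p) 1 ^ 2 + frJ D U lam A p 0 ^ 2 +
        frJ D U lam A p 1 ^ 2) ≤
      frJ D U lam A p 0 * (∇ (frW D U lam A) p) 0 + frJ D U lam A p 1 * (∇ (frW D U lam A) p) 1 := by
  obtain ⟨m, hm1, hm2, ew, eJ, eg⟩ := fr_two D U lam A h.sm h.pde p hp0 hp1
  rw [fd_grad, fd_grad, eg, eg, eJ]
  set R := max (max D.R0 lam) 1 with hR
  set r := min D.r0 1 with hr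
  have hrR : r ≤ R := (min_le_right _ _).trans (le_max_right _ _)
  have hRD : D.R0 ≤ R := (le_max_left _ _).trans (le_max_left _ _)
  have hRl : lam ≤ R := (le_max_right _ _).trans (le_max_left _ _)
  have hr0 : 0 < r := rpos (D := D)
  have hrD : r ≤ D.r0 := min_le_left _ _
  have ellk (k : ℕ) : r * nk k ^ 2 * D.u k (p 2) ≤ D.α k (p 2) ∧
      D.α k (p 2) ≤ R * nk k ^ 2 * D.u k (p 2) := by
    have hu := D.nonneg k (p 2)
    have h1 := D.ell k (p 2)
    have h2 : 0 ≤ nk k ^ 2 * D.u k (p 2) := by positivity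
    constructor
    · refine le_trans ?_ h1.1
      rw [mul_assoc, mul_assoc]
      exact mul_le_mul_of_nonneg_right hrD h2
    · refine le_trans h1.2 ?_
      rw [mul_assoc, mul_assoc]
      exact mul_le_mul_of_nonneg_right hRD h2
  cases m with
  | zero =>
    have d1 : dirk (0 + 1) = 1 := by simp [dirk]
    have o1 : oth (dirk (0 + 1)) = 0 := by simp [dirk, oth]
    have J10 : (frm D U lam A (0 + 1)).J p 0 = (D.mode A (0 + 1)).Jo p := by
      rw [← D.mode_Joth A (0 + 1) p, o1]; rfl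
    have J11 : (frm D U lam A (0 + 1)).J p 1 = (D.mode A (0 + 1)).Ji p := by
      rw [← D.mode_Jdir A (0 + 1) p, d1]; rfl
    have J00 : (frm D U lam A 0).J p 0 = (mode0 U lam).Ji p := mode0_J0 U lam p
    have J01 : (frm D U lam A 0).J p 1 = (mode0 U lam).Jo p := mode0_J1 U lam p
    obtain ⟨g1, g2, _⟩ := D.mode_g A (0 + 1) p
    rw [d1] at g1
    rw [o1] at g2
    obtain ⟨k1, k2, _⟩ := mode0_g U lam h.sm p hp0
    have G00 : fderiv ℝ (frm D U lam A 0).w p (ee 0) =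
      cut0 (p 2) * fderiv ℝ U (p 2, p 0) (0, 1) := k1
    have G01 : fderiv ℝ (frm D U lam A 0).w p (ee 1) = 0 := k2
    have G10 : fderiv ℝ (frm D U lam A (0 + 1)).w p (ee 0) = 0 := g2
    have G11 : fderiv ℝ (frm D U lam A (0 + 1)).w p (ee 1) =
      -(A * D.u (0 + 1) (p 2) * nk (0 + 1) * Real.sin (nk (0 + 1) * p 1)) := g1
    have bd0 : D.bd (0 + 1) (p 2) = 0 := D.bd_zero _ _ (Or.inr (by linarith))
    have hn1 : 1 ≤ nk (0 + 1) := nk_one_le _
    have key := ft_zero r R lam A (nk (0 + 1)) (D.u (0 + 1) (p 2)) (D.α (0 + 1) (p 2))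
      (D.bb (0 + 1) (p 2)) (bz U (p 2, p 0)) (Bz U (p 2, p 0)) (fderiv ℝ U (p 2, p 0) (0, 1))
      (cut0 (p 2)) (Real.sin (nk (0 + 1) * p 1)) (Real.cos (nk (0 + 1) * p 1))
      (Real.sin (Real.pi * p 0)) (Real.cos (Real.pi * p 0)) hr0 hrR h.Apos hn1
      (D.nonneg _ _) ⟨(min_le_right _ _).trans h.lam1, hRl⟩ (ellk (0 + 1))
      (h.birth1 (p 2) (p 0) hp0 h00 h01) (h.bz1 (p 2) (p 0) hp0 h00 h01)
      (h.Bz1 (p 2) (p 0) hp0 h00 h01)
      (Real.abs_sin_le_one _) (Real.abs_cos_le_one _) (Real.abs_sin_le_one _)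
      (Real.abs_cos_le_one _)
      (fderiv ℝ (frm D U lam A 0).w p (ee 1) + fderiv ℝ (frm D U lam A (0 + 1)).w p (ee 1))
      (fderiv ℝ (frm D U lam A 0).w p (ee 0) + fderiv ℝ (frm D U lam A (0 + 1)).w p (ee 0))
      ((frm D U lam A 0).J p 1 + (frm D U lam A (0 + 1)).J p 1)
      ((frm D U lam A 0).J p 0 + (frm D U lam A (0 + 1)).J p 0)
      (by rw [G01, G11]; ring) (by rw [G00, G10]; ring)
      (by
        have hn := (nk_pos (0 + 1)).ne'
        rw [J01, J11, mode0_Jo, D.mode_Ji, bd0, d1, (by simp [oth] : oth 1 = 0)]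
        have e0 : nk (0 + 1 - 1) = Real.pi := nk_zero
        rw [e0]
        have e1 : Real.sin (2 * nk 1 * p 1) =
          2 * Real.sin (nk (0 + 1) * p 1) * Real.cos (nk (0 + 1) * p 1) := by
          rw [← Real.sin_two_mul]; congr 1; ring
        rw [e1]
        change -(bz U (p 2, p 0) * (2 * Real.sin (nk 1 * p 1) * Real.cos (nk 1 * p 1) /
          (2 * nk 1))) + _ = _
        simp only [zero_add] at hn ⊢
        field_simp
        ring)
      (by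
        have hn := (nk_pos (0 + 1)).ne'
        have hpi := Real.pi_pos.ne'
        rw [J00, J10, mode0_Ji, D.mode_Jo, bd0, d1, (by simp [oth] : oth 1 = 0)]
        have e0 : nk (0 + 1 - 1) = Real.pi := nk_zero
        rw [e0]
        have e1 : Real.sin (2 * Real.pi * p 0) =
          2 * Real.sin (Real.pi * p 0) * Real.cos (Real.pi * p 0) := by
          rw [← Real.sin_two_mul]; congr 1; ring
        rw [e1]
        simp only [zero_add] at hn ⊢
        field_simp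
        ring)
    have e1 : (frm D U lam A 0).J p 0 + (frm D U lam A (0 + 1)).J p 0 =
      ((frm D U lam A 0).J p + (frm D U lam A (0 + 1)).J p) 0 := rfl
    have e2 : (frm D U lam A 0).J p 1 + (frm D U lam A (0 + 1)).J p 1 =
      ((frm D U lam A 0).J p + (frm D U lam A (0 + 1)).J p) 1 := rfl
    rw [e1, e2] at key
    linarith [key]
  | succ m =>
    have h8 : tauk (m + 1 + 1) (p 2) < 8 := by
      rcases hm2 with h' | h'
      · omega
      · exact h'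
    have hτ : tauk (m + 1) (p 2) < 1 := by rw [tauk_succ] at h8; linarith
    set k := m + 1 with hk
    have F0 : frm D U lam A k = D.mode A k := rfl
    have F1 : frm D U lam A (k + 1) = D.mode A (k + 1) := rfl
    rw [F0, F1]
    have bd0 : D.bd (k + 1) (p 2) = 0 := D.bd_zero _ _ (Or.inr (by linarith))
    have bb0 : D.bb k (p 2) = 0 := D.bb_zero _ _ (Or.inl (by linarith))
    have o0 : oth (dirk k) = dirk (k + 1) := oth_dirk k
    have o1 : oth (dirk (k + 1)) = dirk k := oth_dirk_succ k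
    obtain ⟨g1, g2, _⟩ := D.mode_g A k p
    obtain ⟨g3, g4, _⟩ := D.mode_g A (k + 1) p
    rw [o0] at g2
    rw [o1] at g4
    have J1 := D.mode_Jdir A k p
    have J2 := D.mode_Joth A k p
    have J3 := D.mode_Jdir A (k + 1) p
    have J4 := D.mode_Joth A (k + 1) p
    rw [D.mode_Ji] at J1 J3
    rw [D.mode_Jo] at J2 J4
    rw [o0] at J1 J2
    rw [o1] at J3 J4
    have hkk : k + 1 - 1 = k := rfl
    rw [hkk] at J3 J4
    have hn0 := nk_pos k
    have hn1 := nk_pos (k + 1)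
    have hbb := D.bb_birth k (by omega) (p 2)
    have hbd := D.bd_death k (by omega) (p 2)
    have hu0 := D.nonneg k (p 2)
    have hu1 := D.nonneg (k + 1) (p 2)
    have hDR : D.r0 ≤ R := D.r0_le_R0.trans hRD
    have key := ft_casc D.r0 R A (nk (k + 1)) (nk k) (D.u (k + 1) (p 2))
      (D.u k (p 2)) (D.α (k + 1) (p 2)) (D.α k (p 2)) (D.bb (k + 1) (p 2)) (D.bd k (p 2))
      (Real.sin (nk (k + 1) * p (dirk (k + 1)))) (Real.cos (nk (k + 1) * p (dirk (k + 1))))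
      (Real.sin (nk k * p (dirk k))) (Real.cos (nk k * p (dirk k)))
      D.r0pos hDR h.Apos hn0 (nk_succ k) hu1 hu0
      ⟨(D.ell (k + 1) (p 2)).1, (ellk (k + 1)).2⟩ ⟨(D.ell k (p 2)).1, (ellk k).2⟩ hbb hbd
      (Real.abs_sin_le_one _) (Real.abs_cos_le_one _) (Real.abs_sin_le_one _)
      (Real.abs_cos_le_one _)
      (fderiv ℝ (D.mode A k).w p (ee (dirk (k + 1))) +
        fderiv ℝ (D.mode A (k + 1)).w p (ee (dirk (k + 1))))
      (fderiv ℝ (D.mode A k).w p (ee (dirk k)) + fderiv ℝ (D.mode A (k + 1)).w p (ee (dirk k)))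
      ((D.mode A k).J p (dirk (k + 1)) + (D.mode A (k + 1)).J p (dirk (k + 1)))
      ((D.mode A k).J p (dirk k) + (D.mode A (k + 1)).J p (dirk k))
      (by rw [g2, g3]; ring) (by rw [g1, g4]; ring)
      (by
        rw [J2, J3, bd0, bb0]
        have e1 : Real.sin (2 * nk (k + 1) * p (dirk (k + 1))) =
          2 * Real.sin (nk (k + 1) * p (dirk (k + 1))) *
            Real.cos (nk (k + 1) * p (dirk (k + 1))) := by
          rw [← Real.sin_two_mul]; congr 1; ring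
        rw [e1]
        field_simp
        ring)
      (by
        rw [J1, J4, bd0, bb0]
        have e1 : Real.sin (2 * nk k * p (dirk k)) =
          2 * Real.sin (nk k * p (dirk k)) * Real.cos (nk k * p (dirk k)) := by
          rw [← Real.sin_two_mul]; congr 1; ring
        rw [e1]
        field_simp
        ring)
    have hcoef : r / 2 / (1 + 16 * R ^ 2) ≤ D.r0 / 2 / (1 + 16 * R ^ 2) := by gcongr
    have e (c : Fin 3) : (D.mode A k).J p c + (D.mode A (k + 1)).J p c =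
      ((D.mode A k).J p + (D.mode A (k + 1)).J p) c := rfl
    rw [e, e] at key
    rcases dirk_or k with hd | hd
    · have hd' : dirk (k + 1) = 1 := by rw [← o0, hd]; simp [oth]
      rw [hd, hd'] at key
      refine le_trans (mul_le_mul_of_nonneg_right hcoef (by positivity)) ?_
      linarith [key]
    · have hd' : dirk (k + 1) = 0 := by rw [← o0, hd]; simp [oth]
      rw [hd, hd'] at key
      refine le_trans (mul_le_mul_of_nonneg_right hcoef (by positivity)) ?_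
      linarith [key]

end FrOK

end Crest.Agent.R083
end

-- ▼ part R083/FrontF
section

/-!
Row 83, TM-c (front lemma): zero set, walls, bounds.
-/

set_option autoImplicit false

namespace Crest.Agent.R083

open MeasureTheory Set Filter
open scoped Gradient ENNReal NNReal Topology ContDiff

theorem ff_m_zero (m : ℕ) (σ : ℝ) (hσ : σ < 1) (h1 : 1 ≤ tauk 1 σ)
    (h : m = 0 ∨ tauk (m + 1) σ < 8) : m = 0 := by
  rcases h with h | h
  · exact h
  · by_contra hm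
    have h2 := (tauk_mono 1 m (by omega) σ (tauk_pos 1 _ hσ).le).2
    rw [tauk_succ] at h
    linarith

theorem ff_tau1 (σ : ℝ) : tauk 1 σ = 32 / 3 * (1 - σ) := by unfold tauk; norm_num

namespace FrOK

variable {D : CascData} {U : ℝ × ℝ → ℝ} {lam A : ℝ} (h : FrOK D U lam A)

include h

theorem zeros (p : E3) (h00 : 0 ≤ p 0) (h01 : p 0 ≤ 1) (hp0 : 0 < p 2) (hp1 : p 2 < 1)
    (z0 : (∇ (frW D U lam A) p) 0 = 0) (z1 : (∇ (frW D U lam A) p) 1 = 0) :
    ∃ k : ℕ, Real.sin (Real.pi * 8 ^ k * p 0) = 0 ∨ Real.sin (Real.pi * 8 ^ k * p 1) = 0 := by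
  obtain ⟨m, hm1, hm2, ew, eJ, eg⟩ := fr_two D U lam A h.sm h.pde p hp0 hp1
  rw [fd_grad, eg] at z0 z1
  have hA := h.Apos
  -- a live mode gives a zero of a sine
  have live (k : ℕ) (hk1 : 9 / 16 ≤ tauk k (p 2)) (hk2 : tauk k (p 2) ≤ 7)
      (hz : -(A * D.u k (p 2) * nk k * Real.sin (nk k * p (dirk k))) = 0) :
      ∃ k : ℕ, Real.sin (Real.pi * 8 ^ k * p 0) = 0 ∨ Real.sin (Real.pi * 8 ^ k * p 1) = 0 := by
    have hu := D.pos k (p 2) hk1 hk2
    have hn := nk_pos k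
    have hne : A * D.u k (p 2) * nk k ≠ 0 := by positivity
    have hs : Real.sin (nk k * p (dirk k)) = 0 := by
      have : A * D.u k (p 2) * nk k * Real.sin (nk k * p (dirk k)) = 0 := by linarith
      exact (mul_eq_zero.1 this).resolve_left hne
    refine ⟨k, ?_⟩
    rcases dirk_or k with hd | hd
    · left; rw [hd] at hs; exact hs
    · right; rw [hd] at hs; exact hs
  cases m with
  | zero =>
    have d1 : dirk (0 + 1) = 1 := by simp [dirk]
    have o1 : oth (dirk (0 + 1)) = 0 := by simp [dirk, oth]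
    obtain ⟨g1, g2, _⟩ := D.mode_g A (0 + 1) p
    have g1' := g1
    rw [d1] at g1
    rw [o1] at g2
    obtain ⟨k1, k2, _⟩ := mode0_g U lam h.sm p hp0
    have G00 : fderiv ℝ (frm D U lam A 0).w p (ee 0) =
      cut0 (p 2) * fderiv ℝ U (p 2, p 0) (0, 1) := k1
    have G01 : fderiv ℝ (frm D U lam A 0).w p (ee 1) = 0 := k2
    have G10 : fderiv ℝ (frm D U lam A (0 + 1)).w p (ee 0) = 0 := g2
    have G11 : fderiv ℝ (frm D U lam A (0 + 1)).w p (ee 1) =
      -(A * D.u (0 + 1) (p 2) * nk (0 + 1) * Real.sin (nk (0 + 1) * p 1)) := g1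
    rcases le_or_gt (p 2) (1 / 2) with hlow | hhigh
    · rw [G00, G10, cut0_one _ hlow] at z0
      refine ⟨0, Or.inl ?_⟩
      by_contra hne
      have hne' : Real.sin (Real.pi * p 0) ≠ 0 := by simpa using hne
      refine h.low (p 2) (p 0) hp0 hlow h00 h01 hne' ?_
      linarith
    · refine live (0 + 1) (by linarith) ?_ ?_
      · rw [zero_add, ff_tau1]; linarith
      · rw [d1]
        rw [G01, G11] at z1
        linarith
  | succ m =>
    have h8 : tauk (m + 1 + 1) (p 2) < 8 := by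
      rcases hm2 with h' | h'
      · omega
      · exact h'
    have hτ : tauk (m + 1) (p 2) < 1 := by rw [tauk_succ] at h8; linarith
    set k := m + 1 with hk
    have F0 : frm D U lam A k = D.mode A k := rfl
    have F1 : frm D U lam A (k + 1) = D.mode A (k + 1) := rfl
    rw [F0, F1] at z0 z1
    have zz : ∀ c : Fin 3, c ≠ 2 → fderiv ℝ (D.mode A k).w p (ee c) +
        fderiv ℝ (D.mode A (k + 1)).w p (ee c) = 0 := by
      intro c hc
      fin_cases c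
      · exact z0
      · exact z1
      · exact absurd rfl hc
    have o0 : oth (dirk k) = dirk (k + 1) := oth_dirk k
    have o1 : oth (dirk (k + 1)) = dirk k := oth_dirk_succ k
    have hd2 (j : ℕ) : dirk j ≠ 2 := by
      rcases dirk_or j with hd | hd <;> rw [hd] <;> decide
    obtain ⟨g1, g2, _⟩ := D.mode_g A k p
    obtain ⟨g3, g4, _⟩ := D.mode_g A (k + 1) p
    rw [o0] at g2
    rw [o1] at g4
    rcases le_or_gt (tauk (k + 1) (p 2)) 7 with h7 | h7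
    · refine live (k + 1) (by linarith) h7 ?_
      have := zz (dirk (k + 1)) (hd2 _)
      rw [g2, g3] at this
      linarith
    · refine live k ?_ (by linarith) ?_
      · rw [tauk_succ] at h7; linarith
      · have := zz (dirk k) (hd2 _)
        rw [g1, g4] at this
        linarith

theorem wall0 (p : E3) (hp0 : 0 < p 2) (hp1 : p 2 < 1) (hx : p 0 = 0 ∨ p 0 = 1) :
    frJ D U lam A p 0 = 0 := by
  obtain ⟨m, hm1, hm2, ew, eJ, eg⟩ := fr_two D U lam A h.sm h.pde p hp0 hp1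
  rw [eJ]
  change (frm D U lam A m).J p 0 + (frm D U lam A (m + 1)).J p 0 = 0
  have h2 : (frm D U lam A (m + 1)).J p 0 = 0 := D.mode_wall A (m + 1) p 0 (by decide) hx
  have h1 : (frm D U lam A m).J p 0 = 0 := by
    cases m with
    | zero =>
      have : (frm D U lam A 0).J p 0 = (mode0 U lam).Ji p := mode0_J0 U lam p
      rw [this, mode0_Ji]
      rcases hx with hx | hx
      · rw [hx, (h.wall (p 2) hp0).1, Bz_left]; ring
      · rw [hx, (h.wall (p 2) hp0).2, Bz_right U h.sm h.mean _ hp0]; ring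
    | succ m => exact D.mode_wall A (m + 1) p 0 (by decide) hx
  rw [h1, h2]; ring

theorem wall1 (p : E3) (hp0 : 0 < p 2) (hp1 : p 2 < 1) (hx : p 1 = 0 ∨ p 1 = 1) :
    frJ D U lam A p 1 = 0 := by
  obtain ⟨m, hm1, hm2, ew, eJ, eg⟩ := fr_two D U lam A h.sm h.pde p hp0 hp1
  rw [eJ]
  change (frm D U lam A m).J p 1 + (frm D U lam A (m + 1)).J p 1 = 0
  have h2 : (frm D U lam A (m + 1)).J p 1 = 0 := D.mode_wall A (m + 1) p 1 (by decide) hx
  have h1 : (frm D U lam A m).J p 1 = 0 := by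
    cases m with
    | zero =>
      have : (frm D U lam A 0).J p 1 = (mode0 U lam).Jo p := mode0_J1 U lam p
      rw [this, mode0_Jo, fd_sin2_wall 1 _ hx]
      simp
    | succ m => exact D.mode_wall A (m + 1) p 1 (by decide) hx
  rw [h1, h2]; ring

theorem lowreg (p : E3) (hp0 : 0 < p 2) (hp1 : p 2 ≤ 1 / 4) :
    frW D U lam A p = U (p 2, p 0) ∧
    frJ D U lam A p = pt (lam * fderiv ℝ U (p 2, p 0) (0, 1)) 0
      (fderiv ℝ U (p 2, p 0) (1, 0)) := by
  have hlt : p 2 < 1 := by linarith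
  obtain ⟨m, hm1, hm2, ew, eJ, eg⟩ := fr_two D U lam A h.sm h.pde p hp0 hlt
  have ht : 8 ≤ tauk 1 (p 2) := by rw [ff_tau1]; linarith
  have hm : m = 0 := ff_m_zero m (p 2) hlt (by linarith) hm2
  subst hm
  obtain ⟨a1, a2, _⟩ := D.mode_dead A (0 + 1) p (Or.inr ht)
  have a1' : (frm D U lam A (0 + 1)).w p = 0 := a1
  have a2' : (frm D U lam A (0 + 1)).J p = 0 := a2
  have hc : cut0 (p 2) = 1 := cut0_one _ (by linarith)
  have hc' : deriv cut0 (p 2) = 0 := cut0_deriv_zero _ (Or.inl (by linarith))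
  rw [ew, eJ, a1', a2']
  refine ⟨?_, ?_⟩
  · rw [add_zero]
    change cut0 (p 2) * U (p 2, p 0) = U (p 2, p 0)
    rw [hc, one_mul]
  · rw [add_zero]
    have b0 : bz U (p 2, p 0) = 0 := bz_zero U _ (Or.inl (by change p 2 ≤ 1/2; linarith))
    have b1 : Bz U (p 2, p 0) = 0 := Bz_zero U _ (Or.inl (by change p 2 ≤ 1/2; linarith))
    ext i
    fin_cases i
    · change (mode0 U lam).J p 0 = _
      rw [mode0_J0, mode0_Ji, hc, b1]
      simp [pt]
    · change (mode0 U lam).J p 1 = _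
      rw [mode0_J1, mode0_Jo, b0]
      simp [pt]
    · change (mode0 U lam).J p 2 = _
      rw [mode0_J2 U lam h.sm p hp0, hc, hc']
      simp [pt]

theorem bound0 : ∃ N0 : ℝ, 0 ≤ N0 ∧ ∀ p : E3, 0 ≤ p 0 → p 0 ≤ 1 → 1 / 4 ≤ p 2 → p 2 < 1 →
      (∀ i, |fderiv ℝ (mode0 U lam).w p (ee i)| ≤ N0) ∧
      (∀ i, |(mode0 U lam).J p i| ≤ N0) ∧
      |(mode0 U lam).w p| ≤ 3 * N0 * (1 - p 2) := by
  -- compact set
  have hK : IsCompact (Icc (1 / 4 : ℝ) 1 ×ˢ Icc (0:ℝ) 1) := isCompact_Icc.prod isCompact_Icc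
  have hKs : Icc (1 / 4 : ℝ) 1 ×ˢ Icc (0:ℝ) 1 ⊆ hp := by
    rintro ⟨a, b⟩ ⟨ha, _⟩
    have := ha.1
    change 0 < a
    linarith
  obtain ⟨C1, hC1⟩ := hK.exists_bound_of_continuousOn (h.sm.continuousOn.mono hKs)
  obtain ⟨C2, hC2⟩ := hK.exists_bound_of_continuousOn
    ((fb_partial U h.sm (1, 0)).continuousOn.mono hKs)
  obtain ⟨C3, hC3⟩ := hK.exists_bound_of_continuousOn
    ((fb_partial U h.sm (0, 1)).continuousOn.mono hKs)
  obtain ⟨C4, hC4⟩ := hK.exists_bound_of_continuousOn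
    ((bz_smooth U h.sm).continuous.continuousOn)
  obtain ⟨C5, hC5⟩ := hK.exists_bound_of_continuousOn
    ((Bz_smooth U h.sm).continuous.continuousOn)
  obtain ⟨C6, hC6⟩ := (isCompact_Icc (a := (1 / 4 : ℝ)) (b := 1)).exists_bound_of_continuousOn
    (cut0_deriv_smooth.continuous.continuousOn)
  obtain ⟨M, hM0, m1, m2, m3, m4, m5, m6⟩ : ∃ M : ℝ, 0 ≤ M ∧ C1 ≤ M ∧ C2 ≤ M ∧ C3 ≤ M ∧
      C4 ≤ M ∧ C5 ≤ M ∧ C6 ≤ M := by
    refine ⟨|C1| + |C2| + |C3| + |C4| + |C5| + |C6|, by positivity, ?_, ?_, ?_, ?_, ?_, ?_⟩ <;>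
    linarith [abs_nonneg C1, abs_nonneg C2, abs_nonneg C3, abs_nonneg C4, abs_nonneg C5,
      abs_nonneg C6, le_abs_self C1, le_abs_self C2, le_abs_self C3, le_abs_self C4,
      le_abs_self C5, le_abs_self C6]
  have hlam : 0 < lam := lt_of_lt_of_le one_pos h.lam1
  have hMM : 0 ≤ M * M := by positivity
  have hlM : 0 ≤ lam * M := by positivity
  refine ⟨M * M + lam * M + 3 * M, by positivity, fun p h0 h1 h2 h3 => ?_⟩
  have hp2 : 0 < p 2 := by linarith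
  have h1m : 0 ≤ 1 - p 2 := by linarith
  have mem : (p 2, p 0) ∈ Icc (1 / 4 : ℝ) 1 ×ˢ Icc (0:ℝ) 1 := ⟨⟨h2, h3.le⟩, h0, h1⟩
  have b1 : |U (p 2, p 0)| ≤ M := (hC1 _ mem).trans m1
  have b2 : |fderiv ℝ U (p 2, p 0) (1, 0)| ≤ M := (hC2 _ mem).trans m2
  have b3 : |fderiv ℝ U (p 2, p 0) (0, 1)| ≤ M := (hC3 _ mem).trans m3
  have b4 : |bz U (p 2, p 0)| ≤ M := (hC4 _ mem).trans m4
  have b5 : |Bz U (p 2, p 0)| ≤ M := (hC5 _ mem).trans m5
  have b6 : |deriv cut0 (p 2)| ≤ M := (hC6 _ ⟨h2, h3.le⟩).trans m6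
  clear hC1 hC2 hC3 hC4 hC5 hC6
  have c0 := cut0_mem (p 2)
  have c0' : |cut0 (p 2)| ≤ 1 := by rw [abs_of_nonneg c0.1]; exact c0.2
  obtain ⟨k1, k2, k3⟩ := mode0_g U lam h.sm p hp2
  have q1 : |cut0 (p 2) * fderiv ℝ U (p 2, p 0) (0, 1)| ≤ M := by
    rw [abs_mul]
    calc _ ≤ 1 * M := by gcongr
      _ = M := one_mul _
  have q2 : |deriv cut0 (p 2) * U (p 2, p 0) + cut0 (p 2) * fderiv ℝ U (p 2, p 0) (1, 0)| ≤
      M * M + M := by
    refine (abs_add_le _ _).trans ?_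
    rw [abs_mul, abs_mul]
    calc _ ≤ M * M + 1 * M := by gcongr
      _ = _ := by ring
  refine ⟨?_, ?_, ?_⟩
  · intro i
    fin_cases i
    · change |fderiv ℝ (mode0 U lam).w p (ee 0)| ≤ _
      rw [k1]; linarith
    · change |fderiv ℝ (mode0 U lam).w p (ee 1)| ≤ _
      rw [k2, abs_zero]; positivity
    · change |fderiv ℝ (mode0 U lam).w p (ee 2)| ≤ _
      rw [k3]; linarith
  · intro i
    fin_cases i
    · change |(mode0 U lam).J p 0| ≤ _
      rw [mode0_J0, mode0_Ji]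
      refine (abs_sub _ _).trans ?_
      have t1 : |lam * cut0 (p 2) * fderiv ℝ U (p 2, p 0) (0, 1)| ≤ lam * M := by
        rw [mul_assoc, abs_mul, abs_of_pos hlam]
        gcongr
      have t2 : |2 * Real.sin (nk 1 * p 1) ^ 2 * Bz U (p 2, p 0)| ≤ 2 * M := by
        rw [abs_mul, abs_mul, abs_pow, abs_of_pos (by norm_num : (0:ℝ) < 2)]
        have := Real.abs_sin_le_one (nk 1 * p 1)
        calc _ ≤ 2 * 1 ^ 2 * M := by gcongr
          _ = _ := by ring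
      linarith
    · change |(mode0 U lam).J p 1| ≤ _
      rw [mode0_J1, mode0_Jo, abs_neg, abs_mul, abs_div,
        abs_of_pos (by have := nk_pos 1; positivity : 0 < 2 * nk 1)]
      have hn1 := nk_one_le 1
      have := Real.abs_sin_le_one (2 * nk 1 * p 1)
      have t : |Real.sin (2 * nk 1 * p 1)| / (2 * nk 1) ≤ 1 := by
        rw [div_le_one (by positivity)]
        linarith
      calc _ ≤ M * 1 := by gcongr
        _ ≤ _ := by linarith
    · change |(mode0 U lam).J p 2| ≤ _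
      rw [mode0_J2 U lam h.sm p hp2]; linarith
  · change |cut0 (p 2) * U (p 2, p 0)| ≤ _
    rcases le_or_gt (5 / 8) (p 2) with hge | hlt
    · rw [cut0_zero _ hge, zero_mul, abs_zero]; positivity
    · rw [abs_mul]
      have hM3 : 0 ≤ M * (5 / 8 - p 2) := mul_nonneg hM0 (by linarith)
      have hM4 : 0 ≤ (M * M + lam * M + 2 * M) * (1 - p 2) := by positivity
      calc _ ≤ 1 * M := by gcongr
        _ ≤ 3 * M * (1 - p 2) := by linarith
        _ ≤ _ := by linarith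

theorem bounds : ∃ N : ℝ, ∀ p : E3, 0 ≤ p 0 → p 0 ≤ 1 → 1 / 4 ≤ p 2 → p 2 < 1 →
    ‖∇ (frW D U lam A) p‖ ≤ N ∧ ‖frJ D U lam A p‖ ≤ N ∧ |frW D U lam A p| ≤ N * (1 - p 2) := by
  have hA := h.Apos
  have hCd := D.Cd_nonneg
  obtain ⟨M, hM0, hM⟩ := h.bound0
  have hR := abs_nonneg D.R0
  have hACd : 0 ≤ A * D.Cd := by positivity
  obtain ⟨N0, hN00, hle, hle'⟩ : ∃ N0 : ℝ, 0 ≤ N0 ∧ M ≤ N0 ∧ A * D.Cd * (|D.R0| + 10) ≤ N0 :=
    ⟨M + A * D.Cd * (|D.R0| + 10), by positivity, by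
      have : 0 ≤ A * D.Cd * (|D.R0| + 10) := by positivity
      linarith, by linarith⟩
  have hle'' : A * D.Cd ≤ N0 := by
    refine le_trans ?_ hle'
    have := mul_nonneg hACd (by positivity : 0 ≤ |D.R0| + 9)
    linarith
  -- bounds for one mode
  have modeb (j : ℕ) (p : E3) (h0 : 0 ≤ p 0) (h1 : p 0 ≤ 1) (h2 : 1 / 4 ≤ p 2) (h3 : p 2 < 1) :
      (∀ i, |fderiv ℝ (frm D U lam A j).w p (ee i)| ≤ N0) ∧
      (∀ i, |(frm D U lam A j).J p i| ≤ N0) ∧
      |(frm D U lam A j).w p| ≤ 3 * N0 * (1 - p 2) := by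
    have h1m : 0 ≤ 1 - p 2 := by linarith
    cases j with
    | zero =>
      obtain ⟨a1, a2, a3⟩ := hM p h0 h1 h2 h3
      refine ⟨fun i => (a1 i).trans hle, fun i => (a2 i).trans hle, a3.trans ?_⟩
      have : M * (1 - p 2) ≤ N0 * (1 - p 2) := mul_le_mul_of_nonneg_right hle h1m
      linarith
    | succ k =>
      obtain ⟨a1, a2, a3⟩ := D.mode_bound A (k + 1) hA p
      refine ⟨fun i => (a1 i).trans hle'', fun i => (a2 i).trans hle', (a3 h3).trans ?_⟩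
      have : A * D.Cd * (1 - p 2) ≤ N0 * (1 - p 2) := mul_le_mul_of_nonneg_right hle'' h1m
      linarith
  refine ⟨6 * N0, fun p h0 h1 h2 h3 => ?_⟩
  have hp2 : 0 < p 2 := by linarith
  obtain ⟨m, hm1, hm2, ew, eJ, eg⟩ := fr_two D U lam A h.sm h.pde p hp2 h3
  obtain ⟨a1, a2, a3⟩ := modeb m p h0 h1 h2 h3
  obtain ⟨b1, b2, b3⟩ := modeb (m + 1) p h0 h1 h2 h3
  refine ⟨?_, ?_, ?_⟩
  · refine (fd_norm _ (2 * N0) (by positivity) (fun i => ?_)).trans (by linarith)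
    rw [fd_grad, eg i]
    exact (abs_add_le _ _).trans (by linarith [a1 i, b1 i])
  · refine (fd_norm _ (2 * N0) (by positivity) (fun i => ?_)).trans (by linarith)
    rw [eJ]
    change |(frm D U lam A m).J p i + (frm D U lam A (m + 1)).J p i| ≤ _
    exact (abs_add_le _ _).trans (by linarith [a2 i, b2 i])
  · rw [ew]
    exact (abs_add_le _ _).trans (by linarith [a3, b3])

theorem out (p : E3) (hp1 : 1 ≤ p 2) : frW D U lam A p = 0 ∧ frJ D U lam A p = 0 := by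
  have key : ∀ j, (frm D U lam A j).w p = 0 ∧ (frm D U lam A j).J p = 0 := by
    intro j
    cases j with
    | zero =>
      obtain ⟨a, b, _⟩ := mode0_dead U lam h.sm p (by linarith)
      exact ⟨a, b⟩
    | succ k =>
      have : tauk (k + 1) (p 2) ≤ 1 / 2 := by
        unfold tauk
        have h8 : (0:ℝ) < 8 ^ (k + 1) * (4 / 3) := by positivity
        nlinarith
      obtain ⟨a, b, _⟩ := D.mode_dead A (k + 1) p (Or.inl this)
      exact ⟨a, b⟩
  constructor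
  · unfold frW
    simp [fun j => (key j).1]
  · unfold frJ
    simp [fun j => (key j).2]

theorem frontJ (ε : ℝ) (hε : 0 < ε) : ∃ s : ℝ, s < 1 ∧ ∀ p : E3, s ≤ p 2 →
    |frJ D U lam A p 2| ≤ ε := by
  have hA := h.Apos
  have hCd := D.Cd_nonneg
  have hlim : Tendsto (fun M : ℕ => 2 * (A * D.Cd) * (1 / 2 : ℝ) ^ M) atTop (𝓝 0) := by
    have := (tendsto_pow_atTop_nhds_zero_of_lt_one (r := (1 / 2 : ℝ)) (by norm_num)
      (by norm_num)).const_mul (2 * (A * D.Cd))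
    simpa using this
  obtain ⟨M0, hM0⟩ := eventually_atTop.1 (hlim.eventually (gt_mem_nhds hε))
  set M := max M0 1 with hM
  have hM1 : 1 ≤ M := le_max_right _ _
  have hMε : 2 * (A * D.Cd) * (1 / 2 : ℝ) ^ M < ε := hM0 M (le_max_left _ _)
  have h8 : (0:ℝ) < 8 ^ M := by positivity
  have h81 : (1:ℝ) ≤ 8 ^ M := one_le_pow₀ (by norm_num)
  refine ⟨1 - 1 / (2 * 8 ^ M), ?_, ?_⟩
  · have : 0 < 1 / (2 * (8:ℝ) ^ M) := by positivity
    linarith
  · intro p hs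
    rcases le_or_gt 1 (p 2) with hp1 | hp1
    · rw [(h.out p hp1).2]
      simpa using hε.le
    · have hs1 : 1 / (2 * (8:ℝ) ^ M) ≤ 1 / 2 := by
        rw [div_le_div_iff₀ (by positivity) (by norm_num)]
        linarith
      have hp0 : 0 < p 2 := by linarith
      obtain ⟨m, hm1, hm2, ew, eJ, eg⟩ := fr_two D U lam A h.sm h.pde p hp0 hp1
      have hτM : tauk M (p 2) < 1 := by
        unfold tauk
        have : 1 - p 2 ≤ 1 / (2 * 8 ^ M) := by linarith
        calc 8 ^ M * (4 / 3) * (1 - p 2) ≤ 8 ^ M * (4 / 3) * (1 / (2 * 8 ^ M)) := by gcongr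
          _ = 2 / 3 := by field_simp; norm_num
          _ < 1 := by norm_num
      have hMm : M ≤ m := by
        by_contra hcon
        have := (tauk_mono (m + 1) M (by omega) (p 2) (tauk_pos _ _ hp1).le).2
        linarith
      rw [eJ]
      change |(frm D U lam A m).J p 2 + (frm D U lam A (m + 1)).J p 2| ≤ ε
      have one (k : ℕ) (hk : M ≤ k) : |(frm D U lam A k).J p 2| ≤ A * D.Cd * (1 / 2) ^ M := by
        cases k with
        | zero => omega
        | succ k =>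
          change |(D.mode A (k + 1)).J p 2| ≤ _
          rw [D.mode_J2, abs_mul, abs_mul, abs_of_pos hA]
          have hd := (D.decay (k + 1) (p 2)).2.1
          have hc := Real.abs_cos_le_one (nk (k + 1) * p (dirk (k + 1)))
          have hpow : ((1:ℝ) / 2) ^ (k + 1) ≤ (1 / 2) ^ M :=
            pow_le_pow_of_le_one (by norm_num) (by norm_num) hk
          calc A * |deriv (D.u (k + 1)) (p 2)| * |Real.cos (nk (k + 1) * p (dirk (k + 1)))|
              ≤ A * (D.Cd * (1 / 2) ^ (k + 1)) * 1 := by gcongr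
            _ ≤ A * (D.Cd * (1 / 2) ^ M) * 1 := by gcongr
            _ = _ := by ring
      have o1 := one m hMm
      have o2 := one (m + 1) (by omega)
      refine (abs_add_le _ _).trans ?_
      linarith

end FrOK

end Crest.Agent.R083
end

-- ▼ part R083/Front
section

/-!
Row 83, TM-c: the front lemma.
-/

set_option autoImplicit false

namespace Crest.Agent.R083

open MeasureTheory Set Filter
open scoped Gradient ENNReal NNReal Topology ContDiff

theorem fr_ok (D : CascData) (C0 c0 : ℝ) (hc0 : 0 < c0) : ∃ ρ0 : ℝ, ∀ ρ lam : ℝ, ρ0 ≤ ρ →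
    1 ≤ lam → ∀ U : ℝ × ℝ → ℝ, ContDiffOn ℝ ∞ U hp →
      (∀ q : ℝ × ℝ, 0 < q.1 →
        fderiv ℝ (fun q => fderiv ℝ U q (1, 0)) q (1, 0) +
          lam * fderiv ℝ (fun q => fderiv ℝ U q (0, 1)) q (0, 1) = 0) →
      (∀ σ, 0 < σ → fderiv ℝ U (σ, 0) (0, 1) = 0 ∧ fderiv ℝ U (σ, 1) (0, 1) = 0) →
      (∀ σ, 0 < σ → ∫ x in (0:ℝ)..1, U (σ, x) = 0) →
      (∀ σ x, 1 / 2 ≤ σ → σ ≤ 5 / 8 → 0 ≤ x → x ≤ 1 →
        |U (σ, x)| ≤ C0 * Real.exp (-ρ * σ) ∧
        |fderiv ℝ U (σ, x) (1, 0)| ≤ C0 * ρ * Real.exp (-ρ * σ)) →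
      (∀ σ x, 0 < σ → σ ≤ 1 / 2 → 0 ≤ x → x ≤ 1 →
        c0 * Real.exp (-ρ * σ) * Real.sin (Real.pi * x) ≤ |fderiv ℝ U (σ, x) (0, 1)|) →
      FrOK D U lam (Real.exp (-(27 / 64 * ρ))) := by
  -- lower bound of the first amplitude
  obtain ⟨um, hum, hum'⟩ : ∃ um : ℝ, 0 < um ∧ ∀ σ ∈ Icc (1 / 2 : ℝ) (5 / 8), um ≤ D.u 1 σ := by
    obtain ⟨s, hs, hmin⟩ := (isCompact_Icc (a := (1 / 2 : ℝ)) (b := 5 / 8)).exists_isMinOn
      ⟨1 / 2, by norm_num, by norm_num⟩ ((D.us 1).continuous.continuousOn)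
    refine ⟨D.u 1 s, D.pos 1 s ?_ ?_, fun σ hσ => hmin hσ⟩
    · rw [ff_tau1]; linarith [hs.2]
    · rw [ff_tau1]; linarith [hs.1]
  obtain ⟨X1, hX1⟩ := (isCompact_Icc (a := (1 / 2 : ℝ)) (b := 5 / 8)).exists_bound_of_continuousOn
    (cut0_deriv_smooth.continuous.continuousOn)
  obtain ⟨X2, hX2⟩ := (isCompact_Icc (a := (1 / 2 : ℝ)) (b := 5 / 8)).exists_bound_of_continuousOn
    (cut0_deriv2_smooth.continuous.continuousOn)
  have hr := FrOK.rpos (D := D)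
  obtain ⟨ρ0, hρ01, hρ0⟩ := fe_amp (min D.r0 1 / 100) (D.Cd * nk 1) c0 um (2 * X1 * C0) (X2 * C0)
    (by positivity) hc0 hum
  refine ⟨ρ0, fun ρ lam hρ hlam U hU hpde hwall hmean hup hlow => ?_⟩
  obtain ⟨hA1, hA2⟩ := hρ0 ρ hρ
  set A := Real.exp (-(27 / 64 * ρ)) with hAdef
  have hA : 0 < A := Real.exp_pos _
  have hρ1 : 0 ≤ ρ := by linarith
  have hC0 : 0 ≤ C0 := by
    have h1 := (hup (1 / 2) 0 le_rfl (by norm_num) le_rfl zero_le_one).1
    have h2 := (abs_nonneg _).trans h1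
    by_contra hcon
    have := mul_neg_of_neg_of_pos (not_le.1 hcon) (Real.exp_pos (-ρ * (1 / 2)))
    linarith
  have hX10 : 0 ≤ X1 := (norm_nonneg _).trans (hX1 (1 / 2) ⟨le_rfl, by norm_num⟩)
  have hX20 : 0 ≤ X2 := (norm_nonneg _).trans (hX2 (1 / 2) ⟨le_rfl, by norm_num⟩)
  refine ⟨hA, hlam, hU, hpde, hwall, hmean, ?_, ?_, ?_⟩
  · intro σ x hσ hx0 hx1
    by_cases hb : tauk 1 σ ≤ 7 ∨ 8 ≤ tauk 1 σ
    · rw [D.bb_zero 1 σ hb, abs_zero]
      simp only [mul_zero, zero_mul]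
      positivity
    · push Not at hb
      rw [ff_tau1] at hb
      have h1 : σ ≤ 11 / 32 := by linarith [hb.1]
      rw [cut0_one σ (by linarith), one_mul]
      have hsin : 0 ≤ Real.sin (Real.pi * x) := by
        apply Real.sin_nonneg_of_nonneg_of_le_pi
        · have := Real.pi_pos; positivity
        · have := Real.pi_pos; nlinarith
      have hlow' := hlow σ x hσ (by linarith) hx0 hx1
      have hbb : |D.bb 1 σ| ≤ D.Cd * nk 1 := by
        refine (D.bb_abs 1 σ).trans ?_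
        refine ((D.decay 1 σ).2.2).trans ?_
        have := mul_nonneg D.Cd_nonneg (nk_pos 1).le
        nlinarith
      have hexp : Real.exp (-ρ * (11 / 32)) ≤ Real.exp (-ρ * σ) := by
        apply Real.exp_le_exp.2
        nlinarith
      rw [abs_of_nonneg hsin]
      calc A * |D.bb 1 σ| * Real.sin (Real.pi * x)
          ≤ A * (D.Cd * nk 1) * Real.sin (Real.pi * x) := by gcongr
        _ ≤ (min D.r0 1 / 100 * c0 * Real.exp (-ρ * (11 / 32))) * Real.sin (Real.pi * x) := by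
            gcongr
        _ ≤ (min D.r0 1 / 100 * c0 * Real.exp (-ρ * σ)) * Real.sin (Real.pi * x) := by
            gcongr
        _ = min D.r0 1 / 100 * (c0 * Real.exp (-ρ * σ) * Real.sin (Real.pi * x)) := by ring
        _ ≤ _ := by gcongr
  · intro σ x hσ hx0 hx1
    have hu := D.nonneg 1 σ
    by_cases hb : σ ≤ 1 / 2 ∨ 5 / 8 ≤ σ
    · rw [bz_zero U (σ, x) hb, abs_zero]
      positivity
    · push Not at hb
      have hmem : σ ∈ Icc (1 / 2 : ℝ) (5 / 8) := ⟨hb.1.le, hb.2.le⟩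
      obtain ⟨u1, u2⟩ := hup σ x hb.1.le hb.2.le hx0 hx1
      have x1 : |deriv cut0 σ| ≤ X1 := hX1 σ hmem
      have x2 : |deriv (deriv cut0) σ| ≤ X2 := hX2 σ hmem
      have hexp : Real.exp (-ρ * σ) ≤ Real.exp (-ρ * (1 / 2)) := by
        apply Real.exp_le_exp.2
        nlinarith [hb.1]
      have hb1 : |bz U (σ, x)| ≤ (2 * X1 * C0 * ρ + X2 * C0) * Real.exp (-ρ * (1 / 2)) := by
        unfold bz
        refine (abs_add_le _ _).trans ?_
        rw [abs_mul, abs_mul, abs_mul, abs_of_pos (by norm_num : (0:ℝ) < 2)]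
        calc 2 * |deriv cut0 σ| * |fderiv ℝ U (σ, x) (1, 0)| +
              |deriv (deriv cut0) σ| * |U (σ, x)|
            ≤ 2 * X1 * (C0 * ρ * Real.exp (-ρ * σ)) + X2 * (C0 * Real.exp (-ρ * σ)) := by
              gcongr
          _ ≤ 2 * X1 * (C0 * ρ * Real.exp (-ρ * (1 / 2))) +
              X2 * (C0 * Real.exp (-ρ * (1 / 2))) := by gcongr
          _ = _ := by ring
      refine hb1.trans (hA2.trans ?_)
      have := hum' σ hmem
      gcongr
  · intro σ x hσ hσ2 hx0 hx1 hne h0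
    have hlow' := hlow σ x hσ hσ2 hx0 hx1
    rw [h0, abs_zero] at hlow'
    have hsin : 0 ≤ Real.sin (Real.pi * x) := by
      apply Real.sin_nonneg_of_nonneg_of_le_pi
      · have := Real.pi_pos; positivity
      · have := Real.pi_pos; nlinarith
    have hpos : 0 < Real.sin (Real.pi * x) := lt_of_le_of_ne hsin (Ne.symm hne)
    have : 0 < c0 * Real.exp (-ρ * σ) * Real.sin (Real.pi * x) := by positivity
    linarith

/-- Front lemma (TM-c). -/
theorem front (C0 c0 : ℝ) (hc0 : 0 < c0) : ∃ ρ0 : ℝ, ∀ ρ lam : ℝ, ρ0 ≤ ρ → 1 ≤ lam →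
    ∀ U : ℝ × ℝ → ℝ, ContDiffOn ℝ ∞ U {q | 0 < q.1} →
      (∀ q : ℝ × ℝ, 0 < q.1 → 
        fderiv ℝ (fun q => fderiv ℝ U q (1, 0)) q (1, 0) +
          lam * fderiv ℝ (fun q => fderiv ℝ U q (0, 1)) q (0, 1) = 0) →
      (∀ σ, 0 < σ → fderiv ℝ U (σ, 0) (0, 1) = 0 ∧ fderiv ℝ U (σ, 1) (0, 1) = 0) →
      (∀ σ, 0 < σ → ∫ x in (0:ℝ)..1, U (σ, x) = 0) →
      (∀ σ x, 1 / 2 ≤ σ → σ ≤ 5 / 8 → 0 ≤ x → x ≤ 1 → 
        |U (σ, x)| ≤ C0 * Real.exp (-ρ * σ) ∧ 
        |fderiv ℝ U (σ, x) (1, 0)| ≤ C0 * ρ * Real.exp (-ρ * σ)) →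
      (∀ σ x, 0 < σ → σ ≤ 1 / 2 → 0 ≤ x → x ≤ 1 →
        c0 * Real.exp (-ρ * σ) * Real.sin (Real.pi * x) ≤ |fderiv ℝ U (σ, x) (0, 1)|) →
    ∃ (δ N : ℝ) (w : E3 → ℝ) (J : E3 → E3), 0 < δ ∧
      ContDiffOn ℝ ∞ w {p | 0 < p 2 ∧ p 2 < 1} ∧
      ContDiffOn ℝ ∞ J {p | 0 < p 2 ∧ p 2 < 1} ∧
      (∀ p : E3, 0 < p 2 → p 2 < 1 → fderiv ℝ w p (ee 2) = J p 2 ∧ dvg J p = 0) ∧
      (∀ p : E3, 0 < p 2 → p 2 ≤ 1 / 4 → w p = U (p 2, p 0) ∧ 
        J p = pt (lam * fderiv ℝ U (p 2, p 0) (0, 1)) 0 (fderiv ℝ U (p 2, p 0) (1, 0))) ∧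
      (∀ p : E3, 0 ≤ p 0 → p 0 ≤ 1 → 0 ≤ p 1 → p 1 ≤ 1 → 0 < p 2 → p 2 < 1 →
        δ * ((∇ w p) 0 ^ 2 + (∇ w p) 1 ^ 2 + J p 0 ^ 2 + J p 1 ^ 2) ≤
          J p 0 * (∇ w p) 0 + J p 1 * (∇ w p) 1) ∧
      (∀ p : E3, 0 ≤ p 0 → p 0 ≤ 1 → 0 ≤ p 1 → p 1 ≤ 1 → 0 < p 2 → p 2 < 1 →
        (∇ w p) 0 = 0 → (∇ w p) 1 = 0 → 
          ∃ k : ℕ, Real.sin (Real.pi * 8 ^ k * p 0) = 0 ∨ Real.sin (Real.pi * 8 ^ k * p 1) = 0) ∧
      -- no flux through the walls
      (∀ p : E3, 0 < p 2 → p 2 < 1 → (p 0 = 0 ∨ p 0 = 1) → J p 0 = 0) ∧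
      (∀ p : E3, 0 < p 2 → p 2 < 1 → (p 1 = 0 ∨ p 1 = 1) → J p 1 = 0) ∧
      -- behaviour away from `p 2 = 0`
      (∀ p : E3, 0 ≤ p 0 → p 0 ≤ 1 → 0 ≤ p 1 → p 1 ≤ 1 → 1 / 4 ≤ p 2 → p 2 < 1 →
        ‖∇ w p‖ ≤ N ∧ ‖J p‖ ≤ N ∧ |w p| ≤ N * (1 - p 2)) ∧
      (∀ p : E3, 1 ≤ p 2 → w p = 0 ∧ J p = 0) ∧
      -- the vertical flux dies at the front
      (∀ ε : ℝ, 0 < ε → ∃ s : ℝ, s < 1 ∧ ∀ p : E3, s ≤ p 2 → |J p 2| ≤ ε) := by
  obtain ⟨D⟩ := casc_exists
  obtain ⟨ρ0, hρ0⟩ := fr_ok D C0 c0 hc0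
  refine ⟨ρ0, fun ρ lam hρ hlam U hU hpde hwall hmean hup hlow => ?_⟩
  have h := hρ0 ρ lam hρ hlam U hU hpde hwall hmean hup hlow
  set A := Real.exp (-(27 / 64 * ρ)) with hA
  obtain ⟨N, hN⟩ := h.bounds
  have hr := FrOK.rpos (D := D)
  obtain ⟨⟨f1, f2, f3⟩, _⟩ := fr_fld D U lam A h.sm h.pde
  refine ⟨min D.r0 1 / 2 / (1 + 16 * (max (max D.R0 lam) 1) ^ 2), N, frW D U lam A,
    frJ D U lam A, by positivity, f1, f2, fun p a b => f3 p ⟨a, b⟩, fun p a b => h.lowreg p a b,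
    fun p a b _ _ c d => h.ell p a b c d, fun p a b _ _ c d e f => h.zeros p a b c d e f,
    fun p a b c => h.wall0 p a b c, fun p a b c => h.wall1 p a b c,
    fun p a b _ _ c d => hN p a b c d, fun p a => h.out p a, fun ε hε => h.frontJ ε hε⟩

end Crest.Agent.R083
end

-- ▼ part R083/TMThree
section

/-!
Row 83 (S0111), TM group: the three solutions with their traces.
-/

set_option autoImplicit false

namespace Crest.Agent.R083

open MeasureTheory Set Filter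
open scoped Gradient ENNReal NNReal Topology ContDiff

theorem nsol_of_front (C0 c0 : ℝ) (hc0 : 0 < c0) : ∃ ρ0 : ℝ, ∀ ρ lam : ℝ, ρ0 ≤ ρ → 1 ≤ lam →
    ∀ U : ℝ × ℝ → ℝ, FrontHyp C0 c0 ρ lam U →
      ∃ (δ N : ℝ) (w : E3 → ℝ) (J : E3 → E3), NSol lam U δ N w J := by
  obtain ⟨ρ0, h⟩ := front C0 c0 hc0
  refine ⟨ρ0, fun ρ lam hρ hlam U hU => ?_⟩
  obtain ⟨δ, N, w, J, a1, a2, a3, a4, a5, a6, a7, a8, a9, a10, a11, a12⟩ :=
    h ρ lam hρ hlam U hU.sm hU.pde hU.wall hU.mean hU.up hU.low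
  exact ⟨δ, N, w, J, a1, a2, a3, a4, a5, a6, a7, a8, a9, a10, a11, a12⟩

/-- Common trace of the potential at the level `7/10`. -/
noncomputable def tmv (K : CoreData) (x : ℝ) : ℝ :=
  if 0 < x then K.v0 (25 / 32 * x) else if x < 0 then -K.v0 (-(25 / 32 * x)) else 0

/-- Common trace of the vertical flux at the level `7/10`. -/
noncomputable def tmj (K : CoreData) (Mc x : ℝ) : ℝ :=
  if 0 < x then -(Mc * K.g0 (25 / 32 * x)) else Mc * K.g0 (-(25 / 32 * x))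

theorem tmv_pos (K : CoreData) {x : ℝ} (hx : 0 < x) : tmv K x = K.v0 (25 / 32 * x) := by
  simp [tmv, hx]

theorem tmv_neg (K : CoreData) {x : ℝ} (hx : x < 0) : tmv K x = -K.v0 (-(25 / 32 * x)) := by
  have h1 : ¬ 0 < x := not_lt.2 hx.le
  simp only [tmv, if_neg h1, if_pos hx]

theorem tmv_zero (K : CoreData) : tmv K 0 = 0 := by simp [tmv]

theorem tmj_pos (K : CoreData) (Mc : ℝ) {x : ℝ} (hx : 0 < x) :
    tmj K Mc x = -(Mc * K.g0 (25 / 32 * x)) := by
  simp [tmj, hx]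

theorem tmj_neg (K : CoreData) (Mc : ℝ) {x : ℝ} (hx : x < 0) :
    tmj K Mc x = Mc * K.g0 (-(25 / 32 * x)) := by
  have h1 : ¬ 0 < x := not_lt.2 hx.le
  simp only [tmj, if_neg h1]

theorem trO (K : CoreData) (Mc : ℝ) (hMc : 10 ≤ Mc) {lam δ N : ℝ} {W : E3 → ℝ}
    {Jn : E3 → E3}
    (h : NSol lam (fun q : ℝ × ℝ => K.uL (-((3 / 10 * Mc) * q.1)) (2 * q.2 - 1)) δ N W Jn)
    (x y : ℝ) (hx : x ∈ Icc (-(32 / 25) : ℝ) (32 / 25)) (hx0 : x ≠ 0) :
    Tendsto (fun t => bw 1 0 0 ![25 / 64, 25 / 44, 10 / 3] ![1 / 2, 1 / 2, -(7 / 3)] W (pt x y t))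
      (𝓝[>] (7 / 10)) (𝓝 (tmv K x)) ∧
    Tendsto (fun t => bJ 1 0 ![25 / 64, 25 / 44, 10 / 3] ![1 / 2, 1 / 2, -(7 / 3)] Jn (pt x y t) 2)
      (𝓝[>] (7 / 10)) (𝓝 (tmj K Mc x)) := by
  have hF : Tendsto (fun t : ℝ => (![25 / 64, 25 / 44, 10 / 3] : Fin 3 → ℝ) 2 * t +
      (![1 / 2, 1 / 2, -(7 / 3)] : Fin 3 → ℝ) 2) (𝓝[>] (7 / 10)) (𝓝[>] 0) := by
    have := (tendsto_lin_pos (10 / 3) (-(7 / 3)) (7 / 10) (by norm_num) 0 (by norm_num)).1
    simpa using this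
  have e : (![25 / 64, 25 / 44, 10 / 3] : Fin 3 → ℝ) 0 * x +
      (![1 / 2, 1 / 2, -(7 / 3)] : Fin 3 → ℝ) 0 = (25 / 32 * x + 1) / 2 := by
    simp; ring
  have e2 : (![25 / 64, 25 / 44, 10 / 3] : Fin 3 → ℝ) 2 = 10 / 3 := by simp
  rcases lt_or_gt_of_ne hx0 with hneg | hpos
  · obtain ⟨-, T1, T2⟩ := coreO_lim K (3 / 10 * Mc) (by linarith) (-(25 / 32 * x)) (by linarith)
      (by linarith [hx.1])
    rw [neg_neg, ← e] at T1 T2
    obtain ⟨S1, S2⟩ := start_traces h 1 0 0 _ _ _ hF x y _ _ T1 T2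
    rw [tmv_neg K hneg, tmj_neg K Mc hneg]
    constructor
    · simpa using S1
    · rw [e2] at S2
      convert S2 using 2
      ring
  · obtain ⟨⟨T1, T2⟩, -⟩ := coreO_lim K (3 / 10 * Mc) (by linarith) (25 / 32 * x) (by linarith)
      (by linarith [hx.2])
    rw [← e] at T1 T2
    obtain ⟨S1, S2⟩ := start_traces h 1 0 0 _ _ _ hF x y _ _ T1 T2
    rw [tmv_pos K hpos, tmj_pos K Mc hpos]
    constructor
    · simpa using S1
    · rw [e2] at S2
      convert S2 using 2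
      ring

theorem trP (K : CoreData) (Mc : ℝ) (hMc : 10 ≤ Mc) {lam δ N : ℝ} {W : E3 → ℝ}
    {Jn : E3 → E3}
    (h : NSol lam (fun q : ℝ × ℝ => K.uR ((1 / 10 * Mc) * q.1) q.2) δ N W Jn)
    (x y : ℝ) (hx : x ∈ Icc (0 : ℝ) (32 / 25)) (hx0 : x ≠ 0) :
    Tendsto (fun t => bw 1 (Real.log 2) (Real.pi / 2 * (1 / 10 * Mc))
      ![25 / 32, 25 / 44, -10] ![0, 1 / 2, 7] W (pt x y t)) (𝓝[<] (7 / 10)) (𝓝 (tmv K x)) ∧
    Tendsto (fun t => bJ 1 (Real.pi / 2 * (1 / 10 * Mc))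
      ![25 / 32, 25 / 44, -10] ![0, 1 / 2, 7] Jn (pt x y t) 2)
      (𝓝[<] (7 / 10)) (𝓝 (tmj K Mc x)) := by
  have hF : Tendsto (fun t : ℝ => (![25 / 32, 25 / 44, -10] : Fin 3 → ℝ) 2 * t +
      (![0, 1 / 2, 7] : Fin 3 → ℝ) 2) (𝓝[<] (7 / 10)) (𝓝[>] 0) := by
    have := (tendsto_lin_neg (-10) 7 (7 / 10) (by norm_num) 0 (by norm_num)).2
    simpa using this
  have e : (![25 / 32, 25 / 44, -10] : Fin 3 → ℝ) 0 * x +
      (![0, 1 / 2, 7] : Fin 3 → ℝ) 0 = 25 / 32 * x := by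
    simp
  have e2 : (![25 / 32, 25 / 44, -10] : Fin 3 → ℝ) 2 = -10 := by simp
  have hpos : 0 < x := lt_of_le_of_ne hx.1 (Ne.symm hx0)
  obtain ⟨T1, T2⟩ := coreP_lim K (1 / 10 * Mc) (by linarith) (25 / 32 * x) (by linarith)
      (by linarith [hx.2])
  rw [← e] at T1 T2
  obtain ⟨S1, S2⟩ := start_traces h 1 _ _ _ _ _ hF x y _ _ T1 T2
  rw [tmv_pos K hpos, tmj_pos K Mc hpos]
  constructor
  · simpa using S1
  · rw [e2, e] at S2
    convert S2 using 2
    ring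

theorem trN (K : CoreData) (Mc : ℝ) (hMc : 10 ≤ Mc) {lam δ N : ℝ} {W : E3 → ℝ}
    {Jn : E3 → E3}
    (h : NSol lam (fun q : ℝ × ℝ => K.uR ((1 / 10 * Mc) * q.1) q.2) δ N W Jn)
    (x y : ℝ) (hx : x ∈ Icc (-(32 / 25) : ℝ) 0) (hx0 : x ≠ 0) :
    Tendsto (fun t => bw (-1) (Real.log 2) (Real.pi / 2 * (1 / 10 * Mc))
      ![-(25 / 32), 25 / 44, -10] ![0, 1 / 2, 7] W (pt x y t)) (𝓝[<] (7 / 10)) (𝓝 (tmv K x)) ∧
    Tendsto (fun t => bJ (-1) (Real.pi / 2 * (1 / 10 * Mc))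
      ![-(25 / 32), 25 / 44, -10] ![0, 1 / 2, 7] Jn (pt x y t) 2)
      (𝓝[<] (7 / 10)) (𝓝 (tmj K Mc x)) := by
  have hF : Tendsto (fun t : ℝ => (![-(25 / 32), 25 / 44, -10] : Fin 3 → ℝ) 2 * t +
      (![0, 1 / 2, 7] : Fin 3 → ℝ) 2) (𝓝[<] (7 / 10)) (𝓝[>] 0) := by
    have := (tendsto_lin_neg (-10) 7 (7 / 10) (by norm_num) 0 (by norm_num)).2
    simpa using this
  have e : (![-(25 / 32), 25 / 44, -10] : Fin 3 → ℝ) 0 * x +
      (![0, 1 / 2, 7] : Fin 3 → ℝ) 0 = -(25 / 32 * x) := by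
    simp
  have e2 : (![-(25 / 32), 25 / 44, -10] : Fin 3 → ℝ) 2 = -10 := by simp
  have hneg : x < 0 := lt_of_le_of_ne hx.2 hx0
  obtain ⟨T1, T2⟩ := coreP_lim K (1 / 10 * Mc) (by linarith) (-(25 / 32 * x)) (by linarith)
      (by linarith [hx.1])
  rw [← e] at T1 T2
  obtain ⟨S1, S2⟩ := start_traces h (-1) _ _ _ _ _ hF x y _ _ T1 T2
  rw [tmv_neg K hneg, tmj_neg K Mc hneg]
  constructor
  · rw [e] at S1
    simpa using S1
  · rw [e2, e] at S2
    convert S2 using 2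
    ring

theorem faceSol_O (K : CoreData) (Mc : ℝ) (hMc : 10 ≤ Mc) {lam δ N : ℝ} {W : E3 → ℝ}
    {Jn : E3 → E3}
    (h : NSol lam (fun q : ℝ × ℝ => K.uL (-((3 / 10 * Mc) * q.1)) (2 * q.2 - 1)) δ N W Jn)
    (hU : ContDiffOn ℝ ∞ (fun q : ℝ × ℝ => K.uL (-((3 / 10 * Mc) * q.1)) (2 * q.2 - 1))
      {q | 0 < q.1}) :
    ∃ (δ' N0 : ℝ) (w : E3 → ℝ) (J : E3 → E3),
      FaceSol (-(32 / 25)) (32 / 25) (-(22 / 25)) (22 / 25) (7 / 10) 1 δ' N0 w J
        (tmv K) (fun _ => 0) (tmj K Mc) (fun _ => 0) := by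
  obtain ⟨C, hC⟩ := coreO_tip K (3 / 10 * Mc) (by linarith)
  have hb := boxSol_of_nsol h hU 1 0 0 ![25 / 64, 25 / 44, 10 / 3] ![1 / 2, 1 / 2, -(7 / 3)]
    (by norm_num) (by intro i; fin_cases i <;> simp) (by simp; norm_num)
    (-(32 / 25)) (32 / 25) (-(22 / 25)) (22 / 25) (7 / 10) 1
    (by intro t h1 h2; simp; constructor <;> linarith)
    (by intro t ht; simp at ht ⊢; constructor <;> linarith [ht.1, ht.2])
    (by intro t ht; simp at ht ⊢; constructor <;> linarith [ht.1, ht.2])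
    (by left; simp; norm_num) (by right; simp; norm_num)
    (by left; simp; norm_num) (by right; simp; norm_num)
    C (by intro σ x h1 h2 h3 h4; simpa using hC σ x h1 h2 h3 h4)
  obtain ⟨δ', N0, hb⟩ := hb
  have hend : ∀ x ∈ Icc (-(32 / 25) : ℝ) (32 / 25), ∀ y ∈ Icc (-(22 / 25) : ℝ) (22 / 25), _ :=
    fun x hx y hy => end_traces h 1 0 0 ![25 / 64, 25 / 44, 10 / 3] ![1 / 2, 1 / 2, -(7 / 3)]
      (𝓝[<] 1)
      (by
        have := (tendsto_lin_pos (10 / 3) (-(7 / 3)) 1 (by norm_num) 1 (by norm_num)).2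
        simpa using this) x y
      (by simp; constructor <;> linarith [hx.1, hx.2])
      (by simp; constructor <;> linarith [hy.1, hy.2])
  refine ⟨δ', N0, _, _, ⟨hb, ?_, ?_, ?_, ?_, ?_, ?_⟩⟩
  · intro x hx y hy hor
    exact (trO K Mc hMc h x y hx (by rcases hor with h | h; exacts [h, absurd rfl h])).1
  · intro x hx y hy _
    simpa using (hend x hx y hy).1
  · intro x hx y hy hor
    exact (trO K Mc hMc h x y hx (by rcases hor with h | h; exacts [h, absurd rfl h])).2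
  · intro x hx y hy _
    simpa using (hend x hx y hy).2
  · intro _; exact tmv_zero K
  · intro _; rfl

theorem faceSol_P (K : CoreData) (Mc : ℝ) (hMc : 10 ≤ Mc) {lam δ N : ℝ} {W : E3 → ℝ}
    {Jn : E3 → E3}
    (h : NSol lam (fun q : ℝ × ℝ => K.uR ((1 / 10 * Mc) * q.1) q.2) δ N W Jn)
    (hU : ContDiffOn ℝ ∞ (fun q : ℝ × ℝ => K.uR ((1 / 10 * Mc) * q.1) q.2)
      {q | 0 < q.1}) :
    ∃ (δ' N0 : ℝ) (w : E3 → ℝ) (J : E3 → E3),
      FaceSol 0 (32 / 25) (-(22 / 25)) (22 / 25) (3 / 5) (7 / 10) δ' N0 w J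
        (fun _ => Real.log 2 + Real.pi / 2 * (1 / 10 * Mc)) (tmv K)
        (fun _ => -(Real.pi / 2 * Mc)) (tmj K Mc) := by
  obtain ⟨C, hC⟩ := coreP_tip K (1 / 10 * Mc) (by linarith)
  have hb := boxSol_of_nsol h hU 1 (Real.log 2) (Real.pi / 2 * (1 / 10 * Mc))
    ![25 / 32, 25 / 44, -10] ![0, 1 / 2, 7]
    (by norm_num) (by intro i; fin_cases i <;> simp) (by simp)
    0 (32 / 25) (-(22 / 25)) (22 / 25) (3 / 5) (7 / 10)
    (by intro t h1 h2; simp; constructor <;> linarith)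
    (by intro t ht; simp at ht ⊢; constructor <;> linarith [ht.1, ht.2])
    (by intro t ht; simp at ht ⊢; constructor <;> linarith [ht.1, ht.2])
    (by left; simp) (by right; simp)
    (by left; simp; norm_num) (by right; simp; norm_num)
    C (by intro σ x h1 h2 h3 h4; simpa using hC σ x h1 h2 h3 h4)
  obtain ⟨δ', N0, hb⟩ := hb
  have hend : ∀ x ∈ Icc (0 : ℝ) (32 / 25), ∀ y ∈ Icc (-(22 / 25) : ℝ) (22 / 25), _ :=
    fun x hx y hy => end_traces h 1 (Real.log 2) (Real.pi / 2 * (1 / 10 * Mc))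
      ![25 / 32, 25 / 44, -10] ![0, 1 / 2, 7]
      (𝓝[>] (3 / 5))
      (by
        have := (tendsto_lin_neg (-10) 7 (3 / 5) (by norm_num) 1 (by norm_num)).1
        simpa using this) x y
      (by simp; constructor <;> linarith [hx.1, hx.2])
      (by simp; constructor <;> linarith [hy.1, hy.2])
  refine ⟨δ', N0, _, _, ⟨hb, ?_, ?_, ?_, ?_, ?_, ?_⟩⟩
  · intro x hx y hy _
    simpa using (hend x hx y hy).1
  · intro x hx y hy hor
    exact (trP K Mc hMc h x y hx (by rcases hor with h | h; exacts [h, absurd rfl h])).1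
  · intro x hx y hy _
    have e2 : (![25 / 32, 25 / 44, -10] : Fin 3 → ℝ) 2 = -10 := by simp
    have := (hend x hx y hy).2
    rw [e2] at this
    convert this using 2
    ring
  · intro x hx y hy hor
    exact (trP K Mc hMc h x y hx (by rcases hor with h | h; exacts [h, absurd rfl h])).2
  · intro h; norm_num at h
  · intro _; exact tmv_zero K

theorem faceSol_N (K : CoreData) (Mc : ℝ) (hMc : 10 ≤ Mc) {lam δ N : ℝ} {W : E3 → ℝ}
    {Jn : E3 → E3}
    (h : NSol lam (fun q : ℝ × ℝ => K.uR ((1 / 10 * Mc) * q.1) q.2) δ N W Jn)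
    (hU : ContDiffOn ℝ ∞ (fun q : ℝ × ℝ => K.uR ((1 / 10 * Mc) * q.1) q.2)
      {q | 0 < q.1}) :
    ∃ (δ' N0 : ℝ) (w : E3 → ℝ) (J : E3 → E3),
      FaceSol (-(32 / 25)) 0 (-(22 / 25)) (22 / 25) (3 / 5) (7 / 10) δ' N0 w J
        (fun _ => -(Real.log 2 + Real.pi / 2 * (1 / 10 * Mc))) (tmv K)
        (fun _ => Real.pi / 2 * Mc) (tmj K Mc) := by
  obtain ⟨C, hC⟩ := coreP_tip K (1 / 10 * Mc) (by linarith)
  have hb := boxSol_of_nsol h hU (-1) (Real.log 2) (Real.pi / 2 * (1 / 10 * Mc))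
    ![-(25 / 32), 25 / 44, -10] ![0, 1 / 2, 7]
    (by norm_num) (by intro i; fin_cases i <;> simp) (by simp)
    (-(32 / 25)) 0 (-(22 / 25)) (22 / 25) (3 / 5) (7 / 10)
    (by intro t h1 h2; simp; constructor <;> linarith)
    (by intro t ht; simp at ht ⊢; constructor <;> linarith [ht.1, ht.2])
    (by intro t ht; simp at ht ⊢; constructor <;> linarith [ht.1, ht.2])
    (by right; simp) (by left; simp)
    (by left; simp; norm_num) (by right; simp; norm_num)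
    C (by intro σ x h1 h2 h3 h4; simpa using hC σ x h1 h2 h3 h4)
  obtain ⟨δ', N0, hb⟩ := hb
  have hend : ∀ x ∈ Icc (-(32 / 25) : ℝ) 0, ∀ y ∈ Icc (-(22 / 25) : ℝ) (22 / 25), _ :=
    fun x hx y hy => end_traces h (-1) (Real.log 2) (Real.pi / 2 * (1 / 10 * Mc))
      ![-(25 / 32), 25 / 44, -10] ![0, 1 / 2, 7]
      (𝓝[>] (3 / 5))
      (by
        have := (tendsto_lin_neg (-10) 7 (3 / 5) (by norm_num) 1 (by norm_num)).1
        simpa using this) x y
      (by simp; constructor <;> linarith [hx.1, hx.2])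
      (by simp; constructor <;> linarith [hy.1, hy.2])
  refine ⟨δ', N0, _, _, ⟨hb, ?_, ?_, ?_, ?_, ?_, ?_⟩⟩
  · intro x hx y hy _
    have := (hend x hx y hy).1
    rw [neg_one_mul] at this
    exact this
  · intro x hx y hy hor
    exact (trN K Mc hMc h x y hx (by rcases hor with h | h; exacts [h, absurd rfl h])).1
  · intro x hx y hy _
    have e2 : (![-(25 / 32), 25 / 44, -10] : Fin 3 → ℝ) 2 = -10 := by simp
    have := (hend x hx y hy).2
    rw [e2] at this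
    convert this using 2
    ring
  · intro x hx y hy hor
    exact (trN K Mc hMc h x y hx (by rcases hor with h | h; exacts [h, absurd rfl h])).2
  · intro h; norm_num at h
  · intro _; exact tmv_zero K

end Crest.Agent.R083
end

-- ▼ part R083/TMPoint
section

/-!
Row 83 (S0111), TM group: pointwise properties of the completed potential on the good open set.
-/

set_option autoImplicit false

namespace Crest.Agent.R083

open MeasureTheory Set Filter
open scoped Gradient ENNReal NNReal Topology ContDiff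

theorem fw_eq {a₂ b₂ : ℝ} (w : E3 → ℝ) (vb vt : ℝ → ℝ) {p : E3} (h1 : a₂ < p 2) (h2 : p 2 < b₂) :
    fw a₂ b₂ w vb vt p = w p := by
  unfold fw
  rw [if_neg h1.ne', if_neg h2.ne]

theorem fw_ev {a₂ b₂ : ℝ} (w : E3 → ℝ) (vb vt : ℝ → ℝ) {p : E3} (h1 : a₂ < p 2) (h2 : p 2 < b₂) :
    fw a₂ b₂ w vb vt =ᶠ[𝓝 p] w := by
  filter_upwards [(tm_isOpen_slab a₂ b₂).mem_nhds ⟨h1, h2⟩] with q hq
  exact fw_eq w vb vt hq.1 hq.2

theorem fw_grad {a₂ b₂ : ℝ} (w : E3 → ℝ) (vb vt : ℝ → ℝ) {p : E3} (h1 : a₂ < p 2)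
    (h2 : p 2 < b₂) : ∇ (fw a₂ b₂ w vb vt) p = ∇ w p := by
  unfold gradient
  rw [(fw_ev w vb vt h1 h2).fderiv_eq]

theorem HEll_mono {δ δ' : ℝ} (h : δ' ≤ δ) {p j : E3} (hh : HEll δ p j) : HEll δ' p j := by
  refine ⟨hh.1, le_trans ?_ hh.2⟩
  exact mul_le_mul_of_nonneg_right h (by positivity)

theorem fs_pt {a₀ b₀ a₁ b₁ a₂ b₂ δ N0 : ℝ} {w : E3 → ℝ} {J : E3 → E3}
    (h : BoxSol a₀ b₀ a₁ b₁ a₂ b₂ δ N0 w J) (vb vt : ℝ → ℝ) :
    ContDiffOn ℝ ∞ (fw a₂ b₂ w vb vt) (fV a₀ b₀ a₁ b₁ a₂ b₂ w) ∧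
    ContDiffOn ℝ ∞ J (fV a₀ b₀ a₁ b₁ a₂ b₂ w) ∧
    ∀ x ∈ fV a₀ b₀ a₁ b₁ a₂ b₂ w, fderiv ℝ (fw a₂ b₂ w vb vt) x (ee 2) = J x 2 ∧ dvg J x = 0 ∧
      HEll δ (∇ (fw a₂ b₂ w vb vt) x) (J x) ∧ ‖∇ (fw a₂ b₂ w vb vt) x‖ ^ 2 * √(tip2 x) ≤ N0 := by
  have hsub : fV a₀ b₀ a₁ b₁ a₂ b₂ w ⊆ {p | a₂ < p 2 ∧ p 2 < b₂} := by
    intro p hp
    exact hp.1.2.2
  refine ⟨?_, h.smJ.mono hsub, ?_⟩
  · exact (h.smw.mono hsub).congr fun p hp => fw_eq w vb vt (hsub hp).1 (hsub hp).2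
  · intro x hx
    obtain ⟨s1, s2⟩ := hsub hx
    have hb := hx.1
    have b0 : x 0 ∈ Icc a₀ b₀ := ⟨hb.1.1.le, hb.1.2.le⟩
    have b1 : x 1 ∈ Icc a₁ b₁ := ⟨hb.2.1.1.le, hb.2.1.2.le⟩
    rw [fw_grad w vb vt s1 s2, (fw_ev w vb vt s1 s2).fderiv_eq]
    refine ⟨(h.eqs x s1 s2).1, (h.eqs x s1 s2).2, ⟨hx.2, ?_⟩, (h.est x b0 b1 s1 s2).1⟩
    exact h.ell x b0 b1 s1 s2

end Crest.Agent.R083
end

-- ▼ part R083/TMApprox

/-!
Row 83 (S0111), TM group: Lipschitz approximants of the potential on a box, with their values on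
the horizontal faces.
-/

set_option autoImplicit false

namespace Crest.Agent.R083

open MeasureTheory Set Filter
open scoped Gradient ENNReal NNReal Topology ContDiff

theorem fa_cont_cut (n : ℕ) (x y : ℝ) : Continuous fun t => cut n (pt x y t) := by
  unfold cut tip2
  simp only [pt_zero, pt_two]
  exact Real.smoothTransition.continuous.comp (by fun_prop)

theorem fa_cont_tip (x y : ℝ) : Continuous fun t => √(tip2 (pt x y t)) := by
  unfold tip2
  simp only [pt_zero, pt_two]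
  fun_prop

/-- Uniqueness of limits at a horizontal face. -/
theorem fa_face (F : Filter ℝ) [F.NeBot] (n : ℕ) (f w : E3 → ℝ) (x y t0 v : ℝ)
    (hF : F ≤ 𝓝 t0) (hf : Continuous fun t => f (pt x y t))
    (hev : ∀ᶠ t in F, f (pt x y t) = cut n (pt x y t) * w (pt x y t))
    (htip : (x = 0 ∧ t0 = 7 / 10) → v = 0)
    (hlim : (x ≠ 0 ∨ t0 ≠ 7 / 10) → Tendsto (fun t => w (pt x y t)) F (𝓝 v)) :
    f (pt x y t0) = cut n (pt x y t0) * v := by
  have h1 : Tendsto (fun t => f (pt x y t)) F (𝓝 (f (pt x y t0))) := (hf.tendsto t0).mono_left hF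
  by_cases hc : x = 0 ∧ t0 = 7 / 10
  · rw [htip hc, mul_zero]
    have h2 : Tendsto (fun t => f (pt x y t)) F (𝓝 0) := by
      refine tendsto_const_nhds.congr' ?_
      have h3 : ∀ᶠ t in 𝓝 t0, (n : ℝ) * tip2 (pt x y t) < 1 := by
        have hc2 : Continuous fun t => (n : ℝ) * tip2 (pt x y t) := by
          unfold tip2
          simp only [pt_zero, pt_two]
          fun_prop
        have h4 : (n : ℝ) * tip2 (pt x y t0) < 1 := by
          unfold tip2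
          simp only [pt_zero, pt_two, hc.1, hc.2]
          norm_num
        exact (hc2.tendsto t0).eventually (eventually_lt_nhds h4)
      filter_upwards [hev, hF h3] with t ht1 ht2
      rw [ht1, cut_eq_zero (le_of_lt ht2), zero_mul]
    exact tendsto_nhds_unique h1 h2
  · have hor : x ≠ 0 ∨ t0 ≠ 7 / 10 := by
      by_cases hx : x = 0
      · right; intro ht; exact hc ⟨hx, ht⟩
      · left; exact hx
    have h2 := (((fa_cont_cut n x y).tendsto t0).mono_left hF).mul (hlim hor)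
    exact tendsto_nhds_unique (h1.congr' hev) h2

theorem fa_bound (F : Filter ℝ) [F.NeBot] (N0 : ℝ) (w : E3 → ℝ) (x y t0 v : ℝ)
    (hF : F ≤ 𝓝 t0)
    (hev : ∀ᶠ t in F, (w (pt x y t)) ^ 2 ≤ N0 * √(tip2 (pt x y t)))
    (htip : (x = 0 ∧ t0 = 7 / 10) → v = 0)
    (hlim : (x ≠ 0 ∨ t0 ≠ 7 / 10) → Tendsto (fun t => w (pt x y t)) F (𝓝 v)) :
    v ^ 2 ≤ N0 * √(tip2 (pt x y t0)) := by
  by_cases hc : x = 0 ∧ t0 = 7 / 10
  · rw [htip hc, hc.1, hc.2]
    simp [tip2]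
  · have hor : x ≠ 0 ∨ t0 ≠ 7 / 10 := by
      by_cases hx : x = 0
      · right; intro ht; exact hc ⟨hx, ht⟩
      · left; exact hx
    exact le_of_tendsto_of_tendsto ((hlim hor).pow 2)
      ((((fa_cont_tip x y).tendsto t0).mono_left hF).const_mul N0) hev

theorem fa_close (N0 ε : ℝ) (hN : 0 ≤ N0) (hε : 0 < ε) : ∃ j0 : ℕ, ∀ j ≥ j0, ∀ (p : E3) (v : ℝ),
    v ^ 2 ≤ N0 * √(tip2 p) → |cut (j + 200) p * v - v| ≤ ε := by
  set η : ℝ := ε ^ 2 / (N0 + 1) with hη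
  have hη0 : 0 < η := by positivity
  obtain ⟨j0, hj0⟩ := exists_nat_gt (2 / η ^ 2)
  refine ⟨j0, fun j hj p v hv => ?_⟩
  by_cases h2 : 2 ≤ ((j + 200 : ℕ) : ℝ) * tip2 p
  · rw [cut_eq_one h2, one_mul, sub_self, abs_zero]
    exact hε.le
  · push Not at h2
    have ht := tip2_nonneg p
    have hj1 : 2 / η ^ 2 < ((j + 200 : ℕ) : ℝ) := by
      have : (j0 : ℝ) ≤ ((j + 200 : ℕ) : ℝ) := by exact_mod_cast hj.trans (Nat.le_add_right j 200)
      linarith
    have h3 : tip2 p ≤ η ^ 2 := by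
      by_contra hcon
      push Not at hcon
      rw [div_lt_iff₀ (by positivity)] at hj1
      have h5 : (0:ℝ) < ((j + 200 : ℕ) : ℝ) := by positivity
      have h6 := mul_lt_mul_of_pos_left hcon h5
      linarith
    have h4 : √(tip2 p) ≤ η := Real.sqrt_le_left hη0.le |>.2 h3
    have h5 : v ^ 2 ≤ ε ^ 2 := by
      refine hv.trans ((mul_le_mul_of_nonneg_left h4 hN).trans ?_)
      rw [hη, ← mul_div_assoc, div_le_iff₀ (by linarith)]
      nlinarith [sq_nonneg ε]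
    have h6 : |v| ≤ ε := abs_le_of_sq_le_sq h5 hε.le
    have h7 : cut (j + 200) p * v - v = -((1 - cut (j + 200) p) * v) := by ring
    rw [h7, abs_neg, abs_mul]
    have h8 : |1 - cut (j + 200) p| ≤ 1 := by
      rw [abs_le]
      constructor <;> linarith [cut_nonneg (j + 200) p, cut_le_one (j + 200) p]
    calc |1 - cut (j + 200) p| * |v| ≤ 1 * ε := mul_le_mul h8 h6 (abs_nonneg _) zero_le_one
      _ = ε := one_mul _

theorem fs_approx (a₀ b₀ a₁ b₁ a₂ b₂ δ N0 : ℝ) (w : E3 → ℝ) (J : E3 → E3)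
    (vb vt jb jt : ℝ → ℝ) (h : FaceSol a₀ b₀ a₁ b₁ a₂ b₂ δ N0 w J vb vt jb jt)
    (h0 : a₀ < b₀) (h1 : a₁ < b₁) (h2 : a₂ < b₂) (htip : 7 / 10 ∉ Ioo a₂ b₂) :
    IntegrableOn (fun x => ‖∇ (fw a₂ b₂ w vb vt) x‖ ^ 2) (cbox a₀ b₀ a₁ b₁ a₂ b₂) volume ∧
    ∃ wj : ℕ → E3 → ℝ, (∀ j, ∃ K : ℝ≥0, LipschitzWith K (wj j)) ∧
      (∀ j, ∀ p ∈ cbox a₀ b₀ a₁ b₁ a₂ b₂, wj j p = cut (j + 200) p * fw a₂ b₂ w vb vt p) ∧
      (∀ ε : ℝ, 0 < ε → ∃ j0, ∀ j ≥ j0, ∀ p ∈ cbox a₀ b₀ a₁ b₁ a₂ b₂,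
        |wj j p - fw a₂ b₂ w vb vt p| ≤ ε) ∧
      Tendsto (fun j => ∫ x in cbox a₀ b₀ a₁ b₁ a₂ b₂,
        ‖∇ (wj j) x - ∇ (fw a₂ b₂ w vb vt) x‖ ^ 2) atTop (𝓝 0) := by
  obtain ⟨hint, wj, hL, hval, hT⟩ := approx_box a₀ b₀ a₁ b₁ a₂ b₂ h0 h1 h2 htip w N0 h.sol.smw
    (fun p a b c d => (h.sol.est p a b c d).1) (fun p a b c d => (h.sol.est p a b c d).2.1)
  have hgr : ∀ᵐ p ∂(volume.restrict (cbox a₀ b₀ a₁ b₁ a₂ b₂)),
      ∇ (fw a₂ b₂ w vb vt) p = ∇ w p := by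
    filter_upwards [ae_obox a₀ b₀ a₁ b₁ a₂ b₂] with p hp
    exact fw_grad w vb vt hp.2.2.1 hp.2.2.2
  have hN : 0 ≤ N0 := by
    have := (h.sol.est (pt ((a₀ + b₀) / 2) ((a₁ + b₁) / 2) ((a₂ + b₂) / 2))
      ⟨by rw [pt_zero]; linarith, by rw [pt_zero]; linarith⟩
      ⟨by rw [pt_one]; linarith, by rw [pt_one]; linarith⟩
      (by rw [pt_two]; linarith) (by rw [pt_two]; linarith)).1
    exact le_trans (by positivity) this
  -- eventually inside the slab
  have evb : ∀ᶠ t in 𝓝[>] a₂, a₂ < t ∧ t < b₂ := by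
    filter_upwards [Ioo_mem_nhdsGT h2] with t ht using ht
  have evt : ∀ᶠ t in 𝓝[<] b₂, a₂ < t ∧ t < b₂ := by
    filter_upwards [Ioo_mem_nhdsLT h2] with t ht using ht
  have hvals : ∀ n, ∀ p ∈ cbox a₀ b₀ a₁ b₁ a₂ b₂, wj n p = cut n p * fw a₂ b₂ w vb vt p := by
    intro n p hp
    obtain ⟨K, hK⟩ := hL n
    have hcont : Continuous fun t => wj n (pt (p 0) (p 1) t) :=
      (lipschitz_pt_two (wj n) K hK (p 0) (p 1)).continuous
    by_cases c1 : p 2 = a₂
    · have h3 := fa_face (𝓝[>] a₂) n (wj n) w (p 0) (p 1) a₂ (vb (p 0)) nhdsWithin_le_nhds hcont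
        (evb.mono fun t ht => hval n _ (by rw [pt_zero]; exact hp.1) (by rw [pt_one]; exact hp.2.1)
          (by rw [pt_two]; exact ht.1) (by rw [pt_two]; exact ht.2))
        (fun hc => by rw [hc.1]; exact h.vb0 hc.2)
        (fun hor => h.wb _ hp.1 _ hp.2.1 hor)
      rw [← c1, pt_eta] at h3
      rw [h3]
      simp only [fw, if_pos c1]
    · by_cases c2 : p 2 = b₂
      · have h3 := fa_face (𝓝[<] b₂) n (wj n) w (p 0) (p 1) b₂ (vt (p 0)) nhdsWithin_le_nhds hcont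
          (evt.mono fun t ht => hval n _ (by rw [pt_zero]; exact hp.1)
            (by rw [pt_one]; exact hp.2.1)
            (by rw [pt_two]; exact ht.1) (by rw [pt_two]; exact ht.2))
          (fun hc => by rw [hc.1]; exact h.vt0 hc.2)
          (fun hor => h.wt _ hp.1 _ hp.2.1 hor)
        rw [← c2, pt_eta] at h3
        rw [h3]
        simp only [fw, if_neg c1, if_pos c2]
      · have s1 : a₂ < p 2 := lt_of_le_of_ne hp.2.2.1 (Ne.symm c1)
        have s2 : p 2 < b₂ := lt_of_le_of_ne hp.2.2.2 c2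
        rw [hval n p hp.1 hp.2.1 s1 s2, fw_eq w vb vt s1 s2]
  have hbd : ∀ p ∈ cbox a₀ b₀ a₁ b₁ a₂ b₂, (fw a₂ b₂ w vb vt p) ^ 2 ≤ N0 * √(tip2 p) := by
    intro p hp
    by_cases c1 : p 2 = a₂
    · have h3 := fa_bound (𝓝[>] a₂) N0 w (p 0) (p 1) a₂ (vb (p 0)) nhdsWithin_le_nhds
        (evb.mono fun t ht => (h.sol.est _ (by rw [pt_zero]; exact hp.1)
          (by rw [pt_one]; exact hp.2.1)
          (by rw [pt_two]; exact ht.1) (by rw [pt_two]; exact ht.2)).2.1)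
        (fun hc => by rw [hc.1]; exact h.vb0 hc.2)
        (fun hor => h.wb _ hp.1 _ hp.2.1 hor)
      rw [← c1, pt_eta] at h3
      simp only [fw, if_pos c1]
      exact h3
    · by_cases c2 : p 2 = b₂
      · have h3 := fa_bound (𝓝[<] b₂) N0 w (p 0) (p 1) b₂ (vt (p 0)) nhdsWithin_le_nhds
          (evt.mono fun t ht => (h.sol.est _ (by rw [pt_zero]; exact hp.1)
            (by rw [pt_one]; exact hp.2.1)
            (by rw [pt_two]; exact ht.1) (by rw [pt_two]; exact ht.2)).2.1)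
          (fun hc => by rw [hc.1]; exact h.vt0 hc.2)
          (fun hor => h.wt _ hp.1 _ hp.2.1 hor)
        rw [← c2, pt_eta] at h3
        simp only [fw, if_neg c1, if_pos c2]
        exact h3
      · have s1 : a₂ < p 2 := lt_of_le_of_ne hp.2.2.1 (Ne.symm c1)
        have s2 : p 2 < b₂ := lt_of_le_of_ne hp.2.2.2 c2
        rw [fw_eq w vb vt s1 s2]
        exact (h.sol.est p hp.1 hp.2.1 s1 s2).2.1
  refine ⟨?_, fun j => wj (j + 200), fun j => hL _, fun j p hp => hvals _ p hp, ?_, ?_⟩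
  · refine (integrable_congr (hgr.mono fun p hp => ?_)).2 hint
    simp only [hp]
  · intro ε hε
    obtain ⟨j0, hj0⟩ := fa_close N0 ε hN hε
    refine ⟨j0, fun j hj p hp => ?_⟩
    show |wj (j + 200) p - fw a₂ b₂ w vb vt p| ≤ ε
    rw [hvals _ p hp]
    exact hj0 j hj p _ (hbd p hp)
  · have h3 : ∀ j, ∫ x in cbox a₀ b₀ a₁ b₁ a₂ b₂,
        ‖∇ (wj (j + 200)) x - ∇ (fw a₂ b₂ w vb vt) x‖ ^ 2 =
        ∫ x in cbox a₀ b₀ a₁ b₁ a₂ b₂, ‖∇ (wj (j + 200)) x - ∇ w x‖ ^ 2 := by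
      intro j
      refine integral_congr_ae (hgr.mono fun p hp => ?_)
      simp only [hp]
    simp only [h3]
    exact hT.comp (tendsto_add_atTop_nat 200)

end Crest.Agent.R083
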