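import Crest.Agent.R083.Resolve_Mg
import Crest.Agent.R083.TMFace
import Crest.Agent.R083.TMDefs
import Crest.Agent.R083.BoxFubini
import Crest.Agent.R083.Mollify
import Mathlib
import Crest.Agent.R083.TMApprox_Mg
import Crest.Agent.R083.ModelIsoAux
import Crest.Agent.R083.ModExists
import Crest.Agent.R083.Glue
import Crest.Agent.R083.Wdf

-- ▼ part R083/Iso
section

/-!
Row 83 (S0111), ISO group: the isotropisation theorem (helper771).
-/

set_option autoImplicit false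

namespace Crest.Agent.R083

open MeasureTheory Set Filter
open scoped Gradient ENNReal NNReal Topology ContDiff

theorem iso (δ μ : ℝ) (hδ : 0 < δ) (hμ : 0 < μ) :
    ∃ (c C : ℝ) (L : ℝ≥0), 0 < c ∧
      ∀ (V : Set E3), IsOpen V → Bornology.IsBounded V →
      ∀ (M : E3 → (E3 →L[ℝ] E3)), (∀ x ∈ V, ∀ᶠ y in 𝓝 x, M y = M x) →
        (∀ x ∈ V, Ell μ (M x)) →
      ∀ (w : E3 → ℝ) (J : E3 → E3) (N : ℝ≥0), ContDiffOn ℝ ∞ w V → ContDiffOn ℝ ∞ J V →
        (∀ x ∈ V, fderiv ℝ w x (ee 2) = J x 2) → (∀ x ∈ V, dvg J x = 0) →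
        (∀ x ∈ V, HEll δ (∇ w x) (J x)) → (∀ x ∈ V, ‖∇ w x‖ ≤ N) →
      ∀ ε : ℝ, 0 < ε →
      ∃ (γ : E3 → ℝ) (u v : E3 → ℝ) (R T : E3 → E3),
        Measurable γ ∧ (∀ x, c ≤ γ x ∧ γ x ≤ C) ∧
        LipschitzWith L u ∧ LipschitzWith (L * N) v ∧
        (∀ x, x ∉ V → u x = 0 ∧ v x = 0 ∧ R x = 0 ∧ T x = 0) ∧
        (∀ x, |u x| ≤ ε ∧ |v x| ≤ ε) ∧ Measurable R ∧ Measurable T ∧
        (∀ x, ‖R x‖ ≤ L ∧ ‖T x‖ ≤ L * N) ∧ WDF R ∧ WDF T ∧
        ∀ᵐ x ∂(volume.restrict V),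
          ee 2 + R x = γ x • M x (ee 2 + ∇ u x) ∧
          J x + T x = γ x • M x (∇ w x + ∇ v x) :=
  Iso.iso_of_resolves resolves_all δ μ hδ hμ

end Crest.Agent.R083
end

-- ▼ part R083/TMOpen
section

/-!
Row 83 (S0111), TM group: the part of the open box where the horizontal gradient does not vanish
is open and of full measure.
-/

set_option autoImplicit false

namespace Crest.Agent.R083

open MeasureTheory Set Filter
open scoped Gradient ENNReal NNReal Topology ContDiff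

/-- File `TMOpen.lean`. -/
theorem fs_V (a₀ b₀ a₁ b₁ a₂ b₂ δ N0 : ℝ) (w : E3 → ℝ) (J : E3 → E3)
    (h : BoxSol a₀ b₀ a₁ b₁ a₂ b₂ δ N0 w J) :
    IsOpen (fV a₀ b₀ a₁ b₁ a₂ b₂ w) ∧
    volume (cbox a₀ b₀ a₁ b₁ a₂ b₂ \ fV a₀ b₀ a₁ b₁ a₂ b₂ w) = 0 := by
  have hc : Continuous fun p : E3 => p 2 := (EuclideanSpace.proj (2 : Fin 3)).continuous
  have hS : IsOpen {p : E3 | a₂ < p 2 ∧ p 2 < b₂} :=
    (isOpen_lt continuous_const hc).inter (isOpen_lt hc continuous_const)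
  have hsub : obox a₀ b₀ a₁ b₁ a₂ b₂ ⊆ {p : E3 | a₂ < p 2 ∧ p 2 < b₂} := fun p hp =>
    ⟨hp.2.2.1, hp.2.2.2⟩
  have hfd : ContinuousOn (fderiv ℝ w) {p : E3 | a₂ < p 2 ∧ p 2 < b₂} :=
    h.smw.continuousOn_fderiv_of_isOpen hS (by simp)
  have hco : ∀ i : Fin 3, ContinuousOn (fun p => (∇ w p) i) (obox a₀ b₀ a₁ b₁ a₂ b₂) := by
    intro i
    have h1 : (fun p => (∇ w p) i) = fun p => fderiv ℝ w p (ee i) := by
      funext p; exact tm_grad_coord w p i
    rw [h1]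
    exact (hfd.mono hsub).clm_apply continuousOn_const
  constructor
  · have h2 : ContinuousOn (fun p => (∇ w p) 0 ^ 2 + (∇ w p) 1 ^ 2)
        (obox a₀ b₀ a₁ b₁ a₂ b₂) := ((hco 0).pow 2).add ((hco 1).pow 2)
    have h3 := h2.isOpen_inter_preimage (isOpen_obox a₀ b₀ a₁ b₁ a₂ b₂) (isOpen_Ioi (a := (0 : ℝ)))
    exact h3
  · obtain ⟨l, c, l', c', hl, hl', hz⟩ := h.zer
    have hsub2 : cbox a₀ b₀ a₁ b₁ a₂ b₂ \ fV a₀ b₀ a₁ b₁ a₂ b₂ w ⊆
        (({p : E3 | p 0 = a₀} ∪ {p : E3 | p 0 = b₀}) ∪ ({p : E3 | p 1 = a₁} ∪ {p : E3 | p 1 = b₁}) ∪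
          ({p : E3 | p 2 = a₂} ∪ {p : E3 | p 2 = b₂})) ∪
        ((⋃ k : ℕ, {p : E3 | Real.sin (Real.pi * 8 ^ k * (l * p 0 + c)) = 0}) ∪
          (⋃ k : ℕ, {p : E3 | Real.sin (Real.pi * 8 ^ k * (l' * p 1 + c')) = 0})) := by
      intro p hp
      obtain ⟨⟨hp0, hp1, hp2⟩, hpV⟩ := hp
      by_contra hne
      simp only [mem_union, mem_iUnion, mem_ofPred_eq, not_or, not_exists] at hne
      obtain ⟨⟨⟨⟨n1, n2⟩, n3, n4⟩, n5, n6⟩, n7, n8⟩ := hne
      have hpo : p ∈ obox a₀ b₀ a₁ b₁ a₂ b₂ :=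
        ⟨⟨lt_of_le_of_ne hp0.1 (Ne.symm n1), lt_of_le_of_ne hp0.2 n2⟩,
          ⟨lt_of_le_of_ne hp1.1 (Ne.symm n3), lt_of_le_of_ne hp1.2 n4⟩,
          ⟨lt_of_le_of_ne hp2.1 (Ne.symm n5), lt_of_le_of_ne hp2.2 n6⟩⟩
      have hns : ¬ 0 < (∇ w p) 0 ^ 2 + (∇ w p) 1 ^ 2 := fun h0 => hpV ⟨hpo, h0⟩
      have s0 := sq_nonneg ((∇ w p) 0)
      have s1 := sq_nonneg ((∇ w p) 1)
      have g0 : (∇ w p) 0 = 0 := pow_eq_zero_iff (two_ne_zero) |>.1 (by linarith)
      have g1 : (∇ w p) 1 = 0 := pow_eq_zero_iff (two_ne_zero) |>.1 (by linarith)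
      obtain ⟨k, hk⟩ := hz p hp0 hp1 hpo.2.2.1 hpo.2.2.2 g0 g1
      rcases hk with hk | hk
      · exact n7 k hk
      · exact n8 k hk
    refine measure_mono_null hsub2 ?_
    refine measure_union_null (measure_union_null (measure_union_null
      (measure_union_null (tip_hyper_null 0 a₀) (tip_hyper_null 0 b₀))
      (measure_union_null (tip_hyper_null 1 a₁) (tip_hyper_null 1 b₁)))
      (measure_union_null (tip_hyper_null 2 a₂) (tip_hyper_null 2 b₂)))
      (measure_union_null (measure_iUnion_null fun k => volume_sin_zero 0 k l c hl)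
        (measure_iUnion_null fun k => volume_sin_zero 1 k l' c' hl'))

end Crest.Agent.R083
end

-- ▼ part R083/Green
section

/-!
Row 83 (S0111): Green identity on a box.
-/

set_option autoImplicit false

namespace Crest.Agent.R083

open MeasureTheory Set Filter
open scoped Gradient ENNReal NNReal Topology ContDiff

namespace GreenBox

/-- The continuous linear equivalence `Fin 3 → ℝ ≃ E3`. -/
noncomputable def tl : (Fin 3 → ℝ) ≃L[ℝ] E3 := (PiLp.continuousLinearEquiv 2 ℝ (fun _ : Fin 3 => ℝ)).symm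


theorem tl_mp : MeasurePreserving tl volume volume := PiLp.volume_preserving_toLp (Fin 3)

theorem tl_single (i : Fin 3) : tl (Pi.single i 1) = ee i := rfl

theorem tl_coord (x : Fin 3 → ℝ) (i : Fin 3) : tl x i = x i := rfl

theorem tl_insert (x : Fin 2 → ℝ) (c : ℝ) :
    tl (Fin.insertNth 2 c x : Fin 3 → ℝ) = pt (x 0) (x 1) c := by
  have h : ∀ i : Fin 3, tl (Fin.insertNth 2 c x : Fin 3 → ℝ) i = pt (x 0) (x 1) c i := by
    intro i
    rw [tl_coord]
    fin_cases i <;> rfl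
  ext i; exact h i

theorem tl_preimage_cbox (a₀ b₀ a₁ b₁ a₂ b₂ : ℝ) :
    tl ⁻¹' (cbox a₀ b₀ a₁ b₁ a₂ b₂) = Icc ![a₀, a₁, a₂] ![b₀, b₁, b₂] := by
  ext x
  simp only [mem_preimage, cbox, mem_ofPred_eq, mem_Icc, Pi.le_def, Fin.forall_fin_succ, tl_coord]
  simp
  tauto

theorem integral_face (a₀ b₀ a₁ b₁ : ℝ) (h0 : a₀ ≤ b₀) (h1 : a₁ ≤ b₁) (F : ℝ → ℝ → ℝ)
    (hF : Continuous (fun q : ℝ × ℝ => F q.1 q.2)) :
    ∫ x in Icc (![a₀, a₁] : Fin 2 → ℝ) ![b₀, b₁], F (x 0) (x 1) =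
      ∫ X in a₀..b₀, ∫ Y in a₁..b₁, F X Y := by
  have hmp := volume_preserving_finTwoArrow ℝ
  have hpre : (MeasurableEquiv.finTwoArrow (α := ℝ)) ⁻¹' (Icc a₀ b₀ ×ˢ Icc a₁ b₁) =
      Icc (![a₀, a₁] : Fin 2 → ℝ) ![b₀, b₁] := by
    ext x
    simp only [mem_preimage, MeasurableEquiv.finTwoArrow, mem_prod, mem_Icc, Pi.le_def,
      Fin.forall_fin_succ]
    simp
    tauto
  rw [← hpre]
  have := hmp.setIntegral_preimage_emb (MeasurableEquiv.finTwoArrow (α := ℝ)).measurableEmbedding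
    (fun q : ℝ × ℝ => F q.1 q.2) (Icc a₀ b₀ ×ˢ Icc a₁ b₁)
  have e1 : (fun x : Fin 2 → ℝ => F (x 0) (x 1)) =
      fun x => (fun q : ℝ × ℝ => F q.1 q.2) (MeasurableEquiv.finTwoArrow x) := rfl
  rw [e1, this, Measure.volume_eq_prod, setIntegral_prod]
  · rw [intervalIntegral.integral_of_le h0, integral_Icc_eq_integral_Ioc]
    refine integral_congr_ae (Eventually.of_forall fun X => ?_)
    simp only
    rw [intervalIntegral.integral_of_le h1, integral_Icc_eq_integral_Ioc]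
  · rw [← Measure.volume_eq_prod]
    exact hF.continuousOn.integrableOn_compact (isCompact_Icc.prod isCompact_Icc)

theorem continuous_coord2 : Continuous (fun p : E3 => p 2) := by fun_prop

theorem isOpen_slab (a₂ b₂ : ℝ) : IsOpen {p : E3 | a₂ < p 2 ∧ p 2 < b₂} := by
  have h1 : IsOpen {p : E3 | a₂ < p 2} := isOpen_lt continuous_const continuous_coord2
  have h2 : IsOpen {p : E3 | p 2 < b₂} := isOpen_lt continuous_coord2 continuous_const
  exact h1.inter h2

/-- coordinate projection -/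
noncomputable def pr (i : Fin 3) : E3 →L[ℝ] ℝ := EuclideanSpace.proj i

theorem pr_apply (i : Fin 3) (p : E3) : pr i p = p i := rfl

theorem continuous_pt : Continuous (fun q : ℝ × ℝ × ℝ => pt q.1 q.2.1 q.2.2) := by
  unfold pt; fun_prop

theorem cont_face {a₂ b₂ : ℝ} {f : E3 → ℝ} (hf : ContinuousOn f {p | a₂ < p 2 ∧ p 2 < b₂})
    {c : ℝ} (hc : a₂ < c) (hc' : c < b₂) :
    Continuous (fun q : ℝ × ℝ => f (pt q.1 q.2 c)) := by
  have h1 : Continuous (fun q : ℝ × ℝ => pt q.1 q.2 c) :=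
    continuous_pt.comp (by fun_prop : Continuous fun q : ℝ × ℝ => (q.1, q.2, c))
  exact hf.comp_continuous h1 (fun q => ⟨by simpa using hc, by simpa using hc'⟩)

/-- smooth interior version -/
theorem smooth_interior (a₀ b₀ a₁ b₁ a₂ b₂ : ℝ) (h0 : a₀ ≤ b₀) (h1 : a₁ ≤ b₁)
    (J : E3 → E3) (hJ : ContDiffOn ℝ ∞ J {p | a₂ < p 2 ∧ p 2 < b₂})
    (hdiv : ∀ p : E3, a₂ < p 2 → p 2 < b₂ → dvg J p = 0)
    (hw0 : ∀ p : E3, a₂ < p 2 → p 2 < b₂ → (p 0 = a₀ ∨ p 0 = b₀) → J p 0 = 0)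
    (hw1 : ∀ p : E3, a₂ < p 2 → p 2 < b₂ → (p 1 = a₁ ∨ p 1 = b₁) → J p 1 = 0)
    (s t : ℝ) (hs : a₂ < s) (hst : s ≤ t) (ht : t < b₂)
    (χ : E3 → ℝ) (hχ : ContDiff ℝ ∞ χ) :
    ∫ p in cbox a₀ b₀ a₁ b₁ s t, inner ℝ (J p) (∇ χ p) =
      (∫ x in a₀..b₀, ∫ y in a₁..b₁, J (pt x y t) 2 * χ (pt x y t)) -
      (∫ x in a₀..b₀, ∫ y in a₁..b₁, J (pt x y s) 2 * χ (pt x y s)) := by
  set S : Set E3 := {p | a₂ < p 2 ∧ p 2 < b₂} with hS
  have hSo : IsOpen S := isOpen_slab a₂ b₂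
  -- the components
  set f : Fin 3 → E3 → ℝ := fun i p => J p i * χ p with hf
  have hfs : ∀ i, ContDiffOn ℝ ∞ (f i) S := by
    intro i
    have h2 : ContDiffOn ℝ ∞ (fun p => J p i) S := by
      have := (pr i).contDiff.comp_contDiffOn hJ
      exact this
    exact h2.mul hχ.contDiffOn
  have hfd : ∀ i, ∀ p ∈ S, HasFDerivAt (f i) (fderiv ℝ (f i) p) p := by
    intro i p hp
    exact (((hfs i).contDiffAt (hSo.mem_nhds hp)).differentiableAt (by simp)).hasFDerivAt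
  have hJd : ∀ p ∈ S, DifferentiableAt ℝ J p := fun p hp =>
    (hJ.contDiffAt (hSo.mem_nhds hp)).differentiableAt (by simp)
  have hsum : ∀ p ∈ S, ∑ i, fderiv ℝ (f i) p (ee i) = inner ℝ (J p) (∇ χ p) := by
    intro p hp
    have hχd : DifferentiableAt ℝ χ p := hχ.differentiable (by simp) p
    have hJi : ∀ i : Fin 3, HasFDerivAt (fun q => J q i)
        ((pr i).comp (fderiv ℝ J p)) p := by
      intro i
      exact (pr i).hasFDerivAt.comp p
        (hJd p hp).hasFDerivAt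
    have hfi : ∀ i : Fin 3, fderiv ℝ (f i) p (ee i) =
        J p i * fderiv ℝ χ p (ee i) + χ p * (fderiv ℝ J p (ee i)) i := by
      intro i
      have := ((hJi i).mul hχd.hasFDerivAt).fderiv
      have e : f i = (fun q => J q i) * χ := rfl
      rw [e, this]
      simp [pr_apply]
    simp_rw [hfi]
    rw [Finset.sum_add_distrib, ← Finset.mul_sum]
    have hd : ∑ i, (fderiv ℝ J p (ee i)) i = 0 := hdiv p hp.1 hp.2
    rw [hd, mul_zero, add_zero, inner_gradient]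
    have hexp : J p = ∑ i, J p i • ee i := by
      ext j
      simp [ee, Fin.sum_univ_three]
      fin_cases j <;> simp
    conv_rhs => rw [hexp]
    rw [map_sum]
    simp
  have hbox : cbox a₀ b₀ a₁ b₁ s t ⊆ S := by
    intro p hp
    exact ⟨lt_of_lt_of_le hs hp.2.2.1, lt_of_le_of_lt hp.2.2.2 ht⟩
  set a : Fin 3 → ℝ := ![a₀, a₁, s] with ha
  set b : Fin 3 → ℝ := ![b₀, b₁, t] with hb
  have hmem : ∀ x ∈ Icc a b, tl x ∈ S := by
    intro x hx
    apply hbox
    have := tl_preimage_cbox a₀ b₀ a₁ b₁ s t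
    rw [← mem_preimage, this]; exact hx
  have hle : a ≤ b := by
    intro i
    fin_cases i
    · exact h0
    · exact h1
    · exact hst
  have key := integral_divergence_of_hasFDerivAt_off_countable' a b hle
    (fun i x => f i (tl x)) (fun i x => (fderiv ℝ (f i) (tl x)).comp (tl : (Fin 3 → ℝ) →L[ℝ] E3))
    ∅ countable_empty
    (fun i => (hfs i).continuousOn.comp tl.continuous.continuousOn hmem)
    (fun x hx i => by
      have hx' : x ∈ Icc a b := by
        have := hx.1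
        simp only [Set.mem_pi, mem_univ, true_imp_iff, mem_Ioo] at this
        exact ⟨fun i => (this i).1.le, fun i => (this i).2.le⟩
      exact (hfd i (tl x) (hmem x hx')).comp x tl.hasFDerivAt)
    (by
      refine ContinuousOn.integrableOn_compact isCompact_Icc ?_
      refine continuousOn_finsetSum _ (fun i _ => ?_)
      have h3 : ContinuousOn (fderiv ℝ (f i)) S :=
        (hfs i).continuousOn_fderiv_of_isOpen hSo (by simp)
      have h4 : ContinuousOn (fun x => fderiv ℝ (f i) (tl x)) (Icc a b) :=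
        h3.comp tl.continuous.continuousOn hmem
      exact (h4.clm_comp continuousOn_const).clm_apply continuousOn_const)
  have hL : ∫ p in cbox a₀ b₀ a₁ b₁ s t, inner ℝ (J p) (∇ χ p) =
      ∫ x in Icc a b, ∑ i, ((fderiv ℝ (f i) (tl x)).comp (tl : (Fin 3 → ℝ) →L[ℝ] E3))
        (Pi.single i 1) := by
    have h5 := tl_mp.setIntegral_preimage_emb tl.toHomeomorph.measurableEmbedding
      (fun p => inner ℝ (J p) (∇ χ p)) (cbox a₀ b₀ a₁ b₁ s t)
    rw [← h5, tl_preimage_cbox]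
    refine setIntegral_congr_fun measurableSet_Icc (fun x hx => ?_)
    simp only [ContinuousLinearMap.comp_apply, ContinuousLinearEquiv.coe_coe, tl_single]
    exact (hsum (tl x) (hmem x hx)).symm
  rw [hL, key, Fin.sum_univ_three]
  have hz0 : ∀ c, (c = a₀ ∨ c = b₀) → ∫ x in Icc (a ∘ (0 : Fin 3).succAbove) (b ∘ (0 : Fin 3).succAbove),
      f 0 (tl (Fin.insertNth 0 c x)) = 0 := by
    intro c hc
    refine setIntegral_eq_zero_of_forall_eq_zero (fun x hx => ?_)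
    have hx2 : s ≤ x 1 ∧ x 1 ≤ t := ⟨hx.1 1, hx.2 1⟩
    have e0 : tl (Fin.insertNth 0 c x : Fin 3 → ℝ) 0 = c := rfl
    have e2 : tl (Fin.insertNth 0 c x : Fin 3 → ℝ) 2 = x 1 := rfl
    have := hw0 (tl (Fin.insertNth 0 c x : Fin 3 → ℝ)) (by rw [e2]; linarith [hx2.1])
      (by rw [e2]; linarith [hx2.2]) (by rw [e0]; exact hc)
    simp only [hf, this, zero_mul]
  have hz1 : ∀ c, (c = a₁ ∨ c = b₁) → ∫ x in Icc (a ∘ (1 : Fin 3).succAbove) (b ∘ (1 : Fin 3).succAbove),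
      f 1 (tl (Fin.insertNth 1 c x)) = 0 := by
    intro c hc
    refine setIntegral_eq_zero_of_forall_eq_zero (fun x hx => ?_)
    have hx2 : s ≤ x 1 ∧ x 1 ≤ t := ⟨hx.1 1, hx.2 1⟩
    have e0 : tl (Fin.insertNth 1 c x : Fin 3 → ℝ) 1 = c := rfl
    have e2 : tl (Fin.insertNth 1 c x : Fin 3 → ℝ) 2 = x 1 := rfl
    have := hw1 (tl (Fin.insertNth 1 c x : Fin 3 → ℝ)) (by rw [e2]; linarith [hx2.1])
      (by rw [e2]; linarith [hx2.2]) (by rw [e0]; exact hc)
    simp only [hf, this, zero_mul]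
  have hz2 : ∀ c, a₂ < c → c < b₂ →
      ∫ x in Icc (a ∘ (2 : Fin 3).succAbove) (b ∘ (2 : Fin 3).succAbove),
      f 2 (tl (Fin.insertNth 2 c x)) = ∫ x in a₀..b₀, ∫ y in a₁..b₁, J (pt x y c) 2 * χ (pt x y c) := by
    intro c hc hc'
    have ea : (a ∘ (2 : Fin 3).succAbove) = ![a₀, a₁] := by
      ext i; fin_cases i <;> rfl
    have eb : (b ∘ (2 : Fin 3).succAbove) = ![b₀, b₁] := by
      ext i; fin_cases i <;> rfl
    rw [ea, eb, ← integral_face a₀ b₀ a₁ b₁ h0 h1 (fun X Y => J (pt X Y c) 2 * χ (pt X Y c))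
      (cont_face (hfs 2).continuousOn hc hc')]
    refine integral_congr_ae (Eventually.of_forall fun x => ?_)
    simp only [hf, tl_insert]
  have q0 : a 0 = a₀ := rfl
  have q1 : b 0 = b₀ := rfl
  have q2 : a 1 = a₁ := rfl
  have q3 : b 1 = b₁ := rfl
  have q4 : a 2 = s := rfl
  have q5 : b 2 = t := rfl
  rw [q0, q1, q2, q3, q4, q5, hz0 _ (Or.inl rfl), hz0 _ (Or.inr rfl), hz1 _ (Or.inl rfl),
    hz1 _ (Or.inr rfl), hz2 t (lt_of_lt_of_le hs hst) ht, hz2 s hs (lt_of_le_of_lt hst ht)]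
  ring

theorem volume_coord2 (c : ℝ) : volume {p : E3 | p 2 = c} = 0 := by
  have h1 : volume (tl ⁻¹' {p : E3 | p 2 = c}) = volume {p : E3 | p 2 = c} :=
    tl_mp.measure_preimage_emb tl.toHomeomorph.measurableEmbedding _
  rw [← h1]
  exact Measure.pi_hyperplane (fun _ : Fin 3 => (volume : Measure ℝ)) 2 c

theorem cbox_mono {a₀ b₀ a₁ b₁ a₂ b₂ s t : ℝ} (hs : a₂ ≤ s) (ht : t ≤ b₂) :
    cbox a₀ b₀ a₁ b₁ s t ⊆ cbox a₀ b₀ a₁ b₁ a₂ b₂ :=
  fun _ hp => ⟨hp.1, hp.2.1, hs.trans hp.2.2.1, hp.2.2.2.trans ht⟩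

theorem inner_bound (J : E3 → E3) (χ : E3 → ℝ) (K : ℝ≥0) (hχ : LipschitzWith K χ) (p : E3) :
    ‖inner ℝ (J p) (∇ χ p)‖ ≤ K * ‖J p‖ := by
  refine (norm_inner_le_norm _ _).trans ?_
  rw [mul_comm]
  exact mul_le_mul_of_nonneg_right (norm_gradient_le χ K hχ p) (norm_nonneg _)

/-- Lipschitz interior version -/
theorem lip_interior (a₀ b₀ a₁ b₁ a₂ b₂ : ℝ) (h0 : a₀ ≤ b₀) (h1 : a₁ ≤ b₁)
    (J : E3 → E3) (hJ : ContDiffOn ℝ ∞ J {p | a₂ < p 2 ∧ p 2 < b₂})
    (hdiv : ∀ p : E3, a₂ < p 2 → p 2 < b₂ → dvg J p = 0)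
    (hw0 : ∀ p : E3, a₂ < p 2 → p 2 < b₂ → (p 0 = a₀ ∨ p 0 = b₀) → J p 0 = 0)
    (hw1 : ∀ p : E3, a₂ < p 2 → p 2 < b₂ → (p 1 = a₁ ∨ p 1 = b₁) → J p 1 = 0)
    (hint : IntegrableOn J (cbox a₀ b₀ a₁ b₁ a₂ b₂) volume)
    (s t : ℝ) (hs : a₂ < s) (hst : s ≤ t) (ht : t < b₂)
    (χ : E3 → ℝ) (K : ℝ≥0) (hχ : LipschitzWith K χ) :
    ∫ p in cbox a₀ b₀ a₁ b₁ s t, inner ℝ (J p) (∇ χ p) =
      (∫ x in a₀..b₀, ∫ y in a₁..b₁, J (pt x y t) 2 * χ (pt x y t)) -
      (∫ x in a₀..b₀, ∫ y in a₁..b₁, J (pt x y s) 2 * χ (pt x y s)) := by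
  obtain ⟨f, fs, fL, fc, -, fg⟩ := mollify χ K hχ
  have hint' : IntegrableOn J (cbox a₀ b₀ a₁ b₁ s t) volume :=
    hint.mono_set (cbox_mono hs.le ht.le)
  have L1 : Tendsto (fun n => ∫ p in cbox a₀ b₀ a₁ b₁ s t, inner ℝ (J p) (∇ (f n) p)) atTop
      (𝓝 (∫ p in cbox a₀ b₀ a₁ b₁ s t, inner ℝ (J p) (∇ χ p))) := by
    refine tendsto_integral_of_dominated_convergence (fun p => K * ‖J p‖) ?_ ?_ ?_ ?_
    · intro n
      exact hint'.aestronglyMeasurable.inner (measurable_gradient (f n)).aestronglyMeasurable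
    · exact hint'.norm.const_mul _
    · intro n
      exact Eventually.of_forall fun p => inner_bound J (f n) K (fL n) p
    · have := ae_restrict_of_ae (s := cbox a₀ b₀ a₁ b₁ s t)
        (hχ.ae_differentiableAt (μ := (volume : Measure E3)))
      filter_upwards [this] with p hp
      exact tendsto_const_nhds.inner (fg p hp)
  have L2 : ∀ c, a₂ < c → c < b₂ →
      Tendsto (fun n => ∫ x in a₀..b₀, ∫ y in a₁..b₁, J (pt x y c) 2 * (f n) (pt x y c)) atTop
        (𝓝 (∫ x in a₀..b₀, ∫ y in a₁..b₁, J (pt x y c) 2 * χ (pt x y c))) := by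
    intro c hc hc'
    have hJ2 : Continuous (fun q : ℝ × ℝ => J (pt q.1 q.2 c) 2) := by
      have h2 : ContinuousOn (fun p => J p 2) {p : E3 | a₂ < p 2 ∧ p 2 < b₂} :=
        (pr 2).continuous.comp_continuousOn hJ.continuousOn
      exact cont_face h2 hc hc'
    have hptc : Continuous (fun q : ℝ × ℝ => pt q.1 q.2 c) :=
      continuous_pt.comp (by fun_prop : Continuous fun q : ℝ × ℝ => (q.1, q.2, c))
    obtain ⟨M, hM⟩ := (isCompact_Icc.prod isCompact_Icc : IsCompact (Icc a₀ b₀ ×ˢ Icc a₁ b₁)).exists_bound_of_continuousOn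
      hJ2.continuousOn
    have hbase : ∀ n, ‖(∫ x in a₀..b₀, ∫ y in a₁..b₁, J (pt x y c) 2 * (f n) (pt x y c)) -
        ∫ x in a₀..b₀, ∫ y in a₁..b₁, J (pt x y c) 2 * χ (pt x y c)‖ ≤
        (M * (K / (n + 1)) * |b₁ - a₁|) * |b₀ - a₀| := by
      intro n
      have c1 : Continuous (fun q : ℝ × ℝ => J (pt q.1 q.2 c) 2 * (f n) (pt q.1 q.2 c)) :=
        hJ2.mul ((fL n).continuous.comp hptc)
      have c2 : Continuous (fun q : ℝ × ℝ => J (pt q.1 q.2 c) 2 * χ (pt q.1 q.2 c)) :=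
        hJ2.mul (hχ.continuous.comp hptc)
      have d1 : Continuous (fun x => ∫ y in a₁..b₁, J (pt x y c) 2 * (f n) (pt x y c)) :=
        intervalIntegral.continuous_parametric_intervalIntegral_of_continuous' c1 _ _
      have d2 : Continuous (fun x => ∫ y in a₁..b₁, J (pt x y c) 2 * χ (pt x y c)) :=
        intervalIntegral.continuous_parametric_intervalIntegral_of_continuous' c2 _ _
      rw [← intervalIntegral.integral_sub (d1.intervalIntegrable _ _) (d2.intervalIntegrable _ _)]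
      refine intervalIntegral.norm_integral_le_of_norm_le_const (fun x hx => ?_)
      have e1 : Continuous (fun y => J (pt x y c) 2 * (f n) (pt x y c)) :=
        c1.comp (Continuous.prodMk_right x)
      have e2 : Continuous (fun y => J (pt x y c) 2 * χ (pt x y c)) :=
        c2.comp (Continuous.prodMk_right x)
      rw [← intervalIntegral.integral_sub (e1.intervalIntegrable _ _) (e2.intervalIntegrable _ _)]
      refine intervalIntegral.norm_integral_le_of_norm_le_const (fun y hy => ?_)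
      rw [← mul_sub, norm_mul]
      rw [uIoc_of_le h0] at hx
      rw [uIoc_of_le h1] at hy
      have hb := hM (x, y) ⟨Ioc_subset_Icc_self hx, Ioc_subset_Icc_self hy⟩
      refine mul_le_mul hb (fc n _) (norm_nonneg _) (le_trans (norm_nonneg _) hb)
    rw [tendsto_iff_norm_sub_tendsto_zero]
    refine squeeze_zero (fun n => norm_nonneg _) hbase ?_
    have hz : Tendsto (fun n : ℕ => (K : ℝ) / ((n : ℝ) + 1)) atTop (𝓝 0) := by
      have := tendsto_one_div_add_atTop_nhds_zero_nat (𝕜 := ℝ)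
      have h3 := this.const_mul (K : ℝ)
      simp only [mul_zero] at h3
      refine h3.congr fun n => ?_
      ring
    have := ((hz.const_mul M).mul_const |b₁ - a₁|).mul_const |b₀ - a₀|
    simpa using this
  have L3 := (L2 t (lt_of_lt_of_le hs hst) ht).sub (L2 s hs (lt_of_le_of_lt hst ht))
  refine tendsto_nhds_unique L1 ?_
  refine L3.congr fun n => ?_
  exact (smooth_interior a₀ b₀ a₁ b₁ a₂ b₂ h0 h1 J hJ hdiv hw0 hw1 s t hs hst ht (f n) (fs n)).symm

/-- limit of the face integrals -/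
theorem face_limit (a₀ b₀ a₁ b₁ a₂ b₂ : ℝ) (h0 : a₀ ≤ b₀) (h1 : a₁ ≤ b₁)
    (J : E3 → E3) (hJ : ContDiffOn ℝ ∞ J {p | a₂ < p 2 ∧ p 2 < b₂})
    (g : ℝ → ℝ) (hg : IntervalIntegrable g volume a₀ b₀)
    (hJg : ∀ᵐ x : ℝ, x ∈ Icc a₀ b₀ → ∀ y ∈ Icc a₁ b₁, ∀ t : ℝ, a₂ < t → t < b₂ →
      |J (pt x y t) 2| ≤ g x)
    (c : ℕ → ℝ) (hc : ∀ n, a₂ < c n ∧ c n < b₂) (c' : ℝ) (hc' : Tendsto c atTop (𝓝 c'))
    (Jl : ℝ → ℝ)
    (hl : ∀ᵐ x : ℝ, x ∈ Icc a₀ b₀ → ∀ y ∈ Icc a₁ b₁,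
      Tendsto (fun n => J (pt x y (c n)) 2) atTop (𝓝 (Jl x)))
    (χ : E3 → ℝ) (K : ℝ≥0) (hχ : LipschitzWith K χ) :
    Tendsto (fun n => ∫ x in a₀..b₀, ∫ y in a₁..b₁, J (pt x y (c n)) 2 * χ (pt x y (c n))) atTop
      (𝓝 (∫ x in a₀..b₀, ∫ y in a₁..b₁, Jl x * χ (pt x y c'))) := by
  have hcomp : IsCompact (Icc a₀ b₀ ×ˢ (Icc a₁ b₁ ×ˢ Icc a₂ b₂)) :=
    isCompact_Icc.prod (isCompact_Icc.prod isCompact_Icc)
  obtain ⟨M, hM⟩ := hcomp.exists_bound_of_continuousOn
    (hχ.continuous.comp continuous_pt).continuousOn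
  have hM' : ∀ x ∈ Icc a₀ b₀, ∀ y ∈ Icc a₁ b₁, ∀ n, |χ (pt x y (c n))| ≤ M := by
    intro x hx y hy n
    exact hM (x, y, c n) ⟨hx, hy, (hc n).1.le, (hc n).2.le⟩
  have hJ2 : ∀ n, Continuous (fun q : ℝ × ℝ => J (pt q.1 q.2 (c n)) 2) := by
    intro n
    have h2 : ContinuousOn (fun p => J p 2) {p : E3 | a₂ < p 2 ∧ p 2 < b₂} :=
      (pr 2).continuous.comp_continuousOn hJ.continuousOn
    exact cont_face h2 (hc n).1 (hc n).2
  have hptc : ∀ n, Continuous (fun q : ℝ × ℝ => pt q.1 q.2 (c n)) := fun n =>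
    continuous_pt.comp (by fun_prop : Continuous fun q : ℝ × ℝ => (q.1, q.2, c n))
  have c1 : ∀ n, Continuous (fun q : ℝ × ℝ => J (pt q.1 q.2 (c n)) 2 * χ (pt q.1 q.2 (c n))) :=
    fun n => (hJ2 n).mul (hχ.continuous.comp (hptc n))
  refine intervalIntegral.tendsto_integral_filter_of_dominated_convergence
    (fun x => g x * M * |b₁ - a₁|) ?_ ?_ ?_ ?_
  · refine Eventually.of_forall fun n => ?_
    exact (intervalIntegral.continuous_parametric_intervalIntegral_of_continuous' (c1 n) _ _).aestronglyMeasurable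
  · refine Eventually.of_forall fun n => ?_
    filter_upwards [hJg] with x hx hx'
    rw [uIoc_of_le h0] at hx'
    have hxI := Ioc_subset_Icc_self hx'
    refine intervalIntegral.norm_integral_le_of_norm_le_const (fun y hy => ?_)
    rw [uIoc_of_le h1] at hy
    have hyI := Ioc_subset_Icc_self hy
    rw [norm_mul]
    have hb := hx hxI y hyI (c n) (hc n).1 (hc n).2
    exact mul_le_mul hb (hM' x hxI y hyI n) (norm_nonneg _) (le_trans (abs_nonneg _) hb)
  · exact (hg.mul_const M).mul_const _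
  · filter_upwards [hJg, hl] with x hx hlx hx'
    rw [uIoc_of_le h0] at hx'
    have hxI := Ioc_subset_Icc_self hx'
    refine intervalIntegral.tendsto_integral_filter_of_dominated_convergence
      (fun _ => g x * M) ?_ ?_ ?_ ?_
    · refine Eventually.of_forall fun n => ?_
      exact ((c1 n).comp (Continuous.prodMk_right x)).aestronglyMeasurable
    · refine Eventually.of_forall fun n => ?_
      refine Eventually.of_forall fun y hy => ?_
      rw [uIoc_of_le h1] at hy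
      have hyI := Ioc_subset_Icc_self hy
      rw [norm_mul]
      have hb := hx hxI y hyI (c n) (hc n).1 (hc n).2
      exact mul_le_mul hb (hM' x hxI y hyI n) (norm_nonneg _) (le_trans (abs_nonneg _) hb)
    · exact intervalIntegrable_const
    · refine Eventually.of_forall fun y hy => ?_
      rw [uIoc_of_le h1] at hy
      have hyI := Ioc_subset_Icc_self hy
      refine (hlx hxI y hyI).mul ?_
      have h3 : Continuous (fun t : ℝ => χ (pt x y t)) :=
        (lipschitz_pt_two χ K hχ x y).continuous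
      exact (h3.tendsto c').comp hc'

end GreenBox

open GreenBox in
theorem green_box (a₀ b₀ a₁ b₁ a₂ b₂ : ℝ) (h0 : a₀ < b₀) (h1 : a₁ < b₁) (h2 : a₂ < b₂)
    (J : E3 → E3) (hJ : ContDiffOn ℝ ∞ J {p | a₂ < p 2 ∧ p 2 < b₂})
    (hdiv : ∀ p : E3, a₂ < p 2 → p 2 < b₂ → dvg J p = 0)
    (hw0 : ∀ p : E3, a₂ < p 2 → p 2 < b₂ → (p 0 = a₀ ∨ p 0 = b₀) → J p 0 = 0)
    (hw1 : ∀ p : E3, a₂ < p 2 → p 2 < b₂ → (p 1 = a₁ ∨ p 1 = b₁) → J p 1 = 0)
    (hint : IntegrableOn J (cbox a₀ b₀ a₁ b₁ a₂ b₂) volume)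
    (g : ℝ → ℝ) (hg : IntervalIntegrable g volume a₀ b₀)
    (hJg : ∀ᵐ x : ℝ, x ∈ Icc a₀ b₀ → ∀ y ∈ Icc a₁ b₁, ∀ t : ℝ, a₂ < t → t < b₂ →
      |J (pt x y t) 2| ≤ g x)
    (Jb Jt : ℝ → ℝ)
    (hb : ∀ᵐ x : ℝ, x ∈ Icc a₀ b₀ → ∀ y ∈ Icc a₁ b₁,
      Tendsto (fun t => J (pt x y t) 2) (𝓝[>] a₂) (𝓝 (Jb x)))
    (ht : ∀ᵐ x : ℝ, x ∈ Icc a₀ b₀ → ∀ y ∈ Icc a₁ b₁,
      Tendsto (fun t => J (pt x y t) 2) (𝓝[<] b₂) (𝓝 (Jt x)))
    (χ : E3 → ℝ) (K : ℝ≥0) (hχ : LipschitzWith K χ) :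
    ∫ p in cbox a₀ b₀ a₁ b₁ a₂ b₂, inner ℝ (J p) (∇ χ p) =
      (∫ x in a₀..b₀, ∫ y in a₁..b₁, Jt x * χ (pt x y b₂)) -
      (∫ x in a₀..b₀, ∫ y in a₁..b₁, Jb x * χ (pt x y a₂)) := by
  -- the approximating levels
  set r : ℕ → ℝ := fun n => (b₂ - a₂) * (1 / ((n : ℝ) + 1 + 1)) with hr
  have hd : 0 < b₂ - a₂ := by linarith
  have r0 : ∀ n, 0 < r n := fun n => by positivity
  have r1 : ∀ n, r n ≤ (b₂ - a₂) * (1 / 2) := by
    intro n
    refine mul_le_mul_of_nonneg_left ?_ hd.le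
    refine one_div_le_one_div_of_le (by norm_num) ?_
    have : (0 : ℝ) ≤ n := Nat.cast_nonneg n
    linarith
  have rlim : Tendsto r atTop (𝓝 0) := by
    have h3 := (tendsto_one_div_add_atTop_nhds_zero_nat (𝕜 := ℝ)).comp (tendsto_add_atTop_nat 1)
    have h4 := h3.const_mul (b₂ - a₂)
    rw [mul_zero] at h4
    refine h4.congr fun n => ?_
    simp [hr]
  set s : ℕ → ℝ := fun n => a₂ + r n with hs
  set t : ℕ → ℝ := fun n => b₂ - r n with ht'
  have hs1 : ∀ n, a₂ < s n ∧ s n < b₂ := fun n => ⟨by simp only [hs]; linarith [r0 n],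
    by simp only [hs]; linarith [r1 n]⟩
  have ht1 : ∀ n, a₂ < t n ∧ t n < b₂ := fun n => ⟨by simp only [ht']; linarith [r1 n],
    by simp only [ht']; linarith [r0 n]⟩
  have hst : ∀ n, s n ≤ t n := fun n => by simp only [hs, ht']; linarith [r1 n]
  have hslim : Tendsto s atTop (𝓝 a₂) := by
    have := rlim.const_add a₂
    simpa using this
  have htlim : Tendsto t atTop (𝓝 b₂) := by
    have := rlim.const_sub b₂
    simpa using this
  have hslim' : Tendsto s atTop (𝓝[>] a₂) :=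
    tendsto_nhdsWithin_iff.2 ⟨hslim, Eventually.of_forall fun n => (hs1 n).1⟩
  have htlim' : Tendsto t atTop (𝓝[<] b₂) :=
    tendsto_nhdsWithin_iff.2 ⟨htlim, Eventually.of_forall fun n => (ht1 n).2⟩
  have T := face_limit a₀ b₀ a₁ b₁ a₂ b₂ h0.le h1.le J hJ g hg hJg t ht1 b₂ htlim Jt (by
    filter_upwards [ht] with x hx hxI y hy
    exact (hx hxI y hy).comp htlim') χ K hχ
  have B := face_limit a₀ b₀ a₁ b₁ a₂ b₂ h0.le h1.le J hJ g hg hJg s hs1 a₂ hslim Jb (by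
    filter_upwards [hb] with x hx hxI y hy
    exact (hx hxI y hy).comp hslim') χ K hχ
  have L : Tendsto (fun n => ∫ p in cbox a₀ b₀ a₁ b₁ (s n) (t n), inner ℝ (J p) (∇ χ p)) atTop
      (𝓝 (∫ p in cbox a₀ b₀ a₁ b₁ a₂ b₂, inner ℝ (J p) (∇ χ p))) := by
    have e1 : ∀ n, ∫ p in cbox a₀ b₀ a₁ b₁ (s n) (t n), inner ℝ (J p) (∇ χ p) =
        ∫ p in cbox a₀ b₀ a₁ b₁ a₂ b₂, (cbox a₀ b₀ a₁ b₁ (s n) (t n)).indicator
          (fun p => inner ℝ (J p) (∇ χ p)) p := by
      intro n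
      rw [setIntegral_indicator (measurableSet_cbox _ _ _ _ _ _),
        inter_eq_self_of_subset_right (cbox_mono (hs1 n).1.le (ht1 n).2.le)]
    simp_rw [e1]
    refine tendsto_integral_of_dominated_convergence (fun p => K * ‖J p‖) ?_ ?_ ?_ ?_
    · intro n
      exact (hint.aestronglyMeasurable.inner
        (measurable_gradient χ).aestronglyMeasurable).indicator (measurableSet_cbox _ _ _ _ _ _)
    · exact hint.norm.const_mul _
    · intro n
      refine Eventually.of_forall fun p => ?_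
      refine (norm_indicator_le_norm_self _ _).trans ?_
      exact inner_bound J χ K hχ p
    · have hn1 : ∀ᵐ p : E3, p 2 ≠ a₂ := measure_eq_zero_iff_ae_notMem.1 (volume_coord2 a₂)
      have hn2 : ∀ᵐ p : E3, p 2 ≠ b₂ := measure_eq_zero_iff_ae_notMem.1 (volume_coord2 b₂)
      filter_upwards [ae_restrict_of_ae hn1, ae_restrict_of_ae hn2,
        ae_restrict_mem (measurableSet_cbox a₀ b₀ a₁ b₁ a₂ b₂)] with p hp1 hp2 hp
      have hlt1 : a₂ < p 2 := lt_of_le_of_ne hp.2.2.1 (Ne.symm hp1)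
      have hlt2 : p 2 < b₂ := lt_of_le_of_ne hp.2.2.2 hp2
      refine tendsto_const_nhds.congr' ?_
      filter_upwards [hslim.eventually (gt_mem_nhds hlt1), htlim.eventually (lt_mem_nhds hlt2)]
        with n hn1 hn2
      rw [indicator_of_mem]
      exact ⟨hp.1, hp.2.1, hn1.le, hn2.le⟩
  refine tendsto_nhds_unique L ((T.sub B).congr fun n => ?_)
  exact (lip_interior a₀ b₀ a₁ b₁ a₂ b₂ h0.le h1.le J hJ hdiv hw0 hw1 hint (s n) (t n) (hs1 n).1
    (hst n) (ht1 n).2 χ K hχ).symm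

end Crest.Agent.R083
end

-- ▼ part R083/TMGreen
section

/-!
Row 83 (S0111), TM group: Green identity for a solution on a model box.
-/

set_option autoImplicit false

namespace Crest.Agent.R083

open MeasureTheory Set Filter
open scoped Gradient ENNReal NNReal Topology ContDiff

theorem fg_abs_le (x y t : ℝ) : |x| ≤ √(tip2 (pt x y t)) := by
  rw [← Real.sqrt_sq_eq_abs]
  apply Real.sqrt_le_sqrt
  unfold tip2
  rw [pt_zero]
  have := sq_nonneg ((pt x y t) 2 - 7 / 10)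
  linarith

theorem fg_bound (N0 x y t n j : ℝ) (_hn : 0 ≤ n) (hj : |j| ≤ n)
    (h : n ^ 2 * √(tip2 (pt x y t)) ≤ N0) (hx : x ≠ 0) : |j| ≤ √N0 * (√|x|)⁻¹ := by
  have h1 : n ^ 2 * |x| ≤ N0 := (mul_le_mul_of_nonneg_left (fg_abs_le x y t) (sq_nonneg n)).trans h
  have hx0 : 0 < |x| := abs_pos.2 hx
  have hs : 0 < √|x| := Real.sqrt_pos.2 hx0
  have h2 : n * √|x| ≤ √N0 := by
    apply Real.le_sqrt_of_sq_le
    rw [mul_pow, Real.sq_sqrt hx0.le]
    exact h1
  rw [← div_eq_mul_inv, le_div_iff₀ hs]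
  exact (mul_le_mul_of_nonneg_right hj hs.le).trans h2

theorem fg_coord_le (v : E3) (i : Fin 3) : |v i| ≤ ‖v‖ := by
  have := PiLp.norm_apply_le v i
  simpa [Real.norm_eq_abs] using this

theorem fg_ae_ne : ∀ᵐ x : ℝ, x ≠ 0 := by
  have : volume ({0} : Set ℝ) = 0 := by simp
  exact measure_eq_zero_iff_ae_notMem.1 this

theorem fg_seq {F : Filter ℝ} [F.NeBot] [F.IsCountablyGenerated] {a b : ℝ} (hF : Ioo a b ∈ F) :
    ∃ s : ℕ → ℝ, (∀ n, a < s n ∧ s n < b) ∧ Tendsto s atTop F := by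
  obtain ⟨s, hs⟩ := exists_seq_tendsto F
  obtain ⟨N, hN⟩ := eventually_atTop.1 (hs.eventually hF)
  exact ⟨fun n => s (n + N), fun n => hN _ (Nat.le_add_left N n),
    hs.comp (tendsto_add_atTop_nat N)⟩

theorem fg_int {a₀ b₀ a₁ b₁ a₂ b₂ δ N0 : ℝ} {w : E3 → ℝ} {J : E3 → E3}
    (h : BoxSol a₀ b₀ a₁ b₁ a₂ b₂ δ N0 w J) (h0 : a₀ < b₀) (h1 : a₁ < b₁)
    (F : Filter ℝ) [F.NeBot] [F.IsCountablyGenerated] (hF : Ioo a₂ b₂ ∈ F) (jf : ℝ → ℝ)
    (hlim : ∀ x ∈ Icc a₀ b₀, ∀ y ∈ Icc a₁ b₁, x ≠ 0 →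
      Tendsto (fun t => J (pt x y t) 2) F (𝓝 (jf x))) :
    IntervalIntegrable jf volume a₀ b₀ := by
  obtain ⟨s, hs, hsF⟩ := fg_seq hF
  have hcont : ∀ n, Continuous fun x : ℝ => J (pt x a₁ (s n)) 2 := by
    intro n
    have c1 : Continuous fun x : ℝ => pt x a₁ (s n) :=
      GreenBox.continuous_pt.comp (by fun_prop : Continuous fun x : ℝ => (x, a₁, s n))
    have c2 : Continuous fun x : ℝ => J (pt x a₁ (s n)) := by
      refine h.smJ.continuousOn.comp_continuous c1 fun x => ?_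
      exact ⟨by rw [pt_two]; exact (hs n).1, by rw [pt_two]; exact (hs n).2⟩
    exact (EuclideanSpace.proj (2 : Fin 3) : E3 →L[ℝ] ℝ).continuous.comp c2
  have hsub : uIoc a₀ b₀ ⊆ Icc a₀ b₀ := by
    rw [uIoc_of_le h0.le]; exact Ioc_subset_Icc_self
  have hae : ∀ᵐ x ∂(volume.restrict (uIoc a₀ b₀)), x ∈ Icc a₀ b₀ ∧ x ≠ 0 := by
    filter_upwards [ae_restrict_mem measurableSet_uIoc, ae_restrict_of_ae fg_ae_ne] with x hx hx0
    exact ⟨hsub hx, hx0⟩
  have hy : a₁ ∈ Icc a₁ b₁ := ⟨le_rfl, h1.le⟩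
  refine ((integrable_rsqrt a₀ b₀).const_mul (√N0)).mono_fun' ?_ ?_
  · refine aestronglyMeasurable_of_tendsto_ae atTop
      (f := fun n x => J (pt x a₁ (s n)) 2) (fun n => (hcont n).aestronglyMeasurable) ?_
    filter_upwards [hae] with x hx
    exact (hlim x hx.1 a₁ hy hx.2).comp hsF
  · filter_upwards [hae] with x hx
    have h3 : Tendsto (fun n => |J (pt x a₁ (s n)) 2|) atTop (𝓝 |jf x|) :=
      ((hlim x hx.1 a₁ hy hx.2).comp hsF).abs
    rw [Real.norm_eq_abs]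
    refine le_of_tendsto h3 (Eventually.of_forall fun n => ?_)
    refine fg_bound N0 x a₁ (s n) ‖J (pt x a₁ (s n))‖ _ (norm_nonneg _) (fg_coord_le _ 2) ?_ hx.2
    exact (h.est _ (by rw [pt_zero]; exact hx.1) (by rw [pt_one]; exact hy)
      (by rw [pt_two]; exact (hs n).1) (by rw [pt_two]; exact (hs n).2)).2.2

theorem fg_cbox_ae (a₀ b₀ a₁ b₁ a₂ b₂ : ℝ) :
    cbox a₀ b₀ a₁ b₁ a₂ b₂ =ᵐ[volume] obox a₀ b₀ a₁ b₁ a₂ b₂ := by
  have h1 := (ae_restrict_iff' (measurableSet_cbox a₀ b₀ a₁ b₁ a₂ b₂)).1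
    (ae_obox a₀ b₀ a₁ b₁ a₂ b₂)
  filter_upwards [h1] with p hp
  apply propext
  constructor
  · exact fun h => hp h
  · rintro ⟨q0, q1, q2⟩
    exact ⟨Ioo_subset_Icc_self q0, Ioo_subset_Icc_self q1, Ioo_subset_Icc_self q2⟩

theorem fg_integrable {a₀ b₀ a₁ b₁ a₂ b₂ δ N0 : ℝ} {w : E3 → ℝ} {J : E3 → E3}
    (h : BoxSol a₀ b₀ a₁ b₁ a₂ b₂ δ N0 w J) :
    IntegrableOn J (cbox a₀ b₀ a₁ b₁ a₂ b₂) volume := by
  have hbd : IntegrableOn (fun p : E3 => 1 + N0 * (√(tip2 p))⁻¹)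
      (cbox a₀ b₀ a₁ b₁ a₂ b₂) volume := by
    refine Integrable.add ?_ ((integrable_tip a₀ b₀ a₁ b₁ a₂ b₂).const_mul N0)
    exact integrableOn_const (volume_cbox_lt_top a₀ b₀ a₁ b₁ a₂ b₂).ne
  have hm : AEStronglyMeasurable J (volume.restrict (cbox a₀ b₀ a₁ b₁ a₂ b₂)) := by
    rw [Measure.restrict_congr_set (fg_cbox_ae a₀ b₀ a₁ b₁ a₂ b₂)]
    refine ContinuousOn.aestronglyMeasurable ?_ (isOpen_obox a₀ b₀ a₁ b₁ a₂ b₂).measurableSet
    exact h.smJ.continuousOn.mono fun p hp => hp.2.2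
  refine Integrable.mono' hbd hm ?_
  have hne : ∀ᵐ p : E3, p 0 ≠ 0 := by
    exact measure_eq_zero_iff_ae_notMem.1 (apx_hyperplane 0 0)
  filter_upwards [ae_obox a₀ b₀ a₁ b₁ a₂ b₂, ae_restrict_of_ae hne] with p hp hp0
  have ht : 0 < tip2 p := by
    unfold tip2
    have h1 : 0 < p 0 ^ 2 := by positivity
    have h2 := sq_nonneg (p 2 - 7 / 10)
    linarith
  have hs : 0 < √(tip2 p) := Real.sqrt_pos.2 ht
  have h3 := (h.est p (Ioo_subset_Icc_self hp.1) (Ioo_subset_Icc_self hp.2.1) hp.2.2.1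
    hp.2.2.2).2.2
  have h4 : ‖J p‖ ^ 2 ≤ N0 * (√(tip2 p))⁻¹ := by
    rw [← div_eq_mul_inv, le_div_iff₀ hs]; exact h3
  have h5 : ‖J p‖ ≤ 1 + ‖J p‖ ^ 2 := by nlinarith [sq_nonneg (‖J p‖ - 1), norm_nonneg (J p)]
  linarith

theorem fs_green (a₀ b₀ a₁ b₁ a₂ b₂ δ N0 : ℝ) (w : E3 → ℝ) (J : E3 → E3)
    (vb vt jb jt : ℝ → ℝ) (h : FaceSol a₀ b₀ a₁ b₁ a₂ b₂ δ N0 w J vb vt jb jt)
    (h0 : a₀ < b₀) (h1 : a₁ < b₁) (h2 : a₂ < b₂) :
    IntervalIntegrable jb volume a₀ b₀ ∧ IntervalIntegrable jt volume a₀ b₀ ∧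
    ∀ (χ : E3 → ℝ) (K : ℝ≥0), LipschitzWith K χ →
      ∫ p in cbox a₀ b₀ a₁ b₁ a₂ b₂, inner ℝ (J p) (∇ χ p) =
        (∫ x in a₀..b₀, ∫ y in a₁..b₁, jt x * χ (pt x y b₂)) -
        (∫ x in a₀..b₀, ∫ y in a₁..b₁, jb x * χ (pt x y a₂)) := by
  refine ⟨fg_int h.sol h0 h1 (𝓝[>] a₂) (Ioo_mem_nhdsGT h2) jb
      fun x hx y hy hx0 => h.Jb x hx y hy (Or.inl hx0),
    fg_int h.sol h0 h1 (𝓝[<] b₂) (Ioo_mem_nhdsLT h2) jt
      fun x hx y hy hx0 => h.Jt x hx y hy (Or.inl hx0), fun χ K hχ => ?_⟩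
  refine green_box a₀ b₀ a₁ b₁ a₂ b₂ h0 h1 h2 J h.sol.smJ (fun p a b => (h.sol.eqs p a b).2)
    h.sol.wall0 h.sol.wall1 (fg_integrable h.sol) (fun x => √N0 * (√|x|)⁻¹)
    ((integrable_rsqrt a₀ b₀).const_mul (√N0)) ?_ jb jt ?_ ?_ χ K hχ
  · filter_upwards [fg_ae_ne] with x hx0 hx y hy t ht1 ht2
    refine fg_bound N0 x y t ‖J (pt x y t)‖ _ (norm_nonneg _) (fg_coord_le _ 2) ?_ hx0
    exact (h.sol.est _ (by rw [pt_zero]; exact hx) (by rw [pt_one]; exact hy)
      (by rw [pt_two]; exact ht1) (by rw [pt_two]; exact ht2)).2.2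
  · filter_upwards [fg_ae_ne] with x hx0 hx y hy
    exact h.Jb x hx y hy (Or.inl hx0)
  · filter_upwards [fg_ae_ne] with x hx0 hx y hy
    exact h.Jt x hx y hy (Or.inl hx0)

end Crest.Agent.R083
end

-- ▼ part R083/TMSum
section

/-!
Row 83 (S0111), TM group: the fluxes through the horizontal faces of the three model boxes add up
to the two outer fluxes.
-/

set_option autoImplicit false

namespace Crest.Agent.R083

open MeasureTheory Set Filter
open scoped Gradient ENNReal NNReal Topology ContDiff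

theorem ts_cont (f : E3 → ℝ) (K : ℝ≥0) (hf : LipschitzWith K f) (c : ℝ) :
    Continuous fun x : ℝ => ∫ y in (-(22 / 25 : ℝ))..(22 / 25), f (pt x y c) := by
  have h1 : Continuous (fun q : ℝ × ℝ => pt q.1 q.2 c) := by
    have h2 : (fun q : ℝ × ℝ => pt q.1 q.2 c) = fun q : ℝ × ℝ =>
        (WithLp.toLp 2 ![q.1, q.2, c] : E3) := rfl
    rw [h2]
    refine (PiLp.continuous_toLp 2 _).comp (continuous_pi fun i => ?_)
    fin_cases i
    · exact continuous_fst
    · exact continuous_snd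
    · exact continuous_const
  exact intervalIntegral.continuous_parametric_intervalIntegral_of_continuous'
    (f := fun x y => f (pt x y c)) (hf.continuous.comp h1) _ _

/-- File `TMSum.lean`. -/
theorem fs_sum (θ : ℝ) (jm : ℝ → ℝ)
    (hjm : IntervalIntegrable jm volume (-(32 / 25)) (32 / 25))
    (χ : Box → E3 → ℝ) (hχ : ∀ b, ∃ K : ℝ≥0, LipschitzWith K (χ b)) (hM : Matching χ) :
    ((∫ x in (-(32 / 25 : ℝ))..(32 / 25), ∫ y in (-(22 / 25 : ℝ))..(22 / 25),
        0 * χ Box.O (pt x y 1)) -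
      (∫ x in (-(32 / 25 : ℝ))..(32 / 25), ∫ y in (-(22 / 25 : ℝ))..(22 / 25),
        jm x * χ Box.O (pt x y (7 / 10)))) +
    ((∫ x in (0 : ℝ)..(32 / 25), ∫ y in (-(22 / 25 : ℝ))..(22 / 25),
        jm x * χ Box.P (pt x y (7 / 10))) -
      (∫ x in (0 : ℝ)..(32 / 25), ∫ y in (-(22 / 25 : ℝ))..(22 / 25),
        (-θ) * χ Box.P (pt x y (3 / 5)))) +
    ((∫ x in (-(32 / 25 : ℝ))..0, ∫ y in (-(22 / 25 : ℝ))..(22 / 25),
        jm x * χ Box.N (pt x y (7 / 10))) -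
      (∫ x in (-(32 / 25 : ℝ))..0, ∫ y in (-(22 / 25 : ℝ))..(22 / 25),
        θ * χ Box.N (pt x y (3 / 5)))) =
      θ * (faceP (χ Box.P) - faceN (χ Box.N)) := by
  set F : ℝ → ℝ := fun x => ∫ y in (-(22 / 25 : ℝ))..(22 / 25), χ Box.O (pt x y (7 / 10)) with hF
  have hFc : Continuous F := by
    obtain ⟨K, hK⟩ := hχ Box.O
    exact ts_cont (χ Box.O) K hK (7 / 10)
  have hg : IntervalIntegrable (fun x => jm x * F x) volume (-(32 / 25)) (32 / 25) :=
    hjm.mul_continuousOn hFc.continuousOn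
  have hu1 : uIcc (-(32 / 25 : ℝ)) 0 ⊆ uIcc (-(32 / 25 : ℝ)) (32 / 25) := by
    rw [uIcc_of_le (by norm_num), uIcc_of_le (by norm_num)]
    exact Icc_subset_Icc le_rfl (by norm_num)
  have hu2 : uIcc (0 : ℝ) (32 / 25) ⊆ uIcc (-(32 / 25 : ℝ)) (32 / 25) := by
    rw [uIcc_of_le (by norm_num), uIcc_of_le (by norm_num)]
    exact Icc_subset_Icc (by norm_num) le_rfl
  have hg1 : IntervalIntegrable (fun x => jm x * F x) volume (-(32 / 25)) 0 := hg.mono_set hu1
  have hg2 : IntervalIntegrable (fun x => jm x * F x) volume 0 (32 / 25) := hg.mono_set hu2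
  have hadd := intervalIntegral.integral_add_adjacent_intervals hg1 hg2
  have e0 : (∫ x in (-(32 / 25 : ℝ))..(32 / 25), ∫ y in (-(22 / 25 : ℝ))..(22 / 25),
        0 * χ Box.O (pt x y 1)) = 0 := by simp
  have e1 : (∫ x in (-(32 / 25 : ℝ))..(32 / 25), ∫ y in (-(22 / 25 : ℝ))..(22 / 25),
        jm x * χ Box.O (pt x y (7 / 10))) = ∫ x in (-(32 / 25 : ℝ))..(32 / 25), jm x * F x := by
    refine intervalIntegral.integral_congr fun x _ => ?_
    exact intervalIntegral.integral_const_mul _ _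
  have e2 : (∫ x in (0 : ℝ)..(32 / 25), ∫ y in (-(22 / 25 : ℝ))..(22 / 25),
        jm x * χ Box.P (pt x y (7 / 10))) = ∫ x in (0 : ℝ)..(32 / 25), jm x * F x := by
    refine intervalIntegral.integral_congr fun x hx => ?_
    rw [uIcc_of_le (by norm_num)] at hx
    have h1 : (∫ y in (-(22 / 25 : ℝ))..(22 / 25), jm x * χ Box.P (pt x y (7 / 10))) =
        ∫ y in (-(22 / 25 : ℝ))..(22 / 25), jm x * χ Box.O (pt x y (7 / 10)) := by
      refine intervalIntegral.integral_congr fun y hy => ?_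
      rw [uIcc_of_le (by norm_num)] at hy
      have h2 : pt x y (7 / 10) ∈ bx Box.P := by
        refine ⟨?_, ?_, ?_, ?_, ?_⟩
        · simpa using hx.1
        · simpa using hx.2
        · simpa [abs_le] using hy
        · simp; norm_num
        · simp
      have h3 := hM.1 _ h2 (by simp)
      simp only [h3]
    exact h1.trans (intervalIntegral.integral_const_mul _ _)
  have e3 : (∫ x in (-(32 / 25 : ℝ))..0, ∫ y in (-(22 / 25 : ℝ))..(22 / 25),
        jm x * χ Box.N (pt x y (7 / 10))) = ∫ x in (-(32 / 25 : ℝ))..0, jm x * F x := by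
    refine intervalIntegral.integral_congr fun x hx => ?_
    rw [uIcc_of_le (by norm_num)] at hx
    have h1 : (∫ y in (-(22 / 25 : ℝ))..(22 / 25), jm x * χ Box.N (pt x y (7 / 10))) =
        ∫ y in (-(22 / 25 : ℝ))..(22 / 25), jm x * χ Box.O (pt x y (7 / 10)) := by
      refine intervalIntegral.integral_congr fun y hy => ?_
      rw [uIcc_of_le (by norm_num)] at hy
      have h2 : pt x y (7 / 10) ∈ bx Box.N := by
        refine ⟨?_, ?_, ?_, ?_, ?_⟩
        · simpa using hx.1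
        · simpa using hx.2
        · simpa [abs_le] using hy
        · simp; norm_num
        · simp
      have h3 := hM.2 _ h2 (by simp)
      simp only [h3]
    exact h1.trans (intervalIntegral.integral_const_mul _ _)
  have e4 : (∫ x in (0 : ℝ)..(32 / 25), ∫ y in (-(22 / 25 : ℝ))..(22 / 25),
        (-θ) * χ Box.P (pt x y (3 / 5))) = -θ * faceP (χ Box.P) := by
    simp only [intervalIntegral.integral_const_mul]
    rfl
  have e5 : (∫ x in (-(32 / 25 : ℝ))..0, ∫ y in (-(22 / 25 : ℝ))..(22 / 25),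
        θ * χ Box.N (pt x y (3 / 5))) = θ * faceN (χ Box.N) := by
    simp only [intervalIntegral.integral_const_mul]
    rfl
  rw [e0, e1, e2, e3, e4, e5]
  linear_combination hadd

end Crest.Agent.R083
end

-- ▼ part R083/Core1
section

/-!
Row 83 (S0111), task TM-b: the harmonic core function near the tip of the slit.

Two explicit real functions of `(s, X)`:
* `uL s X = -log ‖cs (1 - exp (π ζ)) + I exp (π ζ / 2)‖`, `ζ = s + i X` (used for `s ≤ 0`);
* `utR s X = log ‖(1 + cs (1 - exp (-π ζ))) / 2‖` (used for `0 ≤ s`), and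
  `uR s X = (π/2) s + log 2 + utR s X`.
-/

set_option autoImplicit false

namespace Crest.Agent.R083.Core

open Complex Set Filter Topology
open scoped Real ContDiff

/-! ### Principal square root -/

/-- principal square root -/
noncomputable def cs (z : ℂ) : ℂ := z ^ (2⁻¹ : ℂ)

theorem cs_sq (z : ℂ) : cs z ^ 2 = z := Complex.cpow_ofNat_inv_pow z 2

theorem cs_mul_self (z : ℂ) : cs z * cs z = z := by rw [← sq, cs_sq]

theorem cs_re_nonneg (z : ℂ) : 0 ≤ (cs z).re := by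
  unfold cs; rw [cpow_inv_two_re]; exact Real.sqrt_nonneg _

theorem cs_re_pos {z : ℂ} (hz : z ∈ slitPlane) : 0 < (cs z).re := by
  unfold cs
  rw [cpow_inv_two_re]
  apply Real.sqrt_pos.2
  rcases mem_slitPlane_iff.1 hz with h | h
  · have := norm_nonneg z
    linarith
  · have h1 : |z.re| < ‖z‖ := Complex.abs_re_lt_norm.2 h
    have h2 := neg_abs_le z.re
    linarith

theorem norm_cs_sq (z : ℂ) : ‖cs z‖ ^ 2 = ‖z‖ := by rw [← norm_pow, cs_sq]

theorem norm_cs (z : ℂ) : ‖cs z‖ = √‖z‖ := by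
  rw [← norm_cs_sq z, Real.sqrt_sq (norm_nonneg _)]

theorem cs_ne_zero {z : ℂ} (hz : z ≠ 0) : cs z ≠ 0 := by
  intro h
  apply hz
  rw [← cs_sq z, h]
  simp

theorem hasDerivAt_cs {z : ℂ} (hz : z ∈ slitPlane) : HasDerivAt cs (1 / (2 * cs z)) z := by
  have h0 : z ≠ 0 := slitPlane_ne_zero hz
  have h := (hasDerivAt_id z).cpow_const (c := 2⁻¹) hz
  have e : (2⁻¹ : ℂ) * id z ^ ((2⁻¹ : ℂ) - 1) * 1 = 1 / (2 * cs z) := by
    have h1 : z ^ ((2⁻¹ : ℂ) - 1) = cs z / z := by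
      rw [Complex.cpow_sub _ _ h0, Complex.cpow_one, cs]
    simp only [id, mul_one]
    rw [h1]
    have h2 := cs_ne_zero h0
    have h3 : z = cs z * cs z := (cs_mul_self z).symm
    nth_rw 2 [h3]
    field_simp
  rw [e] at h
  exact h


/-! ### real partial derivatives of real and imaginary parts of holomorphic functions -/

section partials

variable {f : ℂ → ℂ} {f' : ℂ} {s X : ℝ}

theorem hasDerivAt_fst (h : HasDerivAt f f' (s + X * I)) :
    HasDerivAt (fun t : ℝ => f (t + X * I)) f' s := by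
  have h1 : HasDerivAt (fun t : ℝ => (t : ℂ) + X * I) 1 s := by
    simpa using (Complex.ofRealCLM.hasDerivAt (x := s)).add_const (X * I)
  exact (h.scomp s h1).congr_deriv (by simp)

theorem hasDerivAt_snd (h : HasDerivAt f f' (s + X * I)) :
    HasDerivAt (fun t : ℝ => f (s + t * I)) (I * f') X := by
  have h1 : HasDerivAt (fun t : ℝ => (s : ℂ) + t * I) I X := by
    simpa using ((Complex.ofRealCLM.hasDerivAt (x := X)).mul_const I).const_add (s : ℂ)
  exact (h.scomp X h1).congr_deriv (by simp)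

theorem re_fst (h : HasDerivAt f f' (s + X * I)) :
    HasDerivAt (fun t : ℝ => (f (t + X * I)).re) f'.re s :=
  (reCLM.hasFDerivAt.comp_hasDerivAt s (hasDerivAt_fst h))

theorem im_fst (h : HasDerivAt f f' (s + X * I)) :
    HasDerivAt (fun t : ℝ => (f (t + X * I)).im) f'.im s :=
  (imCLM.hasFDerivAt.comp_hasDerivAt s (hasDerivAt_fst h))

theorem re_snd (h : HasDerivAt f f' (s + X * I)) :
    HasDerivAt (fun t : ℝ => (f (s + t * I)).re) (-f'.im) X := by
  exact (reCLM.hasFDerivAt.comp_hasDerivAt X (hasDerivAt_snd h)).congr_deriv (by simp)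

theorem im_snd (h : HasDerivAt f f' (s + X * I)) :
    HasDerivAt (fun t : ℝ => (f (s + t * I)).im) f'.re X := by
  exact (imCLM.hasFDerivAt.comp_hasDerivAt X (hasDerivAt_snd h)).congr_deriv (by simp)

end partials

/-! ### The algebra of `A = r + i q` with `r ^ 2 = 1 - q ^ 2` -/

theorem AB_one {r q : ℂ} (h : r ^ 2 = 1 - q ^ 2) : (r + I * q) * (r - I * q) = 1 := by
  have : (r + I * q) * (r - I * q) = r ^ 2 - I ^ 2 * q ^ 2 := by ring
  rw [this, h, I_sq]; ring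

theorem A_ne {r q : ℂ} (h : r ^ 2 = 1 - q ^ 2) : r + I * q ≠ 0 := by
  intro h0
  have := AB_one h
  rw [h0, zero_mul] at this
  exact zero_ne_one this

theorem A_re_pos {r q : ℂ} (h : r ^ 2 = 1 - q ^ 2) (hr : 0 < r.re) : 0 < (r + I * q).re := by
  have h1 := AB_one h
  have hA := A_ne h
  have h2 : r - I * q = (r + I * q)⁻¹ := eq_inv_of_mul_eq_one_right h1
  have h3 : (r + I * q).re + (r - I * q).re = 2 * r.re := by simp; ring
  rw [h2, Complex.inv_re] at h3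
  have h4 : 0 < normSq (r + I * q) := normSq_pos.2 hA
  by_contra hneg
  push Not at hneg
  have h5 : (r + I * q).re / normSq (r + I * q) ≤ 0 := div_nonpos_of_nonpos_of_nonneg hneg h4.le
  linarith

/-! ### The left function (`s < 0`) -/

/-- `r(ζ) = √(1 - q²)` -/
noncomputable def rL (ζ : ℂ) : ℂ := cs (1 - exp (π * ζ))

/-- `q(ζ) = exp (π ζ / 2)` -/
noncomputable def qL (ζ : ℂ) : ℂ := exp (π / 2 * ζ)

theorem qL_sq (ζ : ℂ) : qL ζ ^ 2 = exp (π * ζ) := by
  unfold qL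
  rw [← Complex.exp_nat_mul]
  congr 1
  push_cast
  ring

theorem rL_sq (ζ : ℂ) : rL ζ ^ 2 = 1 - qL ζ ^ 2 := by
  rw [qL_sq]; exact cs_sq _

/-- `A = r + i q` -/
noncomputable def AL (ζ : ℂ) : ℂ := rL ζ + I * qL ζ

/-- domain of holomorphy -/
def DL : Set ℂ := {ζ | 1 - exp (π * ζ) ∈ slitPlane}

/-- `g = (π/2) q / r` -/
noncomputable def gL (ζ : ℂ) : ℂ := π / 2 * (qL ζ / rL ζ)

/-- `g' = (π/2)² q / r³` -/
noncomputable def gL' (ζ : ℂ) : ℂ := (π / 2) ^ 2 * (qL ζ / rL ζ ^ 3)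

/-- `arcsin q` -/
noncomputable def EL (ζ : ℂ) : ℂ := -I * log (AL ζ)

theorem hasDerivAt_qL (ζ : ℂ) : HasDerivAt qL (π / 2 * qL ζ) ζ := by
  have h : HasDerivAt (fun z : ℂ => (π / 2 : ℂ) * z) (π / 2) ζ := by
    simpa using (hasDerivAt_id ζ).const_mul (π / 2 : ℂ)
  exact h.cexp.congr_deriv (by unfold qL; ring)

theorem rL_ne {ζ : ℂ} (h : ζ ∈ DL) : rL ζ ≠ 0 := cs_ne_zero (slitPlane_ne_zero h)

theorem rL_re_pos {ζ : ℂ} (h : ζ ∈ DL) : 0 < (rL ζ).re := cs_re_pos h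

theorem hasDerivAt_rL {ζ : ℂ} (h : ζ ∈ DL) : HasDerivAt rL (-(π / 2) * qL ζ ^ 2 / rL ζ) ζ := by
  have h1 : HasDerivAt (fun z : ℂ => 1 - exp (π * z)) (-(exp (π * ζ) * π)) ζ := by
    have h2 : HasDerivAt (fun z : ℂ => (π : ℂ) * z) π ζ := by
      simpa using (hasDerivAt_id ζ).const_mul (π : ℂ)
    simpa using (h2.cexp).const_sub 1
  have h3 := (hasDerivAt_cs (z := 1 - exp (π * ζ)) h).comp ζ h1
  have hr := rL_ne h
  refine h3.congr_deriv ?_
  rw [qL_sq]
  unfold rL at *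
  field_simp

theorem hasDerivAt_AL {ζ : ℂ} (h : ζ ∈ DL) : HasDerivAt AL (I * gL ζ * AL ζ) ζ := by
  have h1 := (hasDerivAt_rL h).add ((hasDerivAt_qL ζ).const_mul I)
  have hr := rL_ne h
  refine h1.congr_deriv ?_
  unfold gL AL
  field_simp
  linear_combination -(qL ζ) * I_sq * qL ζ

theorem hasDerivAt_EL {ζ : ℂ} (h : ζ ∈ DL) : HasDerivAt EL (gL ζ) ζ := by
  have hA : AL ζ ∈ slitPlane := mem_slitPlane_iff.2 (Or.inl (A_re_pos (rL_sq ζ) (rL_re_pos h)))
  have h1 := ((hasDerivAt_AL h).clog hA).const_mul (-I)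
  have h0 : AL ζ ≠ 0 := slitPlane_ne_zero hA
  refine h1.congr_deriv ?_
  field_simp
  linear_combination -(gL ζ) * I_sq

theorem hasDerivAt_gL {ζ : ℂ} (h : ζ ∈ DL) : HasDerivAt gL (gL' ζ) ζ := by
  have hr := rL_ne h
  have h1 := (((hasDerivAt_qL ζ).div (hasDerivAt_rL h) hr)).const_mul (π / 2 : ℂ)
  refine h1.congr_deriv ?_
  unfold gL'
  have h2 := rL_sq ζ
  field_simp
  linear_combination (qL ζ) * h2

/-! ### The right function (`s > 0`) -/

/-- `z(ζ) = exp (-π ζ)` -/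
noncomputable def zR (ζ : ℂ) : ℂ := exp (-π * ζ)

/-- `ρ(ζ) = √(1 - z)` -/
noncomputable def rR (ζ : ℂ) : ℂ := cs (1 - zR ζ)

theorem rR_sq (ζ : ℂ) : rR ζ ^ 2 = 1 - zR ζ := cs_sq _

/-- domain of holomorphy -/
def DR : Set ℂ := {ζ | 1 - zR ζ ∈ slitPlane}

/-- `log ((1 + ρ) / 2)` -/
noncomputable def ER (ζ : ℂ) : ℂ := log ((1 + rR ζ) / 2)

/-- derivative of `ER` -/
noncomputable def kR (ζ : ℂ) : ℂ := π / 2 * (1 / rR ζ - 1)

/-- second derivative of `ER` -/
noncomputable def kR' (ζ : ℂ) : ℂ := -(π / 2) ^ 2 * (zR ζ / rR ζ ^ 3)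

theorem rR_ne {ζ : ℂ} (h : ζ ∈ DR) : rR ζ ≠ 0 := cs_ne_zero (slitPlane_ne_zero h)

theorem rR_re_pos {ζ : ℂ} (h : ζ ∈ DR) : 0 < (rR ζ).re := cs_re_pos h

theorem hasDerivAt_zR (ζ : ℂ) : HasDerivAt zR (-π * zR ζ) ζ := by
  have h2 : HasDerivAt (fun z : ℂ => (-π : ℂ) * z) (-π) ζ := by
    simpa using (hasDerivAt_id ζ).const_mul (-π : ℂ)
  exact h2.cexp.congr_deriv (by unfold zR; ring)

theorem hasDerivAt_rR {ζ : ℂ} (h : ζ ∈ DR) : HasDerivAt rR (π / 2 * zR ζ / rR ζ) ζ := by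
  have h1 : HasDerivAt (fun z : ℂ => 1 - zR z) (π * zR ζ) ζ :=
    ((hasDerivAt_zR ζ).const_sub 1).congr_deriv (by ring)
  have h3 := (hasDerivAt_cs (z := 1 - zR ζ) h).comp ζ h1
  have hr := rR_ne h
  refine h3.congr_deriv ?_
  unfold rR at *
  field_simp

theorem one_add_rR_re (ζ : ℂ) : 1 ≤ (1 + rR ζ).re := by
  have : 0 ≤ (rR ζ).re := cs_re_nonneg _
  simp only [add_re, one_re]
  linarith

theorem one_add_rR_ne (ζ : ℂ) : 1 + rR ζ ≠ 0 := by
  intro h
  have := one_add_rR_re ζ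
  rw [h] at this
  simp at this
  linarith

theorem hasDerivAt_ER {ζ : ℂ} (h : ζ ∈ DR) : HasDerivAt ER (kR ζ) ζ := by
  have h0 := one_add_rR_ne ζ
  have hr := rR_ne h
  have hA : (1 + rR ζ) / 2 ∈ slitPlane := by
    refine mem_slitPlane_iff.2 (Or.inl ?_)
    have := one_add_rR_re ζ
    have e : ((1 + rR ζ) / 2).re = (1 + rR ζ).re / 2 := by
      have : (1 + rR ζ) / 2 = ((1 / 2 : ℝ) : ℂ) * (1 + rR ζ) := by push_cast; ring
      rw [this, re_ofReal_mul]; ring
    rw [e]; linarith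
  have h1 := (((hasDerivAt_rR h).const_add 1).div_const 2).clog hA
  refine h1.congr_deriv ?_
  unfold kR
  have h2 := rR_sq ζ
  field_simp
  linear_combination h2

theorem hasDerivAt_kR {ζ : ℂ} (h : ζ ∈ DR) : HasDerivAt kR (kR' ζ) ζ := by
  have hr := rR_ne h
  have h1 : HasDerivAt (fun z => π / 2 * ((rR z)⁻¹ - 1)) (π / 2 * (-(π / 2 * zR ζ / rR ζ) / rR ζ ^ 2)) ζ :=
    (((hasDerivAt_rR h).inv hr).sub_const 1).const_mul (π / 2 : ℂ)
  have h2 : kR = fun z => π / 2 * ((rR z)⁻¹ - 1) := by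
    funext z; unfold kR; rw [one_div]
  rw [h2]
  refine h1.congr_deriv ?_
  unfold kR'
  field_simp

/-! ### domains -/

theorem one_sub_mem_slit {w : ℂ} (h : w.re < 1 ∨ w.im ≠ 0) : 1 - w ∈ slitPlane := by
  rw [mem_slitPlane_iff]
  rcases h with h | h
  · left; simpa using h
  · right; simpa using h

theorem exp_pi_re (s X : ℝ) : (exp (π * (s + X * I))).re = Real.exp (π * s) * Real.cos (π * X) := by
  rw [Complex.exp_re]; simp

theorem exp_pi_im (s X : ℝ) : (exp (π * (s + X * I))).im = Real.exp (π * s) * Real.sin (π * X) := by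
  rw [Complex.exp_im]; simp

theorem norm_exp_pi (s X : ℝ) : ‖exp (π * (s + X * I))‖ = Real.exp (π * s) := by
  rw [Complex.norm_exp]; simp

theorem slit_cond {e X : ℝ} (he : 0 < e) (h : e < 1 ∨ (0 < X ∧ X < 2)) :
    e * Real.cos (π * X) < 1 ∨ e * Real.sin (π * X) ≠ 0 := by
  rcases h with h | h
  · left
    have := Real.cos_le_one (π * X)
    nlinarith
  · by_cases hX : X = 1
    · left
      subst hX
      simp
      linarith
    · right
      have hs : Real.sin (π * X) ≠ 0 := by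
        intro h0
        rw [Real.sin_eq_zero_iff] at h0
        obtain ⟨n, hn⟩ := h0
        have : (n : ℝ) = X := by
          have hp := Real.pi_pos
          field_simp at hn
          nlinarith
        have h1 : (0 : ℝ) < n := by rw [this]; exact h.1
        have h2 : (n : ℝ) < 2 := by rw [this]; exact h.2
        have h3 : 0 < n := by exact_mod_cast h1
        have h4 : n < 2 := by exact_mod_cast h2
        have h5 : n = 1 := by omega
        apply hX
        rw [← this, h5]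
        simp
      positivity

theorem mem_DL {s X : ℝ} (h : s < 0 ∨ (0 < X ∧ X < 2)) : (s + X * I : ℂ) ∈ DL := by
  refine one_sub_mem_slit ?_
  rw [exp_pi_re, exp_pi_im]
  refine slit_cond (Real.exp_pos _) ?_
  rcases h with h | h
  · left
    rw [Real.exp_lt_one_iff]
    have := Real.pi_pos
    nlinarith
  · right; exact h

theorem zR_eq (s X : ℝ) : zR (s + X * I) = exp (π * ((-s : ℝ) + (-X : ℝ) * I)) := by
  unfold zR; congr 1; push_cast; ring

theorem mem_DR {s X : ℝ} (h : 0 < s ∨ (0 < X ∧ X < 2)) : (s + X * I : ℂ) ∈ DR := by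
  refine one_sub_mem_slit ?_
  rw [zR_eq, exp_pi_re, exp_pi_im, mul_neg π X, Real.cos_neg, Real.sin_neg, mul_neg (Real.exp _),
    ne_eq, neg_eq_zero]
  refine slit_cond (Real.exp_pos _) ?_
  rcases h with h | h
  · left
    rw [Real.exp_lt_one_iff]
    have := Real.pi_pos
    nlinarith
  · right; exact h

/-! ### The real functions and their partial derivatives -/

/-- the left function -/
noncomputable def uL (s X : ℝ) : ℝ := -Real.log ‖AL (s + X * I)‖
noncomputable def uLs (s X : ℝ) : ℝ := (gL (s + X * I)).im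
noncomputable def uLX (s X : ℝ) : ℝ := (gL (s + X * I)).re
noncomputable def uLss (s X : ℝ) : ℝ := (gL' (s + X * I)).im
noncomputable def uLsX (s X : ℝ) : ℝ := (gL' (s + X * I)).re

/-- the right function, without its affine part -/
noncomputable def utR (s X : ℝ) : ℝ := Real.log ‖(1 + rR (s + X * I)) / 2‖
noncomputable def utRs (s X : ℝ) : ℝ := (kR (s + X * I)).re
noncomputable def utRX (s X : ℝ) : ℝ := -(kR (s + X * I)).im
noncomputable def utRss (s X : ℝ) : ℝ := (kR' (s + X * I)).re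
noncomputable def utRsX (s X : ℝ) : ℝ := -(kR' (s + X * I)).im

theorem uL_eq (s X : ℝ) : uL s X = (EL (s + X * I)).im := by
  unfold uL EL
  simp [Complex.log_re]

theorem utR_eq (s X : ℝ) : utR s X = (ER (s + X * I)).re := by
  unfold utR ER
  rw [Complex.log_re]

section left

variable {s X : ℝ} (h : s < 0 ∨ (0 < X ∧ X < 2))
include h

theorem hasDerivAt_uL_s : HasDerivAt (fun t => uL t X) (uLs s X) s := by
  simp only [uL_eq]
  exact im_fst (hasDerivAt_EL (mem_DL h))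

theorem hasDerivAt_uL_X : HasDerivAt (fun t => uL s t) (uLX s X) X := by
  simp only [uL_eq]
  exact im_snd (hasDerivAt_EL (mem_DL h))

theorem hasDerivAt_uLs_s : HasDerivAt (fun t => uLs t X) (uLss s X) s :=
  im_fst (hasDerivAt_gL (mem_DL h))



theorem hasDerivAt_uLX_X : HasDerivAt (fun t => uLX s t) (-uLss s X) X :=
  re_snd (hasDerivAt_gL (mem_DL h))

end left

section right

variable {s X : ℝ} (h : 0 < s ∨ (0 < X ∧ X < 2))
include h

theorem hasDerivAt_utR_s : HasDerivAt (fun t => utR t X) (utRs s X) s := by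
  simp only [utR_eq]
  exact re_fst (hasDerivAt_ER (mem_DR h))

theorem hasDerivAt_utR_X : HasDerivAt (fun t => utR s t) (utRX s X) X := by
  simp only [utR_eq]
  exact re_snd (hasDerivAt_ER (mem_DR h))

theorem hasDerivAt_utRs_s : HasDerivAt (fun t => utRs t X) (utRss s X) s :=
  re_fst (hasDerivAt_kR (mem_DR h))



theorem hasDerivAt_utRX_X : HasDerivAt (fun t => utRX s t) (-utRss s X) X :=
  (im_snd (hasDerivAt_kR (mem_DR h))).neg

end right

/-! ### Smoothness in the two real variables -/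

/-- the open half-plane / slit strip domains -/
theorem isOpen_DL : IsOpen DL :=
  Complex.isOpen_slitPlane.preimage (by fun_prop : Continuous fun ζ : ℂ => 1 - exp (π * ζ))

theorem isOpen_DR : IsOpen DR :=
  Complex.isOpen_slitPlane.preimage (by unfold zR; fun_prop : Continuous fun ζ : ℂ => 1 - zR ζ)

theorem contDiffOn_comp {f : ℂ → ℂ} {D : Set ℂ} (hD : IsOpen D) (hf : DifferentiableOn ℂ f D) :
    ContDiffOn ℝ ∞ (fun p : ℝ × ℝ => f (p.1 + p.2 * I)) {p | (p.1 + p.2 * I : ℂ) ∈ D} := by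
  have h1 : ContDiffOn ℝ ∞ f D := ((hf.contDiffOn hD).restrict_scalars ℝ)
  have h2 : ContDiff ℝ ∞ (fun p : ℝ × ℝ => (p.1 + p.2 * I : ℂ)) := by
    have e1 : ContDiff ℝ ∞ (fun p : ℝ × ℝ => ((p.1 : ℝ) : ℂ)) :=
      Complex.ofRealCLM.contDiff.comp contDiff_fst
    have e2 : ContDiff ℝ ∞ (fun p : ℝ × ℝ => ((p.2 : ℝ) : ℂ)) :=
      Complex.ofRealCLM.contDiff.comp contDiff_snd
    exact e1.add (e2.mul contDiff_const)
  exact h1.comp h2.contDiffOn (fun p hp => hp)

theorem contDiffOn_re {f : ℂ → ℂ} {D : Set ℂ} (hD : IsOpen D) (hf : DifferentiableOn ℂ f D) :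
    ContDiffOn ℝ ∞ (fun p : ℝ × ℝ => (f (p.1 + p.2 * I)).re) {p | (p.1 + p.2 * I : ℂ) ∈ D} :=
  Complex.reCLM.contDiff.comp_contDiffOn (contDiffOn_comp hD hf)

theorem contDiffOn_im {f : ℂ → ℂ} {D : Set ℂ} (hD : IsOpen D) (hf : DifferentiableOn ℂ f D) :
    ContDiffOn ℝ ∞ (fun p : ℝ × ℝ => (f (p.1 + p.2 * I)).im) {p | (p.1 + p.2 * I : ℂ) ∈ D} :=
  Complex.imCLM.contDiff.comp_contDiffOn (contDiffOn_comp hD hf)

theorem contDiffOn_uL : ContDiffOn ℝ ∞ (fun p : ℝ × ℝ => uL p.1 p.2) {p | p.1 < 0} := by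
  simp only [uL_eq]
  refine (contDiffOn_im isOpen_DL (f := EL) fun ζ hζ =>
    (hasDerivAt_EL hζ).differentiableAt.differentiableWithinAt).mono ?_
  intro p hp
  exact mem_DL (Or.inl hp)

theorem contDiffOn_utR : ContDiffOn ℝ ∞ (fun p : ℝ × ℝ => utR p.1 p.2) {p | 0 < p.1} := by
  simp only [utR_eq]
  refine (contDiffOn_re isOpen_DR (f := ER) fun ζ hζ =>
    (hasDerivAt_ER hζ).differentiableAt.differentiableWithinAt).mono ?_
  intro p hp
  exact mem_DR (Or.inl hp)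

/-! ### Continuity -/



theorem norm_qL (s X : ℝ) : ‖qL (s + X * I)‖ = Real.exp (π / 2 * s) := by
  unfold qL
  rw [Complex.norm_exp]
  congr 1
  simp

theorem norm_zR (s X : ℝ) : ‖zR (s + X * I)‖ = Real.exp (-π * s) := by
  unfold zR
  rw [Complex.norm_exp]
  congr 1
  simp



theorem AL_ne (ζ : ℂ) : AL ζ ≠ 0 := A_ne (rL_sq ζ)



/-! ### Gluing of the two formulas on the strip `0 < X < 2` -/

theorem zR_qL (ζ : ℂ) : zR ζ * qL ζ ^ 2 = 1 := by
  rw [qL_sq]
  unfold zR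
  rw [← Complex.exp_add]
  simp

theorem qL_ne (ζ : ℂ) : qL ζ ≠ 0 := Complex.exp_ne_zero _

/-- uniqueness of the square root with positive real part -/
theorem eq_cs {w z : ℂ} (h : w ^ 2 = z) (hw : 0 < w.re) : w = cs z := by
  have h1 : w ^ 2 = cs z ^ 2 := by rw [cs_sq, h]
  rcases sq_eq_sq_iff_eq_or_eq_neg.1 h1 with h2 | h2
  · exact h2
  · exfalso
    have h3 := cs_re_nonneg z
    rw [h2] at hw
    simp at hw
    linarith

theorem qL_re (s X : ℝ) : (qL (s + X * I)).re = Real.exp (π / 2 * s) * Real.cos (π / 2 * X) := by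
  unfold qL
  rw [Complex.exp_re]
  simp

theorem qL_im (s X : ℝ) : (qL (s + X * I)).im = Real.exp (π / 2 * s) * Real.sin (π / 2 * X) := by
  unfold qL
  rw [Complex.exp_im]
  simp

theorem cs_im_mul (z : ℂ) : 2 * ((cs z).re * (cs z).im) = z.im := by
  have := congrArg Complex.im (cs_sq z)
  rw [sq, mul_im] at this
  linarith

theorem rL_eq {s X : ℝ} (h0 : 0 < X) (h1 : X ≤ 1) :
    rL (s + X * I) = -I * qL (s + X * I) * rR (s + X * I) := by
  symm
  have hD := mem_DR (s := s) (X := X) (Or.inr ⟨h0, by linarith⟩)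
  refine eq_cs ?_ ?_
  · have e1 := rR_sq (s + X * I)
    have e2 := zR_qL (s + X * I)
    have e3 := qL_sq (s + X * I)
    rw [← e3]
    linear_combination (qL (s + X * I)) ^ 2 * rR (s + X * I) ^ 2 * I_sq - (qL (s + X * I)) ^ 2 * e1 + e2
  · have hρ := rR_re_pos hD
    have him : 0 ≤ (1 - zR (s + X * I)).im := by
      rw [sub_im, one_im, zero_sub, zR_eq, exp_pi_im]
      rw [mul_neg π X, Real.sin_neg]
      have : 0 ≤ Real.sin (π * X) := by
        apply Real.sin_nonneg_of_nonneg_of_le_pi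
        · have := Real.pi_pos; positivity
        · have := Real.pi_pos; nlinarith
      have := Real.exp_pos (π * -s)
      nlinarith
    have hb : 0 ≤ (rR (s + X * I)).im := by
      have := cs_im_mul (1 - zR (s + X * I))
      rw [← this] at him
      change 0 ≤ 2 * ((rR (s + X * I)).re * (rR (s + X * I)).im) at him
      by_contra hneg
      push Not at hneg
      nlinarith
    have hx : 0 ≤ (qL (s + X * I)).re := by
      rw [qL_re]
      have : 0 ≤ Real.cos (π / 2 * X) := by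
        apply Real.cos_nonneg_of_neg_pi_div_two_le_of_le
        · have := Real.pi_pos; nlinarith
        · have := Real.pi_pos; nlinarith
      positivity
    have hy : 0 < (qL (s + X * I)).im := by
      rw [qL_im]
      have : 0 < Real.sin (π / 2 * X) := by
        apply Real.sin_pos_of_pos_of_lt_pi
        · have := Real.pi_pos; positivity
        · have := Real.pi_pos; nlinarith
      positivity
    have : (-I * qL (s + X * I) * rR (s + X * I)).re =
        (qL (s + X * I)).im * (rR (s + X * I)).re + (qL (s + X * I)).re * (rR (s + X * I)).im := by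
      simp [mul_re, mul_im]
      ring
    rw [this]
    nlinarith [mul_pos hy hρ, mul_nonneg hx hb]

theorem gL_eq {s X : ℝ} (h0 : 0 < X) (h1 : X ≤ 1) :
    gL (s + X * I) = I * (kR (s + X * I) + π / 2) := by
  have hD := mem_DR (s := s) (X := X) (Or.inr ⟨h0, by linarith⟩)
  have hr := rR_ne hD
  have hq := qL_ne (s + X * I)
  unfold gL kR
  rw [rL_eq h0 h1]
  field_simp
  linear_combination (-(1 : ℂ)) * I_sq

/-- the full right function -/
noncomputable def uR (s X : ℝ) : ℝ := π / 2 * s + Real.log 2 + utR s X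

theorem uL_eq_uR {s X : ℝ} (h0 : 0 < X) (h1 : X ≤ 1) : uL s X = uR s X := by
  set ζ : ℂ := s + X * I with hζ
  have hA : AL ζ = I * qL ζ * (1 - rR ζ) := by
    unfold AL
    rw [hζ, rL_eq h0 h1]
    ring
  have e : AL ζ * (qL ζ * (1 + rR ζ)) = I := by
    have e1 := rR_sq ζ
    have e2 := zR_qL ζ
    rw [hA]
    linear_combination (-I * qL ζ ^ 2) * e1 + I * e2
  have hn : ‖AL ζ‖ * (‖qL ζ‖ * ‖1 + rR ζ‖) = 1 := by
    rw [← norm_mul, ← norm_mul, e, norm_I]
  have hq0 : ‖qL ζ‖ ≠ 0 := norm_ne_zero_iff.2 (qL_ne ζ)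
  have hr0 : ‖1 + rR ζ‖ ≠ 0 := norm_ne_zero_iff.2 (one_add_rR_ne ζ)
  have hA0 : ‖AL ζ‖ ≠ 0 := norm_ne_zero_iff.2 (AL_ne ζ)
  have hlog := congrArg Real.log hn
  rw [Real.log_mul hA0 (mul_ne_zero hq0 hr0), Real.log_mul hq0 hr0, Real.log_one,
    show ‖qL ζ‖ = Real.exp (π / 2 * s) from norm_qL s X, Real.log_exp] at hlog
  unfold uL uR utR
  rw [norm_div, Real.log_div hr0 (by simp)]
  rw [← hζ]
  have h2 : ‖(2 : ℂ)‖ = 2 := by simp
  rw [h2]
  linarith

theorem uLs_eq {s X : ℝ} (h0 : 0 < X) (h1 : X ≤ 1) : uLs s X = π / 2 + utRs s X := by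
  unfold uLs utRs
  rw [gL_eq h0 h1]
  have : ((π : ℂ) / 2).re = π / 2 := by
    rw [show (π : ℂ) / 2 = ((π / 2 : ℝ) : ℂ) by push_cast; ring, ofReal_re]
  simp [mul_im]
  ring


/-! ### Symmetries -/

theorem conj_two' : (starRingEnd ℂ) (2 : ℂ) = 2 := map_ofNat (starRingEnd ℂ) 2

open ComplexConjugate in
theorem cs_conj {z : ℂ} (hz : 0 ≤ z.re ∨ z.im ≠ 0) : cs (conj z) = conj (cs z) := by
  by_cases h0 : z = 0
  · subst h0
    simp [cs]
  unfold cs
  have harg : z.arg ≠ π := by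
    apply slitPlane_arg_ne_pi
    rw [mem_slitPlane_iff]
    rcases hz with h | h
    · rcases h.lt_or_eq with h1 | h1
      · exact Or.inl h1
      · right
        intro h2
        exact h0 (Complex.ext h1.symm h2)
    · exact Or.inr h
  rw [Complex.conj_cpow _ _ harg, map_inv₀, conj_two']

open ComplexConjugate in
theorem one_sub_exp_cond {w : ℂ} (hw : ‖w‖ ≤ 1) : 0 ≤ (1 - w).re ∨ (1 - w).im ≠ 0 := by
  left
  have := Complex.re_le_norm w
  simp only [sub_re, one_re]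
  linarith

theorem norm_exp_pi_le {s : ℝ} (hs : s ≤ 0) (X : ℝ) : ‖exp (π * (s + X * I))‖ ≤ 1 := by
  rw [norm_exp_pi, Real.exp_le_one_iff]
  have := Real.pi_pos
  nlinarith

theorem norm_zR_le {s : ℝ} (hs : 0 ≤ s) (X : ℝ) : ‖zR (s + X * I)‖ ≤ 1 := by
  rw [norm_zR, Real.exp_le_one_iff]
  have := Real.pi_pos
  nlinarith

open ComplexConjugate in
theorem uL_neg {s : ℝ} (hs : s ≤ 0) (X : ℝ) : uL s (-X) = -uL s X := by
  have e0 : ((s : ℂ) + ((-X : ℝ) : ℂ) * I) = conj ((s : ℂ) + X * I) := by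
    simp [Complex.ext_iff]
  have e1 : rL (conj ((s : ℂ) + X * I)) = conj (rL (s + X * I)) := by
    unfold rL
    rw [← cs_conj (one_sub_exp_cond (norm_exp_pi_le hs X))]
    congr 1
    rw [map_sub, map_one, ← Complex.exp_conj, map_mul, Complex.conj_ofReal]
  have e2 : qL (conj ((s : ℂ) + X * I)) = conj (qL (s + X * I)) := by
    unfold qL
    rw [← Complex.exp_conj, map_mul, map_div₀, Complex.conj_ofReal, conj_two']
  have e3 : AL (conj ((s : ℂ) + X * I)) = conj (AL (s + X * I))⁻¹ := by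
    have h1 : rL (s + X * I) - I * qL (s + X * I) = (AL (s + X * I))⁻¹ :=
      eq_inv_of_mul_eq_one_right (AB_one (rL_sq _))
    rw [← h1]
    unfold AL
    rw [e1, e2, map_sub, map_mul, Complex.conj_I]
    ring
  unfold uL
  rw [e0, e3, RCLike.norm_conj, norm_inv, Real.log_inv]


open ComplexConjugate in
theorem utR_neg {s : ℝ} (hs : 0 ≤ s) (X : ℝ) : utR s (-X) = utR s X := by
  have e0 : ((s : ℂ) + ((-X : ℝ) : ℂ) * I) = conj ((s : ℂ) + X * I) := by
    simp [Complex.ext_iff]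
  have e1 : rR (conj ((s : ℂ) + X * I)) = conj (rR (s + X * I)) := by
    unfold rR
    rw [← cs_conj (one_sub_exp_cond (norm_zR_le hs X))]
    congr 1
    unfold zR
    rw [map_sub, map_one, ← Complex.exp_conj, map_mul, map_neg, Complex.conj_ofReal]
  have e3 : (1 + rR (conj ((s : ℂ) + X * I))) / 2 = conj ((1 + rR (s + X * I)) / 2) := by
    rw [e1, map_div₀, map_add, map_one, conj_two']
  unfold utR
  rw [e0, e3, RCLike.norm_conj]

theorem utR_add_two (s X : ℝ) : utR s (X + 2) = utR s X := by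
  have e : zR ((s : ℂ) + ((X + 2 : ℝ) : ℂ) * I) = zR (s + X * I) := by
    unfold zR
    have : -(π : ℂ) * ((s : ℂ) + ((X + 2 : ℝ) : ℂ) * I) = -π * ((s : ℂ) + X * I) - 2 * π * I := by
      push_cast
      ring
    rw [this, Complex.exp_periodic.sub_eq]
  unfold utR rR
  rw [e]

/-! ### Neumann conditions -/

theorem cs_im_zero {z : ℂ} (hz : 0 < z.re) (h : z.im = 0) : (cs z).im = 0 := by
  have h1 := cs_im_mul z
  have h2 := cs_re_pos (mem_slitPlane_iff.2 (Or.inl hz))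
  rw [h] at h1
  have h3 : (cs z).re * (cs z).im = 0 := by linarith
  rcases mul_eq_zero.1 h3 with h4 | h4
  · linarith
  · exact h4

theorem gL_re_zero {s X : ℝ} (hX : Real.cos (π / 2 * X) = 0) (hX2 : Real.sin (π * X) = 0)
    (hX3 : Real.cos (π * X) ≤ 0) : (gL (s + X * I)).re = 0 := by
  have hr : (rL (s + X * I)).im = 0 := by
    apply cs_im_zero
    · simp only [sub_re, one_re]
      rw [exp_pi_re]
      have := Real.exp_pos (π * s)
      nlinarith
    · simp only [sub_im, one_im]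
      rw [exp_pi_im, hX2]
      simp
  have hq : (qL (s + X * I)).re = 0 := by rw [qL_re, hX, mul_zero]
  have : ((π : ℂ) / 2) = ((π / 2 : ℝ) : ℂ) := by push_cast; ring
  unfold gL
  rw [this, re_ofReal_mul, div_re, hr, hq]
  simp

theorem uLX_one (s : ℝ) : uLX s 1 = 0 := by
  apply gL_re_zero
  · rw [mul_one, Real.cos_pi_div_two]
  · rw [mul_one, Real.sin_pi]
  · rw [mul_one, Real.cos_pi]; norm_num

theorem uLX_neg_one (s : ℝ) : uLX s (-1) = 0 := by
  apply gL_re_zero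
  · rw [mul_neg_one, Real.cos_neg, Real.cos_pi_div_two]
  · rw [mul_neg_one, Real.sin_neg, Real.sin_pi, neg_zero]
  · rw [mul_neg_one, Real.cos_neg, Real.cos_pi]; norm_num

theorem kR_im_zero {s X : ℝ} (hX2 : Real.sin (π * X) = 0)
    (hX3 : Real.exp (-π * s) * Real.cos (π * X) < 1) : (kR (s + X * I)).im = 0 := by
  have hr : (rR (s + X * I)).im = 0 := by
    apply cs_im_zero
    · simp only [sub_re, one_re]
      rw [zR_eq, exp_pi_re, mul_neg π X, Real.cos_neg]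
      have : π * -s = -π * s := by ring
      rw [this]
      linarith
    · simp only [sub_im, one_im]
      rw [zR_eq, exp_pi_im, mul_neg π X, Real.sin_neg, hX2]
      simp
  have : ((π : ℂ) / 2) = ((π / 2 : ℝ) : ℂ) := by push_cast; ring
  unfold kR
  rw [this, im_ofReal_mul, sub_im, one_div, inv_im, hr]
  simp

theorem utRX_zero {s : ℝ} (hs : 0 < s) : utRX s 0 = 0 := by
  unfold utRX
  rw [kR_im_zero, neg_zero]
  · simp
  · simp only [mul_zero, Real.cos_zero, mul_one]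
    rw [Real.exp_lt_one_iff]
    have := Real.pi_pos
    nlinarith

theorem utRX_one (s : ℝ) : utRX s 1 = 0 := by
  unfold utRX
  rw [kR_im_zero, neg_zero]
  · rw [mul_one, Real.sin_pi]
  · rw [mul_one, Real.cos_pi]
    have := Real.exp_pos (-π * s)
    linarith

/-! ### Upper bounds -/

theorem re_sq_add_im_sq (z : ℂ) : z.im ^ 2 + z.re ^ 2 = ‖z‖ ^ 2 := by
  rw [← Complex.normSq_eq_norm_sq, Complex.normSq_apply]
  ring

theorem norm_pi_div_two : ‖((π : ℂ) / 2)‖ = π / 2 := by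
  rw [show (π : ℂ) / 2 = ((π / 2 : ℝ) : ℂ) by push_cast; ring, Complex.norm_real,
    Real.norm_of_nonneg (by have := Real.pi_pos; positivity)]

theorem grad_uL (s X : ℝ) : uLs s X ^ 2 + uLX s X ^ 2 =
    (π / 2) ^ 2 * (Real.exp (π * s) / ‖1 - exp (π * (s + X * I))‖) := by
  unfold uLs uLX
  rw [re_sq_add_im_sq]
  unfold gL
  rw [norm_mul, norm_pi_div_two, norm_div, mul_pow, div_pow _ ‖rL _‖, norm_qL]
  unfold rL
  rw [norm_cs_sq]
  congr 2
  rw [← Real.exp_nat_mul]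
  congr 1
  push_cast
  ring

theorem grad_utR_le {s X : ℝ} (h : 0 < s ∨ (0 < X ∧ X < 2)) : utRs s X ^ 2 + utRX s X ^ 2 ≤
    (π / 2) ^ 2 * (Real.exp (-(2 * π * s)) / ‖1 - exp (-π * (s + X * I))‖) := by
  have hD := mem_DR h
  have hr := rR_ne hD
  unfold utRs utRX
  rw [neg_sq, add_comm, re_sq_add_im_sq]
  have hk : kR (s + X * I) = π / 2 * ((1 - rR (s + X * I)) / rR (s + X * I)) := by
    unfold kR
    field_simp
  have e1 : (1 - rR (s + X * I)) * (1 + rR (s + X * I)) = zR (s + X * I) := by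
    linear_combination -rR_sq (s + X * I)
  have e2 : ‖1 - rR (s + X * I)‖ * ‖1 + rR (s + X * I)‖ = ‖zR (s + X * I)‖ := by
    rw [← norm_mul, e1]
  have e3 : 1 ≤ ‖1 + rR (s + X * I)‖ := (one_add_rR_re _).trans (Complex.re_le_norm _)
  have e4 : ‖1 - rR (s + X * I)‖ ≤ ‖zR (s + X * I)‖ := by
    rw [← e2]
    exact le_mul_of_one_le_right (norm_nonneg _) e3
  rw [hk, norm_mul, norm_pi_div_two, norm_div, mul_pow, div_pow _ ‖rR _‖]
  have e5 : ‖rR (s + X * I)‖ ^ 2 = ‖1 - exp (-π * (s + X * I))‖ := norm_cs_sq _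
  rw [e5]
  have e6 : ‖zR (s + X * I)‖ ^ 2 = Real.exp (-(2 * π * s)) := by
    rw [norm_zR, ← Real.exp_nat_mul]
    congr 1
    push_cast
    ring
  rw [← e6]
  gcongr

theorem abs_log_le_of_mul {a b : ℝ} (ha : 0 < a) (h : a * b = 1) :
    |Real.log a| ≤ |a - b| / 2 := by
  have hb : b = a⁻¹ := eq_inv_of_mul_eq_one_right h
  have h1 : |Real.log a| ≤ Real.sinh |Real.log a| := Real.self_le_sinh_iff.2 (abs_nonneg _)
  rw [← Real.abs_sinh, Real.sinh_log ha, ← hb, abs_div, abs_two] at h1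
  exact h1

theorem abs_uL_le (s X : ℝ) : |uL s X| ≤
    Real.exp (π / 2 * s) * √‖1 - exp (π * (s + X * I))‖ := by
  set ζ : ℂ := s + X * I with hζ
  set a := ‖rL ζ + I * qL ζ‖ with ha
  set b := ‖rL ζ - I * qL ζ‖ with hb
  have hab : a * b = 1 := by
    rw [ha, hb, ← norm_mul, AB_one (rL_sq ζ), norm_one]
  have ha0 : 0 < a := norm_pos_iff.2 (A_ne (rL_sq ζ))
  have hb0 : 0 < b := by
    by_contra h
    push Not at h
    have : b = 0 := le_antisymm h (norm_nonneg _)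
    rw [this, mul_zero] at hab
    exact zero_ne_one hab
  have h2 : 2 ≤ a + b := by nlinarith [sq_nonneg (a - b)]
  have h3 : |a ^ 2 - b ^ 2| ≤ 4 * (‖rL ζ‖ * ‖qL ζ‖) := by
    have e : a ^ 2 - b ^ 2 = 4 * (rL ζ * (starRingEnd ℂ) (I * qL ζ)).re := by
      rw [ha, hb, ← Complex.normSq_eq_norm_sq, ← Complex.normSq_eq_norm_sq, Complex.normSq_add,
        Complex.normSq_sub]
      ring
    rw [e, abs_mul]
    have h4 : |(rL ζ * (starRingEnd ℂ) (I * qL ζ)).re| ≤ ‖rL ζ‖ * ‖qL ζ‖ := by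
      refine (Complex.abs_re_le_norm _).trans ?_
      rw [norm_mul, RCLike.norm_conj, norm_mul, norm_I, one_mul]
    rw [show |(4 : ℝ)| = 4 by norm_num]
    linarith
  have h5 : |a - b| * 2 ≤ |a ^ 2 - b ^ 2| := by
    have : a ^ 2 - b ^ 2 = (a - b) * (a + b) := by ring
    rw [this, abs_mul, abs_of_pos (by linarith : 0 < a + b)]
    exact mul_le_mul_of_nonneg_left h2 (abs_nonneg _)
  have h6 := abs_log_le_of_mul ha0 hab
  have h7 : |uL s X| = |Real.log a| := by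
    unfold uL AL
    rw [abs_neg]
  have h8 : ‖rL ζ‖ = √‖1 - exp (π * (s + X * I))‖ := norm_cs _
  rw [h7, ← h8, ← norm_qL s X, ← hζ]
  linarith

theorem abs_uL_le' {s : ℝ} (hs : s ≤ 0) (X : ℝ) : |uL s X| ≤ 2 * Real.exp (π / 2 * s) := by
  refine (abs_uL_le s X).trans ?_
  rw [mul_comm (2 : ℝ)]
  have h1 : ‖1 - exp (π * (s + X * I))‖ ≤ 2 := by
    refine (norm_sub_le _ _).trans ?_
    rw [norm_one]
    have := norm_exp_pi_le hs X
    linarith
  have h2 : √‖1 - exp (π * (s + X * I))‖ ≤ 2 := by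
    rw [Real.sqrt_le_left (by norm_num)]
    linarith
  exact mul_le_mul_of_nonneg_left h2 (Real.exp_pos _).le

theorem abs_utR_le {s : ℝ} (hs : 0 ≤ s) (X : ℝ) : |utR s X| ≤ Real.exp (-π * s) := by
  set w := (1 + rR (s + X * I)) / 2 with hw
  set t := ‖zR (s + X * I)‖ with ht
  have e1 : (1 - rR (s + X * I)) * (1 + rR (s + X * I)) = zR (s + X * I) := by
    linear_combination -rR_sq (s + X * I)
  have e2 : ‖1 - rR (s + X * I)‖ * ‖1 + rR (s + X * I)‖ = ‖zR (s + X * I)‖ := by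
    rw [← norm_mul, e1]
  have e3 : 1 ≤ ‖1 + rR (s + X * I)‖ := (one_add_rR_re _).trans (Complex.re_le_norm _)
  have e4 : ‖1 - rR (s + X * I)‖ ≤ t := by
    rw [ht, ← e2]
    exact le_mul_of_one_le_right (norm_nonneg _) e3
  have e5 : ‖w - 1‖ ≤ t / 2 := by
    have : w - 1 = -((1 - rR (s + X * I)) / 2) := by rw [hw]; ring
    rw [this, norm_neg, norm_div]
    have h2 : ‖(2 : ℂ)‖ = 2 := by simp
    rw [h2]
    linarith
  have ht1 : t ≤ 1 := norm_zR_le hs X
  have ht0 : 0 ≤ t := norm_nonneg _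
  have h6 : ‖w‖ ≤ 1 + t / 2 := by
    have := norm_add_le (w - 1) 1
    rw [sub_add_cancel, norm_one] at this
    linarith
  have h7 : 1 - t / 2 ≤ ‖w‖ := by
    have := norm_sub_le w (w - 1)
    rw [sub_sub_cancel, norm_one] at this
    linarith
  have hw0 : 0 < ‖w‖ := by linarith
  have h8 : Real.log ‖w‖ ≤ t := by
    have := Real.log_le_sub_one_of_pos hw0
    linarith
  have h9 : -t ≤ Real.log ‖w‖ := by
    have h10 := Real.one_sub_inv_le_log_of_pos hw0
    have h11 : (‖w‖)⁻¹ ≤ 1 + t := by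
      rw [inv_le_comm₀ hw0 (by linarith)]
      refine le_trans ?_ h7
      rw [inv_le_comm₀ (by linarith) (by linarith)]
      rw [inv_le_comm₀ (by linarith) (by linarith)]
      rw [inv_le_iff_one_le_mul₀ (by linarith)]
      nlinarith
    linarith
  unfold utR
  rw [← norm_zR s X, abs_le]
  exact ⟨h9, h8⟩

theorem abs_uR_le (s X : ℝ) : |uR s X| ≤
    Real.exp (π / 2 * s) * √‖1 - exp (-π * (s + X * I))‖ := by
  set ζ : ℂ := s + X * I with hζ
  set Q := ‖qL ζ‖ with hQ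
  set a := ‖1 + rR ζ‖ with ha
  set b := ‖1 - rR ζ‖ with hb
  have hQ0 : 0 < Q := norm_pos_iff.2 (qL_ne ζ)
  have ha0 : 0 < a := norm_pos_iff.2 (one_add_rR_ne ζ)
  have hab : (Q * a) * (Q * b) = 1 := by
    have e : (qL ζ * (1 + rR ζ)) * (qL ζ * (1 - rR ζ)) = 1 := by
      linear_combination (-qL ζ ^ 2) * rR_sq ζ + zR_qL ζ
    have := congrArg norm e
    rw [norm_mul, norm_mul, norm_mul, norm_one] at this
    exact this
  have h1 : uR s X = Real.log (Q * a) := by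
    unfold uR utR
    rw [norm_div, Real.log_div ha0.ne' (by simp), Real.log_mul hQ0.ne' ha0.ne',
      show Q = Real.exp (π / 2 * s) from norm_qL s X, Real.log_exp]
    have h2 : ‖(2 : ℂ)‖ = 2 := by simp
    rw [h2]
    ring
  have h2 : 2 ≤ a + b := by
    have := norm_add_le (1 + rR ζ) (1 - rR ζ)
    have e : (1 + rR ζ) + (1 - rR ζ) = 2 := by ring
    rw [e] at this
    have h3 : ‖(2 : ℂ)‖ = 2 := by simp
    rw [h3] at this
    exact this
  have h3 : |a ^ 2 - b ^ 2| ≤ 4 * ‖rR ζ‖ := by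
    have e : a ^ 2 - b ^ 2 = 4 * (1 * (starRingEnd ℂ) (rR ζ)).re := by
      rw [ha, hb, ← Complex.normSq_eq_norm_sq, ← Complex.normSq_eq_norm_sq, Complex.normSq_add,
        Complex.normSq_sub]
      ring
    rw [e, abs_mul, one_mul]
    have h4 : |((starRingEnd ℂ) (rR ζ)).re| ≤ ‖rR ζ‖ := by
      refine (Complex.abs_re_le_norm _).trans ?_
      rw [RCLike.norm_conj]
    rw [show |(4 : ℝ)| = 4 by norm_num]
    linarith
  have h5 : |a - b| * 2 ≤ |a ^ 2 - b ^ 2| := by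
    have : a ^ 2 - b ^ 2 = (a - b) * (a + b) := by ring
    rw [this, abs_mul, abs_of_pos (by linarith : 0 < a + b)]
    exact mul_le_mul_of_nonneg_left h2 (abs_nonneg _)
  have h6 := abs_log_le_of_mul (mul_pos hQ0 ha0) hab
  have h7 : |Q * a - Q * b| = Q * |a - b| := by
    rw [← mul_sub, abs_mul, abs_of_pos hQ0]
  have h8 : ‖rR ζ‖ = √‖1 - exp (-π * (s + X * I))‖ := norm_cs _
  rw [h1, ← h8, ← norm_qL s X, ← hζ]
  rw [h7] at h6
  nlinarith

/-! ### Lower bounds -/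

theorem uLX_low {s X : ℝ} (hs : s < 0) (hX : |X| ≤ 1) :
    π / (4 * √2) * Real.exp (π / 2 * s) * Real.cos (π / 2 * X) ≤ uLX s X := by
  set ζ : ℂ := s + X * I with hζ
  have hD : ζ ∈ DL := mem_DL (Or.inl hs)
  set α := (rL ζ).re with hα
  set β := (rL ζ).im with hβ
  set x := (qL ζ).re with hx
  set y := (qL ζ).im with hy
  have hα0 : 0 < α := rL_re_pos hD
  have e := rL_sq ζ
  have e1 : α ^ 2 - β ^ 2 = 1 - (x ^ 2 - y ^ 2) := by
    have := congrArg Complex.re e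
    simp only [sq, mul_re, sub_re, one_re] at this
    rw [← hα, ← hβ, ← hx, ← hy] at this
    linarith [this, sq α, sq β, sq x, sq y]
  have e2 : α * β = -(x * y) := by
    have := congrArg Complex.im e
    simp only [sq, mul_im, sub_im, one_im] at this
    rw [← hα, ← hβ, ← hx, ← hy] at this
    linarith
  have hx0 : 0 ≤ x := by
    rw [hx, qL_re]
    have : 0 ≤ Real.cos (π / 2 * X) := by
      rw [abs_le] at hX
      apply Real.cos_nonneg_of_neg_pi_div_two_le_of_le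
      · have := Real.pi_pos; nlinarith [hX.1]
      · have := Real.pi_pos; nlinarith [hX.2]
    positivity
  have hq : x ^ 2 + y ^ 2 ≤ 1 := by
    have h1 : ‖qL ζ‖ ^ 2 = x ^ 2 + y ^ 2 := by
      rw [← re_sq_add_im_sq]; ring
    rw [← h1, norm_qL]
    have : Real.exp (π / 2 * s) ≤ 1 := by
      rw [Real.exp_le_one_iff]
      have := Real.pi_pos
      nlinarith
    have h0 := Real.exp_pos (π / 2 * s)
    nlinarith
  have hn : 0 < α ^ 2 + β ^ 2 := by positivity
  have hn2 : α ^ 2 + β ^ 2 ≤ 2 := by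
    have h1 : ‖rL ζ‖ ^ 2 = α ^ 2 + β ^ 2 := by
      rw [← re_sq_add_im_sq]; ring
    rw [← h1]
    unfold rL
    rw [norm_cs_sq]
    refine (norm_sub_le _ _).trans ?_
    rw [norm_one]
    have := norm_exp_pi_le hs.le X
    rw [← hζ] at this
    linarith
  -- main inequality
  have h1 : x * (α ^ 2 + β ^ 2) / 2 ≤ α * (x * α + y * β) := by
    have h2 : α * (x * α + y * β) = x * (α ^ 2 - y ^ 2) := by
      linear_combination y * e2
    rw [h2]
    have h3 : (α ^ 2 + β ^ 2) / 2 ≤ α ^ 2 - y ^ 2 := by nlinarith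
    nlinarith [mul_le_mul_of_nonneg_left h3 hx0]
  have hα2 : α ≤ √2 := by
    apply Real.le_sqrt_of_sq_le
    nlinarith [sq_nonneg β]
  have h4 : x / (2 * √2) ≤ (x * α + y * β) / (α ^ 2 + β ^ 2) := by
    rw [div_le_div_iff₀ (by positivity) hn]
    have h5 : x * (α ^ 2 + β ^ 2) ≤ (x * α + y * β) * (2 * α) := by linarith
    have h6 : 0 ≤ x * α + y * β := by
      have : 0 ≤ α * (x * α + y * β) := le_trans (by positivity) h1
      exact nonneg_of_mul_nonneg_right this hα0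
    refine h5.trans ?_
    exact mul_le_mul_of_nonneg_left (by linarith) h6
  have h7 : uLX s X = π / 2 * ((x * α + y * β) / (α ^ 2 + β ^ 2)) := by
    unfold uLX gL
    rw [show (π : ℂ) / 2 = ((π / 2 : ℝ) : ℂ) by push_cast; ring, re_ofReal_mul, div_re,
      Complex.normSq_apply, ← hζ, ← hα, ← hβ, ← hx, ← hy]
    have : α * α + β * β = α ^ 2 + β ^ 2 := by ring
    rw [this]
    ring
  rw [h7]
  have h8 : π / (4 * √2) * Real.exp (π / 2 * s) * Real.cos (π / 2 * X) = π / 2 * (x / (2 * √2)) := by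
    rw [hx, qL_re]
    field_simp
    ring
  rw [h8]
  exact mul_le_mul_of_nonneg_left h4 (by have := Real.pi_pos; positivity)

theorem utRX_low {s X : ℝ} (hs : 0 < s) (hX0 : 0 ≤ X) (hX1 : X ≤ 1) :
    π / (8 * √2) * Real.exp (-π * s) * Real.sin (π * X) ≤ utRX s X := by
  set ζ : ℂ := s + X * I with hζ
  have hD : ζ ∈ DR := mem_DR (Or.inl hs)
  set α := (rR ζ).re with hα
  set β := (rR ζ).im with hβ
  have hα0 : 0 < α := rR_re_pos hD
  set m := Real.exp (-π * s) * Real.sin (π * X) with hm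
  have hm0 : 0 ≤ m := by
    have : 0 ≤ Real.sin (π * X) := by
      apply Real.sin_nonneg_of_nonneg_of_le_pi
      · have := Real.pi_pos; positivity
      · have := Real.pi_pos; nlinarith
    positivity
  have e2 : 2 * (α * β) = m := by
    have := cs_im_mul (1 - zR ζ)
    rw [hα, hβ]
    unfold rR
    rw [this, sub_im, one_im, hζ, zR_eq, exp_pi_im, mul_neg π X, Real.sin_neg, hm]
    have : π * -s = -π * s := by ring
    rw [this]
    ring
  have hn : 0 < α ^ 2 + β ^ 2 := by positivity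
  have hn2 : α ^ 2 + β ^ 2 ≤ 2 := by
    have h1 : ‖rR ζ‖ ^ 2 = α ^ 2 + β ^ 2 := by
      rw [← re_sq_add_im_sq]; ring
    rw [← h1]
    unfold rR
    rw [norm_cs_sq]
    refine (norm_sub_le _ _).trans ?_
    rw [norm_one]
    have := norm_zR_le hs.le X
    rw [← hζ] at this
    linarith
  have hβ0 : 0 ≤ β := by
    by_contra h
    push Not at h
    nlinarith
  have hα2 : α ≤ √2 := by
    apply Real.le_sqrt_of_sq_le
    nlinarith [sq_nonneg β]
  have h4 : m / (4 * √2) ≤ β / (α ^ 2 + β ^ 2) := by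
    rw [div_le_div_iff₀ (by positivity) hn, ← e2]
    have h5 : α * (α ^ 2 + β ^ 2) ≤ √2 * 2 := mul_le_mul hα2 hn2 hn.le (by positivity)
    nlinarith
  have h7 : utRX s X = π / 2 * (β / (α ^ 2 + β ^ 2)) := by
    unfold utRX kR
    rw [show (π : ℂ) / 2 = ((π / 2 : ℝ) : ℂ) by push_cast; ring, im_ofReal_mul, sub_im, one_im,
      one_div, inv_im, Complex.normSq_apply, ← hζ, ← hα, ← hβ]
    have : α * α + β * β = α ^ 2 + β ^ 2 := by ring
    rw [this]
    ring
  rw [h7]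
  have h8 : π / (8 * √2) * Real.exp (-π * s) * Real.sin (π * X) = π / 2 * (m / (4 * √2)) := by
    rw [hm]
    field_simp
    ring
  rw [h8]
  exact mul_le_mul_of_nonneg_left h4 (by have := Real.pi_pos; positivity)

/-! ### Distance to the tip -/

theorem norm_one_sub_zR_sq (s X : ℝ) : ‖1 - zR (s + X * I)‖ ^ 2 =
    (1 - Real.exp (-(π * s))) ^ 2 + 2 * Real.exp (-(π * s)) * (1 - Real.cos (π * X)) := by
  rw [← re_sq_add_im_sq, sub_re, sub_im, one_re, one_im, zR_eq, exp_pi_re, exp_pi_im,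
    mul_neg π X, Real.sin_neg, Real.cos_neg, mul_neg π s]
  have := Real.sin_sq_add_cos_sq (π * X)
  linear_combination (Real.exp (-(π * s))) ^ 2 * this

theorem tip_low_R {s X : ℝ} (hs : 0 ≤ s) (hX : |X| ≤ 1) :
    2 * Real.exp (-(π * s)) * √(s ^ 2 + X ^ 2) ≤ ‖1 - zR (s + X * I)‖ := by
  have hp := Real.pi_pos
  apply le_of_sq_le_sq _ (norm_nonneg _)
  rw [norm_one_sub_zR_sq, mul_pow, mul_pow, Real.sq_sqrt (by positivity)]
  set E := Real.exp (-(π * s)) with hE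
  have hE0 : 0 < E := Real.exp_pos _
  have hE1 : E ≤ 1 := by
    rw [hE, Real.exp_le_one_iff]
    nlinarith
  have h1 : π * s * E ≤ 1 - E := by
    have h2 := Real.add_one_le_exp (π * s)
    have h3 : Real.exp (π * s) * E = 1 := by rw [hE, ← Real.exp_add]; simp
    nlinarith
  have h4 : Real.cos (π * X) ≤ 1 - 2 * X ^ 2 := by
    have h5 := Real.cos_le_one_sub_mul_cos_sq (x := π * X) (by
      rw [abs_mul, abs_of_pos hp]
      nlinarith [abs_nonneg X])
    have h6 : 2 / π ^ 2 * (π * X) ^ 2 = 2 * X ^ 2 := by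
      field_simp
    linarith
  have h6 : (π * s * E) ^ 2 ≤ (1 - E) ^ 2 := by
    apply pow_le_pow_left₀ (by positivity) h1
  have h7 : 4 * (s * E) ^ 2 ≤ (π * s * E) ^ 2 := by
    have : (π * s * E) ^ 2 = π ^ 2 * (s * E) ^ 2 := by ring
    rw [this]
    have h8 : (4 : ℝ) ≤ π ^ 2 := by nlinarith [Real.pi_gt_three]
    exact mul_le_mul_of_nonneg_right h8 (sq_nonneg _)
  have h9 : 4 * X ^ 2 * E ^ 2 ≤ 2 * E * (1 - Real.cos (π * X)) := by
    have h10 : 4 * X ^ 2 * E ^ 2 ≤ 4 * X ^ 2 * E := by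
      have : E ^ 2 ≤ E := by nlinarith
      nlinarith [sq_nonneg X]
    nlinarith
  nlinarith

theorem tip_up_R {s X : ℝ} (hs : 0 ≤ s) :
    ‖1 - zR (s + X * I)‖ ≤ π * √(s ^ 2 + X ^ 2) := by
  have hp := Real.pi_pos
  apply le_of_sq_le_sq _ (by positivity)
  rw [norm_one_sub_zR_sq, mul_pow, Real.sq_sqrt (by positivity)]
  set E := Real.exp (-(π * s)) with hE
  have hE0 : 0 < E := Real.exp_pos _
  have hE1 : E ≤ 1 := by
    rw [hE, Real.exp_le_one_iff]
    nlinarith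
  have h1 : 1 - E ≤ π * s := by
    have h2 := Real.add_one_le_exp (-(π * s))
    rw [hE]
    linarith
  have h3 : (1 - E) ^ 2 ≤ (π * s) ^ 2 := pow_le_pow_left₀ (by linarith) h1 2
  have h4 := Real.one_sub_sq_div_two_le_cos (x := π * X)
  have h5 := Real.cos_le_one (π * X)
  have h6 : 2 * E * (1 - Real.cos (π * X)) ≤ (π * X) ^ 2 := by
    nlinarith [sq_nonneg (π * X)]
  nlinarith

/-! ### mean value -/

theorem mean_utR {s : ℝ} (hs : 0 < s) : ∫ x in (0:ℝ)..1, utR s x = 0 := by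
  set R := Real.exp (-(π * s)) with hR
  have hR0 : 0 < R := Real.exp_pos _
  have hR1 : R < 1 := by
    rw [hR, Real.exp_lt_one_iff]
    have := Real.pi_pos
    nlinarith
  let f : ℂ → ℂ := fun w => log ((1 + cs (1 - w)) / 2)
  have hf : ∀ w : ℂ, ‖w‖ < 1 → DifferentiableAt ℂ f w := by
    intro w hw
    have h1 : 1 - w ∈ slitPlane := by
      apply one_sub_mem_slit
      left
      exact (Complex.re_le_norm w).trans_lt hw
    have h2 : DifferentiableAt ℂ (fun w => cs (1 - w)) w :=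
      (hasDerivAt_cs h1).differentiableAt.comp w (by fun_prop)
    have h3 : (1 + cs (1 - w)) / 2 ∈ slitPlane := by
      refine mem_slitPlane_iff.2 (Or.inl ?_)
      have := cs_re_nonneg (1 - w)
      have e : ((1 + cs (1 - w)) / 2).re = (1 + (cs (1 - w)).re) / 2 := by
        have : (1 + cs (1 - w)) / 2 = ((1 / 2 : ℝ) : ℂ) * (1 + cs (1 - w)) := by push_cast; ring
        rw [this, re_ofReal_mul, add_re, one_re]; ring
      rw [e]; linarith
    exact DifferentiableAt.clog ((differentiableAt_const 1).add h2 |>.div_const 2) h3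
  have hdc : DiffContOnCl ℂ f (Metric.ball 0 |R|) := by
    apply DifferentiableOn.diffContOnCl
    intro w hw
    rw [abs_of_pos hR0] at hw
    have : ‖w‖ ≤ R := by
      have := Metric.closure_ball_subset_closedBall hw
      simpa using this
    exact (hf w (by linarith)).differentiableWithinAt
  have h0 : Real.circleAverage f 0 R = 0 := by
    rw [hdc.circleAverage]
    simp [f, cs]
  have hcirc : ∫ θ in (0:ℝ)..2 * π, f (circleMap 0 R θ) = 0 := by
    rw [Real.circleAverage_def, smul_eq_zero] at h0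
    rcases h0 with h | h
    · exfalso
      have := Real.pi_pos
      have : (2 * π)⁻¹ ≠ 0 := by positivity
      exact this h
    · exact h
  have hcont : Continuous fun θ : ℝ => f (circleMap 0 R θ) := by
    rw [continuous_iff_continuousAt]
    intro θ
    have hn : ‖circleMap 0 R θ‖ < 1 := by
      rw [norm_circleMap_zero, abs_of_pos hR0]
      exact hR1
    exact ((hf _ hn).continuousAt).comp (continuous_circleMap 0 R).continuousAt
  have hre : ∫ θ in (0:ℝ)..2 * π, (f (circleMap 0 R θ)).re = 0 := by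
    have := Complex.reCLM.intervalIntegral_comp_comm
      (hcont.intervalIntegrable (μ := MeasureTheory.volume) 0 (2 * π))
    rw [hcirc] at this
    simpa using this
  have hg : ∀ x : ℝ, (f (circleMap 0 R (π * x))).re = utR s x := by
    intro x
    rw [← utR_neg hs.le x, utR_eq]
    unfold ER rR
    have e : zR (s + ((-x : ℝ) : ℂ) * I) = circleMap 0 R (π * x) := by
      rw [circleMap, hR, zR]
      rw [Complex.ofReal_exp, zero_add, ← Complex.exp_add]
      congr 1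
      push_cast
      ring
    rw [e]
  have h2 : ∫ x in (0:ℝ)..2, utR s x = 0 := by
    simp only [← hg]
    rw [intervalIntegral.integral_comp_mul_left (fun θ => (f (circleMap 0 R θ)).re) Real.pi_ne_zero,
      mul_zero, mul_comm π 2, hre, smul_zero]
  have hci : ∀ a b : ℝ, IntervalIntegrable (fun x => utR s x) MeasureTheory.volume a b := by
    intro a b
    have : Continuous fun x => utR s x := by
      simp only [← hg]
      exact Complex.continuous_re.comp (hcont.comp (continuous_const.mul continuous_id))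
    exact this.intervalIntegrable a b
  have h3 : ∫ x in (1:ℝ)..2, utR s x = ∫ x in (0:ℝ)..1, utR s x := by
    have h4 := intervalIntegral.integral_comp_sub_left (fun x => utR s x) (a := 0) (b := 1) 2
    have h5 : (fun x => utR s (2 - x)) = fun x => utR s x := by
      funext x
      rw [← utR_neg hs.le x, ← utR_add_two s (-x)]
      congr 1
      ring
    rw [h5] at h4
    rw [h4]
    norm_num
  have h4 := intervalIntegral.integral_add_adjacent_intervals (hci 0 1) (hci 1 2)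
  rw [h3, h2] at h4
  linarith

theorem mean_uL {s : ℝ} (hs : s < 0) : ∫ x in (0:ℝ)..1, uL s (2 * x - 1) = 0 := by
  have h1 := intervalIntegral.integral_comp_sub_left (fun x => uL s (2 * x - 1)) (a := 0) (b := 1) 1
  have h2 : (fun x : ℝ => uL s (2 * (1 - x) - 1)) = fun x => -uL s (2 * x - 1) := by
    funext x
    rw [← uL_neg hs.le]
    congr 1
    ring
  rw [h2, intervalIntegral.integral_neg] at h1
  rw [sub_self, sub_zero] at h1
  linarith

theorem uLs_neg {s : ℝ} (hs : s < 0) (X : ℝ) : uLs s (-X) = -uLs s X := by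
  have h1 := hasDerivAt_uL_s (s := s) (X := -X) (Or.inl hs)
  have h2 := (hasDerivAt_uL_s (s := s) (X := X) (Or.inl hs)).neg
  refine h1.unique (h2.congr_of_eventuallyEq ?_)
  filter_upwards [Iio_mem_nhds hs] with t ht
  exact uL_neg (le_of_lt ht) X

/-! ### Tip -/

theorem exp_pi_eq_zR (s X : ℝ) : exp (π * (s + X * I)) = zR (((-s : ℝ) : ℂ) + ((-X : ℝ) : ℂ) * I) := by
  unfold zR; congr 1; push_cast; ring

theorem tip_low_L {s X : ℝ} (hs : s ≤ 0) (hX : |X| ≤ 1) :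
    2 * Real.exp (π * s) * √(s ^ 2 + X ^ 2) ≤ ‖1 - exp (π * (s + X * I))‖ := by
  rw [exp_pi_eq_zR]
  have := tip_low_R (s := -s) (X := -X) (by linarith) (by rwa [abs_neg])
  rw [neg_sq, neg_sq, mul_neg, neg_neg] at this
  exact this

theorem tip_up_L {s X : ℝ} (hs : s ≤ 0) :
    ‖1 - exp (π * (s + X * I))‖ ≤ π * √(s ^ 2 + X ^ 2) := by
  rw [exp_pi_eq_zR]
  have := tip_up_R (s := -s) (X := -X) (by linarith)
  rw [neg_sq, neg_sq] at this
  exact this

theorem grad_uR_eq (s X : ℝ) (h : 0 < s ∨ (0 < X ∧ X < 2)) :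
    (π / 2 + utRs s X) ^ 2 + utRX s X ^ 2 = (π / 2) ^ 2 / ‖1 - zR (s + X * I)‖ := by
  have hr := rR_ne (mem_DR h)
  have e1 : ((π / 2 : ℂ) + kR (s + X * I)) = π / 2 * (1 / rR (s + X * I)) := by
    unfold kR; ring
  have e2 : π / 2 + utRs s X = ((π / 2 : ℂ) + kR (s + X * I)).re := by
    unfold utRs
    rw [add_re, show (π : ℂ) / 2 = ((π / 2 : ℝ) : ℂ) by push_cast; ring, ofReal_re]
  have e3 : utRX s X = -((π / 2 : ℂ) + kR (s + X * I)).im := by
    unfold utRX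
    rw [add_im, show (π : ℂ) / 2 = ((π / 2 : ℝ) : ℂ) by push_cast; ring, ofReal_im, zero_add]
  rw [e2, e3, neg_sq, add_comm, re_sq_add_im_sq, e1, norm_mul, norm_pi_div_two, mul_pow, norm_div,
    norm_one]
  have e5 : ‖rR (s + X * I)‖ ^ 2 = ‖1 - zR (s + X * I)‖ := norm_cs_sq _
  rw [← e5]
  ring

end Crest.Agent.R083.Core
end

-- ▼ part R083/Core
section

/-!
Row 83 (S0111), task TM-b: packaging of the core (`core_exists`).
-/

set_option autoImplicit false

namespace Crest.Agent.R083.Core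

open Complex Set Filter Topology
open scoped Real ContDiff

/-! ### packaging -/

theorem fderiv_fst_of {F : ℝ × ℝ → ℝ} {q : ℝ × ℝ} (hd : DifferentiableAt ℝ F q) {F' : ℝ}
    (h : HasDerivAt (fun t => F (t, q.2)) F' q.1) : fderiv ℝ F q (1, 0) = F' := by
  have h1 : HasDerivAt (fun t : ℝ => ((t, q.2) : ℝ × ℝ)) (1, 0) q.1 :=
    (hasDerivAt_id q.1).prodMk (hasDerivAt_const q.1 q.2)
  have h2 : HasDerivAt (fun t => F (t, q.2)) (fderiv ℝ F q (1, 0)) q.1 :=
    HasFDerivAt.comp_hasDerivAt (f := fun t : ℝ => ((t, q.2) : ℝ × ℝ)) q.1 hd.hasFDerivAt h1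
  exact h2.unique h

theorem fderiv_snd_of {F : ℝ × ℝ → ℝ} {q : ℝ × ℝ} (hd : DifferentiableAt ℝ F q) {F' : ℝ}
    (h : HasDerivAt (fun t => F (q.1, t)) F' q.2) : fderiv ℝ F q (0, 1) = F' := by
  have h1 : HasDerivAt (fun t : ℝ => ((q.1, t) : ℝ × ℝ)) (0, 1) q.2 :=
    (hasDerivAt_const q.2 q.1).prodMk (hasDerivAt_id q.2)
  have h2 : HasDerivAt (fun t => F (q.1, t)) (fderiv ℝ F q (0, 1)) q.2 :=
    HasFDerivAt.comp_hasDerivAt (f := fun t : ℝ => ((q.1, t) : ℝ × ℝ)) q.2 hd.hasFDerivAt h1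
  exact h2.unique h

theorem diff_left {f : ℂ → ℂ} (hf : ∀ ζ ∈ DL, DifferentiableAt ℂ f ζ) {p : ℝ × ℝ}
    (hp : p.1 < 0) :
    DifferentiableAt ℝ (fun p : ℝ × ℝ => (f (p.1 + p.2 * I)).re) p ∧
      DifferentiableAt ℝ (fun p : ℝ × ℝ => (f (p.1 + p.2 * I)).im) p := by
  have hf' : DifferentiableOn ℂ f DL := fun ζ hζ => (hf ζ hζ).differentiableWithinAt
  have hmem : {p : ℝ × ℝ | (p.1 + p.2 * I : ℂ) ∈ DL} ∈ 𝓝 p := by
    apply (isOpen_DL.preimage (by fun_prop : Continuous fun p : ℝ × ℝ => (p.1 + p.2 * I : ℂ))).mem_nhds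
    exact mem_DL (Or.inl hp)
  exact ⟨(contDiffOn_re isOpen_DL hf').contDiffAt hmem |>.differentiableAt (by simp),
    (contDiffOn_im isOpen_DL hf').contDiffAt hmem |>.differentiableAt (by simp)⟩

theorem diff_right {f : ℂ → ℂ} (hf : ∀ ζ ∈ DR, DifferentiableAt ℂ f ζ) {p : ℝ × ℝ}
    (hp : 0 < p.1) :
    DifferentiableAt ℝ (fun p : ℝ × ℝ => (f (p.1 + p.2 * I)).re) p ∧
      DifferentiableAt ℝ (fun p : ℝ × ℝ => (f (p.1 + p.2 * I)).im) p := by
  have hf' : DifferentiableOn ℂ f DR := fun ζ hζ => (hf ζ hζ).differentiableWithinAt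
  have hmem : {p : ℝ × ℝ | (p.1 + p.2 * I : ℂ) ∈ DR} ∈ 𝓝 p := by
    apply (isOpen_DR.preimage (by fun_prop : Continuous fun p : ℝ × ℝ => (p.1 + p.2 * I : ℂ))).mem_nhds
    exact mem_DR (Or.inl hp)
  exact ⟨(contDiffOn_re isOpen_DR hf').contDiffAt hmem |>.differentiableAt (by simp),
    (contDiffOn_im isOpen_DR hf').contDiffAt hmem |>.differentiableAt (by simp)⟩

/-- the affine change of variables on the left -/
noncomputable def aO (M : ℝ) (q : ℝ × ℝ) : ℝ × ℝ := (-(M * q.1), 2 * q.2 - 1)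

/-- the affine change of variables on the right -/
noncomputable def aP (M : ℝ) (q : ℝ × ℝ) : ℝ × ℝ := (M * q.1, q.2)

theorem contDiff_aO (M : ℝ) : ContDiff ℝ ∞ (aO M) := by unfold aO; fun_prop

theorem contDiff_aP (M : ℝ) : ContDiff ℝ ∞ (aP M) := by unfold aP; fun_prop

section frontO

variable {M : ℝ} (hM : 1 ≤ M) {q : ℝ × ℝ} (hq : 0 < q.1)
include hM hq

theorem aO_neg : (aO M q).1 < 0 := by
  change -(M * q.1) < 0
  have : 0 < M * q.1 := by positivity
  linarith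

theorem diffO {f : ℝ × ℝ → ℝ} (hf : ∀ p : ℝ × ℝ, p.1 < 0 → DifferentiableAt ℝ f p) :
    DifferentiableAt ℝ (fun q => f (aO M q)) q :=
  (hf _ (aO_neg hM hq)).comp q ((contDiff_aO M).differentiable (by simp) q)

theorem O_fst {f f1 : ℝ → ℝ → ℝ} (hf : ∀ p : ℝ × ℝ, p.1 < 0 →
      DifferentiableAt ℝ (fun p : ℝ × ℝ => f p.1 p.2) p)
    (h1 : ∀ s X, s < 0 → HasDerivAt (fun t => f t X) (f1 s X) s) :
    fderiv ℝ (fun q : ℝ × ℝ => f (-(M * q.1)) (2 * q.2 - 1)) q (1, 0) =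
      -M * f1 (-(M * q.1)) (2 * q.2 - 1) := by
  refine fderiv_fst_of (diffO hM hq hf) ?_
  have h2 : HasDerivAt (fun t : ℝ => -(M * t)) (-M) q.1 :=
    ((hasDerivAt_id q.1).const_mul M).neg.congr_deriv (by ring)
  have h3 := (h1 (-(M * q.1)) (2 * q.2 - 1) (aO_neg hM hq)).comp q.1 h2
  exact h3.congr_deriv (by ring)

theorem O_snd {f f1 : ℝ → ℝ → ℝ} (hf : ∀ p : ℝ × ℝ, p.1 < 0 →
      DifferentiableAt ℝ (fun p : ℝ × ℝ => f p.1 p.2) p)
    (h1 : ∀ s X, s < 0 → HasDerivAt (fun t => f s t) (f1 s X) X) :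
    fderiv ℝ (fun q : ℝ × ℝ => f (-(M * q.1)) (2 * q.2 - 1)) q (0, 1) =
      2 * f1 (-(M * q.1)) (2 * q.2 - 1) := by
  refine fderiv_snd_of (diffO hM hq hf) ?_
  have h2 : HasDerivAt (fun t : ℝ => 2 * t - 1) 2 q.2 := by
    simpa using ((hasDerivAt_id q.2).const_mul 2).sub_const 1
  have h3 := (h1 (-(M * q.1)) (2 * q.2 - 1) (aO_neg hM hq)).comp q.2 h2
  exact h3.congr_deriv (by ring)

end frontO

section frontP

variable {M : ℝ} (hM : 1 ≤ M) {q : ℝ × ℝ} (hq : 0 < q.1)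
include hM hq

theorem aP_pos : 0 < (aP M q).1 := by
  change 0 < M * q.1
  positivity

theorem diffP {f : ℝ × ℝ → ℝ} (hf : ∀ p : ℝ × ℝ, 0 < p.1 → DifferentiableAt ℝ f p) :
    DifferentiableAt ℝ (fun q => f (aP M q)) q :=
  (hf _ (aP_pos hM hq)).comp q ((contDiff_aP M).differentiable (by simp) q)

theorem P_fst {f f1 : ℝ → ℝ → ℝ} (hf : ∀ p : ℝ × ℝ, 0 < p.1 →
      DifferentiableAt ℝ (fun p : ℝ × ℝ => f p.1 p.2) p)
    (h1 : ∀ s X, 0 < s → HasDerivAt (fun t => f t X) (f1 s X) s) :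
    fderiv ℝ (fun q : ℝ × ℝ => f (M * q.1) q.2) q (1, 0) = M * f1 (M * q.1) q.2 := by
  refine fderiv_fst_of (diffP hM hq hf) ?_
  have h2 : HasDerivAt (fun t : ℝ => M * t) M q.1 := by
    simpa using (hasDerivAt_id q.1).const_mul M
  have h3 := (h1 (M * q.1) q.2 (aP_pos hM hq)).comp q.1 h2
  exact h3.congr_deriv (by ring)

theorem P_snd {f f1 : ℝ → ℝ → ℝ} (hf : ∀ p : ℝ × ℝ, 0 < p.1 →
      DifferentiableAt ℝ (fun p : ℝ × ℝ => f p.1 p.2) p)
    (h1 : ∀ s X, 0 < s → HasDerivAt (fun t => f s t) (f1 s X) X) :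
    fderiv ℝ (fun q : ℝ × ℝ => f (M * q.1) q.2) q (0, 1) = f1 (M * q.1) q.2 := by
  refine fderiv_snd_of (diffP hM hq hf) ?_
  exact h1 (M * q.1) q.2 (aP_pos hM hq)

end frontP

theorem diff_uL (p : ℝ × ℝ) (hp : p.1 < 0) :
    DifferentiableAt ℝ (fun p : ℝ × ℝ => uL p.1 p.2) p := by
  simp only [uL_eq]
  exact (diff_left (fun _ hζ => (hasDerivAt_EL hζ).differentiableAt) hp).2

theorem diff_uLs (p : ℝ × ℝ) (hp : p.1 < 0) :
    DifferentiableAt ℝ (fun p : ℝ × ℝ => uLs p.1 p.2) p :=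
  (diff_left (fun _ hζ => (hasDerivAt_gL hζ).differentiableAt) hp).2

theorem diff_uLX (p : ℝ × ℝ) (hp : p.1 < 0) :
    DifferentiableAt ℝ (fun p : ℝ × ℝ => uLX p.1 p.2) p :=
  (diff_left (fun _ hζ => (hasDerivAt_gL hζ).differentiableAt) hp).1

theorem diff_utR (p : ℝ × ℝ) (hp : 0 < p.1) :
    DifferentiableAt ℝ (fun p : ℝ × ℝ => utR p.1 p.2) p := by
  simp only [utR_eq]
  exact (diff_right (fun _ hζ => (hasDerivAt_ER hζ).differentiableAt) hp).1

theorem diff_utRs (p : ℝ × ℝ) (hp : 0 < p.1) :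
    DifferentiableAt ℝ (fun p : ℝ × ℝ => utRs p.1 p.2) p :=
  (diff_right (fun _ hζ => (hasDerivAt_kR hζ).differentiableAt) hp).1

theorem diff_utRX (p : ℝ × ℝ) (hp : 0 < p.1) :
    DifferentiableAt ℝ (fun p : ℝ × ℝ => utRX p.1 p.2) p :=
  (diff_right (fun _ hζ => (hasDerivAt_kR hζ).differentiableAt) hp).2.neg

theorem exp_neg_half_pi : Real.exp (-(π * (1 / 2))) ≤ 1 / 2 := by
  have h1 : Real.exp (-(π * (1 / 2))) ≤ Real.exp (-1) := by
    apply Real.exp_le_exp.2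
    nlinarith [Real.pi_gt_three]
  have h2 : Real.exp (-1) ≤ 1 / 2 := by
    rw [Real.exp_neg, one_div]
    apply inv_anti₀ (by norm_num)
    have := Real.add_one_le_exp (1 : ℝ)
    linarith
  linarith

theorem norm_low_left {s : ℝ} (hs : s ≤ -(1 / 2)) (X : ℝ) :
    1 / 2 ≤ ‖1 - exp (π * (s + X * I))‖ := by
  have h1 : Real.exp (π * s) ≤ 1 / 2 := by
    refine le_trans ?_ exp_neg_half_pi
    apply Real.exp_le_exp.2
    nlinarith [Real.pi_pos]
  have h2 := norm_sub_norm_le (1 : ℂ) (exp (π * (s + X * I)))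
  rw [norm_one, norm_exp_pi] at h2
  linarith

theorem norm_low_right {s : ℝ} (hs : 1 / 2 ≤ s) (X : ℝ) :
    1 / 2 ≤ ‖1 - zR (s + X * I)‖ := by
  have h1 : Real.exp (-π * s) ≤ 1 / 2 := by
    refine le_trans ?_ exp_neg_half_pi
    apply Real.exp_le_exp.2
    nlinarith [Real.pi_pos]
  have h2 := norm_sub_norm_le (1 : ℂ) (zR (s + X * I))
  rw [norm_one, norm_zR] at h2
  linarith

theorem abs_uLs_le {s : ℝ} (hs : s ≤ -(1 / 2)) (X : ℝ) :
    |uLs s X| ≤ π * Real.exp (π / 2 * s) := by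
  have hp := Real.pi_pos
  have h1 := grad_uL s X
  have h2 := norm_low_left hs X
  have h3 : Real.exp (π * s) / ‖1 - exp (π * (s + X * I))‖ ≤ Real.exp (π * s) * 2 := by
    rw [div_le_iff₀ (by linarith)]
    have := Real.exp_pos (π * s)
    nlinarith
  have h4 : Real.exp (π * s) = Real.exp (π / 2 * s) ^ 2 := by
    rw [← Real.exp_nat_mul]
    congr 1
    push_cast
    ring
  apply abs_le_of_sq_le_sq _ (by positivity)
  have h5 : uLs s X ^ 2 ≤ (π / 2) ^ 2 * (Real.exp (π * s) * 2) := by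
    have := mul_le_mul_of_nonneg_left h3 (by positivity : (0 : ℝ) ≤ (π / 2) ^ 2)
    nlinarith [sq_nonneg (uLX s X)]
  rw [h4] at h5
  nlinarith [sq_nonneg (π * Real.exp (π / 2 * s))]

theorem abs_utRs_le {s : ℝ} (hs : 1 / 2 ≤ s) (X : ℝ) :
    |utRs s X| ≤ π * Real.exp (-π * s) := by
  have hp := Real.pi_pos
  have h1 := grad_utR_le (s := s) (X := X) (Or.inl (by linarith))
  have h2 := norm_low_right hs X
  change _ ≤ (π / 2) ^ 2 * (Real.exp (-(2 * π * s)) / ‖1 - zR (s + X * I)‖) at h1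
  have h3 : Real.exp (-(2 * π * s)) / ‖1 - zR (s + X * I)‖ ≤ Real.exp (-(2 * π * s)) * 2 := by
    rw [div_le_iff₀ (by linarith)]
    have := Real.exp_pos (-(2 * π * s))
    nlinarith
  have h4 : Real.exp (-(2 * π * s)) = Real.exp (-π * s) ^ 2 := by
    rw [← Real.exp_nat_mul]
    congr 1
    push_cast
    ring
  apply abs_le_of_sq_le_sq _ (by positivity)
  have h5 : utRs s X ^ 2 ≤ (π / 2) ^ 2 * (Real.exp (-(2 * π * s)) * 2) := by
    have := mul_le_mul_of_nonneg_left h3 (by positivity : (0 : ℝ) ≤ (π / 2) ^ 2)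
    nlinarith [sq_nonneg (utRX s X)]
  rw [h4] at h5
  nlinarith [sq_nonneg (π * Real.exp (-π * s))]

attribute [local irreducible] uL uLs uLX uLss uLsX utR utRs utRX utRss utRsX

theorem smO (M : ℝ) (hM : 1 ≤ M) :
    ContDiffOn ℝ ∞ (fun q : ℝ × ℝ => uL (-(M * q.1)) (2 * q.2 - 1)) {q | 0 < q.1} :=
  ContDiffOn.comp (g := fun p : ℝ × ℝ => uL p.1 p.2) (f := fun q : ℝ × ℝ => aO M q)
    contDiffOn_uL (contDiff_aO M).contDiffOn (fun _ hq => aO_neg hM hq)

theorem smP (M : ℝ) (hM : 1 ≤ M) :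
    ContDiffOn ℝ ∞ (fun q : ℝ × ℝ => utR (M * q.1) q.2) {q | 0 < q.1} :=
  ContDiffOn.comp (g := fun p : ℝ × ℝ => utR p.1 p.2) (f := fun q : ℝ × ℝ => aP M q)
    contDiffOn_utR (contDiff_aP M).contDiffOn (fun _ hq => aP_pos hM hq)

theorem frontO (M : ℝ) (hM : 1 ≤ M) : FrontHyp (π + 2) (π / (8 * √2)) (π / 2 * M) (M ^ 2 / 4)
    (fun q => uL (-(M * q.1)) (2 * q.2 - 1)) where
  sm := smO M hM
  pde := by
    intro q hq
    have e1 : (fun q : ℝ × ℝ => fderiv ℝ (fun q : ℝ × ℝ => uL (-(M * q.1)) (2 * q.2 - 1)) q (1, 0))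
        =ᶠ[𝓝 q] fun q => -M * uLs (-(M * q.1)) (2 * q.2 - 1) := by
      filter_upwards [(isOpen_lt continuous_const continuous_fst).mem_nhds hq] with r hr
      exact O_fst hM hr diff_uL (fun s X hs => hasDerivAt_uL_s (Or.inl hs))
    have e2 : (fun q : ℝ × ℝ => fderiv ℝ (fun q : ℝ × ℝ => uL (-(M * q.1)) (2 * q.2 - 1)) q (0, 1))
        =ᶠ[𝓝 q] fun q => 2 * uLX (-(M * q.1)) (2 * q.2 - 1) := by
      filter_upwards [(isOpen_lt continuous_const continuous_fst).mem_nhds hq] with r hr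
      exact O_snd hM hr diff_uL (fun s X hs => hasDerivAt_uL_X (Or.inl hs))
    rw [e1.fderiv_eq, e2.fderiv_eq]
    have d1 : DifferentiableAt ℝ (fun q : ℝ × ℝ => uLs (-(M * q.1)) (2 * q.2 - 1)) q :=
      diffO hM hq diff_uLs
    have d2 : DifferentiableAt ℝ (fun q : ℝ × ℝ => uLX (-(M * q.1)) (2 * q.2 - 1)) q :=
      diffO hM hq diff_uLX
    rw [fderiv_const_mul d1, fderiv_const_mul d2]
    have f1 := O_fst hM hq diff_uLs (fun s X hs => hasDerivAt_uLs_s (Or.inl hs))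
    have f2 := O_snd hM hq (f1 := fun s X => -uLss s X) diff_uLX
      (fun s X hs => hasDerivAt_uLX_X (Or.inl hs))
    simp only [smul_apply, smul_eq_mul]
    rw [f1, f2]
    ring
  wall := by
    intro σ hσ
    have f1 := O_snd hM (q := (σ, 0)) hσ diff_uL (fun s X hs => hasDerivAt_uL_X (Or.inl hs))
    have f2 := O_snd hM (q := (σ, 1)) hσ diff_uL (fun s X hs => hasDerivAt_uL_X (Or.inl hs))
    rw [f1, f2]
    constructor
    · change 2 * uLX (-(M * σ)) (2 * 0 - 1) = 0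
      rw [show (2 * 0 - 1 : ℝ) = -1 by norm_num, uLX_neg_one, mul_zero]
    · change 2 * uLX (-(M * σ)) (2 * 1 - 1) = 0
      rw [show (2 * 1 - 1 : ℝ) = 1 by norm_num, uLX_one, mul_zero]
  mean := by
    intro σ hσ
    have h0 : 0 < M * σ := by positivity
    exact mean_uL (s := -(M * σ)) (by linarith)
  up := by
    intro σ x h1 h2 h3 h4
    have hσ : 0 < σ := by linarith
    have hs : -(M * σ) ≤ -(1 / 2) := by nlinarith
    have hexp : π / 2 * -(M * σ) = -(π / 2 * M) * σ := by ring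
    have hp := Real.pi_pos
    constructor
    · refine (abs_uL_le' (by linarith) _).trans ?_
      rw [hexp]
      have := Real.exp_pos (-(π / 2 * M) * σ)
      nlinarith
    · rw [O_fst hM (q := (σ, x)) hσ diff_uL (fun s X hs => hasDerivAt_uL_s (Or.inl hs))]
      rw [abs_mul, abs_neg, abs_of_pos (by linarith : 0 < M)]
      have h5 := abs_uLs_le hs (2 * x - 1)
      rw [hexp] at h5
      have h6 := mul_le_mul_of_nonneg_left h5 (by linarith : (0 : ℝ) ≤ M)
      refine h6.trans ?_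
      have := Real.exp_pos (-(π / 2 * M) * σ)
      have h8 : 0 ≤ M * π ^ 2 := by positivity
      have h7 : M * π ≤ (π + 2) * (π / 2 * M) := by nlinarith
      nlinarith
  low := by
    intro σ x h1 h2 h3 h4
    have hs : -(M * σ) < 0 := by
      have : 0 < M * σ := by positivity
      linarith
    rw [O_snd hM (q := (σ, x)) h1 diff_uL (fun s X hs => hasDerivAt_uL_X (Or.inl hs))]
    have h5 := uLX_low (s := -(M * σ)) (X := 2 * x - 1) hs (by rw [abs_le]; constructor <;> linarith)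
    have hexp : π / 2 * -(M * σ) = -(π / 2 * M) * σ := by ring
    have hcos : Real.cos (π / 2 * (2 * x - 1)) = Real.sin (π * x) := by
      rw [show π / 2 * (2 * x - 1) = π * x - π / 2 by ring, Real.cos_sub_pi_div_two]
    rw [hexp, hcos] at h5
    have hp := Real.pi_pos
    have hsin : 0 ≤ Real.sin (π * x) := by
      apply Real.sin_nonneg_of_nonneg_of_le_pi
      · positivity
      · nlinarith
    refine le_trans ?_ (le_abs_self _)
    refine le_trans ?_ (mul_le_mul_of_nonneg_left h5 (by norm_num : (0 : ℝ) ≤ 2))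
    have h6 : π / (8 * √2) ≤ 2 * (π / (4 * √2)) := by
      have h2 : 0 < √2 := by positivity
      rw [← mul_div_assoc, div_le_div_iff₀ (by positivity) (by positivity)]
      nlinarith [mul_pos hp h2]
    have := mul_le_mul_of_nonneg_right h6
      (mul_nonneg (Real.exp_pos (-(π / 2 * M) * σ)).le hsin)
    calc _ = π / (8 * √2) * (Real.exp (-(π / 2 * M) * σ) * Real.sin (π * x)) := by ring
      _ ≤ _ := this
      _ = _ := by ring

theorem frontP (M : ℝ) (hM : 1 ≤ M) : FrontHyp (π + 2) (π / (8 * √2)) (π * M) (M ^ 2)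
    (fun q => utR (M * q.1) q.2) where
  sm := smP M hM
  pde := by
    intro q hq
    have e1 : (fun q : ℝ × ℝ => fderiv ℝ (fun q : ℝ × ℝ => utR (M * q.1) q.2) q (1, 0))
        =ᶠ[𝓝 q] fun q => M * utRs (M * q.1) q.2 := by
      filter_upwards [(isOpen_lt continuous_const continuous_fst).mem_nhds hq] with r hr
      exact P_fst hM hr diff_utR (fun s X hs => hasDerivAt_utR_s (Or.inl hs))
    have e2 : (fun q : ℝ × ℝ => fderiv ℝ (fun q : ℝ × ℝ => utR (M * q.1) q.2) q (0, 1))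
        =ᶠ[𝓝 q] fun q => utRX (M * q.1) q.2 := by
      filter_upwards [(isOpen_lt continuous_const continuous_fst).mem_nhds hq] with r hr
      exact P_snd hM hr diff_utR (fun s X hs => hasDerivAt_utR_X (Or.inl hs))
    rw [e1.fderiv_eq, e2.fderiv_eq]
    have d1 : DifferentiableAt ℝ (fun q : ℝ × ℝ => utRs (M * q.1) q.2) q :=
      diffP hM hq diff_utRs
    rw [fderiv_const_mul d1]
    have f1 := P_fst hM hq diff_utRs (fun s X hs => hasDerivAt_utRs_s (Or.inl hs))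
    have f2 := P_snd hM hq (f1 := fun s X => -utRss s X) diff_utRX
      (fun s X hs => hasDerivAt_utRX_X (Or.inl hs))
    simp only [smul_apply, smul_eq_mul]
    rw [f1, f2]
    ring
  wall := by
    intro σ hσ
    have f1 := P_snd hM (q := (σ, 0)) hσ diff_utR (fun s X hs => hasDerivAt_utR_X (Or.inl hs))
    have f2 := P_snd hM (q := (σ, 1)) hσ diff_utR (fun s X hs => hasDerivAt_utR_X (Or.inl hs))
    rw [f1, f2]
    constructor
    · exact utRX_zero (by change 0 < M * σ; positivity)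
    · exact utRX_one _
  mean := by
    intro σ hσ
    have h0 : 0 < M * σ := by positivity
    exact mean_utR (s := M * σ) h0
  up := by
    intro σ x h1 h2 h3 h4
    have hσ : 0 < σ := by linarith
    have hs : 1 / 2 ≤ M * σ := by nlinarith
    have hexp : -π * (M * σ) = -(π * M) * σ := by ring
    have hp := Real.pi_pos
    constructor
    · refine (abs_utR_le (by linarith) _).trans ?_
      rw [hexp]
      have := Real.exp_pos (-(π * M) * σ)
      nlinarith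
    · rw [P_fst hM (q := (σ, x)) hσ diff_utR (fun s X hs => hasDerivAt_utR_s (Or.inl hs))]
      rw [abs_mul, abs_of_pos (by linarith : 0 < M)]
      have h5 := abs_utRs_le hs x
      rw [hexp] at h5
      have h6 := mul_le_mul_of_nonneg_left h5 (by linarith : (0 : ℝ) ≤ M)
      refine h6.trans ?_
      have := Real.exp_pos (-(π * M) * σ)
      have h8 : 0 ≤ M * π ^ 2 := by positivity
      have h9 : 0 ≤ M * π := by positivity
      have h7 : M * π ≤ (π + 2) * (π * M) := by nlinarith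
      nlinarith
  low := by
    intro σ x h1 h2 h3 h4
    have hs : 0 < M * σ := by positivity
    rw [P_snd hM (q := (σ, x)) h1 diff_utR (fun s X hs => hasDerivAt_utR_X (Or.inl hs))]
    have h5 := utRX_low (s := M * σ) (X := x) hs h3 h4
    have hexp : -π * (M * σ) = -(π * M) * σ := by ring
    rw [hexp] at h5
    exact h5.trans (le_abs_self _)

/-! ### Tip -/

theorem tipL (s X : ℝ) (hs : s < 0) (hX : |X| ≤ 1) :
    (uL s X) ^ 2 ≤ 4 * √(s ^ 2 + X ^ 2) ∧
    ((uLs s X) ^ 2 + (uLX s X) ^ 2) * √(s ^ 2 + X ^ 2) ≤ 4 := by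
  have hp := Real.pi_pos
  have hp4 := Real.pi_lt_four
  set d := √(s ^ 2 + X ^ 2) with hd
  have hd0 : 0 < d := by
    apply Real.sqrt_pos.2
    nlinarith [sq_nonneg X, sq_pos_of_neg hs]
  set n := ‖1 - exp (π * (s + X * I))‖ with hn
  have h1 := tip_low_L hs.le hX
  have h2 := tip_up_L (X := X) hs.le
  rw [← hd, ← hn] at h1 h2
  have hE : Real.exp (π * s) ≤ 1 := by
    rw [Real.exp_le_one_iff]; nlinarith
  have hE0 := Real.exp_pos (π * s)
  have hn0 : 0 < n := lt_of_lt_of_le (by positivity) h1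
  have hsq : Real.exp (π / 2 * s) ^ 2 = Real.exp (π * s) := by
    rw [← Real.exp_nat_mul]
    congr 1
    push_cast
    ring
  constructor
  · have h3 := abs_uL_le s X
    rw [← hn] at h3
    have h4 : uL s X ^ 2 ≤ (Real.exp (π / 2 * s) * √n) ^ 2 := by
      rw [← sq_abs]
      exact pow_le_pow_left₀ (abs_nonneg _) h3 2
    rw [mul_pow, hsq, Real.sq_sqrt hn0.le] at h4
    nlinarith
  · rw [grad_uL, ← hn]
    have h5 : Real.exp (π * s) / n * d ≤ 1 / 2 := by
      rw [div_mul_eq_mul_div, div_le_iff₀ hn0]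
      linarith
    have h6 : (π / 2) ^ 2 ≤ 4 := by nlinarith
    have h7 : 0 ≤ Real.exp (π * s) / n * d := by positivity
    calc (π / 2) ^ 2 * (Real.exp (π * s) / n) * d = (π / 2) ^ 2 * (Real.exp (π * s) / n * d) := by ring
      _ ≤ 4 * (1 / 2) := mul_le_mul h6 h5 h7 (by norm_num)
      _ ≤ 4 := by norm_num

theorem tipR (S s X : ℝ) (hs : 0 < s) (hS : s ≤ S) (hX : |X| ≤ 1) :
    (π / 2 * s + Real.log 2 + utR s X) ^ 2 ≤ (4 * Real.exp (π * S)) * √(s ^ 2 + X ^ 2) ∧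
    ((π / 2 + utRs s X) ^ 2 + (utRX s X) ^ 2) * √(s ^ 2 + X ^ 2) ≤ 4 * Real.exp (π * S) := by
  have hp := Real.pi_pos
  have hp4 := Real.pi_lt_four
  set d := √(s ^ 2 + X ^ 2) with hd
  have hd0 : 0 < d := by
    apply Real.sqrt_pos.2
    nlinarith [sq_nonneg X, sq_pos_of_pos hs]
  set n := ‖1 - zR (s + X * I)‖ with hn
  have h1 := tip_low_R hs.le hX
  have h2 := tip_up_R (X := X) hs.le
  rw [← hd, ← hn] at h1 h2
  have hE0 := Real.exp_pos (-(π * s))
  have hn0 : 0 < n := lt_of_lt_of_le (by positivity) h1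
  have hsq : Real.exp (π / 2 * s) ^ 2 = Real.exp (π * s) := by
    rw [← Real.exp_nat_mul]
    congr 1
    push_cast
    ring
  have hES : Real.exp (π * s) ≤ Real.exp (π * S) := by
    apply Real.exp_le_exp.2
    nlinarith
  have hEE : Real.exp (π * s) * Real.exp (-(π * s)) = 1 := by
    rw [← Real.exp_add]; simp
  constructor
  · have h3 := abs_uR_le s X
    change |π / 2 * s + Real.log 2 + utR s X| ≤ Real.exp (π / 2 * s) * √n at h3
    have h4 : (π / 2 * s + Real.log 2 + utR s X) ^ 2 ≤ (Real.exp (π / 2 * s) * √n) ^ 2 := by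
      rw [← sq_abs]
      exact pow_le_pow_left₀ (abs_nonneg _) h3 2
    rw [mul_pow, hsq, Real.sq_sqrt hn0.le] at h4
    refine h4.trans ?_
    have h5 : n ≤ 4 * d := by nlinarith
    calc Real.exp (π * s) * n ≤ Real.exp (π * S) * (4 * d) :=
          mul_le_mul hES h5 hn0.le (Real.exp_pos _).le
      _ = _ := by ring
  · rw [grad_uR_eq s X (Or.inl hs), ← hn]
    have h5 : d / n ≤ Real.exp (π * S) / 2 := by
      rw [div_le_div_iff₀ hn0 (by norm_num)]
      have h6 : d * 2 ≤ Real.exp (π * s) * n := by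
        have := mul_le_mul_of_nonneg_left h1 (Real.exp_pos (π * s)).le
        nlinarith
      nlinarith
    have h6 : (π / 2) ^ 2 ≤ 4 := by nlinarith
    have h7 : 0 ≤ d / n := by positivity
    calc (π / 2) ^ 2 / n * d = (π / 2) ^ 2 * (d / n) := by ring
      _ ≤ 4 * (Real.exp (π * S) / 2) := mul_le_mul h6 h5 h7 (by norm_num)
      _ ≤ 4 * Real.exp (π * S) := by have := Real.exp_pos (π * S); linarith

/-! ### The core data -/

/-- The core. -/
noncomputable def coreData : CoreData where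
  uL := uL
  uLs := uLs
  uLX := uLX
  uR := utR
  uRs := utRs
  uRX := utRX
  v0 := uL 0
  g0 := uLs 0
  C0 := π + 2
  c0 := π / (8 * √2)
  c0pos := by have := Real.pi_pos; positivity
  dLs := fun s X hs => hasDerivAt_uL_s (Or.inl hs)
  dLX := fun s X hs => hasDerivAt_uL_X (Or.inl hs)
  dRs := fun s X hs => hasDerivAt_utR_s (Or.inl hs)
  dRX := fun s X hs => hasDerivAt_utR_X (Or.inl hs)
  frontO := frontO
  frontP := frontP
  oddL := fun s X hs => ⟨uL_neg hs.le X, uLs_neg hs X⟩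
  trL := by
    intro X h0 h1
    have hX : (0 : ℝ) < 0 ∨ (0 < X ∧ X < 2) := Or.inr ⟨h0, by linarith⟩
    constructor
    · exact ((hasDerivAt_uL_s (s := 0) (Or.inr ⟨h0, by linarith⟩)).continuousAt.tendsto).mono_left
        nhdsWithin_le_nhds
    · exact ((hasDerivAt_uLs_s (s := 0) (Or.inr ⟨h0, by linarith⟩)).continuousAt.tendsto).mono_left
        nhdsWithin_le_nhds
  trR := by
    intro X h0 h1
    constructor
    · have h2 : (fun s => π / 2 * s + Real.log 2 + utR s X) = fun s => uL s X := by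
        funext s
        exact (uL_eq_uR h0 h1).symm
      rw [h2]
      exact ((hasDerivAt_uL_s (s := 0) (Or.inr ⟨h0, by linarith⟩)).continuousAt.tendsto).mono_left
        nhdsWithin_le_nhds
    · have h2 : (fun s => π / 2 + utRs s X) = fun s => uLs s X := by
        funext s
        exact (uLs_eq h0 h1).symm
      rw [h2]
      exact ((hasDerivAt_uLs_s (s := 0) (Or.inr ⟨h0, by linarith⟩)).continuousAt.tendsto).mono_left
        nhdsWithin_le_nhds
  tipL := by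
    intro S hS
    exact ⟨4, fun s X _ hs hX => tipL s X hs hX⟩
  tipR := by
    intro S hS
    exact ⟨4 * Real.exp (π * S), fun s X hs hsS hX => tipR S s X hs hsS hX⟩

end Crest.Agent.R083.Core

namespace Crest.Agent.R083

theorem core_exists : Nonempty CoreData := ⟨Core.coreData⟩

end Crest.Agent.R083
end

-- ▼ part R083/TensorModel
section

/-!
Row 83 (S0111), TM group: the explicit anisotropic solution on the model boxes.
-/

set_option autoImplicit false

namespace Crest.Agent.R083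

open MeasureTheory Set Filter
open scoped Gradient ENNReal NNReal Topology ContDiff

/-- The three solutions for one value of the large parameter. -/
theorem tm_three (K : CoreData) : ∃ Mc : ℝ, 10 ≤ Mc ∧
    (∃ (δ' N0 : ℝ) (w : E3 → ℝ) (J : E3 → E3),
      FaceSol (-(32 / 25)) (32 / 25) (-(22 / 25)) (22 / 25) (7 / 10) 1 δ' N0 w J
        (tmv K) (fun _ => 0) (tmj K Mc) (fun _ => 0)) ∧
    (∃ (δ' N0 : ℝ) (w : E3 → ℝ) (J : E3 → E3),
      FaceSol 0 (32 / 25) (-(22 / 25)) (22 / 25) (3 / 5) (7 / 10) δ' N0 w J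
        (fun _ => Real.log 2 + Real.pi / 2 * (1 / 10 * Mc)) (tmv K)
        (fun _ => -(Real.pi / 2 * Mc)) (tmj K Mc)) ∧
    (∃ (δ' N0 : ℝ) (w : E3 → ℝ) (J : E3 → E3),
      FaceSol (-(32 / 25)) 0 (-(22 / 25)) (22 / 25) (3 / 5) (7 / 10) δ' N0 w J
        (fun _ => -(Real.log 2 + Real.pi / 2 * (1 / 10 * Mc))) (tmv K)
        (fun _ => Real.pi / 2 * Mc) (tmj K Mc)) := by
  obtain ⟨ρ0, hf⟩ := nsol_of_front K.C0 K.c0 K.c0pos
  have hMc : 10 ≤ max 10 (10 * |ρ0|) := le_max_left _ _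
  have hMr : 10 * |ρ0| ≤ max 10 (10 * |ρ0|) := le_max_right _ _
  generalize max 10 (10 * |ρ0|) = Mc at hMc hMr
  have hpi := Real.pi_gt_three
  have hρ := le_abs_self ρ0
  have hρ' := abs_nonneg ρ0
  have e1 : ρ0 ≤ Real.pi / 2 * (3 / 10 * Mc) := by nlinarith
  have e2 : ρ0 ≤ Real.pi * (1 / 10 * Mc) := by nlinarith
  have f1 : 1 ≤ (3 / 10 * Mc) ^ 2 / 4 := by nlinarith
  have f2 : 1 ≤ (1 / 10 * Mc) ^ 2 := by nlinarith
  have hO := K.frontO (3 / 10 * Mc) (by linarith)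
  have hP := K.frontP (1 / 10 * Mc) (by linarith)
  obtain ⟨δ1, N1, w1, J1, n1⟩ := hf _ _ e1 f1 _ hO
  obtain ⟨δ2, N2, w2, J2, n2⟩ := hf _ _ e2 f2 _ hP
  exact ⟨Mc, hMc, faceSol_O K Mc hMc n1 hO.sm, faceSol_P K Mc hMc n2 hP.sm,
    faceSol_N K Mc hMc n2 hP.sm⟩

/-- Choice by box. -/
def pk {α : Type*} (o p n : α) : Box → α
  | Box.O => o
  | Box.P => p
  | Box.N => n

theorem tm_cut_end (j : ℕ) (p : E3) (h : p 2 = 1 ∨ p 2 = 3 / 5) : cut (j + 200) p = 1 := by
  apply cut_eq_one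
  have h1 : (1 / 100 : ℝ) ≤ tip2 p := by
    unfold tip2
    rcases h with h | h <;> rw [h] <;> nlinarith [sq_nonneg (p 0)]
  have h2 : (200 : ℝ) ≤ ((j + 200 : ℕ) : ℝ) := by push_cast; linarith [Nat.cast_nonneg (α := ℝ) j]
  nlinarith

theorem tensor_model :
    ∃ (δ e θ N0 : ℝ) (w : Box → E3 → ℝ) (J : Box → E3 → E3) (V : Box → Set E3)
      (wj : ℕ → Box → E3 → ℝ), 0 < δ ∧ 0 < e ∧ 0 < θ ∧
      (∀ b, IsOpen (V b) ∧ V b ⊆ bxo b ∧ volume (bx b \ V b) = 0) ∧
      (∀ b, ContDiffOn ℝ ∞ (w b) (V b) ∧ ContDiffOn ℝ ∞ (J b) (V b)) ∧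
      (∀ b, ∀ x ∈ V b, fderiv ℝ (w b) x (ee 2) = J b x 2 ∧ dvg (J b) x = 0 ∧
        HEll δ (∇ (w b) x) (J b x) ∧ ‖∇ (w b) x‖ ^ 2 * √(tip2 x) ≤ N0) ∧
      -- Lipschitz approximants
      (∀ j b, ∃ K : ℝ≥0, LipschitzWith K (wj j b)) ∧
      (∀ ε : ℝ, 0 < ε → ∃ j0, ∀ j ≥ j0, ∀ b, ∀ x ∈ bx b, |wj j b x - w b x| ≤ ε) ∧
      (∀ b, IntegrableOn (fun x => ‖∇ (w b) x‖ ^ 2) (bx b) volume) ∧
      (∀ b, Tendsto (fun j => ∫ x in bx b, ‖∇ (wj j b) x - ∇ (w b) x‖ ^ 2) atTop (𝓝 0)) ∧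
      (∀ j, Matching (wj j)) ∧
      (∀ j, ∀ x ∈ bx Box.O, x 2 = 1 → wj j Box.O x = 0) ∧
      (∀ j, ∀ x ∈ bx Box.P, x 2 = 3/5 → wj j Box.P x = e) ∧
      (∀ j, ∀ x ∈ bx Box.N, x 2 = 3/5 → wj j Box.N x = -e) ∧
      -- weak equation with the boundary fluxes
      (∀ χ : Box → E3 → ℝ, (∀ b, ∃ K : ℝ≥0, LipschitzWith K (χ b)) → Matching χ →
        (∫ x in bx Box.O, inner ℝ (J Box.O x) (∇ (χ Box.O) x)) +
        (∫ x in bx Box.P, inner ℝ (J Box.P x) (∇ (χ Box.P) x)) +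
        (∫ x in bx Box.N, inner ℝ (J Box.N x) (∇ (χ Box.N) x)) =
          θ * (faceP (χ Box.P) - faceN (χ Box.N))) := by
  obtain ⟨K⟩ := core_exists
  obtain ⟨Mc, hMc, ⟨δO, NO, wO, JO, hO⟩, ⟨δP, NP, wP, JP, hP⟩, ⟨δN, NN, wN, JN, hN⟩⟩ := tm_three K
  obtain ⟨iO, aO, lO, vO, cO, tO⟩ := fs_approx _ _ _ _ _ _ _ _ _ _ _ _ _ _ hO (by norm_num)
    (by norm_num) (by norm_num) (by norm_num)
  obtain ⟨iP, aP, lP, vP, cP, tP⟩ := fs_approx _ _ _ _ _ _ _ _ _ _ _ _ _ _ hP (by norm_num)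
    (by norm_num) (by norm_num) (by norm_num)
  obtain ⟨iN, aN, lN, vN, cN, tN⟩ := fs_approx _ _ _ _ _ _ _ _ _ _ _ _ _ _ hN (by norm_num)
    (by norm_num) (by norm_num) (by norm_num)
  obtain ⟨oO, zO⟩ := fs_V _ _ _ _ _ _ _ _ _ _ hO.sol
  obtain ⟨oP, zP⟩ := fs_V _ _ _ _ _ _ _ _ _ _ hP.sol
  obtain ⟨oN, zN⟩ := fs_V _ _ _ _ _ _ _ _ _ _ hN.sol
  obtain ⟨sO, uO, pO⟩ := fs_pt hO.sol (tmv K) (fun _ => 0)
  obtain ⟨sP, uP, pP⟩ := fs_pt hP.sol (fun _ => Real.log 2 + Real.pi / 2 * (1 / 10 * Mc)) (tmv K)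
  obtain ⟨sN, uN, pN⟩ := fs_pt hN.sol (fun _ => -(Real.log 2 + Real.pi / 2 * (1 / 10 * Mc))) (tmv K)
  obtain ⟨jbO, -, gO⟩ := fs_green _ _ _ _ _ _ _ _ _ _ _ _ _ _ hO (by norm_num) (by norm_num)
    (by norm_num)
  obtain ⟨-, -, gP⟩ := fs_green _ _ _ _ _ _ _ _ _ _ _ _ _ _ hP (by norm_num) (by norm_num)
    (by norm_num)
  obtain ⟨-, -, gN⟩ := fs_green _ _ _ _ _ _ _ _ _ _ _ _ _ _ hN (by norm_num) (by norm_num)
    (by norm_num)
  have hpi := Real.pi_gt_three
  have hMc0 : 0 < Mc := by linarith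
  have hlog : 0 < Real.log 2 := Real.log_pos (by norm_num)
  set e : ℝ := Real.log 2 + Real.pi / 2 * (1 / 10 * Mc) with he
  have he0 : 0 < e := by positivity
  refine ⟨min δO (min δP δN), e, Real.pi / 2 * Mc, max NO (max NP NN),
    pk (fw (7 / 10) 1 wO (tmv K) (fun _ => 0)) (fw (3 / 5) (7 / 10) wP (fun _ => e) (tmv K))
      (fw (3 / 5) (7 / 10) wN (fun _ => -e) (tmv K)),
    pk JO JP JN,
    pk (fV (-(32 / 25)) (32 / 25) (-(22 / 25)) (22 / 25) (7 / 10) 1 wO)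
      (fV 0 (32 / 25) (-(22 / 25)) (22 / 25) (3 / 5) (7 / 10) wP)
      (fV (-(32 / 25)) 0 (-(22 / 25)) (22 / 25) (3 / 5) (7 / 10) wN),
    fun j => pk (aO j) (aP j) (aN j),
    lt_min hO.sol.δpos (lt_min hP.sol.δpos hN.sol.δpos), he0, by positivity,
    ?_, ?_, ?_, ?_, ?_, ?_, ?_, ?_, ?_, ?_, ?_, ?_⟩
  · rintro (_ | _ | _)
    · refine ⟨oO, ?_, ?_⟩
      · intro p hp
        obtain ⟨h0, h1, h2⟩ := hp.1
        exact ⟨abs_lt.2 h0, abs_lt.2 h1, h2.1, h2.2⟩
      · rw [bx_O]; exact zO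
    · refine ⟨oP, ?_, ?_⟩
      · intro p hp
        obtain ⟨h0, h1, h2⟩ := hp.1
        exact ⟨h0.1, h0.2, abs_lt.2 h1, h2.1, h2.2⟩
      · rw [bx_P]; exact zP
    · refine ⟨oN, ?_, ?_⟩
      · intro p hp
        obtain ⟨h0, h1, h2⟩ := hp.1
        exact ⟨h0.1, h0.2, abs_lt.2 h1, h2.1, h2.2⟩
      · rw [bx_N]; exact zN
  · rintro (_ | _ | _)
    exacts [⟨sO, uO⟩, ⟨sP, uP⟩, ⟨sN, uN⟩]
  · rintro (_ | _ | _) x hx
    · obtain ⟨q1, q2, q3, q4⟩ := pO x hx
      exact ⟨q1, q2, HEll_mono (min_le_left _ _) q3, q4.trans (le_max_left _ _)⟩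
    · obtain ⟨q1, q2, q3, q4⟩ := pP x hx
      exact ⟨q1, q2, HEll_mono ((min_le_right _ _).trans (min_le_left _ _)) q3,
        q4.trans ((le_max_left _ _).trans (le_max_right _ _))⟩
    · obtain ⟨q1, q2, q3, q4⟩ := pN x hx
      exact ⟨q1, q2, HEll_mono ((min_le_right _ _).trans (min_le_right _ _)) q3,
        q4.trans ((le_max_right _ _).trans (le_max_right _ _))⟩
  · rintro j (_ | _ | _)
    exacts [lO j, lP j, lN j]
  · intro ε hε
    obtain ⟨j1, h1⟩ := cO ε hε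
    obtain ⟨j2, h2⟩ := cP ε hε
    obtain ⟨j3, h3⟩ := cN ε hε
    refine ⟨max j1 (max j2 j3), fun j hj => ?_⟩
    rintro (_ | _ | _) x hx
    · rw [bx_O] at hx
      exact h1 j ((le_max_left _ _).trans hj) x hx
    · rw [bx_P] at hx
      exact h2 j (((le_max_left _ _).trans (le_max_right _ _)).trans hj) x hx
    · rw [bx_N] at hx
      exact h3 j (((le_max_right _ _).trans (le_max_right _ _)).trans hj) x hx
  · rintro (_ | _ | _)
    · rw [bx_O]; exact iO
    · rw [bx_P]; exact iP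
    · rw [bx_N]; exact iN
  · rintro (_ | _ | _)
    · rw [bx_O]; exact tO
    · rw [bx_P]; exact tP
    · rw [bx_N]; exact tN
  · intro j
    constructor
    · intro p hp h7
      have hpO : p ∈ bx Box.O := by
        obtain ⟨h0, h1, h2, h3, h4⟩ := hp
        exact ⟨abs_le.2 ⟨by linarith, h1⟩, h2, h7.ge, by linarith⟩
      rw [bx_P] at hp
      rw [bx_O] at hpO
      show aO j p = aP j p
      rw [vO j p hpO, vP j p hp]
      congr 1
      have n1 : ¬ ((7 : ℝ) / 10 = 3 / 5) := by norm_num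
      simp only [fw, h7, if_true, if_neg n1]
    · intro p hp h7
      have hpO : p ∈ bx Box.O := by
        obtain ⟨h0, h1, h2, h3, h4⟩ := hp
        exact ⟨abs_le.2 ⟨h0, by linarith⟩, h2, h7.ge, by linarith⟩
      rw [bx_N] at hp
      rw [bx_O] at hpO
      show aO j p = aN j p
      rw [vO j p hpO, vN j p hp]
      congr 1
      have n1 : ¬ ((7 : ℝ) / 10 = 3 / 5) := by norm_num
      simp only [fw, h7, if_true, if_neg n1]
  · intro j x hx h1
    rw [bx_O] at hx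
    show aO j x = 0
    rw [vO j x hx, tm_cut_end j x (Or.inl h1), one_mul]
    have n1 : ¬ ((1 : ℝ) = 7 / 10) := by norm_num
    simp only [fw, h1, if_true, if_neg n1]
  · intro j x hx h1
    rw [bx_P] at hx
    show aP j x = e
    rw [vP j x hx, tm_cut_end j x (Or.inr h1), one_mul]
    simp only [fw, h1, if_true]
  · intro j x hx h1
    rw [bx_N] at hx
    show aN j x = -e
    rw [vN j x hx, tm_cut_end j x (Or.inr h1), one_mul]
    simp only [fw, h1, if_true]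
  · intro χ hχ hM
    obtain ⟨k1, hk1⟩ := hχ Box.O
    obtain ⟨k2, hk2⟩ := hχ Box.P
    obtain ⟨k3, hk3⟩ := hχ Box.N
    rw [bx_O, bx_P, bx_N]
    have g1 := gO (χ Box.O) k1 hk1
    have g2 := gP (χ Box.P) k2 hk2
    have g3 := gN (χ Box.N) k3 hk3
    have hs := fs_sum (Real.pi / 2 * Mc) (tmj K Mc) jbO χ hχ hM
    rw [← g1, ← g2, ← g3] at hs
    exact hs

end Crest.Agent.R083
end

-- ▼ part R083/Module
set_option autoImplicit false
namespace Crest.Agent.R083
open MeasureTheory Set Filter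
open scoped Gradient ENNReal NNReal Topology ContDiff
theorem module_exists : Nonempty ModData :=
  module_exists_of (fun f K hf U hU h0 => lip_tsum f K hf U hU h0)
    (fun R hR hs => wdf_tsum R hR hs) tensor_model (fun δ μ hδ hμ => iso δ μ hδ hμ)
end Crest.Agent.R083
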