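import Crest.Agent.R083.IsoIter
import Crest.Agent.R083.IsoDefs
import Crest.Agent.R083.IsoAlg
import Crest.Agent.R083.Flatten
import Crest.Agent.R083.Defs
import Crest.Agent.R083.WdfOps
import Crest.Agent.R083.Glue
import Crest.Agent.R083.Wdf

-- ▼ part R083/IsoOf
section

/-!
Row 83 (S0111), ISO group: isotropisation, from the flattening lemma and the realisation of
constant tensors (helper771).
-/

set_option autoImplicit false

namespace Crest.Agent.R083.Iso

open MeasureTheory Set Filter Metric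
open scoped Gradient ENNReal NNReal Topology ContDiff

theorem ResolvesM_mono {c C C' : ℝ} {L : ℝ≥0} {M A : E3 →L[ℝ] E3} (h : C ≤ C')
    (hR : ResolvesM c C L M A) : ResolvesM c C' L M A := by
  intro U hU hUb ε B hε
  obtain ⟨γ, h1, h2, h3⟩ := hR U hU hUb ε B hε
  exact ⟨γ, h1, fun x => ⟨(h2 x).1, (h2 x).2.trans h⟩, h3⟩

theorem iso_of
    (exists_tensor : ∀ (δ : ℝ) (_ : 0 < δ), ∃ δ' : ℝ, 0 < δ' ∧ ∀ p j : E3, HEll δ p j →
      p 2 = j 2 → ∃ A : E3 →L[ℝ] E3, Ell δ' A ∧ A (ee 2) = ee 2 ∧ A p = j)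
    (resolvesM_all : ∀ (δ μ : ℝ) (_ : 0 < δ) (_ : 0 < μ),
      ∃ (c C : ℝ) (L : ℝ≥0), 0 < c ∧
        ∀ M A : E3 →L[ℝ] E3, Ell μ M → Ell δ A → ResolvesM c C L M A)
    (flatten : ∀ (Ω : Set E3) (w : E3 → ℝ) (J : E3 → E3) (_ : Sys Ω w J)
      (a : E3) (_ : a ∈ Ω) (η : ℝ≥0) (_ : 0 < η),
      ∃ r0 : ℝ, 0 < r0 ∧ ∀ r : ℝ, 0 < r → r < r0 → ∃ (v : E3 → ℝ) (T : E3 → E3),
        ContDiff ℝ ∞ v ∧ ContDiff ℝ ∞ T ∧ (∀ x, x ∉ ball a r → v x = 0 ∧ T x = 0) ∧
        LipschitzWith η v ∧ (∀ x, |v x| ≤ η) ∧ (∀ x, ‖T x‖ ≤ η) ∧ WDF T ∧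
        (∀ x, fderiv ℝ v x (ee 2) = T x 2) ∧ (∀ x, dvg T x = 0) ∧
        ∀ x ∈ ball a (r / 2), w x + v x = w a + inner ℝ (∇ w a) (x - a) ∧ J x + T x = J a)
    (δ μ : ℝ) (hδ : 0 < δ) (hμ : 0 < μ) :
    ∃ (c C : ℝ) (L : ℝ≥0), 0 < c ∧
      ∀ (V : Set E3), IsOpen V → Bornology.IsBounded V →
      ∀ (M : E3 → (E3 →L[ℝ] E3)), (∀ x ∈ V, ∀ᶠ y in 𝓝 x, M y = M x) →
        (∀ x ∈ V, Ell μ (M x)) →
      ∀ (w : E3 → ℝ) (J : E3 → E3) (N : ℝ≥0), ContDiffOn ℝ ∞ w V → ContDiffOn ℝ ∞ J V →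
        (∀ x ∈ V, fderiv ℝ w x (ee 2) = J x 2) → (∀ x ∈ V, dvg J x = 0) →
        (∀ x ∈ V, HEll δ (∇ w x) (J x)) → (∀ x ∈ V, ‖∇ w x‖ ≤ N) →
      ∀ ε : ℝ, 0 < ε →
      ∃ (γ : E3 → ℝ) (u v : E3 → ℝ) (R T : E3 → E3),
        Measurable γ ∧ (∀ x, c ≤ γ x ∧ γ x ≤ C) ∧
        LipschitzWith L u ∧ LipschitzWith (L * N) v ∧
        (∀ x, x ∉ V → u x = 0 ∧ v x = 0 ∧ R x = 0 ∧ T x = 0) ∧
        (∀ x, |u x| ≤ ε ∧ |v x| ≤ ε) ∧ Measurable R ∧ Measurable T ∧
        (∀ x, ‖R x‖ ≤ L ∧ ‖T x‖ ≤ L * N) ∧ WDF R ∧ WDF T ∧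
        ∀ᵐ x ∂(volume.restrict V),
          ee 2 + R x = γ x • M x (ee 2 + ∇ u x) ∧
          J x + T x = γ x • M x (∇ w x + ∇ v x) := by
  obtain ⟨δ', hδ', hT⟩ := exists_tensor (δ / 2) (half_pos hδ)
  obtain ⟨c, C, L0, hc, hR⟩ := resolvesM_all δ' μ hδ' hμ
  refine ⟨c, max c C, 8 * L0 + 1, hc, ?_⟩
  intro V hV hVb M hM1 hM2 w J N hw hJ h2 hd hE hN ε hε
  have hR' : ∀ M A : E3 →L[ℝ] E3, Ell μ M → Ell δ' A → ResolvesM c (max c C) L0 M A :=
    fun M A h1 h2 => ResolvesM_mono (le_max_right _ _) (hR M A h1 h2)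
  have hcC : c ≤ max c C := le_max_left _ _
  have hS : Sys V w J := ⟨hV, hw, hJ, h2, hd⟩
  rcases eq_or_lt_of_le (show (0 : ℝ≥0) ≤ N from bot_le) with hN0 | hN0
  · -- the set is empty
    have hVe : V = ∅ := by
      refine eq_empty_of_forall_notMem fun x hx => ?_
      have h3 : ‖∇ w x‖ ≤ 0 := by
        have := hN x hx
        rwa [← hN0, NNReal.coe_zero] at this
      have h4 : ∇ w x = 0 := norm_le_zero_iff.1 h3
      have h5 := (hE x hx).1
      rw [h4] at h5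
      simp at h5
    refine ⟨fun _ => c, fun _ => 0, fun _ => 0, fun _ => 0, fun _ => 0, measurable_const,
      fun _ => ⟨le_rfl, hcC⟩, ?_, ?_, fun _ _ => ⟨rfl, rfl, rfl, rfl⟩, ?_, measurable_const,
      measurable_const, ?_, WDF.zero, WDF.zero, ?_⟩
    · exact (LipschitzWith.const 0).weaken bot_le
    · exact (LipschitzWith.const 0).weaken bot_le
    · intro x
      simp [hε.le]
    · intro x
      simp only [norm_zero]
      exact ⟨by positivity, by positivity⟩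
    · rw [hVe, Measure.restrict_empty]
      simp
  · have hN0' : (0 : ℝ) < N := hN0
    let δs : ℕ → ℝ := fun k => δ / 2 + δ / 2 * (1 / 2) ^ k
    let Ns : ℕ → ℝ := fun k => N * (2 - (1 / 2) ^ k)
    let εs : ℕ → ℝ := fun k => ε / 2 / 2 / 2 ^ k
    let ηs : ℕ → ℝ≥0 := fun k => N / 4 / 2 ^ k
    have hp0 : ∀ k : ℕ, (0 : ℝ) < (1 / 2) ^ k := fun k => by positivity
    have hp1 : ∀ k : ℕ, ((1 : ℝ) / 2) ^ (k + 1) < (1 / 2) ^ k := fun k => by
      rw [pow_succ]
      have := hp0 k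
      linarith
    have hεs0 : ∀ k, 0 < εs k := fun k => by
      simp only [εs]; positivity
    have hstep : ∀ k (Ω : Set E3) (w : E3 → ℝ) (J : E3 → E3), Ω ⊆ V → Sys Ω w J →
        (∀ x ∈ Ω, HEll (δs k) (∇ w x) (J x)) → (∀ x ∈ Ω, ‖∇ w x‖ ≤ Ns k) →
        Nonempty (StepOut c (max c C) L0 (2 * N) (δs (k + 1)) (Ns (k + 1)) (εs k) (ηs k)
          M Ω w J) := by
      intro k Ω w J hΩ hS' hE' hN'
      refine iso_step hcC (hεs0 k).le hS' (hVb.subset hΩ) fun a ha => ?_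
      refine exists_loc flatten hT hR' ?_ ?_ ?_ ?_ hS' (fun x hx => hM1 x (hΩ hx))
        (fun x hx => hM2 x (hΩ hx)) hE' hN' (hεs0 k) ?_ ha
      · have h3 := hp1 k
        have h4 : 0 < δ / 2 := half_pos hδ
        simp only [δs]
        nlinarith
      · have h4 : 0 < δ / 2 := half_pos hδ
        have h5 := mul_pos h4 (hp0 k)
        simp only [δs]
        linarith
      · have h3 := hp1 k
        simp only [Ns]
        nlinarith
      · have h5 := mul_pos hN0' (hp0 k)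
        simp only [Ns]
        push_cast
        nlinarith
      · simp only [ηs]; positivity
    obtain ⟨S⟩ := exists_sq (δ := δs) (N := Ns) (ε := εs) (η := ηs) hstep hS
      (by
        intro x hx
        have : δs 0 = δ := by simp only [δs, pow_zero]; ring
        rw [this]
        exact hE x hx)
      (by
        intro x hx
        have : Ns 0 = N := by simp only [Ns, pow_zero]; ring
        rw [this]
        exact hN x hx)
    obtain ⟨γ, u, v, R, T, h1, h2, h3, h4, h5, h6, h7, h8, h9, h10, h11, h12⟩ :=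
      S.final (N' := N) (ε' := ε) hcC hV hVb hw (fun k => (hεs0 k).le)
        (hasSum_geometric_two' (ε / 2))
        (by
          have := hasSum_geometric_two' (N : ℝ)
          convert this using 1
          ext k
          simp only [ηs]
          push_cast
          ring)
    refine ⟨γ, u, v, R, T, h1, h2, h3.weaken ?_, h4.weaken ?_, h5, h6, h7, h8, ?_, h10, h11, h12⟩
    · have : (4 : ℝ≥0) * L0 ≤ 8 * L0 := by gcongr; norm_num
      exact this.trans (le_add_of_nonneg_right (by norm_num))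
    · apply le_of_eq
      ring
    · intro x
      obtain ⟨h13, h14⟩ := h9 x
      have hL0 : (0 : ℝ) ≤ L0 := L0.2
      push_cast at h14 ⊢
      refine ⟨by linarith, ?_⟩
      have h15 : 0 ≤ (L0 : ℝ) * N := by positivity
      nlinarith

end Crest.Agent.R083.Iso
end

-- ▼ part R083/IsoAlgM
section

/-!
Row 83 (S0111), task ISO-c: the statements of `IsoIface.lean` (`exists_tensor`,
`resolvesM_all`), the latter from `resolves_all` as a hypothesis.
-/

set_option autoImplicit false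

namespace Crest.Agent.R083

open MeasureTheory Set Filter Metric
open scoped Gradient ENNReal NNReal Topology ContDiff

/-- ISO-c. -/
theorem exists_tensor (δ : ℝ) (hδ : 0 < δ) :
    ∃ δ' : ℝ, 0 < δ' ∧ ∀ p j : E3, HEll δ p j → p 2 = j 2 →
      ∃ A : E3 →L[ℝ] E3, Ell δ' A ∧ A (ee 2) = ee 2 ∧ A p = j := by
  obtain ⟨δ', h, h'⟩ := hell_tensor δ hδ
  exact ⟨δ', h, fun p j hp h2 => h' p j hp h2.symm⟩

/-- ISO-c: `resolvesM_all`, from `resolves_all`. -/
theorem resolvesM_of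
    (H : ∀ δ : ℝ, 0 < δ → ∃ (c C : ℝ) (L : ℝ≥0), 0 < c ∧
      ∀ A : E3 →L[ℝ] E3, Ell δ A → Resolves c C L A)
    (δ μ : ℝ) (hδ : 0 < δ) (hμ : 0 < μ) :
    ∃ (c C : ℝ) (L : ℝ≥0), 0 < c ∧
      ∀ M A : E3 →L[ℝ] E3, Ell μ M → Ell δ A → ResolvesM c C L M A := by
  obtain ⟨c, C, L, hc, h⟩ := resolves_metric_of H δ μ hδ hμ
  refine ⟨c, C, L, hc, fun M A hM hA U hU hUb ε B hε => ?_⟩
  obtain ⟨γ, v, R, hγ, hγb, hvR⟩ := h A M hA hM U hU hUb (ε / (|B| + 1)) (by positivity)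
  refine ⟨γ, hγ, hγb, fun g hg => ?_⟩
  obtain ⟨h1, h2, h3, h4, h5, h6, h7, h8⟩ := hvR g
  refine ⟨v g, R g, h1, h2, fun x => (h3 x).trans ?_, h4, h5, h6, h7, h8⟩
  have hg' : ‖g‖ ≤ |B| + 1 := hg.trans ((le_abs_self B).trans (by linarith))
  rw [div_mul_eq_mul_div, div_le_iff₀ (by positivity)]
  gcongr

end Crest.Agent.R083
end

-- ▼ part R083/IsoRes
section

/-!
Row 83 (S0111), ISO group: `iso` from `resolves_all` (helper771).
-/

set_option autoImplicit false

namespace Crest.Agent.R083.Iso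

open MeasureTheory Set Filter Metric
open scoped Gradient ENNReal NNReal Topology ContDiff

theorem iso_of_resolves
    (H : ∀ δ : ℝ, 0 < δ → ∃ (c C : ℝ) (L : ℝ≥0), 0 < c ∧
      ∀ A : E3 →L[ℝ] E3, Ell δ A → Resolves c C L A)
    (δ μ : ℝ) (hδ : 0 < δ) (hμ : 0 < μ) :
    ∃ (c C : ℝ) (L : ℝ≥0), 0 < c ∧
      ∀ (V : Set E3), IsOpen V → Bornology.IsBounded V →
      ∀ (M : E3 → (E3 →L[ℝ] E3)), (∀ x ∈ V, ∀ᶠ y in 𝓝 x, M y = M x) →
        (∀ x ∈ V, Ell μ (M x)) →
      ∀ (w : E3 → ℝ) (J : E3 → E3) (N : ℝ≥0), ContDiffOn ℝ ∞ w V → ContDiffOn ℝ ∞ J V →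
        (∀ x ∈ V, fderiv ℝ w x (ee 2) = J x 2) → (∀ x ∈ V, dvg J x = 0) →
        (∀ x ∈ V, HEll δ (∇ w x) (J x)) → (∀ x ∈ V, ‖∇ w x‖ ≤ N) →
      ∀ ε : ℝ, 0 < ε →
      ∃ (γ : E3 → ℝ) (u v : E3 → ℝ) (R T : E3 → E3),
        Measurable γ ∧ (∀ x, c ≤ γ x ∧ γ x ≤ C) ∧
        LipschitzWith L u ∧ LipschitzWith (L * N) v ∧
        (∀ x, x ∉ V → u x = 0 ∧ v x = 0 ∧ R x = 0 ∧ T x = 0) ∧
        (∀ x, |u x| ≤ ε ∧ |v x| ≤ ε) ∧ Measurable R ∧ Measurable T ∧
        (∀ x, ‖R x‖ ≤ L ∧ ‖T x‖ ≤ L * N) ∧ WDF R ∧ WDF T ∧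
        ∀ᵐ x ∂(volume.restrict V),
          ee 2 + R x = γ x • M x (ee 2 + ∇ u x) ∧
          J x + T x = γ x • M x (∇ w x + ∇ v x) :=
  iso_of exists_tensor (resolvesM_of H) flatten δ μ hδ hμ

end Crest.Agent.R083.Iso
end

-- ▼ part R083/ResDefs
section

/-!
Row 83 (S0111), RES group: definitions for `resolves_all`.
-/

set_option autoImplicit false

namespace Crest.Agent.R083

open MeasureTheory Set Filter
open scoped Gradient ENNReal NNReal Topology

/-- Diagonal tensor. -/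
noncomputable def diagL (a : Fin 3 → ℝ) : E3 →L[ℝ] E3 :=
  ∑ i : Fin 3, a i • (EuclideanSpace.proj i : E3 →L[ℝ] ℝ).smulRight (ee i)

/-- Exact scalar realisation data of the tensor `A` in one cell `D` (no smallness). -/
def CellData (c C : ℝ) (L : ℝ≥0) (A : E3 →L[ℝ] E3) (D : Set E3) : Prop :=
  ∃ (γ : E3 → ℝ) (v : Fin 3 → E3 → ℝ) (R : Fin 3 → E3 → E3),
    Measurable γ ∧ (∀ x, c ≤ γ x ∧ γ x ≤ C) ∧
    ∀ i, LipschitzWith L (v i) ∧ (∀ x, x ∉ D → v i x = 0) ∧
      Measurable (R i) ∧ (∀ x, ‖R i x‖ ≤ L) ∧ (∀ x, x ∉ D → R i x = 0) ∧ WDF (R i) ∧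
      ∀ᵐ x ∂(volume.restrict D), A (ee i) + R i x = γ x • (ee i + ∇ (v i) x)

/-- Conjugation of a tensor by a rotation. -/
noncomputable def rotT (O : E3 ≃ₗᵢ[ℝ] E3) (A : E3 →L[ℝ] E3) : E3 →L[ℝ] E3 :=
  (O.toContinuousLinearEquiv : E3 →L[ℝ] E3).comp
    (A.comp (O.symm.toContinuousLinearEquiv : E3 →L[ℝ] E3))

/-- Confocal oblate spheroidal coordinate: `x₀²/s + (x₁²+x₂²)/(s+1) = 1`, `s = sph x`. -/
noncomputable def sph (x : E3) : ℝ :=
  ((‖x‖ ^ 2 - 1) + √((‖x‖ ^ 2 - 1) ^ 2 + 4 * (x 0) ^ 2)) / 2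

/-- The volume function `√s (s+1)`. -/
noncomputable def Vv (s : ℝ) : ℝ := √s * (s + 1)

/-- Primitive of `1/(2 s^{3/2} (s+1))`. -/
noncomputable def Phi0 (s : ℝ) : ℝ := -(√s)⁻¹ - Real.arctan (√s)

/-- Primitive of `1/(2 s^{1/2} (s+1)^2)`. -/
noncomputable def Phi1 (s : ℝ) : ℝ := (√s / (s + 1) + Real.arctan (√s)) / 2

/-- Radial factor of the axial potential in the coat; `Ff al s1 s1 = 1`. -/
noncomputable def Ff (al s1 s : ℝ) : ℝ := 1 - al * (Phi0 s1 - Phi0 s)

/-- Radial factor of the transverse potentials in the coat; `Gf be s1 s1 = 1`. -/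
noncomputable def Gf (be s1 s : ℝ) : ℝ := 1 - be * (Phi1 s1 - Phi1 s)

/-- Radial factor of the axial flux potential `(Hf/2) (e₀ × x)`. -/
noncomputable def Hf (c0 al s1 s : ℝ) : ℝ := c0 * (Ff al s1 s + al / Vv s)






/-- The clamped spheroidal coordinate. -/
noncomputable def sgc (s0 s1 : ℝ) (x : E3) : ℝ := max s0 (min s1 (sph x))

/-- The closed spheroid. -/
def Dsph (s1 : ℝ) : Set E3 := {x | sph x ≤ s1}

/-- Strength of the coat response for the tensor entry `lam` and the coat conductivity `c0`. -/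
noncomputable def str (c0 s1 lam : ℝ) : ℝ := Vv s1 * (lam - c0) / c0

/-- Relations between the outer tensor `lam`, the coat conductivity `c0`, the core tensor `kap`
(diagonal entries; `0` is the axis of the spheroid). -/
structure Coat (s0 s1 c0 : ℝ) (lam kap : Fin 3 → ℝ) : Prop where
  hc : 0 < c0
  hl : ∀ i, c0 < lam i
  F0 : 0 < Ff (str c0 s1 (lam 0)) s1 s0
  G1 : 0 < Gf (str c0 s1 (lam 1)) s1 s0
  G2 : 0 < Gf (str c0 s1 (lam 2)) s1 s0
  k0 : kap 0 * Ff (str c0 s1 (lam 0)) s1 s0 = Hf c0 (str c0 s1 (lam 0)) s1 s0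
  k1 : kap 1 * Gf (str c0 s1 (lam 1)) s1 s0 =
    c0 * (Gf (str c0 s1 (lam 1)) s1 s0 + str c0 s1 (lam 1) / Vv s0)
  k2 : kap 2 * Gf (str c0 s1 (lam 2)) s1 s0 =
    c0 * (Gf (str c0 s1 (lam 2)) s1 s0 + str c0 s1 (lam 2) / Vv s0)

end Crest.Agent.R083
end

-- ▼ part R083/ResParam
section

/-!
Row 83 (S0111), RES group: parameters of the coated spheroids.
-/

set_option autoImplicit false

namespace Crest.Agent.R083

open MeasureTheory Set Filter
open scoped Gradient ENNReal NNReal Topology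

theorem arctan_sub_le {x y : ℝ} (h : y ≤ x) : Real.arctan x - Real.arctan y ≤ x - y := by
  have hmono : Monotone fun t : ℝ => t - Real.arctan t := by
    apply monotone_of_deriv_nonneg
    · exact differentiable_id.sub Real.differentiable_arctan
    · intro t
      have : deriv (fun t : ℝ => t - Real.arctan t) t = 1 - 1 / (1 + t ^ 2) := by
        have h1 : HasDerivAt (fun t : ℝ => t - Real.arctan t) (1 - 1 / (1 + t ^ 2)) t :=
          (hasDerivAt_id t).sub (Real.hasDerivAt_arctan t)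
        exact h1.deriv
      rw [this]
      have : 1 / (1 + t ^ 2) ≤ 1 := by
        rw [div_le_one (by positivity)]
        nlinarith [sq_nonneg t]
      linarith
  have := hmono h
  simp only at this
  linarith

/-- The elementary bounds for the primitives. -/
theorem prim_bounds {x : ℝ} (hx : 0 < x) (hx1 : x ^ 2 ≤ 1 / 2) :
    0 < Phi1 (x ^ 2) - Phi1 (x ^ 2 / 4) ∧ Phi1 (x ^ 2) - Phi1 (x ^ 2 / 4) ≤ x / 2 ∧
      1 / x - x / 2 ≤ Phi0 (x ^ 2) - Phi0 (x ^ 2 / 4) := by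
  have hs1 : √(x ^ 2) = x := Real.sqrt_sq hx.le
  have hs0 : √(x ^ 2 / 4) = x / 2 := by
    rw [show x ^ 2 / 4 = (x / 2) ^ 2 by ring]
    exact Real.sqrt_sq (by positivity)
  have ha1 : Real.arctan x - Real.arctan (x / 2) ≤ x - x / 2 := arctan_sub_le (by linarith)
  have ha0 : 0 < Real.arctan x - Real.arctan (x / 2) := by
    have := Real.arctan_strictMono (show x / 2 < x by linarith)
    linarith
  have hf : x / (x ^ 2 + 1) - x / 2 / (x ^ 2 / 4 + 1) =
      (x / 2) * (1 - x * (x / 2)) / ((x ^ 2 + 1) * (x ^ 2 / 4 + 1)) := by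
    field_simp
    ring
  have hf0 : 0 ≤ x / (x ^ 2 + 1) - x / 2 / (x ^ 2 / 4 + 1) := by
    rw [hf]
    apply div_nonneg
    · apply mul_nonneg (by positivity)
      nlinarith
    · positivity
  have hf1 : x / (x ^ 2 + 1) - x / 2 / (x ^ 2 / 4 + 1) ≤ x / 2 := by
    rw [hf, div_le_iff₀ (by positivity)]
    have h1 : 1 - x * (x / 2) ≤ 1 := by nlinarith
    have h2 : (1 : ℝ) ≤ (x ^ 2 + 1) * (x ^ 2 / 4 + 1) := by nlinarith [sq_nonneg x, sq_nonneg (x ^ 2)]
    nlinarith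
  refine ⟨?_, ?_, ?_⟩
  · simp only [Phi1, hs1, hs0]
    linarith
  · simp only [Phi1, hs1, hs0]
    linarith
  · simp only [Phi0, hs1, hs0]
    have : (x / 2)⁻¹ = 2 / x := by field_simp
    rw [this]
    have : x⁻¹ = 1 / x := by field_simp
    rw [this]
    have : 2 / x = 1 / x + 1 / x := by ring
    linarith

/-- Choice of the coat conductivity. -/
theorem solve_c {t0 l0 l1 : ℝ} (ht : 1 / 2 ≤ t0) (hl0 : 0 < l0) (h01 : l0 < l1) :
    ∃ c, 0 < c ∧ c < l0 ∧ c * (l1 - l0) = t0 * (l0 - c) * (l1 - c) ∧ l0 / 8 ≤ c := by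
  have hl1 : 0 < l1 := hl0.trans h01
  have ht0 : 0 < t0 := by linarith
  have hcont : ContinuousOn (fun c : ℝ => t0 * (l0 - c) * (l1 - c) - c * (l1 - l0))
      (Icc 0 l0) := by fun_prop
  have hiv := intermediate_value_Icc' hl0.le hcont
  have hA : 0 < l0 * (l1 - l0) := mul_pos hl0 (by linarith)
  have hB : 0 < t0 * l0 * l1 := by positivity
  have h0 : (0 : ℝ) ∈ Icc (t0 * (l0 - l0) * (l1 - l0) - l0 * (l1 - l0))
      (t0 * (l0 - 0) * (l1 - 0) - 0 * (l1 - l0)) := by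
    constructor
    · have h2 : t0 * (l0 - l0) * (l1 - l0) = 0 := by ring
      linarith
    · have h2 : t0 * (l0 - 0) * (l1 - 0) - 0 * (l1 - l0) = t0 * l0 * l1 := by ring
      rw [h2]; exact hB.le
  obtain ⟨c, hcm, hce⟩ := hiv h0
  simp only at hce
  have hc0 : 0 < c := by
    rcases hcm.1.eq_or_lt with h | h
    · exfalso
      rw [← h] at hce
      have : t0 * (l0 - 0) * (l1 - 0) - 0 * (l1 - l0) = t0 * l0 * l1 := by ring
      linarith
    · exact h
  refine ⟨c, hc0, ?_, by linarith, ?_⟩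
  · rcases hcm.2.eq_or_lt with h | h
    · exfalso
      rw [h] at hce
      have : t0 * (l0 - l0) * (l1 - l0) = 0 := by ring
      linarith
    · exact h
  · by_contra hcon
    rw [not_le] at hcon
    have ha : l0 / 2 ≤ l0 - c := by linarith
    have hb' : l1 / 2 ≤ l1 - c := by linarith
    have h2 : 1 / 2 * (l0 / 2) * (l1 / 2) ≤ t0 * (l0 - c) * (l1 - c) :=
      mul_le_mul (mul_le_mul ht ha (by positivity) ht0.le) hb' (by positivity)
        (mul_nonneg ht0.le (by linarith))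
    have h3 : c * (l1 - l0) ≤ c * l1 := mul_le_mul_of_nonneg_left (by linarith) hc0.le
    have h4 : c * l1 < l0 / 8 * l1 := mul_lt_mul_of_pos_right hcon hl1
    have h5 : 1 / 2 * (l0 / 2) * (l1 / 2) = l0 / 8 * l1 := by ring
    linarith

/-- The algebraic relation behind the response coefficients. -/
theorem resp_rel {V0 V1 c l I : ℝ} (hV0 : 0 < V0) (hV1 : 0 < V1) (hc : 0 < c) (hl : c < l) :
    1 - (V1 * (l - c) / c) * I =
      (V1 * (l - c) / c) * (V0 * (c / (l - c) / V1 - I)) / V0 := by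
  have hne : l - c ≠ 0 := by linarith
  field_simp

theorem resp_kap {c S a V0 : ℝ} (hV0 : 0 < V0) (ha : 0 < a) :
    c * (1 + 1 / a) * (S * a / V0) = c * (S * a / V0 + S / V0) := by
  field_simp

set_option maxHeartbeats 1000000 in
/-- Existence of the coat and core for a given ordered triple. -/
theorem level_param (δ : ℝ) (hδ : 0 < δ) (hδ1 : δ ≤ 1) :
    ∃ s0 s1 δ' : ℝ, 0 < s0 ∧ s0 < s1 ∧ 0 < δ' ∧ δ' ≤ 1 ∧ ∀ lam : Fin 3 → ℝ,
      (∀ i, δ ≤ lam i ∧ lam i ≤ δ⁻¹) → lam 0 < lam 1 → lam 0 ≤ lam 2 → lam 2 ≤ lam 1 →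
      ∃ (c0 : ℝ) (kap : Fin 3 → ℝ), δ' ≤ c0 ∧ c0 ≤ δ'⁻¹ ∧ (∀ i, δ' ≤ kap i ∧ kap i ≤ δ'⁻¹) ∧
        Coat s0 s1 c0 lam kap ∧ kap 0 = kap 1 ∧ kap 2 ≤ kap 1 ∧
        (lam 2 = lam 1 → kap 2 = kap 1) := by
  set x : ℝ := δ / 4 with hx
  have hx0 : 0 < x := by positivity
  have hxδ : x ^ 2 = δ ^ 2 / 16 := by rw [hx]; ring
  have hδ2 : δ ^ 2 ≤ 1 := pow_le_one₀ hδ.le hδ1
  have hx1 : x ^ 2 ≤ 1 / 2 := by rw [hxδ]; linarith
  obtain ⟨hq0, hq1, hp⟩ := prim_bounds hx0 hx1
  set Iq := Phi1 (x ^ 2) - Phi1 (x ^ 2 / 4) with hIq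
  set Ip := Phi0 (x ^ 2) - Phi0 (x ^ 2 / 4) with hIp
  have hs1 : √(x ^ 2) = x := Real.sqrt_sq hx0.le
  have hs0 : √(x ^ 2 / 4) = x / 2 := by
    rw [show x ^ 2 / 4 = (x / 2) ^ 2 by ring]
    exact Real.sqrt_sq (by positivity)
  have hV1 : Vv (x ^ 2) = x * (x ^ 2 + 1) := by simp only [Vv, hs1]
  have hV0 : Vv (x ^ 2 / 4) = x / 2 * (x ^ 2 / 4 + 1) := by simp only [Vv, hs0]
  have hV1p : 0 < Vv (x ^ 2) := by rw [hV1]; positivity
  have hV0p : 0 < Vv (x ^ 2 / 4) := by rw [hV0]; positivity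
  have hVV : Vv (x ^ 2) ≤ 4 * Vv (x ^ 2 / 4) := by
    rw [hV1, hV0]
    have h3 : x * x ^ 2 ≤ x * (1 / 2) := mul_le_mul_of_nonneg_left hx1 hx0.le
    linarith [h3, hx0]
  -- t0 and tau
  have ht : Vv (x ^ 2) * Iq ≤ x ^ 2 := by
    rw [hV1]
    have : x * (x ^ 2 + 1) * Iq ≤ x * (x ^ 2 + 1) * (x / 2) :=
      mul_le_mul_of_nonneg_left hq1 (by positivity)
    have h6 : x * (x ^ 2 + 1) * (x / 2) = x ^ 2 * ((x ^ 2 + 1) / 2) := by ring
    have h7 : x ^ 2 * ((x ^ 2 + 1) / 2) ≤ x ^ 2 * 1 :=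
      mul_le_mul_of_nonneg_left (by linarith) (by positivity)
    linarith
  have hpI : 1 ≤ Vv (x ^ 2) * Ip := by
    rw [hV1]
    have h1 : x * (x ^ 2 + 1) * (1 / x - x / 2) ≤ x * (x ^ 2 + 1) * Ip :=
      mul_le_mul_of_nonneg_left hp (by positivity)
    have h2 : x * (x ^ 2 + 1) * (1 / x - x / 2) = (x ^ 2 + 1) * (1 - x ^ 2 / 2) := by
      field_simp
    rw [h2] at h1
    have h6 : (x ^ 2 + 1) * (1 - x ^ 2 / 2) = 1 + x ^ 2 / 2 * (1 - x ^ 2) := by ring
    have h7 : 0 ≤ x ^ 2 / 2 * (1 - x ^ 2) := mul_nonneg (by positivity) (by linarith)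
    linarith
  set t0 := Vv (x ^ 2) * (Ip - Iq) with ht0
  have ht0' : 1 / 2 ≤ t0 := by
    rw [ht0, mul_sub]
    linarith
  have hx2 : 0 < x ^ 2 := by positivity
  refine ⟨x ^ 2 / 4, x ^ 2, δ ^ 3 / 65, by positivity, by linarith,
    by positivity, ?_, ?_⟩
  · have : δ ^ 3 ≤ 1 := pow_le_one₀ hδ.le hδ1
    linarith
  intro lam hb h01 h02 h21
  have hl0 : 0 < lam 0 := lt_of_lt_of_le hδ (hb 0).1
  have hl1 : 0 < lam 1 := lt_of_lt_of_le hδ (hb 1).1
  -- choose c
  obtain ⟨c, hc0, hcl, hceq, hcl8⟩ := solve_c ht0' hl0 h01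
  have hclow : δ / 8 ≤ c := by linarith [(hb 0).1]
  have hlc : ∀ i, c < lam i := by
    intro i
    fin_cases i
    · exact hcl
    · exact hcl.trans h01
    · exact lt_of_lt_of_le hcl h02
  -- strengths
  set V1 := Vv (x ^ 2) with hV1d
  set V0 := Vv (x ^ 2 / 4) with hV0d
  have hstr : ∀ i, str c (x ^ 2) (lam i) = V1 * (lam i - c) / c := fun i => rfl
  have hstrp : ∀ i, 0 < str c (x ^ 2) (lam i) := fun i => by
    rw [hstr]; exact div_pos (mul_pos hV1p (by linarith [hlc i])) hc0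
  -- a-values
  set a1 := V0 * (c / (lam 1 - c) / V1 - Iq) with ha1
  set a2 := V0 * (c / (lam 2 - c) / V1 - Iq) with ha2
  have hb1 : δ ^ 2 / 8 ≤ c / (lam 1 - c) := by
    rw [le_div_iff₀ (by linarith [hlc 1])]
    have h1 : lam 1 - c ≤ δ⁻¹ := by linarith [(hb 1).2]
    have h2 : δ ^ 2 / 8 * (lam 1 - c) ≤ δ ^ 2 / 8 * δ⁻¹ :=
      mul_le_mul_of_nonneg_left h1 (by positivity)
    have h3 : δ ^ 2 / 8 * δ⁻¹ = δ / 8 := by field_simp
    linarith
  have ha1low : V0 / V1 * (δ ^ 2 / 16) ≤ a1 := by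
    have h1 : a1 = V0 / V1 * (c / (lam 1 - c) - V1 * Iq) := by
      rw [ha1]; field_simp
    rw [h1]
    apply mul_le_mul_of_nonneg_left _ (by positivity)
    rw [hxδ] at ht
    linarith
  have hV01 : (1 : ℝ) / 4 ≤ V0 / V1 := by
    rw [div_le_div_iff₀ (by norm_num) hV1p]
    linarith
  have ha1low' : δ ^ 2 / 64 ≤ a1 := by
    have : 1 / 4 * (δ ^ 2 / 16) ≤ V0 / V1 * (δ ^ 2 / 16) :=
      mul_le_mul_of_nonneg_right hV01 (by positivity)
    linarith
  have ha1p : 0 < a1 := lt_of_lt_of_le (by positivity) ha1low'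
  have ha12 : a1 ≤ a2 := by
    rw [ha1, ha2]
    apply mul_le_mul_of_nonneg_left _ hV0p.le
    have : c / (lam 1 - c) ≤ c / (lam 2 - c) :=
      div_le_div_of_nonneg_left hc0.le (by linarith [hlc 2]) (by linarith)
    have := div_le_div_of_nonneg_right this hV1p.le
    linarith
  have ha2p : 0 < a2 := lt_of_lt_of_le ha1p ha12
  have ha0 : V0 * (c / (lam 0 - c) / V1 - Ip) = a1 := by
    have hne0 : lam 0 - c ≠ 0 := by linarith [hlc 0]
    have hne1 : lam 1 - c ≠ 0 := by linarith [hlc 1]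
    have h1 : c / (lam 0 - c) - c / (lam 1 - c) = t0 := by
      rw [div_sub_div _ _ hne0 hne1, div_eq_iff (mul_ne_zero hne0 hne1)]
      linarith
    rw [ha1, ht0] at *
    have h2 : c / (lam 0 - c) = c / (lam 1 - c) + V1 * (Ip - Iq) := by linarith
    rw [h2]
    field_simp
    ring
  -- general relation: `1 - al * I = al * a / V0`
  have hrel : ∀ (l I : ℝ), c < l → 1 - (V1 * (l - c) / c) * I =
      (V1 * (l - c) / c) * (V0 * (c / (l - c) / V1 - I)) / V0 :=
    fun l I hl => resp_rel hV0p hV1p hc0 hl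
  have hF0 : Ff (str c (x ^ 2) (lam 0)) (x ^ 2) (x ^ 2 / 4) =
      str c (x ^ 2) (lam 0) * a1 / V0 := by
    simp only [Ff]
    rw [← hIp, hstr, hrel _ _ (hlc 0), ha0]
  have hG1 : Gf (str c (x ^ 2) (lam 1)) (x ^ 2) (x ^ 2 / 4) =
      str c (x ^ 2) (lam 1) * a1 / V0 := by
    simp only [Gf]
    rw [← hIq, hstr, hrel _ _ (hlc 1)]
  have hG2 : Gf (str c (x ^ 2) (lam 2)) (x ^ 2) (x ^ 2 / 4) =
      str c (x ^ 2) (lam 2) * a2 / V0 := by
    simp only [Gf]
    rw [← hIq, hstr, hrel _ _ (hlc 2)]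
  have hkrel : ∀ (S a : ℝ), 0 < S → 0 < a →
      c * (1 + 1 / a) * (S * a / V0) = c * (S * a / V0 + S / V0) :=
    fun S a _ ha => resp_kap hV0p ha
  have hkb : ∀ a, δ ^ 2 / 64 ≤ a → δ ^ 3 / 65 ≤ c * (1 + 1 / a) ∧
      c * (1 + 1 / a) ≤ (δ ^ 3 / 65)⁻¹ := by
    intro a ha
    have hap : 0 < a := lt_of_lt_of_le (by positivity) ha
    constructor
    · have h1 : c ≤ c * (1 + 1 / a) := by
        have : 0 ≤ c * (1 / a) := by positivity
        linarith
      have h2 : δ ^ 3 / 65 ≤ δ / 8 := by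
        have : δ ^ 3 ≤ δ := by
          calc δ ^ 3 = δ * δ ^ 2 := by ring
            _ ≤ δ * 1 := mul_le_mul_of_nonneg_left (pow_le_one₀ hδ.le hδ1) hδ.le
            _ = δ := mul_one _
        linarith
      linarith
    · have h1 : 1 / a ≤ 64 / δ ^ 2 := by
        rw [div_le_div_iff₀ hap (by positivity)]
        linarith
      have h2 : c ≤ δ⁻¹ := by linarith [hlc 0, (hb 0).2]
      have h3 : c * (1 + 1 / a) ≤ δ⁻¹ * (1 + 64 / δ ^ 2) :=
        mul_le_mul h2 (by linarith) (by positivity) (by positivity)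
      have h4 : δ⁻¹ * (1 + 64 / δ ^ 2) ≤ (δ ^ 3 / 65)⁻¹ := by
        have : δ⁻¹ * (1 + 64 / δ ^ 2) = (δ ^ 2 + 64) / δ ^ 3 := by field_simp
        rw [this, inv_div]
        apply div_le_div_of_nonneg_right _ (by positivity)
        linarith
      linarith
  have hcb : δ ^ 3 / 65 ≤ c ∧ c ≤ (δ ^ 3 / 65)⁻¹ := by
    constructor
    · have : δ ^ 3 ≤ δ := by
        calc δ ^ 3 = δ * δ ^ 2 := by ring
          _ ≤ δ * 1 := mul_le_mul_of_nonneg_left (pow_le_one₀ hδ.le hδ1) hδ.le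
          _ = δ := mul_one _
      linarith
    · have h2 : c ≤ δ⁻¹ := by linarith [hlc 0, (hb 0).2]
      have h3 : δ⁻¹ ≤ (δ ^ 3 / 65)⁻¹ := by
        apply inv_anti₀ (by positivity)
        have : δ ^ 3 ≤ δ := by
          calc δ ^ 3 = δ * δ ^ 2 := by ring
            _ ≤ δ * 1 := mul_le_mul_of_nonneg_left (pow_le_one₀ hδ.le hδ1) hδ.le
            _ = δ := mul_one _
        linarith
      linarith
  refine ⟨c, ![c * (1 + 1 / a1), c * (1 + 1 / a1), c * (1 + 1 / a2)], hcb.1, hcb.2, ?_, ?_,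
    rfl, ?_, ?_⟩
  · intro i
    fin_cases i
    · exact hkb a1 ha1low'
    · exact hkb a1 ha1low'
    · exact hkb a2 (ha1low'.trans ha12)
  · refine ⟨hc0, hlc, ?_, ?_, ?_, ?_, ?_, ?_⟩
    · rw [hF0]; exact div_pos (mul_pos (hstrp 0) ha1p) hV0p
    · rw [hG1]; exact div_pos (mul_pos (hstrp 1) ha1p) hV0p
    · rw [hG2]; exact div_pos (mul_pos (hstrp 2) ha2p) hV0p
    · simp only [Hf]
      rw [hF0]
      exact hkrel _ _ (hstrp 0) ha1p
    · rw [hG1]
      exact hkrel _ _ (hstrp 1) ha1p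
    · rw [hG2]
      exact hkrel _ _ (hstrp 2) ha2p
  · show c * (1 + 1 / a2) ≤ c * (1 + 1 / a1)
    apply mul_le_mul_of_nonneg_left _ hc0.le
    have := one_div_le_one_div_of_le ha1p ha12
    linarith
  · intro h
    show c * (1 + 1 / a2) = c * (1 + 1 / a1)
    have : a2 = a1 := by rw [ha2, ha1, h]
    rw [this]

end Crest.Agent.R083
end

-- ▼ part R083/Fill
section

/-!
Row 83, RES-b: Vitali filling and rotation invariance.
-/

set_option autoImplicit false

namespace Crest.Agent.R083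

open MeasureTheory Set Filter
open scoped Gradient ENNReal NNReal Topology

theorem measurable_glue {ι β : Type*} [Countable ι] [MeasurableSpace β] (B : ι → Set E3)
    (hB : ∀ i, MeasurableSet (B i)) (f : ι → E3 → β) (hf : ∀ i, Measurable (f i)) (g : E3 → β)
    (hg : Measurable g) (F : E3 → β) (hF1 : ∀ i, ∀ x ∈ B i, F x = f i x)
    (hF2 : ∀ x, (∀ i, x ∉ B i) → F x = g x) : Measurable F := by
  intro S hS
  have h : F ⁻¹' S = (⋃ i, (B i ∩ f i ⁻¹' S)) ∪ ((⋃ i, B i)ᶜ ∩ g ⁻¹' S) := by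
    ext x
    simp only [mem_preimage, mem_union, mem_iUnion, mem_inter_iff, mem_compl_iff, not_exists]
    constructor
    · intro hx
      by_cases h : ∃ i, x ∈ B i
      · obtain ⟨i, hi⟩ := h
        exact Or.inl ⟨i, hi, hF1 i x hi ▸ hx⟩
      · push Not at h
        exact Or.inr ⟨h, hF2 x h ▸ hx⟩
    · rintro (⟨i, hi, hx⟩ | ⟨h, hx⟩)
      · rw [hF1 i x hi]; exact hx
      · rw [hF2 x h]; exact hx
  rw [h]
  exact (MeasurableSet.iUnion fun i => (hB i).inter (hf i hS)).union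
    ((MeasurableSet.iUnion hB).compl.inter (hg hS))

/-- the affine homeomorphism `x ↦ s⁻¹ (x - a)` -/
noncomputable def sclH (a : E3) (s : ℝ) (hs : s ≠ 0) : E3 ≃ₜ E3 :=
  (Homeomorph.subRight a).trans (Homeomorph.smulOfNeZero s⁻¹ (inv_ne_zero hs))


theorem volume_preimage_scl (a : E3) {s : ℝ} (hs : 0 < s) (S : Set E3) :
    volume ((fun x : E3 => s⁻¹ • (x - a)) ⁻¹' S) = ENNReal.ofReal (s ^ 3) * volume S := by
  have h1 : (fun x : E3 => s⁻¹ • (x - a)) ⁻¹' S
      = (fun x : E3 => x + (-a)) ⁻¹' ((fun x : E3 => s⁻¹ • x) ⁻¹' S) := by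
    ext x
    simp only [mem_preimage, sub_eq_add_neg]
  rw [h1, measure_preimage_add_right, Measure.addHaar_preimage_smul _ (inv_ne_zero hs.ne')]
  congr 2
  rw [show Module.finrank ℝ E3 = 3 by simp]
  rw [abs_of_pos (by positivity)]
  simp

/-- Vitali filling: exact data in one compact cell `D` give `Resolves`. -/
theorem fill_core (c C : ℝ) (L : ℝ≥0) (A : E3 →L[ℝ] E3) (D : Set E3) (hDc : IsCompact D)
    (hDi : (interior D).Nonempty) (hDf : volume (frontier D) = 0)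
    (h : ∃ (γ : E3 → ℝ) (v : Fin 3 → E3 → ℝ) (R : Fin 3 → E3 → E3),
      Measurable γ ∧ (∀ x, c ≤ γ x ∧ γ x ≤ C) ∧
      ∀ i, LipschitzWith L (v i) ∧ (∀ x, x ∉ D → v i x = 0) ∧
        Measurable (R i) ∧ (∀ x, ‖R i x‖ ≤ L) ∧ (∀ x, x ∉ D → R i x = 0) ∧ WDF (R i) ∧
        ∀ᵐ x ∂(volume.restrict D), A (ee i) + R i x = γ x • (ee i + ∇ (v i) x)) :
    Resolves c C (2 * L) A := by
  classical
  obtain ⟨γ, v, R, hγm, hγb, hvR⟩ := h
  intro U hU hUb ε hε
  obtain ⟨ρ, hρ, hDρ⟩ : ∃ ρ : ℝ, 0 < ρ ∧ D ⊆ Metric.closedBall 0 ρ :=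
    hDc.isBounded.subset_closedBall_lt 0 0
  -- bound on `v`
  obtain ⟨M, hM, hvM⟩ : ∃ M : ℝ, 0 < M ∧ ∀ i x, |v i x| ≤ M := by
    have h1 : ∀ i, ∃ M : ℝ, ∀ x ∈ D, ‖v i x‖ ≤ M := fun i =>
      hDc.exists_bound_of_continuousOn (hvR i).1.continuous.continuousOn
    choose M hM using h1
    refine ⟨1 + ∑ i, |M i|, by positivity, fun i x => ?_⟩
    by_cases hx : x ∈ D
    · have h2 := hM i x hx
      rw [Real.norm_eq_abs] at h2
      have h3 : |M i| ≤ ∑ i, |M i| :=
        Finset.single_le_sum (f := fun i => |M i|) (fun i _ => abs_nonneg _) (Finset.mem_univ i)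
      linarith [le_abs_self (M i)]
    · rw [(hvR i).2.1 x hx, abs_zero]
      positivity
  set T : E3 × ℝ → E3 → E3 := fun a x => a.2⁻¹ • (x - a.1) with hT
  have hTc : ∀ a, Continuous (T a) := fun a => by
    simp only [hT]; fun_prop
  set B : E3 × ℝ → Set E3 := fun a => T a ⁻¹' D with hB
  set t : Set (E3 × ℝ) :=
    {a | 0 < a.2 ∧ a.2 * M ≤ ε ∧ Metric.closedBall a.1 (a.2 * ρ) ⊆ U} with ht
  have hBcl : ∀ a, IsClosed (B a) := fun a => hDc.isClosed.preimage (hTc a)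
  have hBball : ∀ a ∈ t, B a ⊆ Metric.closedBall a.1 (a.2 * ρ) := by
    intro a ha x hx
    have h1 := hDρ hx
    rw [mem_closedBall_zero_iff, hT] at h1
    simp only [norm_smul, norm_inv, Real.norm_eq_abs, abs_of_pos ha.1] at h1
    rw [mem_closedBall_iff_norm]
    have h2 := ha.1
    field_simp at h1
    linarith
  have hDpos : volume D ≠ 0 := by
    intro h0
    have h1 : volume (interior D) = 0 := measure_mono_null interior_subset h0
    exact hDi.ne_empty ((isOpen_interior.measure_eq_zero_iff volume).1 h1)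
  have hDfin : volume D ≠ ∞ := hDc.measure_lt_top.ne
  have hvolB : ∀ a ∈ t, ∀ S : Set E3, volume (T a ⁻¹' S) = ENNReal.ofReal (a.2 ^ 3) * volume S :=
    fun a ha S => volume_preimage_scl a.1 ha.1 S
  obtain ⟨u, hut, huc, hud, huU⟩ := Vitali.exists_disjoint_covering_ae (volume : Measure E3) U t
    (volume (Metric.closedBall (0 : E3) (3 * ρ)) / volume D).toNNReal (fun a => a.2 * ρ)
    (fun a => a.1) B hBball (by
      intro a ha
      have h1 : Metric.closedBall a.1 (3 * (a.2 * ρ)) = T a ⁻¹' Metric.closedBall 0 (3 * ρ) := by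
        ext x
        have h2 := ha.1
        rw [mem_preimage, mem_closedBall_zero_iff, mem_closedBall_iff_norm, hT]
        simp only [norm_smul, norm_inv, Real.norm_eq_abs, abs_of_pos ha.1]
        rw [inv_mul_le_iff₀ h2]
        constructor <;> intro h <;> linarith
      rw [h1, hvolB a ha, hvolB a ha]
      rw [ENNReal.coe_toNNReal]
      · rw [mul_left_comm, ENNReal.div_mul_cancel hDpos hDfin]
      · exact ENNReal.div_ne_top measure_closedBall_lt_top.ne hDpos)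
    (by
      intro a ha
      obtain ⟨y, hy⟩ := hDi
      have h1 : (fun x => T a x) = sclH a.1 a.2 ha.1.ne' := rfl
      have h2 : B a = (sclH a.1 a.2 ha.1.ne') ⁻¹' D := rfl
      rw [h2, ← Homeomorph.preimage_interior]
      exact ⟨(sclH a.1 a.2 ha.1.ne').symm y, by
        rw [mem_preimage, Homeomorph.apply_symm_apply]; exact hy⟩)
    (fun a _ => hBcl a)
    (by
      intro x hx ε' hε'
      obtain ⟨r, hr, hrU⟩ := Metric.isOpen_iff.1 hU x hx
      refine ⟨(x, min (ε / M) (min (ε' / ρ) (r / 2 / ρ))), ⟨?_, ?_, ?_⟩, ?_, rfl⟩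
      · have : 0 < ε / M := by positivity
        have : 0 < ε' / ρ := by positivity
        have : 0 < r / 2 / ρ := by positivity
        simp only [lt_min_iff]
        refine ⟨by positivity, by positivity, by positivity⟩
      · have h1 : min (ε / M) (min (ε' / ρ) (r / 2 / ρ)) ≤ ε / M := min_le_left _ _
        calc _ ≤ ε / M * M := mul_le_mul_of_nonneg_right h1 hM.le
          _ = ε := by field_simp
      · refine (Metric.closedBall_subset_ball ?_).trans hrU
        have h1 : min (ε / M) (min (ε' / ρ) (r / 2 / ρ)) ≤ r / 2 / ρ :=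
          (min_le_right _ _).trans (min_le_right _ _)
        calc _ ≤ r / 2 / ρ * ρ := mul_le_mul_of_nonneg_right h1 hρ.le
          _ = r / 2 := by field_simp
          _ < r := by linarith
      · have h1 : min (ε / M) (min (ε' / ρ) (r / 2 / ρ)) ≤ ε' / ρ :=
          (min_le_right _ _).trans (min_le_left _ _)
        calc _ ≤ ε' / ρ * ρ := mul_le_mul_of_nonneg_right h1 hρ.le
          _ = ε' := by field_simp)
  have : Countable u := huc.to_subtype
  have hdis : Pairwise (Function.onFun Disjoint fun a : u => B a.1) := by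
    intro a b hab
    exact hud a.2 b.2 (fun h => hab (Subtype.ext h))
  have hBU : ∀ a : u, B a.1 ⊆ U := fun a => (hBball a.1 (hut a.2)).trans (hut a.2).2.2
  have hpos : ∀ a : u, 0 < a.1.2 := fun a => (hut a.2).1
  -- the glued objects
  have hnot : ∀ (a b : u), a ≠ b → ∀ x ∈ B a.1, x ∉ B b.1 := fun a b hab x hxa hxb =>
    Set.disjoint_left.1 (hdis hab) hxa hxb
  let γ' : E3 → ℝ := fun x => if h : ∃ a : u, x ∈ B a.1 then γ (T h.choose.1 x) else γ 0
  let v' : Fin 3 → E3 → ℝ := fun i x => ∑' a : u, a.1.2 * v i (T a.1 x)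
  let R' : Fin 3 → E3 → E3 := fun i x => ∑' a : u, R i (T a.1 x)
  have hγ1 : ∀ a : u, ∀ x ∈ B a.1, γ' x = γ (T a.1 x) := by
    intro a x hx
    have h : ∃ a : u, x ∈ B a.1 := ⟨a, hx⟩
    have h2 : h.choose = a := by
      by_contra hne
      exact hnot _ _ hne x h.choose_spec hx
    simp only [γ', dif_pos h, h2]
  have hγ2 : ∀ x, (∀ a : u, x ∉ B a.1) → γ' x = γ 0 := by
    intro x hx
    have h : ¬ ∃ a : u, x ∈ B a.1 := by push Not; exact hx
    simp only [γ', dif_neg h]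
  have hv0 : ∀ i (a : u) x, x ∉ B a.1 → a.1.2 * v i (T a.1 x) = 0 := by
    intro i a x hx
    rw [(hvR i).2.1 _ hx, mul_zero]
  have hR0 : ∀ i (a : u) x, x ∉ B a.1 → R i (T a.1 x) = 0 := fun i a x hx =>
    (hvR i).2.2.2.2.1 _ hx
  have hv1 : ∀ i (a : u), ∀ x ∈ B a.1, v' i x = a.1.2 * v i (T a.1 x) := fun i a x hx =>
    tsum_eq_of_mem (fun (a : u) x => a.1.2 * v i (T a.1 x)) (fun a => B a.1) hdis (hv0 i) hx
  have hv2 : ∀ i x, (∀ a : u, x ∉ B a.1) → v' i x = 0 := fun i x hx =>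
    tsum_eq_zero_of_notMem (fun (a : u) x => a.1.2 * v i (T a.1 x)) (fun a => B a.1) (hv0 i) hx
  have hR1 : ∀ i (a : u), ∀ x ∈ B a.1, R' i x = R i (T a.1 x) := fun i a x hx =>
    tsum_eq_single a fun b hb => hR0 i b x (hnot a b hb.symm x hx)
  have hR2 : ∀ i x, (∀ a : u, x ∉ B a.1) → R' i x = 0 := by
    intro i x hx
    have : (fun a : u => R i (T a.1 x)) = fun _ => 0 := funext fun a => hR0 i a x (hx a)
    simp only [R', this, tsum_zero]
  have hRL : ∀ i x, ‖R' i x‖ ≤ L := by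
    intro i x
    by_cases hx : ∃ a : u, x ∈ B a.1
    · obtain ⟨a, ha⟩ := hx
      rw [hR1 i a x ha]
      exact (hvR i).2.2.2.1 _
    · push Not at hx
      rw [hR2 i x hx, norm_zero]
      exact L.2
  refine ⟨γ', v', R', ?_, ?_, fun i => ⟨?_, ?_, ?_, ?_, ?_, ?_, ?_, ?_⟩⟩
  · exact measurable_glue (fun a : u => B a.1) (fun a => (hBcl a.1).measurableSet)
      (fun a x => γ (T a.1 x)) (fun a => hγm.comp (hTc a.1).measurable) (fun _ => γ 0)
      measurable_const γ' hγ1 hγ2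
  · intro x
    by_cases hx : ∃ a : u, x ∈ B a.1
    · obtain ⟨a, ha⟩ := hx
      rw [hγ1 a x ha]
      exact hγb _
    · push Not at hx
      rw [hγ2 x hx]
      exact hγb _
  · refine lip_tsum (fun (a : u) x => a.1.2 * v i (T a.1 x)) L ?_ (fun a => B a.1) hdis (hv0 i)
    intro a
    refine LipschitzWith.of_dist_le_mul fun x y => ?_
    have h1 := (hvR i).1.dist_le_mul (T a.1 x) (T a.1 y)
    have h2 : dist (T a.1 x) (T a.1 y) = a.1.2⁻¹ * dist x y := by
      simp only [hT]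
      rw [dist_smul₀, dist_sub_right, Real.norm_eq_abs, abs_of_pos (inv_pos.2 (hpos a))]
    rw [Real.dist_eq, ← mul_sub, abs_mul, abs_of_pos (hpos a), ← Real.dist_eq]
    rw [h2] at h1
    have h3 := hpos a
    calc a.1.2 * dist (v i (T a.1 x)) (v i (T a.1 y))
        ≤ a.1.2 * (L * (a.1.2⁻¹ * dist x y)) := mul_le_mul_of_nonneg_left h1 h3.le
      _ = L * dist x y := by field_simp
  · intro x hx
    exact hv2 i x fun a ha => hx (hBU a ha)
  · intro x
    by_cases hx : ∃ a : u, x ∈ B a.1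
    · obtain ⟨a, ha⟩ := hx
      rw [hv1 i a x ha, abs_mul, abs_of_pos (hpos a)]
      calc a.1.2 * |v i (T a.1 x)| ≤ a.1.2 * M :=
            mul_le_mul_of_nonneg_left (hvM i _) (hpos a).le
        _ ≤ ε := (hut a.2).2.1
    · push Not at hx
      rw [hv2 i x hx, abs_zero]
      exact hε.le
  · exact measurable_glue (fun a : u => B a.1) (fun a => (hBcl a.1).measurableSet)
      (fun a x => R i (T a.1 x)) (fun a => (hvR i).2.2.1.comp (hTc a.1).measurable) (fun _ => 0)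
      measurable_const (R' i) (hR1 i) (hR2 i)
  · intro x
    refine (hRL i x).trans ?_
    push_cast
    linarith [L.2]
  · intro x hx
    exact hR2 i x fun a ha => hx (hBU a ha)
  · refine WDF.tsum (fun (a : u) x => R i (T a.1 x))
      (fun a => (hvR i).2.2.2.2.2.1.scale a.1.1 (hpos a)) ?_
    have hsum : ∑' a : u, volume (B a.1) ≠ ∞ := by
      rw [← measure_iUnion hdis (fun a => (hBcl a.1).measurableSet)]
      refine ((measure_mono (iUnion_subset hBU)).trans_lt ?_).ne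
      exact hUb.measure_lt_top
    have hs1 : Summable fun a : u => (volume (B a.1)).toReal := ENNReal.summable_toReal hsum
    refine Summable.of_nonneg_of_le (fun a => integral_nonneg fun x => norm_nonneg _) ?_
      (hs1.mul_left (L : ℝ))
    intro a
    have h1 : ∫ x, ‖R i (T a.1 x)‖ = ∫ x in B a.1, ‖R i (T a.1 x)‖ := by
      rw [setIntegral_eq_integral_of_forall_compl_eq_zero]
      intro x hx
      rw [hR0 i a x hx, norm_zero]
    have hBfin : volume (B a.1) < ∞ :=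
      (measure_mono (hBU a)).trans_lt hUb.measure_lt_top
    rw [h1]
    have h2 := norm_setIntegral_le_of_norm_le_const (f := fun x => ‖R i (T a.1 x)‖) (C := (L : ℝ))
      hBfin (fun x _ => by
        rw [norm_norm]; exact (hvR i).2.2.2.1 _)
    rw [Real.norm_eq_abs, abs_of_nonneg (integral_nonneg fun x => norm_nonneg _)] at h2
    exact h2
  · -- the pointwise relation
    have hA1 : ∀ᵐ x ∂(volume : Measure E3), x ∈ U → ∃ a : u, x ∈ B a.1 := by
      have h1 : ∀ᵐ x ∂(volume : Measure E3), x ∉ U \ ⋃ a ∈ u, B a := measure_eq_zero_iff_ae_notMem.1 huU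
      filter_upwards [h1] with x hx hxU
      by_contra hne
      apply hx
      refine ⟨hxU, ?_⟩
      simp only [mem_iUnion, not_exists]
      intro a ha hxa
      exact hne ⟨⟨a, ha⟩, hxa⟩
    have hA2 : ∀ᵐ x ∂(volume : Measure E3), ∀ a : u, x ∈ B a.1 → x ∈ interior (B a.1) := by
      rw [ae_all_iff]
      intro a
      have h1 : volume (T a.1 ⁻¹' frontier D) = 0 := by
        rw [hvolB a.1 (hut a.2), hDf, mul_zero]
      have h2 : ∀ᵐ x ∂(volume : Measure E3), x ∉ T a.1 ⁻¹' frontier D :=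
        measure_eq_zero_iff_ae_notMem.1 h1
      filter_upwards [h2] with x hx hxB
      have h3 : B a.1 = (sclH a.1.1 a.1.2 (hpos a).ne') ⁻¹' D := rfl
      rw [h3, ← Homeomorph.preimage_interior]
      by_contra hne
      apply hx
      exact ⟨subset_closure hxB, hne⟩
    have hA3 : ∀ᵐ x ∂(volume : Measure E3), ∀ a : u, x ∈ B a.1 →
        A (ee i) + R i (T a.1 x) = γ (T a.1 x) • (ee i + ∇ (v i) (T a.1 x)) := by
      rw [ae_all_iff]
      intro a
      have h1 := (hvR i).2.2.2.2.2.2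
      rw [ae_restrict_iff' hDc.measurableSet, ae_iff] at h1
      have h2 : volume (T a.1 ⁻¹' {x | ¬ (x ∈ D → A (ee i) + R i x = γ x • (ee i + ∇ (v i) x))})
          = 0 := by
        rw [hvolB a.1 (hut a.2), h1, mul_zero]
      have h3 := measure_eq_zero_iff_ae_notMem.1 h2
      filter_upwards [h3] with x hx hxB
      simp only [mem_preimage, Set.mem_ofPred_eq, not_not] at hx
      exact hx hxB
    rw [ae_restrict_iff' hU.measurableSet]
    filter_upwards [hA1, hA2, hA3] with x h1 h2 h3 hxU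
    obtain ⟨a, ha⟩ := h1 hxU
    have hgrad : ∇ (v' i) x = ∇ (v i) (T a.1 x) := by
      have h4 : v' i =ᶠ[𝓝 x] fun z => a.1.2 * (fun z => v i (a.1.2⁻¹ • (z - a.1.1))) z := by
        filter_upwards [isOpen_interior.mem_nhds (h2 a ha)] with z hz
        exact hv1 i a z (interior_subset hz)
      rw [grad_def, h4.fderiv_eq, ← grad_def, grad_const_mul, grad_comp_smul_sub, smul_smul,
        mul_inv_cancel₀ (hpos a).ne', one_smul]
    rw [hR1 i a x ha, hγ1 a x ha, hgrad]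
    exact h3 a ha

/-- `Resolves` in all directions at once. -/
theorem Resolves.dir {c C : ℝ} {L : ℝ≥0} {A : E3 →L[ℝ] E3} (h : Resolves c C L A)
    (U : Set E3) (hU : IsOpen U) (hUb : Bornology.IsBounded U) (ε : ℝ) (hε : 0 < ε) :
    ∃ (γ : E3 → ℝ) (v : E3 → E3 → ℝ) (R : E3 → E3 → E3),
      Measurable γ ∧ (∀ x, c ≤ γ x ∧ γ x ≤ C) ∧
      ∀ g : E3, LipschitzWith (2 * L * ‖g‖₊) (v g) ∧ (∀ x, x ∉ U → v g x = 0) ∧
        (∀ x, |v g x| ≤ ε * ‖g‖) ∧ Measurable (R g) ∧ (∀ x, ‖R g x‖ ≤ 2 * L * ‖g‖) ∧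
        (∀ x, x ∉ U → R g x = 0) ∧ WDF (R g) ∧
        ∀ᵐ x ∂(volume.restrict U), A g + R g x = γ x • (g + ∇ (v g) x) := by
  obtain ⟨γ, v, R, hγm, hγb, hvR⟩ := h U hU hUb (ε / 3) (by positivity)
  have hgi : ∀ (g : E3) i, |g i| ≤ ‖g‖ := fun g i => by
    rw [← Real.norm_eq_abs]; exact PiLp.norm_apply_le g i
  have hsum2 : ∀ g : E3, ∑ i, |g i| ≤ 2 * ‖g‖ := fun g => by
    have h1 : ‖g‖ ^ 2 = |g 0| ^ 2 + |g 1| ^ 2 + |g 2| ^ 2 := by
      rw [EuclideanSpace.norm_sq_eq, Fin.sum_univ_three]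
      simp only [Real.norm_eq_abs]
    rw [Fin.sum_univ_three]
    refine abs_le_of_sq_le_sq' ?_ (by positivity) |>.2
    nlinarith [sq_nonneg (|g 0| - |g 1|), sq_nonneg (|g 0| - |g 2|), sq_nonneg (|g 1| - |g 2|),
      sq_nonneg (|g 0|), sq_nonneg (|g 1|), sq_nonneg (|g 2|)]
  have hge : ∀ g : E3, g = ∑ i, g i • ee i := fun g => by
    ext j
    fin_cases j <;> simp [ee, Fin.sum_univ_three]
  refine ⟨γ, fun g x => ∑ i, g i * v i x, fun g x => ∑ i, g i • R i x, hγm, hγb, fun g =>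
    ⟨?_, ?_, ?_, ?_, ?_, ?_, ?_, ?_⟩⟩
  · refine LipschitzWith.of_dist_le_mul fun x y => ?_
    rw [Real.dist_eq, ← Finset.sum_sub_distrib]
    calc |∑ i, (g i * v i x - g i * v i y)| ≤ ∑ i, |g i * v i x - g i * v i y| :=
          Finset.abs_sum_le_sum_abs _ _
      _ ≤ ∑ i : Fin 3, |g i| * (L * dist x y) := by
          refine Finset.sum_le_sum fun i _ => ?_
          rw [← mul_sub, abs_mul]
          have h1 := (hvR i).1.dist_le_mul x y
          rw [Real.dist_eq] at h1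
          exact mul_le_mul_of_nonneg_left h1 (abs_nonneg _)
      _ ≤ 2 * ‖g‖ * (L * dist x y) := by
          rw [← Finset.sum_mul]
          exact mul_le_mul_of_nonneg_right (hsum2 g) (by positivity)
      _ = _ := by
          push_cast
          ring
  · intro x hx
    refine Finset.sum_eq_zero fun i _ => ?_
    rw [(hvR i).2.1 x hx, mul_zero]
  · intro x
    calc |∑ i, g i * v i x| ≤ ∑ i, |g i * v i x| := Finset.abs_sum_le_sum_abs _ _
      _ ≤ ∑ _i : Fin 3, ‖g‖ * (ε / 3) := by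
          refine Finset.sum_le_sum fun i _ => ?_
          rw [abs_mul]
          exact mul_le_mul (hgi g i) ((hvR i).2.2.1 x) (abs_nonneg _) (norm_nonneg _)
      _ = _ := by
          simp only [Finset.sum_const, Finset.card_univ, Fintype.card_fin, nsmul_eq_mul]
          push_cast
          ring
  · exact Finset.measurable_sum _ fun i _ => (hvR i).2.2.2.1.const_smul (g i)
  · intro x
    calc ‖∑ i, g i • R i x‖ ≤ ∑ i, ‖g i • R i x‖ := norm_sum_le _ _
      _ ≤ ∑ i : Fin 3, |g i| * L := by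
          refine Finset.sum_le_sum fun i _ => ?_
          rw [norm_smul, Real.norm_eq_abs]
          exact mul_le_mul_of_nonneg_left ((hvR i).2.2.2.2.1 x) (abs_nonneg _)
      _ ≤ 2 * ‖g‖ * L := by
          rw [← Finset.sum_mul]
          exact mul_le_mul_of_nonneg_right (hsum2 g) L.2
      _ = _ := by ring
  · intro x hx
    refine Finset.sum_eq_zero fun i _ => ?_
    rw [(hvR i).2.2.2.2.2.1 x hx, smul_zero]
  · exact WDF.sum _ _ fun i _ => ((hvR i).2.2.2.2.2.2.1).const_smul (g i)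
  · have hrel : ∀ᵐ x ∂(volume.restrict U), ∀ i : Fin 3,
        A (ee i) + R i x = γ x • (ee i + ∇ (v i) x) := by
      rw [ae_all_iff]
      exact fun i => (hvR i).2.2.2.2.2.2.2
    have hdiff : ∀ᵐ x ∂(volume.restrict U), ∀ i : Fin 3, DifferentiableAt ℝ (v i) x := by
      rw [ae_all_iff]
      exact fun i => ae_restrict_of_ae (hvR i).1.ae_differentiableAt
    filter_upwards [hrel, hdiff] with x hx hd
    have h1 : ∇ (fun x => ∑ i, g i * v i x) x = ∑ i, g i • ∇ (v i) x := by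
      have h2 : fderiv ℝ (fun x => ∑ i, g i * v i x) x = ∑ i, g i • fderiv ℝ (v i) x := by
        rw [fderiv_fun_sum fun i _ => (hd i).const_mul (g i)]
        refine Finset.sum_congr rfl fun i _ => ?_
        exact fderiv_const_mul (hd i) (g i)
      rw [grad_def, h2, map_sum]
      simp only [map_smul, grad_def]
    rw [h1]
    conv_lhs => rw [hge g]
    conv_rhs => rw [hge g]
    rw [map_sum]
    simp only [map_smul]
    have h3 : ∀ i, (∑ j, g j • ee j).ofLp i = g i := fun i => by rw [← hge g]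
    simp only [h3]
    rw [← Finset.sum_add_distrib, ← Finset.sum_add_distrib, Finset.smul_sum]
    refine Finset.sum_congr rfl fun i _ => ?_
    rw [← smul_add, hx i, smul_comm, smul_add]

/-- Rotation invariance. -/
theorem resolves_conj (c C : ℝ) (L : ℝ≥0) (A : E3 →L[ℝ] E3) (h : Resolves c C L A)
    (O : E3 ≃ₗᵢ[ℝ] E3) :
    Resolves c C (2 * L)
      ((O.toContinuousLinearEquiv : E3 →L[ℝ] E3) ∘L A ∘L
        (O.symm.toContinuousLinearEquiv : E3 →L[ℝ] E3)) := by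
  intro U hU hUb ε hε
  have hOc : Continuous O := O.continuous
  have hOsc : Continuous O.symm := O.symm.continuous
  have hU'b : Bornology.IsBounded (O ⁻¹' U) := by
    have h1 : O ⁻¹' U = O.symm '' U := by
      ext x
      constructor
      · intro hx
        exact ⟨O x, hx, O.symm_apply_apply x⟩
      · rintro ⟨y, hy, rfl⟩
        rw [mem_preimage, O.apply_symm_apply]
        exact hy
    rw [h1]
    exact O.symm.lipschitz.isBounded_image hUb
  obtain ⟨γ, v, R, hγm, hγb, hvR⟩ := h.dir (O ⁻¹' U) (hU.preimage hOc) hU'b ε hε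
  have hee : ∀ i, ‖O.symm (ee i)‖ = 1 := fun i => by
    rw [LinearIsometryEquiv.norm_map]
    simp [ee]
  have hee' : ∀ i, ‖O.symm (ee i)‖₊ = 1 := fun i => by
    apply NNReal.eq
    rw [coe_nnnorm, hee i]
    rfl
  refine ⟨fun x => γ (O.symm x), fun i x => v (O.symm (ee i)) (O.symm x),
    fun i x => O (R (O.symm (ee i)) (O.symm x)), hγm.comp hOsc.measurable, fun x => hγb _,
    fun i => ?_⟩
  obtain ⟨h1, h2, h3, h4, h5, h6, h7, h8⟩ := hvR (O.symm (ee i))
  have hmem : ∀ x, x ∉ U → O.symm x ∉ O ⁻¹' U := fun x hx => by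
    rw [mem_preimage, O.apply_symm_apply]
    exact hx
  refine ⟨?_, fun x hx => h2 _ (hmem x hx), fun x => ?_, ?_, fun x => ?_, fun x hx => ?_,
    h7.rot O, ?_⟩
  · rw [hee' i, mul_one] at h1
    have := h1.comp O.symm.lipschitz
    rw [mul_one] at this
    exact this
  · have := h3 (O.symm x)
    rwa [hee i, mul_one] at this
  · exact hOc.measurable.comp (h4.comp hOsc.measurable)
  · rw [LinearIsometryEquiv.norm_map]
    have := h5 (O.symm x)
    rw [hee i, mul_one] at this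
    push_cast
    exact this
  · beta_reduce
    rw [h6 _ (hmem x hx), map_zero]
  · rw [ae_restrict_iff' (hU.preimage hOc).measurableSet] at h8
    rw [ae_restrict_iff' hU.measurableSet]
    have hmp : MeasurePreserving O.symm volume volume := O.symm.measurePreserving
    have h9 := hmp.quasiMeasurePreserving.ae h8
    filter_upwards [h9] with x hx hxU
    have h10 := hx (by rw [mem_preimage, O.apply_symm_apply]; exact hxU)
    have h11 : ∇ (fun x => v (O.symm (ee i)) (O.symm x)) x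
        = O (∇ (v (O.symm (ee i))) (O.symm x)) := by
      have := grad_comp_isometry (v (O.symm (ee i))) O.symm x
      rw [this]
      rfl
    rw [h11]
    have h12 := congrArg O h10
    rw [map_add, map_smul, map_add, O.apply_symm_apply] at h12
    exact h12



end Crest.Agent.R083
end

-- ▼ part R083/Spheroid
section

/-!
Row 83 (S0111), RES-a: calculus of the confocal oblate spheroids with axis `ee 0`.
-/

set_option autoImplicit false

namespace Crest.Agent.R083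

open MeasureTheory Set Filter
open scoped Gradient ENNReal NNReal Topology

theorem norm_sq_three (x : E3) : ‖x‖ ^ 2 = (x 0) ^ 2 + (x 1) ^ 2 + (x 2) ^ 2 := by
  rw [EuclideanSpace.norm_sq_eq, Fin.sum_univ_three]
  simp

theorem sph_rad_sq (x : E3) :
    √((‖x‖ ^ 2 - 1) ^ 2 + 4 * (x 0) ^ 2) ^ 2 = (‖x‖ ^ 2 - 1) ^ 2 + 4 * (x 0) ^ 2 :=
  Real.sq_sqrt (by positivity)

theorem sph_nonneg (x : E3) : 0 ≤ sph x := by
  unfold sph
  have h : |‖x‖ ^ 2 - 1| ≤ √((‖x‖ ^ 2 - 1) ^ 2 + 4 * (x 0) ^ 2) := by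
    rw [← Real.sqrt_sq_eq_abs]
    exact Real.sqrt_le_sqrt (by nlinarith [sq_nonneg (x 0)])
  have := neg_abs_le (‖x‖ ^ 2 - 1)
  linarith

theorem sph_quad (x : E3) : (sph x) ^ 2 - (‖x‖ ^ 2 - 1) * sph x - (x 0) ^ 2 = 0 := by
  have h := sph_rad_sq x
  unfold sph
  generalize √((‖x‖ ^ 2 - 1) ^ 2 + 4 * (x 0) ^ 2) = r at h
  nlinarith [h]

theorem sph_norm (x : E3) : ‖x‖ ^ 2 ≤ sph x + 1 := by
  have h : |‖x‖ ^ 2 - 1| ≤ √((‖x‖ ^ 2 - 1) ^ 2 + 4 * (x 0) ^ 2) := by
    rw [← Real.sqrt_sq_eq_abs]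
    exact Real.sqrt_le_sqrt (by nlinarith [sq_nonneg (x 0)])
  have := le_abs_self (‖x‖ ^ 2 - 1)
  unfold sph
  linarith

/-- The quadratic polynomial evaluated at a positive level decides the position. -/
theorem sph_le_iff_quad (s : ℝ) (hs : 0 < s) (x : E3) :
    sph x ≤ s ↔ 0 ≤ s ^ 2 - (‖x‖ ^ 2 - 1) * s - (x 0) ^ 2 := by
  have h0 := sph_nonneg x
  have h1 := sph_quad x
  have key : s ^ 2 - (‖x‖ ^ 2 - 1) * s - (x 0) ^ 2
      = (s - sph x) * (s + sph x - (‖x‖ ^ 2 - 1)) := by nlinarith [h1]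
  have hpos : 0 < s + sph x - (‖x‖ ^ 2 - 1) ∨ (s = 0) := by
    left
    have := sph_norm x
    linarith
  rcases hpos with hpos | h
  · rw [key]
    constructor
    · intro h; exact mul_nonneg (by linarith) hpos.le
    · intro h
      by_contra hc
      push Not at hc
      have : (s - sph x) * (s + sph x - (‖x‖ ^ 2 - 1)) < 0 :=
        mul_neg_of_neg_of_pos (by linarith) hpos
      linarith
  · exact absurd h hs.ne'

theorem sph_lt_iff_quad (s : ℝ) (hs : 0 < s) (x : E3) :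
    sph x < s ↔ 0 < s ^ 2 - (‖x‖ ^ 2 - 1) * s - (x 0) ^ 2 := by
  have h0 := sph_nonneg x
  have h1 := sph_quad x
  have key : s ^ 2 - (‖x‖ ^ 2 - 1) * s - (x 0) ^ 2
      = (s - sph x) * (s + sph x - (‖x‖ ^ 2 - 1)) := by nlinarith [h1]
  have hpos : 0 < s + sph x - (‖x‖ ^ 2 - 1) := by
    have := sph_norm x
    linarith
  rw [key]
  constructor
  · intro h; exact mul_pos (by linarith) hpos
  · intro h
    by_contra hc
    push Not at hc
    have : (s - sph x) * (s + sph x - (‖x‖ ^ 2 - 1)) ≤ 0 :=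
      mul_nonpos_of_nonpos_of_nonneg (by linarith) hpos.le
    linarith

theorem sph_ellipsoid_aux (s : ℝ) (hs : 0 < s) (x : E3) :
    s ^ 2 - (‖x‖ ^ 2 - 1) * s - (x 0) ^ 2
      = (1 - ((x 0) ^ 2 / s + ((x 1) ^ 2 + (x 2) ^ 2) / (s + 1))) * (s * (s + 1)) := by
  have hs1 : 0 < s + 1 := by linarith
  rw [norm_sq_three]
  field_simp
  ring

theorem sph_le_iff (s : ℝ) (hs : 0 < s) (x : E3) :
    sph x ≤ s ↔ (x 0) ^ 2 / s + ((x 1) ^ 2 + (x 2) ^ 2) / (s + 1) ≤ 1 := by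
  rw [sph_le_iff_quad s hs, sph_ellipsoid_aux s hs]
  have : 0 < s * (s + 1) := by positivity
  constructor
  · intro h
    have := nonneg_of_mul_nonneg_left h this
    linarith
  · intro h
    exact mul_nonneg (by linarith) this.le

theorem sph_lt_iff (s : ℝ) (hs : 0 < s) (x : E3) :
    sph x < s ↔ (x 0) ^ 2 / s + ((x 1) ^ 2 + (x 2) ^ 2) / (s + 1) < 1 := by
  rw [sph_lt_iff_quad s hs, sph_ellipsoid_aux s hs]
  have : 0 < s * (s + 1) := by positivity
  constructor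
  · intro h
    have := (mul_pos_iff_of_pos_right this).1 h
    linarith
  · intro h
    exact mul_pos (by linarith) this

theorem sph_eq_iff (s : ℝ) (hs : 0 < s) (x : E3) :
    sph x = s ↔ (x 0) ^ 2 / s + ((x 1) ^ 2 + (x 2) ^ 2) / (s + 1) = 1 := by
  have h1 := sph_le_iff s hs x
  have h2 := sph_lt_iff s hs x
  constructor
  · intro h
    exact le_antisymm (h1.1 h.le) (not_lt.1 fun hc => (h2.2 hc).ne h)
  · intro h
    exact le_antisymm (h1.2 h.le) (not_lt.1 fun hc => (h2.1 hc).ne h)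

theorem sph_zero : sph 0 = 0 := by
  unfold sph
  simp

theorem continuous_sph : Continuous sph := by
  unfold sph
  fun_prop

/-! ### Gradient -/

theorem sph_rad_eq (x : E3) (hx : 0 < sph x) :
    √((‖x‖ ^ 2 - 1) ^ 2 + 4 * (x 0) ^ 2) = sph x + (x 0) ^ 2 / sph x := by
  have h := sph_quad x
  have h2 : √((‖x‖ ^ 2 - 1) ^ 2 + 4 * (x 0) ^ 2) = 2 * sph x - (‖x‖ ^ 2 - 1) := by
    unfold sph; ring
  rw [h2]
  field_simp
  nlinarith [h]

theorem sph_den_pos (x : E3) (hx : 0 < sph x) : 0 < sph x + (x 0) ^ 2 / sph x := by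
  positivity

theorem hasFDerivAt_sph (x : E3) (hx : 0 < sph x) :
    HasFDerivAt sph ((sph x + (x 0) ^ 2 / sph x)⁻¹ •
      ((2 * sph x) • (innerSL ℝ x : E3 →L[ℝ] ℝ) +
        (2 * x 0) • (EuclideanSpace.proj 0 : E3 →L[ℝ] ℝ))) x := by
  have hD := sph_den_pos x hx
  have hrad := sph_rad_eq x hx
  have hrad0 : (‖x‖ ^ 2 - 1) ^ 2 + 4 * (x 0) ^ 2 ≠ 0 := by
    intro h
    rw [h, Real.sqrt_zero] at hrad
    linarith
  have h1 : HasFDerivAt (fun y : E3 => ‖y‖ ^ 2 - 1) (2 • (innerSL ℝ x : E3 →L[ℝ] ℝ)) x :=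
    ((hasStrictFDerivAt_norm_sq x).hasFDerivAt).sub_const 1
  have h2 : HasFDerivAt (fun y : E3 => y 0) (EuclideanSpace.proj 0 : E3 →L[ℝ] ℝ) x :=
    (EuclideanSpace.proj (𝕜 := ℝ) (0 : Fin 3)).hasFDerivAt
  have h2a := h2.pow 2
  have h2b := h2a.const_mul (4 : ℝ)
  have h1a := h1.pow 2
  have h12 := h1a.add h2b
  have h3 := h12.sqrt hrad0
  have h4 := h1.add h3
  have h5 := h4.const_mul (1 / 2 : ℝ)
  refine (h5.congr_of_eventuallyEq (f₁ := sph)
    (Filter.Eventually.of_forall fun y => ?_)).congr_fderiv ?_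
  · unfold sph
    simp only [Pi.add_apply]
    ring
  ext y
  have hne : √((‖x‖ ^ 2 - 1) ^ 2 + 4 * (x 0) ^ 2) ≠ 0 := by rw [hrad]; exact hD.ne'
  have hsp : sph x = ((‖x‖ ^ 2 - 1) + √((‖x‖ ^ 2 - 1) ^ 2 + 4 * (x 0) ^ 2)) / 2 := rfl
  rw [← hrad]
  simp only [Pi.add_apply, add_apply, smul_apply, smul_eq_mul,
    nsmul_eq_mul, innerSL_apply_apply, EuclideanSpace.coe_proj]
  rw [hsp]
  generalize √((‖x‖ ^ 2 - 1) ^ 2 + 4 * (x 0) ^ 2) = r at *
  field_simp
  push_cast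
  ring

theorem inner_ee (x : E3) (i : Fin 3) : inner ℝ (ee i) x = x i := by
  simp [ee, EuclideanSpace.inner_single_left]

theorem hasGradientAt_sph (x : E3) (hx : 0 < sph x) :
    HasGradientAt sph ((sph x + (x 0) ^ 2 / sph x)⁻¹ •
      ((2 * sph x) • x + (2 * x 0) • ee 0)) x := by
  rw [hasGradientAt_iff_hasFDerivAt]
  refine (hasFDerivAt_sph x hx).congr_fderiv ?_
  ext y
  simp only [add_apply, smul_apply, smul_eq_mul, innerSL_apply_apply, EuclideanSpace.coe_proj,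
    InnerProductSpace.toDual_apply_apply, inner_add_left, real_inner_smul_left, inner_ee]

/-! ### Lipschitz bounds -/

theorem sqrt_sum_sq_sub_le (a b c d : ℝ) :
    √(a ^ 2 + b ^ 2) ≤ √(c ^ 2 + d ^ 2) + (|a - c| + |b - d|) := by
  have h0 : 0 ≤ √(c ^ 2 + d ^ 2) := Real.sqrt_nonneg _
  have h1 : |c| ≤ √(c ^ 2 + d ^ 2) := by
    rw [← Real.sqrt_sq_eq_abs]; exact Real.sqrt_le_sqrt (by nlinarith [sq_nonneg d])
  have h2 : |d| ≤ √(c ^ 2 + d ^ 2) := by
    rw [← Real.sqrt_sq_eq_abs]; exact Real.sqrt_le_sqrt (by nlinarith [sq_nonneg c])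
  have h3 : √(c ^ 2 + d ^ 2) ^ 2 = c ^ 2 + d ^ 2 := Real.sq_sqrt (by positivity)
  rw [Real.sqrt_le_left (by positivity)]
  have h4 : c * (a - c) ≤ √(c ^ 2 + d ^ 2) * |a - c| := by
    calc c * (a - c) ≤ |c * (a - c)| := le_abs_self _
      _ = |c| * |a - c| := abs_mul _ _
      _ ≤ _ := mul_le_mul_of_nonneg_right h1 (abs_nonneg _)
  have h5 : d * (b - d) ≤ √(c ^ 2 + d ^ 2) * |b - d| := by
    calc d * (b - d) ≤ |d * (b - d)| := le_abs_self _
      _ = |d| * |b - d| := abs_mul _ _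
      _ ≤ _ := mul_le_mul_of_nonneg_right h2 (abs_nonneg _)
  have h6 : |a - c| ^ 2 = (a - c) ^ 2 := sq_abs _
  have h7 : |b - d| ^ 2 = (b - d) ^ 2 := sq_abs _
  have h8 : 0 ≤ |a - c| * |b - d| := by positivity
  nlinarith

theorem sph_lip (r : ℝ) (hr : 0 ≤ r) :
    LipschitzOnWith (Real.toNNReal (2 * r + 1)) sph (Metric.closedBall 0 r) := by
  refine LipschitzOnWith.of_dist_le_mul fun x hx y hy => ?_
  rw [Real.coe_toNNReal _ (by linarith)]
  have hx' : ‖x‖ ≤ r := by simpa using hx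
  have hy' : ‖y‖ ≤ r := by simpa using hy
  have hd : 0 ≤ dist x y := dist_nonneg
  have hxy : |‖x‖ - ‖y‖| ≤ dist x y := by rw [dist_eq_norm]; exact abs_norm_sub_norm_le x y
  have hq : |(‖x‖ ^ 2 - 1) - (‖y‖ ^ 2 - 1)| ≤ 2 * r * dist x y := by
    have : (‖x‖ ^ 2 - 1) - (‖y‖ ^ 2 - 1) = (‖x‖ + ‖y‖) * (‖x‖ - ‖y‖) := by ring
    rw [this, abs_mul, abs_of_nonneg (by positivity : 0 ≤ ‖x‖ + ‖y‖)]
    exact mul_le_mul (by linarith) hxy (abs_nonneg _) (by linarith)
  have h0 : |2 * x 0 - 2 * y 0| ≤ 2 * dist x y := by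
    have h1 : |x 0 - y 0| ≤ ‖x - y‖ := by
      have := PiLp.norm_apply_le (x - y) 0
      simpa using this
    rw [dist_eq_norm]
    have : 2 * x 0 - 2 * y 0 = 2 * (x 0 - y 0) := by ring
    rw [this, abs_mul, abs_two]
    linarith
  have e4 : ∀ z : E3, 4 * (z 0) ^ 2 = (2 * z 0) ^ 2 := fun z => by ring
  have h1 := sqrt_sum_sq_sub_le (‖x‖ ^ 2 - 1) (2 * x 0) (‖y‖ ^ 2 - 1) (2 * y 0)
  have h2 := sqrt_sum_sq_sub_le (‖y‖ ^ 2 - 1) (2 * y 0) (‖x‖ ^ 2 - 1) (2 * x 0)
  rw [abs_sub_comm (‖y‖ ^ 2 - 1), abs_sub_comm (2 * y 0)] at h2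
  rw [Real.dist_eq]
  unfold sph
  rw [e4, e4]
  have h3 := le_abs_self ((‖x‖ ^ 2 - 1) - (‖y‖ ^ 2 - 1))
  have h4 := neg_abs_le ((‖x‖ ^ 2 - 1) - (‖y‖ ^ 2 - 1))
  rw [abs_le]
  constructor <;> linarith

/-- A function which is Lipschitz on a ball and constant from its boundary on is Lipschitz. -/
theorem lip_of_ball {F : Type*} [PseudoMetricSpace F] {f : E3 → F} {K : ℝ≥0} {r : ℝ}
    (hf : LipschitzOnWith K f (Metric.closedBall 0 r)) (c : F)
    (hc : ∀ x, r ≤ ‖x‖ → f x = c) : LipschitzWith K f := by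
  have key : ∀ x y : E3, ‖x‖ ≤ r → r ≤ ‖y‖ → dist (f x) (f y) ≤ K * dist x y := by
    intro x y hx hy
    have hcont : ContinuousOn (fun t : ℝ => ‖x + t • (y - x)‖) (Icc 0 1) := by fun_prop
    have hivt := intermediate_value_Icc (zero_le_one : (0:ℝ) ≤ 1) hcont
    have hr : r ∈ Icc (‖x + (0:ℝ) • (y - x)‖) (‖x + (1:ℝ) • (y - x)‖) := by
      constructor
      · simpa using hx
      · simpa using hy
    obtain ⟨t, ht, htr⟩ := hivt hr
    have h1 : f (x + t • (y - x)) = f y := by rw [hc _ hy, hc _ htr.ge]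
    rw [← h1]
    have h2 := hf.dist_le_mul x (by simpa using hx) (x + t • (y - x)) (by simpa using htr.le)
    refine h2.trans (mul_le_mul_of_nonneg_left ?_ K.coe_nonneg)
    rw [dist_eq_norm, dist_eq_norm]
    have : x - (x + t • (y - x)) = t • (x - y) := by
      rw [sub_add_cancel_left, ← smul_neg, neg_sub]
    rw [this, norm_smul, Real.norm_of_nonneg ht.1]
    exact mul_le_of_le_one_left (norm_nonneg _) ht.2
  refine LipschitzWith.of_dist_le_mul fun x y => ?_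
  rcases le_total ‖x‖ r with hx | hx <;> rcases le_total ‖y‖ r with hy | hy
  · exact hf.dist_le_mul x (by simpa using hx) y (by simpa using hy)
  · exact key x y hx hy
  · rw [dist_comm (f x), dist_comm x]; exact key y x hy hx
  · rw [hc x hx, hc y hy, dist_self]; positivity

theorem sgc_mem (s0 s1 : ℝ) (h1 : s0 ≤ s1) (x : E3) : sgc s0 s1 x ∈ Icc s0 s1 :=
  ⟨le_max_left _ _, max_le h1 (min_le_left _ _)⟩

theorem sgc_of_le (s0 s1 : ℝ) (h1 : s0 ≤ s1) {x : E3} (hx : s1 ≤ sph x) :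
    sgc s0 s1 x = s1 := by
  unfold sgc; rw [min_eq_left hx, max_eq_right h1]



/-- Radius of a ball outside of which `sph` is at least `s1`. -/
theorem sph_ge_of_norm {s1 : ℝ} (h1 : 0 ≤ s1) {x : E3} (hx : √(s1 + 1) ≤ ‖x‖) : s1 ≤ sph x := by
  have h := sph_norm x
  have h2 : √(s1 + 1) ^ 2 = s1 + 1 := Real.sq_sqrt (by linarith)
  have h3 : √(s1 + 1) ^ 2 ≤ ‖x‖ ^ 2 := pow_le_pow_left₀ (Real.sqrt_nonneg _) hx 2
  linarith

theorem sgc_lipschitz_explicit (s0 s1 : ℝ) (h0 : 0 ≤ s0) (h1 : s0 ≤ s1) :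
    LipschitzWith (Real.toNNReal (2 * √(s1 + 1) + 1)) (sgc s0 s1) := by
  refine lip_of_ball (r := √(s1 + 1)) ?_ s1 fun x hx =>
    sgc_of_le s0 s1 h1 (sph_ge_of_norm (h0.trans h1) hx)
  refine LipschitzOnWith.of_dist_le_mul fun x hx y hy => ?_
  have h := (sph_lip (√(s1 + 1)) (Real.sqrt_nonneg _)).dist_le_mul x hx y hy
  have h2 := (((LipschitzWith.id (α := ℝ)).const_min s1).const_max s0).dist_le_mul
    (sph x) (sph y)
  rw [NNReal.coe_one, one_mul] at h2
  exact h2.trans h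

theorem sgc_lipschitz (s0 s1 : ℝ) (h0 : 0 < s0) (h1 : s0 < s1) :
    ∃ K : ℝ≥0, LipschitzWith K (sgc s0 s1) :=
  ⟨_, sgc_lipschitz_explicit s0 s1 h0.le h1.le⟩

/-! ### Topology and measure -/

theorem Dsph_compact (s1 : ℝ) (_h1 : 0 < s1) : IsCompact (Dsph s1) := by
  refine Metric.isCompact_of_isClosed_isBounded
    (isClosed_le continuous_sph continuous_const) ?_
  refine (Metric.isBounded_closedBall (x := (0:E3)) (r := √(s1 + 1))).subset fun x hx => ?_
  have hx' : sph x ≤ s1 := hx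
  have := sph_norm x
  simp only [Metric.mem_closedBall, dist_zero_right]
  exact Real.le_sqrt_of_sq_le (by linarith)

theorem Dsph_interior (s1 : ℝ) (h1 : 0 < s1) : (0 : E3) ∈ interior (Dsph s1) := by
  refine mem_interior.2 ⟨{x | sph x < s1}, fun x hx => (show sph x ≤ s1 from le_of_lt hx),
    isOpen_lt continuous_sph continuous_const, ?_⟩
  simpa [sph_zero] using h1

theorem Dsph_convex (s : ℝ) (hs : 0 < s) : Convex ℝ (Dsph s) := by
  intro x hx y hy a b ha hb hab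
  have hx' := (sph_le_iff s hs x).1 hx
  have hy' := (sph_le_iff s hs y).1 hy
  refine (sph_le_iff s hs _).2 ?_
  have key : ∀ u v : ℝ, (a * u + b * v) ^ 2 ≤ a * u ^ 2 + b * v ^ 2 := by
    intro u v
    have : a * u ^ 2 + b * v ^ 2 - (a * u + b * v) ^ 2 = a * b * (u - v) ^ 2 := by
      have hb' : b = 1 - a := by linarith
      subst hb'
      ring
    nlinarith [mul_nonneg (mul_nonneg ha hb) (sq_nonneg (u - v))]
  have e : ∀ i : Fin 3, (a • x + b • y) i = a * x i + b * y i := fun i => by simp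
  rw [e, e, e]
  have hs1 : 0 < s + 1 := by linarith
  calc (a * x 0 + b * y 0) ^ 2 / s +
        ((a * x 1 + b * y 1) ^ 2 + (a * x 2 + b * y 2) ^ 2) / (s + 1)
      ≤ (a * x 0 ^ 2 + b * y 0 ^ 2) / s +
        ((a * x 1 ^ 2 + b * y 1 ^ 2) + (a * x 2 ^ 2 + b * y 2 ^ 2)) / (s + 1) := by
        gcongr
        · exact key _ _
        · exact key _ _
        · exact key _ _
    _ = a * ((x 0) ^ 2 / s + ((x 1) ^ 2 + (x 2) ^ 2) / (s + 1)) +
        b * ((y 0) ^ 2 / s + ((y 1) ^ 2 + (y 2) ^ 2) / (s + 1)) := by ring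
    _ ≤ a * 1 + b * 1 := by gcongr
    _ = 1 := by linarith

theorem sph_level_subset_frontier (s : ℝ) (hs : 0 < s) :
    {x : E3 | sph x = s} ⊆ frontier (Dsph s) := by
  intro x hx
  have hx' : sph x = s := hx
  have hq := (sph_eq_iff s hs x).1 hx'
  refine ⟨subset_closure (le_of_eq hx'), fun hint => ?_⟩
  have hcont : Tendsto (fun t : ℝ => t • x) (𝓝 1) (𝓝 x) := by
    have : Continuous fun t : ℝ => t • x := by fun_prop
    simpa using this.tendsto 1
  have hev : ∀ᶠ t : ℝ in 𝓝 1, t • x ∈ Dsph s :=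
    (hcont.eventually (mem_interior_iff_mem_nhds.1 hint))
  obtain ⟨t, ht1, ht2⟩ : ∃ t : ℝ, 1 < t ∧ t • x ∈ Dsph s := by
    have h2 : ∃ᶠ t : ℝ in 𝓝 1, 1 < t := frequently_gt_nhds 1
    exact (h2.and_eventually hev).exists
  have h3 := (sph_le_iff s hs _).1 ht2
  have e : ∀ i : Fin 3, (t • x) i = t * x i := fun i => by simp
  rw [e, e, e] at h3
  have h4 : (t * x 0) ^ 2 / s + ((t * x 1) ^ 2 + (t * x 2) ^ 2) / (s + 1)
      = t ^ 2 * ((x 0) ^ 2 / s + ((x 1) ^ 2 + (x 2) ^ 2) / (s + 1)) := by ring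
  rw [h4, hq] at h3
  nlinarith

theorem sph_level_null (s : ℝ) (hs : 0 < s) : volume {x : E3 | sph x = s} = 0 :=
  measure_mono_null (sph_level_subset_frontier s hs)
    ((Dsph_convex s hs).addHaar_frontier volume)

theorem Dsph_frontier (s1 : ℝ) (h1 : 0 < s1) : volume (frontier (Dsph s1)) = 0 :=
  (Dsph_convex s1 h1).addHaar_frontier volume

/-! ### Radial functions -/

theorem hasDerivAt_Phi0 {s : ℝ} (hs : 0 < s) :
    HasDerivAt Phi0 (1 / (2 * (s * √s) * (s + 1))) s := by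
  have hr : 0 < √s := Real.sqrt_pos.2 hs
  have hsq : √s ^ 2 = s := Real.sq_sqrt hs.le
  have h1 : HasDerivAt (fun t => √t) (1 / (2 * √s)) s := Real.hasDerivAt_sqrt hs.ne'
  have h2 := (h1.fun_inv hr.ne').fun_neg.fun_sub h1.arctan
  refine h2.congr_deriv ?_
  rw [hsq]
  have h3 : (1 + s) ≠ 0 := by positivity
  field_simp
  ring

theorem hasDerivAt_Phi1 {s : ℝ} (hs : 0 < s) :
    HasDerivAt Phi1 (1 / (2 * √s * (s + 1) ^ 2)) s := by
  have hr : 0 < √s := Real.sqrt_pos.2 hs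
  have hsq : √s ^ 2 = s := Real.sq_sqrt hs.le
  have h1 : HasDerivAt (fun t => √t) (1 / (2 * √s)) s := Real.hasDerivAt_sqrt hs.ne'
  have h0 : HasDerivAt (fun t : ℝ => t + 1) 1 s := (hasDerivAt_id s).add_const 1
  have h2 := ((h1.fun_div h0 (by positivity)).fun_add h1.arctan).div_const 2
  refine h2.congr_deriv ?_
  have h3 : (1 + s) ≠ 0 := by positivity
  rw [hsq]
  have hs' : s = √s * √s := (Real.mul_self_sqrt hs.le).symm
  generalize √s = r at *
  subst hs'
  field_simp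
  ring

theorem Phi0_add_two_Phi1 {s : ℝ} (hs : 0 < s) : Phi0 s + 2 * Phi1 s = -(1 / Vv s) := by
  have hr : 0 < √s := Real.sqrt_pos.2 hs
  have hs' : s = √s * √s := (Real.mul_self_sqrt hs.le).symm
  unfold Phi0 Phi1 Vv
  generalize √s = r at *
  subst hs'
  field_simp
  ring







/-! ### Coordinates of gradients and curls -/


theorem fderiv_apply_comp {Ξ : E3 → E3} {x : E3} (h : DifferentiableAt ℝ Ξ x) (v : E3)
    (i : Fin 3) : (fderiv ℝ Ξ x v) i = fderiv ℝ (fun y => Ξ y i) x v := by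
  have h1 : HasFDerivAt (fun y => Ξ y i)
      ((EuclideanSpace.proj i : E3 →L[ℝ] ℝ).comp (fderiv ℝ Ξ x)) x :=
    (EuclideanSpace.proj (𝕜 := ℝ) i).hasFDerivAt.comp x h.hasFDerivAt
  rw [h1.fderiv]
  rfl

theorem differentiableAt_pt {a b c : E3 → ℝ} {x : E3} (ha : DifferentiableAt ℝ a x)
    (hb : DifferentiableAt ℝ b x) (hc : DifferentiableAt ℝ c x) :
    DifferentiableAt ℝ (fun y => pt (a y) (b y) (c y)) x := by
  rw [differentiableAt_euclidean]
  intro i
  fin_cases i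
  · simpa [pt] using ha
  · simpa [pt] using hb
  · simpa [pt] using hc

theorem curlv_pt {a b c : E3 → ℝ} {x : E3} (ha : DifferentiableAt ℝ a x)
    (hb : DifferentiableAt ℝ b x) (hc : DifferentiableAt ℝ c x) :
    curlv (fun y => pt (a y) (b y) (c y)) x =
      pt (fderiv ℝ c x (ee 1) - fderiv ℝ b x (ee 2))
         (fderiv ℝ a x (ee 2) - fderiv ℝ c x (ee 0))
         (fderiv ℝ b x (ee 0) - fderiv ℝ a x (ee 1)) := by
  have h := differentiableAt_pt ha hb hc
  unfold curlv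
  simp only [fderiv_apply_comp h]
  simp [pt]



theorem ee_apply (i j : Fin 3) : (ee i) j = if j = i then 1 else 0 := by
  simp [ee]








theorem e3_ext {u v : E3} (h0 : u 0 = v 0) (h1 : u 1 = v 1) (h2 : u 2 = v 2) : u = v := by
  ext i
  fin_cases i
  · exact h0
  · exact h1
  · exact h2





/-! ### Products with the clamped coordinate -/

/-- Functions `φ (sgc x) * x k` with `φ` Lipschitz on `[s0, s1]` and `φ s1 = 0` are Lipschitz. -/
theorem sgc_prod_lip (s0 s1 : ℝ) (h0 : 0 < s0) (h1 : s0 < s1) :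
    ∃ Cg : ℝ≥0, ∀ (φ : ℝ → ℝ) (K : ℝ≥0), LipschitzOnWith K φ (Icc s0 s1) → φ s1 = 0 →
      ∀ k : Fin 3, LipschitzWith (Cg * K) (fun x : E3 => φ (sgc s0 s1 x) * x k) := by
  obtain ⟨Kg, hKg⟩ := sgc_lipschitz s0 s1 h0 h1
  refine ⟨Real.toNNReal (s1 - s0) + Real.toNNReal √(s1 + 1) * Kg, fun φ K hφ hφ1 k => ?_⟩
  refine lip_of_ball (r := √(s1 + 1)) ?_ 0 fun x hx => ?_
  · refine LipschitzOnWith.of_dist_le_mul fun x _ y hy => ?_
    have hy' : ‖y‖ ≤ √(s1 + 1) := by simpa using hy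
    push_cast
    rw [Real.coe_toNNReal _ (by linarith), Real.coe_toNNReal _ (Real.sqrt_nonneg _),
      Real.dist_eq]
    have hxm := sgc_mem s0 s1 h1.le x
    have hym := sgc_mem s0 s1 h1.le y
    have b1 : |φ (sgc s0 s1 x)| ≤ K * (s1 - s0) := by
      have h := hφ.dist_le_mul _ hxm s1 ⟨h1.le, le_rfl⟩
      rw [hφ1, Real.dist_eq, sub_zero] at h
      refine h.trans (mul_le_mul_of_nonneg_left ?_ K.coe_nonneg)
      rw [Real.dist_eq, abs_le]
      constructor <;> linarith [hxm.1, hxm.2]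
    have b2 : |φ (sgc s0 s1 x) - φ (sgc s0 s1 y)| ≤ K * (Kg * dist x y) := by
      rw [← Real.dist_eq]
      exact (hφ.dist_le_mul _ hxm _ hym).trans
        (mul_le_mul_of_nonneg_left (hKg.dist_le_mul x y) K.coe_nonneg)
    have b3 : |x k - y k| ≤ dist x y := by
      rw [dist_eq_norm]
      simpa using PiLp.norm_apply_le (x - y) k
    have b4 : |y k| ≤ √(s1 + 1) := by
      have : |y k| ≤ ‖y‖ := by simpa using PiLp.norm_apply_le y k
      exact this.trans hy'
    have e : φ (sgc s0 s1 x) * x k - φ (sgc s0 s1 y) * y k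
        = φ (sgc s0 s1 x) * (x k - y k) + y k * (φ (sgc s0 s1 x) - φ (sgc s0 s1 y)) := by ring
    rw [e]
    have hd : 0 ≤ dist x y := dist_nonneg
    calc |φ (sgc s0 s1 x) * (x k - y k) + y k * (φ (sgc s0 s1 x) - φ (sgc s0 s1 y))|
        ≤ |φ (sgc s0 s1 x)| * |x k - y k| + |y k| * |φ (sgc s0 s1 x) - φ (sgc s0 s1 y)| := by
          rw [← abs_mul, ← abs_mul]; exact abs_add_le _ _
      _ ≤ K * (s1 - s0) * dist x y + √(s1 + 1) * (K * (Kg * dist x y)) := by
          refine add_le_add (mul_le_mul b1 b3 (abs_nonneg _) ?_)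
            (mul_le_mul b4 b2 (abs_nonneg _) (Real.sqrt_nonneg _))
          exact mul_nonneg K.coe_nonneg (by linarith)
      _ = (s1 - s0 + √(s1 + 1) * Kg) * K * dist x y := by ring
  · rw [sgc_of_le s0 s1 h1.le (sph_ge_of_norm (h0.trans h1).le hx), hφ1, zero_mul]

end Crest.Agent.R083
end

-- ▼ part R083/Incl
section

/-!
# Row 83, RES-c: the inclusion lemma (coated confocal spheroids)
-/

set_option autoImplicit false

namespace Crest.Agent.R083

open MeasureTheory Set Filter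
open scoped Gradient ENNReal NNReal Topology



namespace InclAux

theorem hdPhi0 {s : ℝ} (hs : 0 < s) :
    HasDerivAt Phi0 (1 / (2 * s * √s * (s + 1))) s := by
  have h := hasDerivAt_Phi0 hs
  rwa [← mul_assoc] at h

/-! ### Calculus in coordinates -/

theorem inner_ee (v : E3) (l : Fin 3) : inner ℝ v (ee l) = v l := by
  rw [ee, EuclideanSpace.inner_single_right]
  simp

theorem grad_coord (f : E3 → ℝ) (x : E3) (l : Fin 3) : (∇ f x) l = fderiv ℝ f x (ee l) := by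
  rw [← inner_gradient_left, ee, EuclideanSpace.inner_single_right]
  simp

theorem pt_zero (a b c : ℝ) : (pt a b c) 0 = a := rfl
theorem pt_one (a b c : ℝ) : (pt a b c) 1 = b := rfl
theorem pt_two (a b c : ℝ) : (pt a b c) 2 = c := rfl

theorem ee_apply (i j : Fin 3) : (ee i) j = if j = i then 1 else 0 := by
  simp [ee]

theorem e3_ext {v w : E3} (h0 : v 0 = w 0) (h1 : v 1 = w 1) (h2 : v 2 = w 2) : v = w := by
  ext i
  fin_cases i
  · exact h0
  · exact h1
  · exact h2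

theorem pt_eq (a b c : ℝ) : pt a b c = a • ee 0 + b • ee 1 + c • ee 2 := by
  apply e3_ext <;> simp [pt, ee]

theorem norm_le_coords (v : E3) : ‖v‖ ≤ |v 0| + |v 1| + |v 2| := by
  rw [EuclideanSpace.norm_eq, Fin.sum_univ_three]
  rw [Real.sqrt_le_left (by positivity)]
  simp only [Real.norm_eq_abs, sq_abs]
  nlinarith [abs_nonneg (v 0), abs_nonneg (v 1), abs_nonneg (v 2), sq_abs (v 0), sq_abs (v 1),
    sq_abs (v 2), mul_nonneg (abs_nonneg (v 0)) (abs_nonneg (v 1)),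
    mul_nonneg (abs_nonneg (v 0)) (abs_nonneg (v 2)),
    mul_nonneg (abs_nonneg (v 1)) (abs_nonneg (v 2))]

theorem abs_coord_le (v : E3) (k : Fin 3) : |v k| ≤ ‖v‖ := by
  have := PiLp.norm_apply_le v k
  simpa using this

theorem lip_pt {f g h : E3 → ℝ} {K₁ K₂ K₃ : ℝ≥0} (hf : LipschitzWith K₁ f)
    (hg : LipschitzWith K₂ g) (hh : LipschitzWith K₃ h) :
    LipschitzWith (K₁ + K₂ + K₃) (fun x => pt (f x) (g x) (h x)) := by
  refine LipschitzWith.of_dist_le_mul fun x y => ?_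
  rw [dist_eq_norm]
  refine (norm_le_coords _).trans ?_
  have e0 : |(pt (f x) (g x) (h x) - pt (f y) (g y) (h y)) 0| = dist (f x) (f y) := rfl
  have e1 : |(pt (f x) (g x) (h x) - pt (f y) (g y) (h y)) 1| = dist (g x) (g y) := rfl
  have e2 : |(pt (f x) (g x) (h x) - pt (f y) (g y) (h y)) 2| = dist (h x) (h y) := rfl
  rw [e0, e1, e2]
  push_cast
  have h0 := hf.dist_le_mul x y
  have h1 := hg.dist_le_mul x y
  have h2 := hh.dist_le_mul x y
  linarith

theorem fderiv_coord {Ξ : E3 → E3} {x : E3} (h : DifferentiableAt ℝ Ξ x) (v : E3) (k : Fin 3) :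
    (fderiv ℝ Ξ x v) k = fderiv ℝ (fun y => Ξ y k) x v := by
  have h1 := ((EuclideanSpace.proj k : E3 →L[ℝ] ℝ).hasFDerivAt (x := Ξ x)).comp x h.hasFDerivAt
  have h2 : fderiv ℝ (fun y => Ξ y k) x =
      (EuclideanSpace.proj k : E3 →L[ℝ] ℝ).comp (fderiv ℝ Ξ x) := h1.fderiv
  rw [h2]
  rfl

theorem diff_pt {f g h : E3 → ℝ} {x : E3} (hf : DifferentiableAt ℝ f x)
    (hg : DifferentiableAt ℝ g x) (hh : DifferentiableAt ℝ h x) :
    DifferentiableAt ℝ (fun x => pt (f x) (g x) (h x)) x := by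
  rw [differentiableAt_euclidean]
  intro i
  fin_cases i
  · exact hf
  · exact hg
  · exact hh

theorem curlv_pt {f g h : E3 → ℝ} {x : E3} (hf : DifferentiableAt ℝ f x)
    (hg : DifferentiableAt ℝ g x) (hh : DifferentiableAt ℝ h x) :
    curlv (fun x => pt (f x) (g x) (h x)) x =
      pt (fderiv ℝ h x (ee 1) - fderiv ℝ g x (ee 2)) (fderiv ℝ f x (ee 2) - fderiv ℝ h x (ee 0))
        (fderiv ℝ g x (ee 0) - fderiv ℝ f x (ee 1)) := by
  unfold curlv
  simp only [fderiv_coord (diff_pt hf hg hh)]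
  rfl

theorem norm_curlv_le {Ξ : E3 → E3} {K : ℝ≥0} (h : LipschitzWith K Ξ) (x : E3) :
    ‖curlv Ξ x‖ ≤ 6 * K := by
  have hb : ∀ l k : Fin 3, |(fderiv ℝ Ξ x (ee l)) k| ≤ K := by
    intro l k
    refine (abs_coord_le _ k).trans ?_
    have h1 := (fderiv ℝ Ξ x).le_opNorm (ee l)
    have h2 : ‖ee l‖ = 1 := by simp [ee]
    rw [h2, mul_one] at h1
    exact h1.trans (norm_fderiv_le_of_lipschitz ℝ h)
  refine (norm_le_coords _).trans ?_
  have a0 : |(curlv Ξ x) 0| ≤ 2 * K := by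
    have e : (curlv Ξ x) 0 = (fderiv ℝ Ξ x (ee 1)) 2 - (fderiv ℝ Ξ x (ee 2)) 1 := rfl
    rw [e]
    have := abs_sub (fderiv ℝ Ξ x (ee 1) 2) (fderiv ℝ Ξ x (ee 2) 1)
    linarith [hb 1 2, hb 2 1]
  have a1 : |(curlv Ξ x) 1| ≤ 2 * K := by
    have e : (curlv Ξ x) 1 = (fderiv ℝ Ξ x (ee 2)) 0 - (fderiv ℝ Ξ x (ee 0)) 2 := rfl
    rw [e]
    have := abs_sub (fderiv ℝ Ξ x (ee 2) 0) (fderiv ℝ Ξ x (ee 0) 2)
    linarith [hb 2 0, hb 0 2]
  have a2 : |(curlv Ξ x) 2| ≤ 2 * K := by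
    have e : (curlv Ξ x) 2 = (fderiv ℝ Ξ x (ee 0)) 1 - (fderiv ℝ Ξ x (ee 1)) 0 := rfl
    rw [e]
    have := abs_sub (fderiv ℝ Ξ x (ee 0) 1) (fderiv ℝ Ξ x (ee 1) 0)
    linarith [hb 0 1, hb 1 0]
  linarith

theorem measurable_pt {f g h : E3 → ℝ} (hf : Measurable f) (hg : Measurable g)
    (hh : Measurable h) : Measurable (fun x => pt (f x) (g x) (h x)) := by
  simp only [pt_eq]
  exact ((hf.smul_const _).add (hg.smul_const _)).add (hh.smul_const _)

theorem measurable_coord (k : Fin 3) : Measurable (fun x : E3 => x k) :=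
  (EuclideanSpace.proj k : E3 →L[ℝ] ℝ).continuous.measurable

theorem measurable_curlv (Ξ : E3 → E3) : Measurable (curlv Ξ) := by
  have hm : ∀ l k : Fin 3, Measurable (fun x => (fderiv ℝ Ξ x (ee l)) k) := fun l k =>
    (measurable_coord k).comp (measurable_fderiv_apply_const ℝ Ξ (ee l))
  exact measurable_pt ((hm 1 2).sub (hm 2 1)) ((hm 2 0).sub (hm 0 2)) ((hm 0 1).sub (hm 1 0))

/-! ### The basic functions -/

/-- `(g s1 - g (clamped s)) x_k` -/
noncomputable def mm (g : ℝ → ℝ) (s0 s1 : ℝ) (k : Fin 3) (x : E3) : ℝ :=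
  (g s1 - g (sgc s0 s1 x)) * x k

theorem lip_on_of_deriv {g g' : ℝ → ℝ} {s0 s1 : ℝ} (h0 : 0 < s0)
    (hg : ∀ s, 0 < s → HasDerivAt g (g' s) s) (B : ℝ≥0)
    (hB : ∀ s, s0 ≤ s → |g' s| ≤ B) : LipschitzOnWith B (fun s => g s1 - g s) (Icc s0 s1) := by
  refine Convex.lipschitzOnWith_of_nnnorm_hasDerivWithin_le (f' := fun s => -g' s)
    (convex_Icc s0 s1) (fun s hs => ?_) (fun s hs => ?_)
  · exact ((hg s (h0.trans_le hs.1)).const_sub (g s1)).hasDerivWithinAt
  · rw [nnnorm_neg, ← NNReal.coe_le_coe, coe_nnnorm, Real.norm_eq_abs]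
    exact hB s hs.1

theorem mm_lip (s0 s1 : ℝ) (h0 : 0 < s0) (h1 : s0 < s1) :
    ∃ M0 : ℝ≥0, ∀ k, LipschitzWith M0 (mm Phi0 s0 s1 k) ∧ LipschitzWith M0 (mm Phi1 s0 s1 k) := by
  obtain ⟨Cg, hCg⟩ := sgc_prod_lip s0 s1 h0 h1
  have hr0 : 0 < √s0 := Real.sqrt_pos.mpr h0
  set B : ℝ≥0 := Real.toNNReal (1 / (2 * s0 * √s0) + 1 / (2 * √s0)) with hBdef
  have hBv : (B : ℝ) = 1 / (2 * s0 * √s0) + 1 / (2 * √s0) :=
    Real.coe_toNNReal _ (by positivity)
  have hpar : ∀ s, s0 ≤ s → |1 / (2 * s * √s * (s + 1))| ≤ (B : ℝ) := by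
    intro s hs
    have hs' : 0 < s := h0.trans_le hs
    have hrs : 0 < √s := Real.sqrt_pos.mpr hs'
    have hrr : √s0 ≤ √s := Real.sqrt_le_sqrt hs
    rw [abs_of_nonneg (by positivity), hBv]
    have e1 : 1 / (2 * s * √s * (s + 1)) ≤ 1 / (2 * s0 * √s0) := by
      apply one_div_le_one_div_of_le (by positivity)
      calc 2 * s0 * √s0 ≤ 2 * s * √s := by gcongr
        _ ≤ 2 * s * √s * (s + 1) := by
          have : (0:ℝ) ≤ 2 * s * √s := by positivity
          nlinarith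
    have e2 : 0 ≤ 1 / (2 * √s0) := by positivity
    linarith
  have hperp : ∀ s, s0 ≤ s → |1 / (2 * √s * (s + 1) ^ 2)| ≤ (B : ℝ) := by
    intro s hs
    have hs' : 0 < s := h0.trans_le hs
    have hrs : 0 < √s := Real.sqrt_pos.mpr hs'
    have hrr : √s0 ≤ √s := Real.sqrt_le_sqrt hs
    rw [abs_of_nonneg (by positivity), hBv]
    have e1 : 1 / (2 * √s * (s + 1) ^ 2) ≤ 1 / (2 * √s0) := by
      apply one_div_le_one_div_of_le (by positivity)
      calc 2 * √s0 ≤ 2 * √s := by gcongr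
        _ ≤ 2 * √s * (s + 1) ^ 2 := by
          have h3 : (0:ℝ) ≤ 2 * √s := by positivity
          have h4 : (1:ℝ) ≤ (s + 1) ^ 2 := by nlinarith
          nlinarith
    have e2 : 0 ≤ 1 / (2 * s0 * √s0) := by positivity
    linarith
  refine ⟨Cg * B, fun k => ⟨?_, ?_⟩⟩
  · exact hCg (fun s => Phi0 s1 - Phi0 s) B
      (lip_on_of_deriv h0 (fun s hs => hdPhi0 hs) B hpar) (sub_self _) k
  · exact hCg (fun s => Phi1 s1 - Phi1 s) B
      (lip_on_of_deriv h0 (fun s hs => hasDerivAt_Phi1 hs) B hperp) (sub_self _) k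

theorem mm_off (g : ℝ → ℝ) {s0 s1 : ℝ} (h1 : s0 < s1) (k : Fin 3) {x : E3} (hx : s1 ≤ sph x) :
    mm g s0 s1 k x = 0 := by
  have : sgc s0 s1 x = s1 := by
    unfold sgc
    rw [min_eq_left hx, max_eq_right h1.le]
  unfold mm
  rw [this, sub_self, zero_mul]

theorem mm_core (g : ℝ → ℝ) {s0 s1 : ℝ} (k : Fin 3) {x : E3} (hx : sph x ≤ s0) :
    mm g s0 s1 k x = (g s1 - g s0) * x k := by
  have : sgc s0 s1 x = s0 := by
    unfold sgc
    rw [max_eq_left ((min_le_right _ _).trans hx)]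
  unfold mm
  rw [this]

theorem coord_fderiv (k : Fin 3) (x : E3) :
    HasFDerivAt (fun y : E3 => y k) (EuclideanSpace.proj k : E3 →L[ℝ] ℝ) x :=
  (EuclideanSpace.proj k : E3 →L[ℝ] ℝ).hasFDerivAt

theorem proj_ee (k l : Fin 3) : (EuclideanSpace.proj k : E3 →L[ℝ] ℝ) (ee l) =
    if k = l then 1 else 0 := by
  have := ee_apply l k
  simpa using this

theorem mm_core_fderiv (g : ℝ → ℝ) {s0 s1 : ℝ} (k : Fin 3) {x : E3} (hx : sph x < s0) :
    HasFDerivAt (mm g s0 s1 k) ((g s1 - g s0) • (EuclideanSpace.proj k : E3 →L[ℝ] ℝ)) x := by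
  have h := (coord_fderiv k x).const_mul (g s1 - g s0)
  refine h.congr_of_eventuallyEq ?_
  have hopen : {y : E3 | sph y < s0} ∈ 𝓝 x :=
    (isOpen_lt continuous_sph continuous_const).mem_nhds hx
  filter_upwards [hopen] with y hy
  exact mm_core g k (le_of_lt hy)

/-- the partial derivatives of `sph` -/
noncomputable def dsph (x : E3) (l : Fin 3) : ℝ :=
  2 / (sph x + x 0 ^ 2 / sph x) * (sph x * x l + x 0 * (if (0 : Fin 3) = l then 1 else 0))

theorem mm_coat_fderiv (g : ℝ → ℝ) {g' s0 s1 : ℝ} (k : Fin 3) {x : E3} (h0 : 0 < s0)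
    (hx0 : s0 < sph x) (hx1 : sph x < s1) (hg : HasDerivAt g g' (sph x)) :
    DifferentiableAt ℝ (mm g s0 s1 k) x ∧ ∀ l, fderiv ℝ (mm g s0 s1 k) x (ee l) =
      -g' * dsph x l * x k + (g s1 - g (sph x)) * (if k = l then 1 else 0) := by
  have hpos : 0 < sph x := h0.trans hx0
  have hsph := (hasGradientAt_sph x hpos).hasFDerivAt
  have h0' : HasFDerivAt (fun y => g (sph y))
      (g' • (InnerProductSpace.toDual ℝ E3) ((sph x + (x 0) ^ 2 / sph x)⁻¹ •
      ((2 * sph x) • x + (2 * x 0) • ee 0))) x :=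
    HasDerivAt.comp_hasFDerivAt x hg hsph
  have h1 := h0'.const_sub (g s1)
  have h2 := h1.mul (coord_fderiv k x)
  have heq : mm g s0 s1 k =ᶠ[𝓝 x] (fun y => (g s1 - g (sph y)) * y k) := by
    have hopen : {y : E3 | s0 < sph y ∧ sph y < s1} ∈ 𝓝 x :=
      ((isOpen_lt continuous_const continuous_sph).inter
        (isOpen_lt continuous_sph continuous_const)).mem_nhds ⟨hx0, hx1⟩
    filter_upwards [hopen] with y hy
    have : sgc s0 s1 y = sph y := by
      unfold sgc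
      rw [min_eq_right hy.2.le, max_eq_right hy.1.le]
    unfold mm
    rw [this]
  have h3 := h2.congr_of_eventuallyEq heq
  refine ⟨h3.differentiableAt, fun l => ?_⟩
  rw [h3.fderiv]
  have hin : ((InnerProductSpace.toDual ℝ E3) ((sph x + (x 0) ^ 2 / sph x)⁻¹ •
      ((2 * sph x) • x + (2 * x 0) • ee 0))) (ee l) = dsph x l := by
    rw [InnerProductSpace.toDual_apply_apply, inner_ee]
    change (sph x + (x 0) ^ 2 / sph x)⁻¹ * ((2 * sph x) * x l + (2 * x 0) * (ee 0) l) = _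
    rw [ee_apply 0 l]
    unfold dsph
    by_cases h : l = 0
    · subst h
      simp only [if_true]
      rw [div_eq_mul_inv]
      ring
    · rw [if_neg h, if_neg (fun h' => h h'.symm), div_eq_mul_inv]
      ring
  simp only [_root_.add_apply, _root_.smul_apply, proj_ee, _root_.neg_apply, hin, smul_eq_mul]
  ring

/-- the radial functions -/
noncomputable def gi (i : Fin 3) : ℝ → ℝ := if i = 0 then Phi0 else Phi1

/-- vector potentials of the coat, for unit strength -/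
noncomputable def xi (s0 s1 : ℝ) (i : Fin 3) : E3 → E3 := fun x =>
  if i = 0 then pt 0 (-mm Phi1 s0 s1 2 x) (mm Phi1 s0 s1 1 x)
  else if i = 1 then pt (mm Phi1 s0 s1 2 x) 0 (-mm Phi0 s0 s1 0 x)
  else pt (-mm Phi1 s0 s1 1 x) (mm Phi0 s0 s1 0 x) 0

theorem dsph_zero (x : E3) :
    dsph x 0 = 2 / (sph x + x 0 ^ 2 / sph x) * ((sph x + 1) * x 0) := by
  unfold dsph
  rw [if_pos rfl]
  ring

theorem dsph_ne (x : E3) (l : Fin 3) (hl : l ≠ 0) :
    dsph x l = 2 / (sph x + x 0 ^ 2 / sph x) * (sph x * x l) := by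
  unfold dsph
  rw [if_neg (fun h => hl h.symm), mul_zero, add_zero]

/-- cross identity -/
theorem id_cross (x : E3) (hx : 0 < sph x) (l : Fin 3) (hl : l ≠ 0) :
    1 / (2 * √(sph x) * (sph x + 1) ^ 2) * dsph x 0 * x l =
      1 / (2 * sph x * √(sph x) * (sph x + 1)) * dsph x l * x 0 := by
  rw [dsph_zero x, dsph_ne x l hl]
  have hr : 0 < √(sph x) := Real.sqrt_pos.mpr hx
  have hD : 0 < sph x + x 0 ^ 2 / sph x := by positivity
  field_simp

/-- main identity -/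
theorem id_main (x : E3) (hx : 0 < sph x) :
    1 / (2 * √(sph x) * (sph x + 1) ^ 2) * (dsph x 1 * x 1 + dsph x 2 * x 2) +
      1 / (2 * sph x * √(sph x) * (sph x + 1)) * dsph x 0 * x 0 = 1 / Vv (sph x) := by
  rw [dsph_zero x, dsph_ne x 1 (by decide), dsph_ne x 2 (by decide)]
  have hq := sph_quad x
  rw [norm_sq_three] at hq
  unfold Vv
  have hr : 0 < √(sph x) := Real.sqrt_pos.mpr hx
  set s := sph x with hs
  set r := √s with hrdef
  have hD : 0 < s ^ 2 + x 0 ^ 2 := by positivity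
  have e : s + x 0 ^ 2 / s = (s ^ 2 + x 0 ^ 2) / s := by field_simp
  rw [e]
  field_simp
  linear_combination (-s) * hq

theorem curl_xi0 {s0 s1 : ℝ} {x : E3} (h1 : ∀ k, DifferentiableAt ℝ (mm Phi1 s0 s1 k) x) :
    curlv (xi s0 s1 0) x =
      pt (fderiv ℝ (mm Phi1 s0 s1 1) x (ee 1) + fderiv ℝ (mm Phi1 s0 s1 2) x (ee 2))
        (-fderiv ℝ (mm Phi1 s0 s1 1) x (ee 0)) (-fderiv ℝ (mm Phi1 s0 s1 2) x (ee 0)) := by
  have e : xi s0 s1 0 = fun x => pt ((fun _ => (0:ℝ)) x) ((fun x => -mm Phi1 s0 s1 2 x) x)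
      (mm Phi1 s0 s1 1 x) := by
    funext y; simp [xi]
  rw [e, curlv_pt (differentiableAt_const _) (h1 2).fun_neg (h1 1)]
  have e1 : fderiv ℝ (fun x => -mm Phi1 s0 s1 2 x) x = -fderiv ℝ (mm Phi1 s0 s1 2) x :=
    (h1 2).hasFDerivAt.neg.fderiv
  have e2 : fderiv ℝ (fun _ : E3 => (0:ℝ)) x = 0 := (hasFDerivAt_const (0:ℝ) x).fderiv
  rw [e1, e2]
  apply e3_ext <;> simp only [pt_zero, pt_one, pt_two, _root_.neg_apply, _root_.zero_apply] <;>
    ring

theorem curl_xi1 {s0 s1 : ℝ} {x : E3} (h0 : ∀ k, DifferentiableAt ℝ (mm Phi0 s0 s1 k) x)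
    (h1 : ∀ k, DifferentiableAt ℝ (mm Phi1 s0 s1 k) x) :
    curlv (xi s0 s1 1) x =
      pt (-fderiv ℝ (mm Phi0 s0 s1 0) x (ee 1))
        (fderiv ℝ (mm Phi1 s0 s1 2) x (ee 2) + fderiv ℝ (mm Phi0 s0 s1 0) x (ee 0))
        (-fderiv ℝ (mm Phi1 s0 s1 2) x (ee 1)) := by
  have e : xi s0 s1 1 = fun x => pt (mm Phi1 s0 s1 2 x) ((fun _ => (0:ℝ)) x)
      ((fun x => -mm Phi0 s0 s1 0 x) x) := by
    funext y; simp [xi]
  rw [e, curlv_pt (h1 2) (differentiableAt_const _) (h0 0).fun_neg]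
  have e1 : fderiv ℝ (fun x => -mm Phi0 s0 s1 0 x) x = -fderiv ℝ (mm Phi0 s0 s1 0) x :=
    (h0 0).hasFDerivAt.neg.fderiv
  have e2 : fderiv ℝ (fun _ : E3 => (0:ℝ)) x = 0 := (hasFDerivAt_const (0:ℝ) x).fderiv
  rw [e1, e2]
  apply e3_ext <;> simp only [pt_zero, pt_one, pt_two, _root_.neg_apply, _root_.zero_apply] <;>
    ring

theorem curl_xi2 {s0 s1 : ℝ} {x : E3} (h0 : ∀ k, DifferentiableAt ℝ (mm Phi0 s0 s1 k) x)
    (h1 : ∀ k, DifferentiableAt ℝ (mm Phi1 s0 s1 k) x) :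
    curlv (xi s0 s1 2) x =
      pt (-fderiv ℝ (mm Phi0 s0 s1 0) x (ee 2)) (-fderiv ℝ (mm Phi1 s0 s1 1) x (ee 2))
        (fderiv ℝ (mm Phi0 s0 s1 0) x (ee 0) + fderiv ℝ (mm Phi1 s0 s1 1) x (ee 1)) := by
  have e : xi s0 s1 2 = fun x => pt ((fun x => -mm Phi1 s0 s1 1 x) x) (mm Phi0 s0 s1 0 x)
      ((fun _ => (0:ℝ)) x) := by
    funext y; simp [xi]
  rw [e, curlv_pt (h1 1).fun_neg (h0 0) (differentiableAt_const _)]
  have e1 : fderiv ℝ (fun x => -mm Phi1 s0 s1 1 x) x = -fderiv ℝ (mm Phi1 s0 s1 1) x :=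
    (h1 1).hasFDerivAt.neg.fderiv
  have e2 : fderiv ℝ (fun _ : E3 => (0:ℝ)) x = 0 := (hasFDerivAt_const (0:ℝ) x).fderiv
  rw [e1, e2]
  apply e3_ext <;> simp only [pt_zero, pt_one, pt_two, _root_.neg_apply, _root_.zero_apply] <;>
    ring

theorem grad_cm {f : E3 → ℝ} (a : ℝ) (x : E3) (l : Fin 3) :
    (∇ (fun y => a * f y) x) l = a * fderiv ℝ f x (ee l) := by
  rw [grad_const_mul]
  change a * (∇ f x) l = _
  rw [grad_coord]

theorem smul_coord (a : ℝ) (v : E3) (l : Fin 3) : (a • v) l = a * v l := rfl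
theorem add_coord (v w : E3) (l : Fin 3) : (v + w) l = v l + w l := rfl

/-- the relation in the coat -/
theorem coat_rel {s0 s1 c0 lam : ℝ} (h0 : 0 < s0) (hs : s0 < s1) (hc : 0 < c0) (i : Fin 3)
    {x : E3} (hx0 : s0 < sph x) (hx1 : sph x < s1) :
    lam • ee i + (c0 * str c0 s1 lam) • curlv (xi s0 s1 i) x =
      c0 • (ee i + ∇ (fun y => -str c0 s1 lam * mm (gi i) s0 s1 i y) x) := by
  have hpos : 0 < sph x := h0.trans hx0
  have hA := fun k => mm_coat_fderiv Phi1 k h0 hx0 hx1 (hasDerivAt_Phi1 hpos)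
  have hB := fun k => mm_coat_fderiv Phi0 k h0 hx0 hx1 (hdPhi0 hpos)
  have hs1 : 0 < s1 := h0.trans hs
  have hV1 : Vv s1 ≠ 0 := by
    have : 0 < √s1 := Real.sqrt_pos.mpr hs1
    have : 0 < Vv s1 := by unfold Vv; positivity
    exact this.ne'
  have c1 := id_cross x hpos 1 (by decide)
  have c2 := id_cross x hpos 2 (by decide)
  have m := id_main x hpos
  have k1 : Phi0 (sph x) + 2 * Phi1 (sph x) = -(1 / Vv (sph x)) := Phi0_add_two_Phi1 hpos
  have k2 : Phi0 s1 + 2 * Phi1 s1 = -(1 / Vv s1) := Phi0_add_two_Phi1 hs1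
  have hstr : c0 * str c0 s1 lam = Vv s1 * (lam - c0) := by
    unfold str; field_simp
  have hlam : lam - c0 = c0 * str c0 s1 lam * (1 / Vv s1) := by
    rw [hstr]; field_simp
  have d12 : dsph x 1 * x 2 = dsph x 2 * x 1 := by
    rw [dsph_ne x 1 (by decide), dsph_ne x 2 (by decide)]; ring
  set a := str c0 s1 lam with ha
  set p' := 1 / (2 * √(sph x) * (sph x + 1) ^ 2) with hp'
  set q' := 1 / (2 * sph x * √(sph x) * (sph x + 1)) with hq'
  set V := 1 / Vv (sph x) with hV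
  set W := 1 / Vv s1 with hW
  fin_cases i
  · change lam • ee 0 + (c0 * a) • curlv (xi s0 s1 0) x =
      c0 • (ee 0 + ∇ (fun y => -a * mm (gi 0) s0 s1 0 y) x)
    have eg : gi 0 = Phi0 := by simp [gi]
    rw [curl_xi0 (fun k => (hA k).1), eg]
    apply e3_ext
    · simp only [add_coord, smul_coord, grad_cm, pt_zero, (hA _).2, (hB _).2, ee_apply]
      simp
      linear_combination hlam + (c0 * a) * (k2 - k1) - (c0 * a) * m
    · simp only [add_coord, smul_coord, grad_cm, pt_one, (hA _).2, (hB _).2, ee_apply]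
      simp
      linear_combination (c0 * a) * c1
    · simp only [add_coord, smul_coord, grad_cm, pt_two, (hA _).2, (hB _).2, ee_apply]
      simp
      linear_combination (c0 * a) * c2
  · change lam • ee 1 + (c0 * a) • curlv (xi s0 s1 1) x =
      c0 • (ee 1 + ∇ (fun y => -a * mm (gi 1) s0 s1 1 y) x)
    have eg : gi 1 = Phi1 := by simp [gi]
    rw [curl_xi1 (fun k => (hB k).1) (fun k => (hA k).1), eg]
    apply e3_ext
    · simp only [add_coord, smul_coord, grad_cm, pt_zero, (hA _).2, (hB _).2, ee_apply]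
      simp
      linear_combination (-(c0 * a)) * c1
    · simp only [add_coord, smul_coord, grad_cm, pt_one, (hA _).2, (hB _).2, ee_apply]
      simp
      linear_combination hlam + (c0 * a) * (k2 - k1) - (c0 * a) * m
    · simp only [add_coord, smul_coord, grad_cm, pt_two, (hA _).2, (hB _).2, ee_apply]
      simp
      linear_combination (c0 * a * p') * d12
  · change lam • ee 2 + (c0 * a) • curlv (xi s0 s1 2) x =
      c0 • (ee 2 + ∇ (fun y => -a * mm (gi 2) s0 s1 2 y) x)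
    have eg : gi 2 = Phi1 := by simp [gi]
    rw [curl_xi2 (fun k => (hB k).1) (fun k => (hA k).1), eg]
    apply e3_ext
    · simp only [add_coord, smul_coord, grad_cm, pt_zero, (hA _).2, (hB _).2, ee_apply]
      simp
      linear_combination (-(c0 * a)) * c2
    · simp only [add_coord, smul_coord, grad_cm, pt_one, (hA _).2, (hB _).2, ee_apply]
      simp
      linear_combination (-(c0 * a * p')) * d12
    · simp only [add_coord, smul_coord, grad_cm, pt_two, (hA _).2, (hB _).2, ee_apply]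
      simp
      linear_combination hlam + (c0 * a) * (k2 - k1) - (c0 * a) * m

theorem core_partial (g : ℝ → ℝ) {s0 s1 : ℝ} (k l : Fin 3) {x : E3} (hx : sph x < s0) :
    fderiv ℝ (mm g s0 s1 k) x (ee l) = (g s1 - g s0) * (if k = l then 1 else 0) := by
  rw [(mm_core_fderiv g k hx).fderiv]
  simp only [_root_.smul_apply, proj_ee, smul_eq_mul]

/-- the relation in the core -/
theorem core_rel {s0 s1 c0 lam kap : ℝ} (h0 : 0 < s0) (hs : s0 < s1) (hc : 0 < c0) (i : Fin 3)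
    (hk : kap * (1 - str c0 s1 lam * (gi i s1 - gi i s0)) =
      c0 * ((1 - str c0 s1 lam * (gi i s1 - gi i s0)) + str c0 s1 lam / Vv s0))
    {x : E3} (hx : sph x < s0) :
    lam • ee i + (c0 * str c0 s1 lam) • curlv (xi s0 s1 i) x =
      (kap * (1 - str c0 s1 lam * (gi i s1 - gi i s0))) • ee i := by
  have hs1 : 0 < s1 := h0.trans hs
  have hA := fun k => (mm_core_fderiv Phi1 (s1 := s1) k hx).differentiableAt
  have hB := fun k => (mm_core_fderiv Phi0 (s1 := s1) k hx).differentiableAt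
  have hV1 : Vv s1 ≠ 0 := by
    have : 0 < √s1 := Real.sqrt_pos.mpr hs1
    have : 0 < Vv s1 := by unfold Vv; positivity
    exact this.ne'
  have k1 : Phi0 s0 + 2 * Phi1 s0 = -(1 / Vv s0) := Phi0_add_two_Phi1 h0
  have k2 : Phi0 s1 + 2 * Phi1 s1 = -(1 / Vv s1) := Phi0_add_two_Phi1 hs1
  have hstr : c0 * str c0 s1 lam = Vv s1 * (lam - c0) := by
    unfold str; field_simp
  have hlam : lam - c0 = c0 * str c0 s1 lam * (1 / Vv s1) := by
    rw [hstr]; field_simp
  rw [hk]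
  rw [div_eq_mul_one_div (str c0 s1 lam) (Vv s0)]
  generalize str c0 s1 lam = a at hlam ⊢
  fin_cases i
  · change lam • ee 0 + (c0 * a) • curlv (xi s0 s1 0) x =
      (c0 * ((1 - a * (gi 0 s1 - gi 0 s0)) + a * (1 / Vv s0))) • ee 0
    have eg : gi 0 = Phi0 := by simp [gi]
    rw [curl_xi0 hA, eg]
    apply e3_ext
    · simp only [add_coord, smul_coord, pt_zero, core_partial _ _ _ hx, ee_apply]
      simp
      linear_combination hlam + (c0 * a) * (k2 - k1)
    · simp only [add_coord, smul_coord, pt_one, core_partial _ _ _ hx, ee_apply]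
      simp
    · simp only [add_coord, smul_coord, pt_two, core_partial _ _ _ hx, ee_apply]
      simp
  · change lam • ee 1 + (c0 * a) • curlv (xi s0 s1 1) x =
      (c0 * ((1 - a * (gi 1 s1 - gi 1 s0)) + a * (1 / Vv s0))) • ee 1
    have eg : gi 1 = Phi1 := by simp [gi]
    rw [curl_xi1 hB hA, eg]
    apply e3_ext
    · simp only [add_coord, smul_coord, pt_zero, core_partial _ _ _ hx, ee_apply]
      simp
    · simp only [add_coord, smul_coord, pt_one, core_partial _ _ _ hx, ee_apply]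
      simp
      linear_combination hlam + (c0 * a) * (k2 - k1)
    · simp only [add_coord, smul_coord, pt_two, core_partial _ _ _ hx, ee_apply]
      simp
  · change lam • ee 2 + (c0 * a) • curlv (xi s0 s1 2) x =
      (c0 * ((1 - a * (gi 2 s1 - gi 2 s0)) + a * (1 / Vv s0))) • ee 2
    have eg : gi 2 = Phi1 := by simp [gi]
    rw [curl_xi2 hB hA, eg]
    apply e3_ext
    · simp only [add_coord, smul_coord, pt_zero, core_partial _ _ _ hx, ee_apply]
      simp
    · simp only [add_coord, smul_coord, pt_one, core_partial _ _ _ hx, ee_apply]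
      simp
    · simp only [add_coord, smul_coord, pt_two, core_partial _ _ _ hx, ee_apply]
      simp
      linear_combination hlam + (c0 * a) * (k2 - k1)

theorem lip_neg {f : E3 → ℝ} {K : ℝ≥0} (h : LipschitzWith K f) :
    LipschitzWith K (fun x => -f x) := by
  refine LipschitzWith.of_dist_le_mul fun x y => ?_
  rw [dist_neg_neg]
  exact h.dist_le_mul x y

theorem lip_zero : LipschitzWith 0 (fun _ : E3 => (0:ℝ)) := LipschitzWith.const 0

theorem xi_lip {s0 s1 : ℝ} {M0 : ℝ≥0}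
    (hM : ∀ k, LipschitzWith M0 (mm Phi0 s0 s1 k) ∧ LipschitzWith M0 (mm Phi1 s0 s1 k))
    (i : Fin 3) : LipschitzWith (2 * M0) (xi s0 s1 i) := by
  fin_cases i
  · have := lip_pt lip_zero (lip_neg (hM 2).2) (hM 1).2
    have e : xi s0 s1 0 = fun x => pt 0 (-mm Phi1 s0 s1 2 x) (mm Phi1 s0 s1 1 x) := by
      funext y; simp [xi]
    change LipschitzWith (2 * M0) (xi s0 s1 0)
    rw [e]
    refine this.weaken (le_of_eq ?_)
    ring
  · have := lip_pt (hM 2).2 lip_zero (lip_neg (hM 0).1)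
    have e : xi s0 s1 1 = fun x => pt (mm Phi1 s0 s1 2 x) 0 (-mm Phi0 s0 s1 0 x) := by
      funext y; simp [xi]
    change LipschitzWith (2 * M0) (xi s0 s1 1)
    rw [e]
    refine this.weaken (le_of_eq ?_)
    ring
  · have := lip_pt (lip_neg (hM 1).2) (hM 0).1 lip_zero
    have e : xi s0 s1 2 = fun x => pt (-mm Phi1 s0 s1 1 x) (mm Phi0 s0 s1 0 x) 0 := by
      funext y; simp [xi]
    change LipschitzWith (2 * M0) (xi s0 s1 2)
    rw [e]
    refine this.weaken (le_of_eq ?_)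
    ring

theorem xi_off {s0 s1 : ℝ} (h1 : s0 < s1) (i : Fin 3) {x : E3} (hx : s1 ≤ sph x) :
    xi s0 s1 i x = 0 := by
  have h := fun g k => mm_off g h1 k hx
  unfold xi
  simp only [h]
  split_ifs <;> (apply e3_ext <;> simp [pt])

theorem curl_off {s0 s1 : ℝ} (h1 : s0 < s1) (i : Fin 3) {x : E3} (hx : s1 < sph x) :
    curlv (xi s0 s1 i) x = 0 := by
  have heq : xi s0 s1 i =ᶠ[𝓝 x] fun _ => (0 : E3) := by
    have hopen : {y : E3 | s1 < sph y} ∈ 𝓝 x :=
      (isOpen_lt continuous_const continuous_sph).mem_nhds hx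
    filter_upwards [hopen] with y hy
    exact xi_off h1 i (le_of_lt hy)
  have h2 : fderiv ℝ (xi s0 s1 i) x = 0 := by
    rw [heq.fderiv_eq]
    exact (hasFDerivAt_const (0 : E3) x).fderiv
  unfold curlv
  rw [h2]
  apply e3_ext <;> simp [pt]

theorem diagL_ee (a : Fin 3 → ℝ) (i : Fin 3) : diagL a (ee i) = a i • ee i := by
  unfold diagL
  rw [_root_.sum_apply]
  rw [Finset.sum_eq_single i]
  · simp only [_root_.smul_apply, ContinuousLinearMap.smulRight_apply, proj_ee, if_true, one_smul]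
  · intro j _ hj
    simp only [_root_.smul_apply, ContinuousLinearMap.smulRight_apply, proj_ee, if_neg hj,
      zero_smul, smul_zero]
  · intro h
    exact absurd (Finset.mem_univ i) h

theorem gi_lip {s0 s1 : ℝ} {M0 : ℝ≥0}
    (hM : ∀ k, LipschitzWith M0 (mm Phi0 s0 s1 k) ∧ LipschitzWith M0 (mm Phi1 s0 s1 k))
    (i k : Fin 3) : LipschitzWith M0 (mm (gi i) s0 s1 k) := by
  unfold gi
  split_ifs
  · exact (hM k).1
  · exact (hM k).2

theorem gi_mono {s0 s1 : ℝ} (h0 : 0 < s0) (h1 : s0 < s1) (i : Fin 3) : gi i s0 ≤ gi i s1 := by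
  have hmono : MonotoneOn (gi i) (Icc s0 s1) := by
    refine monotoneOn_of_hasDerivWithinAt_nonneg
      (f' := fun s => if i = 0 then 1 / (2 * s * √s * (s + 1)) else 1 / (2 * √s * (s + 1) ^ 2))
      (convex_Icc s0 s1) ?_ ?_ ?_
    · intro s hs
      have hs' : 0 < s := h0.trans_le hs.1
      unfold gi
      split_ifs
      · exact (hdPhi0 hs').continuousAt.continuousWithinAt
      · exact (hasDerivAt_Phi1 hs').continuousAt.continuousWithinAt
    · intro s hs
      rw [interior_Icc] at hs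
      have hs' : 0 < s := h0.trans hs.1
      unfold gi
      split_ifs
      · exact (hdPhi0 hs').hasDerivWithinAt
      · exact (hasDerivAt_Phi1 hs').hasDerivWithinAt
    · intro s hs
      rw [interior_Icc] at hs
      have hs' : 0 < s := h0.trans hs.1
      have hr : 0 < √s := Real.sqrt_pos.mpr hs'
      split_ifs <;> positivity
  exact hmono (left_mem_Icc.mpr h1.le) (right_mem_Icc.mpr h1.le) h1.le

/-- Inclusion lemma: coated spheroid with core tensor `kap` looks like `lam` from outside. -/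
theorem incl_cell_aux (s0 s1 m Λ : ℝ) (h0 : 0 < s0) (h1 : s0 < s1) (hm : 0 < m) :
    ∃ K : ℝ≥0, ∀ (c0 : ℝ) (lam kap : Fin 3 → ℝ), m ≤ c0 → (∀ i, lam i ≤ Λ) →
      Coat s0 s1 c0 lam kap →
      ∀ (c C : ℝ) (L : ℝ≥0), c ≤ c0 → c0 ≤ C → Resolves c C L (diagL kap) →
        CellData c C (K + L) (diagL lam) (Dsph s1) := by
  obtain ⟨M0, hM⟩ := mm_lip s0 s1 h0 h1
  have hs1 : 0 < s1 := h0.trans h1
  have hV1 : 0 < Vv s1 := by
    have : 0 < √s1 := Real.sqrt_pos.mpr hs1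
    unfold Vv; positivity
  set A1 : ℝ≥0 := Real.toNNReal (Vv s1 * |Λ| / m) with hA1
  set A2 : ℝ≥0 := Real.toNNReal (Vv s1 * |Λ|) with hA2
  have hA1v : (A1 : ℝ) = Vv s1 * |Λ| / m := Real.coe_toNNReal _ (by positivity)
  have hA2v : (A2 : ℝ) = Vv s1 * |Λ| := Real.coe_toNNReal _ (by positivity)
  refine ⟨A1 * M0 + 12 * A2 * M0, ?_⟩
  intro c0 lam kap hmc hlamΛ hCoat c C L hcc0 hc0C hres
  have hc0 : 0 < c0 := hm.trans_le hmc
  have hUo : IsOpen {x : E3 | sph x < s0} := isOpen_lt continuous_sph continuous_const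
  have hDc := Dsph_compact s1 hs1
  have hUb : Bornology.IsBounded {x : E3 | sph x < s0} :=
    hDc.isBounded.subset fun x hx => (le_of_lt (lt_trans hx h1) : sph x ≤ s1)
  obtain ⟨γ', v', R', hγm, hγb, hvR⟩ := hres _ hUo hUb 1 one_pos
  -- strengths
  have hal0 : ∀ i, 0 ≤ str c0 s1 (lam i) := fun i => by
    have := hCoat.hl i
    unfold str
    have h3 : 0 ≤ lam i - c0 := by linarith
    positivity
  have hlabs : ∀ i, lam i - c0 ≤ |Λ| := fun i => by
    have := hlamΛ i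
    have := le_abs_self Λ
    linarith
  have hal1 : ∀ i, str c0 s1 (lam i) ≤ A1 := fun i => by
    rw [hA1v]
    unfold str
    have h3 : 0 ≤ lam i - c0 := by linarith [hCoat.hl i]
    exact div_le_div₀ (by positivity) (mul_le_mul_of_nonneg_left (hlabs i) hV1.le) hm hmc
  have hal2 : ∀ i, c0 * str c0 s1 (lam i) ≤ A2 := fun i => by
    rw [hA2v]
    have : c0 * str c0 s1 (lam i) = Vv s1 * (lam i - c0) := by unfold str; field_simp
    rw [this]
    exact mul_le_mul_of_nonneg_left (hlabs i) hV1.le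
  -- core factors
  set Fc : Fin 3 → ℝ := fun i => 1 - str c0 s1 (lam i) * (gi i s1 - gi i s0) with hFc
  have hF0 : ∀ i, 0 < Fc i := by
    intro i
    fin_cases i
    · have := hCoat.F0
      unfold Ff at this
      simpa [hFc, gi] using this
    · have := hCoat.G1
      unfold Gf at this
      simpa [hFc, gi] using this
    · have := hCoat.G2
      unfold Gf at this
      simpa [hFc, gi] using this
  have hF1 : ∀ i, Fc i ≤ 1 := by
    intro i
    have h3 : 0 ≤ gi i s1 - gi i s0 := sub_nonneg.mpr (gi_mono h0 h1 i)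
    have := mul_nonneg (hal0 i) h3
    simp only [hFc]
    linarith
  have hk : ∀ i, kap i * Fc i = c0 * (Fc i + str c0 s1 (lam i) / Vv s0) := by
    intro i
    fin_cases i
    · have := hCoat.k0
      unfold Hf Ff at this
      simpa [hFc, gi] using this
    · have := hCoat.k1
      unfold Gf at this
      simpa [hFc, gi] using this
    · have := hCoat.k2
      unfold Gf at this
      simpa [hFc, gi] using this
  classical
  refine ⟨fun x => if sph x < s0 then γ' x else c0,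
    fun i x => -str c0 s1 (lam i) * mm (gi i) s0 s1 i x + Fc i * v' i x,
    fun i x => (c0 * str c0 s1 (lam i)) • curlv (xi s0 s1 i) x + Fc i • R' i x, ?_, ?_, ?_⟩
  · exact Measurable.ite (measurableSet_lt continuous_sph.measurable measurable_const) hγm
      measurable_const
  · intro x
    by_cases hx : sph x < s0
    · simp only [hx, if_true]; exact hγb x
    · simp only [hx, if_false]; exact ⟨hcc0, hc0C⟩
  intro i
  obtain ⟨hvL, hv0, -, hRm, hRb, hR0, hRW, hrel⟩ := hvR i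
  have hv0' : ∀ x, s0 ≤ sph x → v' i x = 0 := fun x hx => hv0 x (by simpa using hx)
  have hR0' : ∀ x, s0 ≤ sph x → R' i x = 0 := fun x hx => hR0 x (by simpa using hx)
  have hxiL := xi_lip hM i
  refine ⟨?_, ?_, ?_, ?_, ?_, ?_, ?_⟩
  · -- Lipschitz
    refine LipschitzWith.of_dist_le_mul fun x y => ?_
    have e1 := (gi_lip hM i i).dist_le_mul x y
    have e2 := hvL.dist_le_mul x y
    rw [Real.dist_eq] at e1 e2 ⊢
    have e3 : -str c0 s1 (lam i) * mm (gi i) s0 s1 i x + Fc i * v' i x -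
        (-str c0 s1 (lam i) * mm (gi i) s0 s1 i y + Fc i * v' i y) =
        -(str c0 s1 (lam i) * (mm (gi i) s0 s1 i x - mm (gi i) s0 s1 i y)) +
          Fc i * (v' i x - v' i y) := by ring
    rw [e3]
    refine (abs_add_le _ _).trans ?_
    rw [abs_neg, abs_mul, abs_mul, abs_of_nonneg (hal0 i), abs_of_pos (hF0 i)]
    have hd : 0 ≤ dist x y := dist_nonneg
    have b1 : str c0 s1 (lam i) * |mm (gi i) s0 s1 i x - mm (gi i) s0 s1 i y| ≤
        A1 * (M0 * dist x y) :=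
      mul_le_mul (hal1 i) e1 (abs_nonneg _) A1.2
    have b2 : Fc i * |v' i x - v' i y| ≤ 1 * (L * dist x y) :=
      mul_le_mul (hF1 i) e2 (abs_nonneg _) zero_le_one
    push_cast
    have b3 : 0 ≤ 12 * (A2 : ℝ) * M0 * dist x y := by positivity
    nlinarith
  · intro x hx
    have hx' : s1 < sph x := by simpa [Dsph] using hx
    simp only [mm_off _ h1 i hx'.le, hv0' x (h1.trans hx').le, mul_zero, add_zero]
  · exact ((measurable_curlv (xi s0 s1 i)).const_smul (c0 * str c0 s1 (lam i))).add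
      (hRm.const_smul (Fc i))
  · intro x
    refine (norm_add_le _ _).trans ?_
    rw [norm_smul, norm_smul, Real.norm_eq_abs, Real.norm_eq_abs, abs_of_pos (hF0 i),
      abs_of_nonneg (mul_nonneg hc0.le (hal0 i))]
    have e1 := norm_curlv_le hxiL x
    have e2 := hRb x
    have b1 : c0 * str c0 s1 (lam i) * ‖curlv (xi s0 s1 i) x‖ ≤ A2 * (6 * (2 * M0 : ℝ≥0)) :=
      mul_le_mul (hal2 i) e1 (norm_nonneg _) A2.2
    have b2 : Fc i * ‖R' i x‖ ≤ 1 * L := mul_le_mul (hF1 i) e2 (norm_nonneg _) zero_le_one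
    push_cast at b1 ⊢
    have b3 : 0 ≤ (A1 : ℝ) * M0 := by positivity
    nlinarith
  · intro x hx
    have hx' : s1 < sph x := by simpa [Dsph] using hx
    simp only [curl_off h1 i hx', hR0' x (h1.trans hx').le, smul_zero, add_zero]
  · obtain ⟨r, hr⟩ := hDc.isBounded.subset_closedBall (0 : E3)
    have hw : WDF (curlv (xi s0 s1 i)) := by
      refine wdf_curl _ _ hxiL r fun x hx => xi_off h1 i ?_
      by_contra hlt
      have : x ∈ Dsph s1 := by
        have : sph x < s1 := not_le.mp hlt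
        exact this.le
      have := hr this
      rw [mem_closedBall_zero_iff] at this
      linarith
    exact (hw.const_smul _).add (hRW.const_smul _)
  · -- the relation
    have hnull0 : ∀ᵐ x ∂(volume.restrict (Dsph s1)), sph x ≠ s0 := by
      refine ae_restrict_of_ae ?_
      rw [ae_iff]
      simpa using sph_level_null s0 h0
    have hnull1 : ∀ᵐ x ∂(volume.restrict (Dsph s1)), sph x ≠ s1 := by
      refine ae_restrict_of_ae ?_
      rw [ae_iff]
      simpa using sph_level_null s1 hs1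
    have hdiff : ∀ᵐ x ∂(volume.restrict (Dsph s1)), DifferentiableAt ℝ (v' i) x :=
      ae_restrict_of_ae hvL.ae_differentiableAt
    have hrel' : ∀ᵐ x ∂(volume.restrict (Dsph s1)), sph x < s0 →
        (diagL kap) (ee i) + R' i x = γ' x • (ee i + ∇ (v' i) x) := by
      refine ae_restrict_of_ae ?_
      exact (ae_restrict_iff' hUo.measurableSet).mp hrel
    have hmem : ∀ᵐ x ∂(volume.restrict (Dsph s1)), x ∈ Dsph s1 :=
      ae_restrict_mem hDc.measurableSet
    filter_upwards [hnull0, hnull1, hdiff, hrel', hmem] with x hx0 hx1 hd hr hxD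
    rw [diagL_ee]
    rcases lt_or_gt_of_ne hx0 with hlt | hgt
    · -- core
      simp only [hlt, if_true]
      have hr' := hr hlt
      rw [diagL_ee] at hr'
      have hcr := core_rel h0 h1 hc0 i (hk i) hlt
      have hgrad : ∇ (fun x => -str c0 s1 (lam i) * mm (gi i) s0 s1 i x + Fc i * v' i x) x =
          (Fc i - 1) • ee i + Fc i • ∇ (v' i) x := by
        have hmd := (mm_core_fderiv (gi i) (s1 := s1) i hlt)
        rw [grad_add (hmd.differentiableAt.const_mul _) (hd.const_mul _), grad_const_mul (v' i)]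
        congr 1
        rw [grad_const_mul]
        apply e3_ext
        all_goals
          simp only [smul_coord, grad_coord, core_partial _ _ _ hlt, ee_apply, hFc]
          simp only [eq_comm]
          ring
      rw [hgrad, ← add_assoc, hcr]
      have e4 : (ee i : E3) + ((Fc i - 1) • ee i + Fc i • ∇ (v' i) x) =
          Fc i • (ee i + ∇ (v' i) x) := by
        rw [smul_add, sub_smul, one_smul]; abel
      rw [e4, smul_comm, ← hr', smul_add, smul_smul]
      congr 2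
      simp only [hFc]
      ring
    · -- coat
      have hnlt : ¬ sph x < s0 := not_lt.mpr hgt.le
      have hx1' : sph x < s1 := lt_of_le_of_ne hxD hx1
      simp only [hnlt, if_false]
      rw [hR0' x hgt.le, smul_zero, add_zero, coat_rel h0 h1 hc0 i hgt hx1']
      congr 2
      have heq : (fun x => -str c0 s1 (lam i) * mm (gi i) s0 s1 i x + Fc i * v' i x) =ᶠ[𝓝 x]
          (fun x => -str c0 s1 (lam i) * mm (gi i) s0 s1 i x) := by
        have hopen : {y : E3 | s0 < sph y} ∈ 𝓝 x :=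
          (isOpen_lt continuous_const continuous_sph).mem_nhds hgt
        filter_upwards [hopen] with y hy
        rw [hv0' y (le_of_lt hy), mul_zero, add_zero]
      rw [grad_def, grad_def, heq.fderiv_eq]

end InclAux

/-- Inclusion lemma: coated spheroid with core tensor `kap` looks like `lam` from outside. -/
theorem incl_cell (s0 s1 m Λ : ℝ) (h0 : 0 < s0) (h1 : s0 < s1) (hm : 0 < m) :
    ∃ K : ℝ≥0, ∀ (c0 : ℝ) (lam kap : Fin 3 → ℝ), m ≤ c0 → (∀ i, lam i ≤ Λ) →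
      Coat s0 s1 c0 lam kap →
      ∀ (c C : ℝ) (L : ℝ≥0), c ≤ c0 → c0 ≤ C → Resolves c C L (diagL kap) →
        CellData c C (K + L) (diagL lam) (Dsph s1) :=
  InclAux.incl_cell_aux s0 s1 m Λ h0 h1 hm

end Crest.Agent.R083
end

-- ▼ part R083/Resolve

/-!
Row 83 (S0111), RES group: every elliptic tensor is realised exactly by scalar conductivities.
-/

set_option autoImplicit false

namespace Crest.Agent.R083

open MeasureTheory Set Filter
open scoped Gradient ENNReal NNReal Topology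

theorem rs_mono {c C c' C' : ℝ} {L L' : ℝ≥0} {A : E3 →L[ℝ] E3} (h : Resolves c C L A)
    (hc : c' ≤ c) (hC : C ≤ C') (hL : L ≤ L') : Resolves c' C' L' A := by
  intro U hU hUb ε hε
  obtain ⟨γ, v, R, hγm, hγb, hi⟩ := h U hU hUb ε hε
  refine ⟨γ, v, R, hγm, fun x => ⟨hc.trans (hγb x).1, (hγb x).2.trans hC⟩, fun i => ?_⟩
  obtain ⟨h1, h2, h3, h4, h5, h6, h7, h8⟩ := hi i
  exact ⟨h1.weaken hL, h2, h3, h4, fun x => (h5 x).trans (by exact_mod_cast hL), h6, h7, h8⟩

theorem rs_scalar {c C κ : ℝ} {A : E3 →L[ℝ] E3} (hA : ∀ i, A (ee i) = κ • ee i)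
    (hc : c ≤ κ) (hC : κ ≤ C) (L : ℝ≥0) : Resolves c C L A := by
  intro U hU hUb ε hε
  refine ⟨fun _ => κ, fun _ _ => 0, fun _ _ => 0, measurable_const, fun x => ⟨hc, hC⟩,
    fun i => ⟨?_, fun _ _ => rfl, fun x => by simpa using hε.le, measurable_const,
      fun x => by simp, fun _ _ => rfl, ?_, ?_⟩⟩
  · exact (LipschitzWith.const (0 : ℝ)).weaken bot_le
  · refine ⟨integrable_zero _ _ _, fun ψ K hψ => by simp⟩
  · refine Eventually.of_forall fun x => ?_
    have : ∇ (fun _ : E3 => (0 : ℝ)) x = 0 := by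
      simp [gradient]
    simp only [this, add_zero, hA i]

theorem rs_diagL_apply (a : Fin 3 → ℝ) (x : E3) (i : Fin 3) : diagL a x i = a i * x i := by
  simp [diagL, ee, Fin.sum_univ_three]
  fin_cases i <;> simp

theorem rs_diagL_ee (a : Fin 3 → ℝ) (i : Fin 3) : diagL a (ee i) = a i • ee i := by
  ext j
  rw [rs_diagL_apply]
  simp only [ee, PiLp.smul_apply, smul_eq_mul, PiLp.single_apply]
  split_ifs with h
  · rw [h]
  · simp

/-- Coordinate permutations. -/
noncomputable def swO (e : Equiv.Perm (Fin 3)) : E3 ≃ₗᵢ[ℝ] E3 :=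
  LinearIsometryEquiv.piLpCongrLeft 2 ℝ ℝ e

theorem rs_swO_apply (e : Equiv.Perm (Fin 3)) (x : E3) (i : Fin 3) :
    swO e x i = x (e.symm i) := rfl

theorem rs_swO_symm_apply (e : Equiv.Perm (Fin 3)) (x : E3) (i : Fin 3) :
    (swO e).symm x i = x (e i) := by
  simp [swO]

theorem rs_rotT_apply (O : E3 ≃ₗᵢ[ℝ] E3) (A : E3 →L[ℝ] E3) (x : E3) :
    rotT O A x = O (A (O.symm x)) := rfl

theorem rs_rotT_swap (e : Equiv.Perm (Fin 3)) (a : Fin 3 → ℝ) :
    rotT (swO e) (diagL a) = diagL (fun i => a (e.symm i)) := by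
  ext x i
  rw [rs_rotT_apply, rs_swO_apply, rs_diagL_apply, rs_swO_symm_apply, rs_diagL_apply]
  simp

theorem rs_e3_sum (y : E3) : y = ∑ i : Fin 3, y i • ee i := by
  ext j
  simp [ee, Fin.sum_univ_three]
  fin_cases j <;> simp

/-- Diagonalisation with the smallest eigenvalue first and the largest second. -/
theorem diagonalise (A : E3 →L[ℝ] E3) (δ : ℝ) (hA : Ell δ A) :
    ∃ (O : E3 ≃ₗᵢ[ℝ] E3) (lam : Fin 3 → ℝ), A = rotT O (diagL lam) ∧
      (∀ i, δ ≤ lam i ∧ lam i ≤ δ⁻¹) ∧ lam 0 ≤ lam 2 ∧ lam 2 ≤ lam 1 := by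
  have hn : Module.finrank ℝ E3 = 3 := by simp [E3]
  have hT : (A : E3 →ₗ[ℝ] E3).IsSymmetric := fun x y => hA.1 x y
  set b := hT.eigenvectorBasis hn with hb
  set μ := hT.eigenvalues hn with hμ
  have hanti : Antitone μ := hT.eigenvalues_antitone hn
  have hbe : ∀ i, A (b i) = μ i • b i := fun i => by
    exact hT.apply_eigenvectorBasis hn i
  set O : E3 ≃ₗᵢ[ℝ] E3 := (b.reindex (finRotate 3)).repr.symm with hO
  set lam : Fin 3 → ℝ := fun i => μ ((finRotate 3).symm i) with hlam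
  have hOe : ∀ i, O (ee i) = b ((finRotate 3).symm i) := fun i => by
    rw [hO, ee, OrthonormalBasis.repr_symm_single, OrthonormalBasis.reindex_apply]
  have h0 : (finRotate 3).symm 0 = 2 := by decide
  have h1 : (finRotate 3).symm 1 = 0 := by decide
  have h2 : (finRotate 3).symm 2 = 1 := by decide
  have key : ∀ y, A (O y) = O (diagL lam y) := by
    intro y
    rw [rs_e3_sum y]
    simp only [map_sum, map_smul]
    refine Finset.sum_congr rfl fun i _ => ?_
    rw [hOe, hbe, rs_diagL_ee, map_smul, hOe]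
  refine ⟨O, lam, ?_, ?_, ?_, ?_⟩
  · ext1 x
    rw [rs_rotT_apply, ← key, LinearIsometryEquiv.apply_symm_apply]
  · intro i
    have hnorm : ‖b ((finRotate 3).symm i)‖ = 1 := b.orthonormal.1 _
    have h := hA.2 (b ((finRotate 3).symm i))
    rw [hbe, inner_smul_left, real_inner_self_eq_norm_sq, hnorm] at h
    simp only [one_pow, mul_one, conj_trivial] at h
    exact h
  · simp only [hlam, h0, h2]
    exact hanti (by decide)
  · simp only [hlam, h2, h1]
    exact hanti (by decide)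

/-- One level of coated spheroids. -/
theorem level_resolve (δ : ℝ) (hδ : 0 < δ) (hδ1 : δ ≤ 1) :
    ∃ (δ' : ℝ) (K : ℝ≥0), 0 < δ' ∧ δ' ≤ 1 ∧ ∀ lam : Fin 3 → ℝ,
      (∀ i, δ ≤ lam i ∧ lam i ≤ δ⁻¹) → lam 0 < lam 1 → lam 0 ≤ lam 2 → lam 2 ≤ lam 1 →
      ∃ kap : Fin 3 → ℝ, (∀ i, δ' ≤ kap i ∧ kap i ≤ δ'⁻¹) ∧ kap 0 = kap 1 ∧
        kap 2 ≤ kap 1 ∧ (lam 2 = lam 1 → kap 2 = kap 1) ∧
        ∀ (c C : ℝ) (L : ℝ≥0), c ≤ δ' → δ'⁻¹ ≤ C → Resolves c C L (diagL kap) →
          Resolves c C (2 * (K + L)) (diagL lam) := by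
  obtain ⟨s0, s1, δ', h0, h01, hδ', hδ'1, hp⟩ := level_param δ hδ hδ1
  obtain ⟨K, hK⟩ := incl_cell s0 s1 δ' δ⁻¹ h0 h01 hδ'
  refine ⟨δ', K, hδ', hδ'1, fun lam hb h1 h2 h3 => ?_⟩
  obtain ⟨c0, kap, hc0, hc0', hkb, hcoat, hk01, hk21, hk2⟩ := hp lam hb h1 h2 h3
  refine ⟨kap, hkb, hk01, hk21, hk2, fun c C L hc hC hR => ?_⟩
  have hs1 : 0 < s1 := h0.trans h01
  exact fill_core c C (K + L) (diagL lam) (Dsph s1) (Dsph_compact s1 hs1)
    ⟨0, Dsph_interior s1 hs1⟩ (Dsph_frontier s1 hs1) (hK c0 lam kap hc0 (fun i => (hb i).2) hcoat c C L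
      (hc.trans hc0) (hc0'.trans hC) hR)

/-- Uniaxial tensors with the small eigenvalue on the axis `0`. -/
theorem uniaxial (δ : ℝ) (hδ : 0 < δ) (hδ1 : δ ≤ 1) :
    ∃ (c C : ℝ) (L : ℝ≥0), 0 < c ∧ c ≤ δ ∧ δ⁻¹ ≤ C ∧ ∀ lam : Fin 3 → ℝ,
      (∀ i, δ ≤ lam i ∧ lam i ≤ δ⁻¹) → lam 0 ≤ lam 1 → lam 2 = lam 1 →
      Resolves c C L (diagL lam) := by
  obtain ⟨δ', K, hδ', hδ'1, hlev⟩ := level_resolve δ hδ hδ1
  refine ⟨min δ' δ, max δ'⁻¹ δ⁻¹, 2 * (K + 0), lt_min hδ' hδ, min_le_right _ _,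
    le_max_right _ _, fun lam hb h1 h2 => ?_⟩
  rcases h1.eq_or_lt with h | h
  · refine rs_scalar (κ := lam 0) (fun i => ?_) ((min_le_right _ _).trans (hb 0).1)
      ((hb 0).2.trans (le_max_right _ _)) _
    rw [rs_diagL_ee]
    fin_cases i
    · rfl
    · show lam 1 • _ = _
      rw [← h]
    · show lam 2 • _ = _
      rw [h2, ← h]
  · obtain ⟨kap, hkb, hk01, -, hk2, hres⟩ := hlev lam hb h (h2 ▸ h1) h2.le
    refine hres _ _ 0 (min_le_left _ _) (le_max_left _ _) ?_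
    refine rs_scalar (κ := kap 1) (fun i => ?_) ((min_le_left _ _).trans (hkb 1).1)
      ((hkb 1).2.trans (le_max_left _ _)) _
    rw [rs_diagL_ee]
    fin_cases i
    · show kap 0 • _ = _
      rw [hk01]
    · rfl
    · show kap 2 • _ = _
      rw [hk2 h2]

/-- Ordered diagonal tensors. -/
theorem resolves_diag (δ : ℝ) (hδ : 0 < δ) (hδ1 : δ ≤ 1) :
    ∃ (c C : ℝ) (L : ℝ≥0), 0 < c ∧ ∀ lam : Fin 3 → ℝ,
      (∀ i, δ ≤ lam i ∧ lam i ≤ δ⁻¹) → lam 0 ≤ lam 2 → lam 2 ≤ lam 1 →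
      Resolves c C L (diagL lam) := by
  obtain ⟨δ', K, hδ', hδ'1, hlev⟩ := level_resolve δ hδ hδ1
  obtain ⟨c, C, L, hc, hcδ, hCδ, huni⟩ := uniaxial δ' hδ' hδ'1
  refine ⟨min c δ, max C δ⁻¹, 2 * (K + 2 * L), lt_min hc hδ, fun lam hb h02 h21 => ?_⟩
  rcases (h02.trans h21).eq_or_lt with h | h
  · refine rs_scalar (κ := lam 0) (fun i => ?_) ((min_le_right _ _).trans (hb 0).1)
      ((hb 0).2.trans (le_max_right _ _)) _
    rw [rs_diagL_ee]
    fin_cases i
    · rfl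
    · show lam 1 • _ = _
      rw [← h]
    · show lam 2 • _ = _
      rw [show lam 2 = lam 0 from le_antisymm (h ▸ h21) h02]
  · obtain ⟨kap, hkb, hk01, hk21, -, hres⟩ := hlev lam hb h h02 h21
    have h1 : Resolves c C L (diagL fun i => kap (Equiv.swap (0 : Fin 3) 2 i)) := by
      refine huni _ (fun i => hkb _) ?_ ?_
      · have e0 : Equiv.swap (0 : Fin 3) 2 0 = 2 := by decide
        have e1 : Equiv.swap (0 : Fin 3) 2 1 = 1 := by decide
        rw [e0, e1]; exact hk21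
      · have e2 : Equiv.swap (0 : Fin 3) 2 2 = 0 := by decide
        have e1 : Equiv.swap (0 : Fin 3) 2 1 = 1 := by decide
        rw [e2, e1]; exact hk01
    have h2 : Resolves c C (2 * L) (rotT (swO (Equiv.swap (0 : Fin 3) 2)) (diagL fun i =>
        kap (Equiv.swap (0 : Fin 3) 2 i))) := resolves_conj c C L _ h1 _
    rw [rs_rotT_swap] at h2
    have h3 : (fun i => kap (Equiv.swap (0 : Fin 3) 2 ((Equiv.swap (0 : Fin 3) 2).symm i)))
        = kap := by
      funext i; simp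
    rw [h3] at h2
    exact hres _ _ (2 * L) ((min_le_left _ _).trans hcδ) (hCδ.trans (le_max_left _ _))
      (rs_mono h2 (min_le_left _ _) (le_max_left _ _) le_rfl)

/-- Every elliptic tensor is realised exactly by scalar conductivities. -/
theorem resolves_all (δ : ℝ) (hδ : 0 < δ) :
    ∃ (c C : ℝ) (L : ℝ≥0), 0 < c ∧ ∀ A : E3 →L[ℝ] E3, Ell δ A → Resolves c C L A := by
  rcases le_or_gt δ 1 with hδ1 | hδ1
  · obtain ⟨c, C, L, hc, h⟩ := resolves_diag δ hδ hδ1
    refine ⟨c, C, 2 * L, hc, fun A hA => ?_⟩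
    obtain ⟨O, lam, rfl, hb, h02, h21⟩ := diagonalise A δ hA
    exact resolves_conj c C L _ (h lam hb h02 h21) O
  · refine ⟨1, 1, 0, one_pos, fun A hA => ?_⟩
    exfalso
    have h := hA.2 (ee 0)
    have hn : ‖ee 0‖ = 1 := by simp [ee]
    rw [hn] at h
    have h2 : δ⁻¹ < 1 := inv_lt_one_of_one_lt₀ hδ1
    have h3 := h.1.trans h.2
    simp only [one_pow, mul_one] at h3
    linarith

end Crest.Agent.R083
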